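import Vale.Agent.P196.Sft.Basic

/-!
# P196: bands from signals

If a parent's last segment passes in each direction one signal along each row, resp. column, and
the rows and columns carrying a signal are far apart, the level has a `Band`: the exceptional rows
are row `0` and the rows carrying a signal.
-/

namespace Vale.Agent.P196.Sft

namespace MacroSystem

variable (S : MacroSystem)

/-- The band read off the signals `hs` of the rows and `vs` of the columns. The parents' last
segment `[lo, Z)` is the band in both directions, `none` is the signal `o`, and `sepc` says that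
two positions are at least `Z / c` apart. -/
structure BandSignals (n c : ℕ) (α : Type) where
  lo : ℕ
  lo_lt : lo + 3 ≤ S.Z n
  wide : S.Z n ≤ c * (S.Z n - lo)
  o : α
  band : ℕ → α → S.C n
  bandP : ℕ → α → S.C n
  hs : Win (S.C (n + 1)) → ℕ → α
  vs : Win (S.C (n + 1)) → ℕ → α
  s₀ : α
  t₀ : α
  hs_zero : ∀ w ∈ S.W (n + 1), hs w 0 = s₀
  vs_zero : ∀ w ∈ S.W (n + 1), vs w 0 = t₀
  lo_pos : 3 ≤ lo
  hs_high : ∀ w ∈ S.W (n + 1), ∀ j, lo ≤ j + 2 → j < S.Z n → hs w j = o
  vs_high : ∀ w ∈ S.W (n + 1), ∀ i, lo ≤ i + 2 → i < lo → vs w i = o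
  hs_sep : ∀ w ∈ S.W (n + 1), ∀ j j', j < j' → j' < S.Z n → (j = 0 ∨ hs w j ≠ o) → hs w j' ≠ o →
    S.Z n ≤ c * (j' - j)
  vs_sep : ∀ w ∈ S.W (n + 1), ∀ i i', i < i' → i' < lo → (i = 0 ∨ vs w i ≠ o) → vs w i' ≠ o →
    S.Z n ≤ c * (i' - i)
  gap : 3 * c ≤ S.Z n
  draw_band : ∀ w ∈ S.W (n + 1), ∀ i j, lo ≤ i → i < S.Z n → j < S.Z n →
    S.draw n w i j = band i (hs w j)
  draw_bandP : ∀ w ∈ S.W (n + 1), ∀ i j, i < lo → lo ≤ j → j < S.Z n →
    S.draw n w i j = bandP j (vs w i)

variable {S} {n c : ℕ} {α : Type} [Fintype α] [DecidableEq α]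

/-- The band. -/
noncomputable def BandSignals.toBand (D : S.BandSignals n c α) :
    S.Band n c (Fintype.card (Option α)) where
  lo := D.lo
  hi := S.Z n
  plo := D.lo
  phi := S.Z n
  lo_lt := by have := D.lo_lt; omega
  hi_le := le_rfl
  plo_lt := by have := D.lo_lt; omega
  phi_le := le_rfl
  wide := D.wide
  pwide := D.wide
  exRow w := (Finset.range (S.Z n)).filter fun j => j = 0 ∨ D.hs w j ≠ D.o
  exRow_zero w _ := by simp [S.zoom_pos n]
  exRow_lt w _ j hj := Finset.mem_range.1 (Finset.mem_filter.1 hj).1
  exRow_sep w hw j hj j' hj' hlt := by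
    simp only [Finset.mem_filter, Finset.mem_range] at hj hj'
    have hne : D.hs w j' ≠ D.o := hj'.2.resolve_left (by omega)
    refine ⟨D.hs_sep w hw j j' hlt hj'.1 hj.2 hne, D.wide.trans (Nat.mul_le_mul_left c ?_)⟩
    by_contra h
    exact hne (D.hs_high w hw j' (by omega) hj'.1)
  exRow_avoid w hw j hj := by
    simp only [Finset.mem_filter, Finset.mem_range] at hj
    left
    by_contra h
    rcases hj.2 with rfl | hne
    · have := D.lo_pos; omega
    · exact hne (D.hs_high w hw j (by omega) hj.1)
  blank i := D.band i D.o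
  rowLabel w j := Fintype.equivFin (Option α) (if j = 0 then none else some (D.hs w j))
  rowLabel_zero := ⟨Fintype.equivFin (Option α) none, fun w _ => by simp⟩
  rowPat i d l := D.band i (if d = 0 then ((Fintype.equivFin (Option α)).symm l).getD D.s₀ else D.o)
  draw_blank w hw i j hi hi' hj _ hfar := by
    rw [D.draw_band w hw i j hi hi' hj]
    congr 1
    by_contra hne
    have := hfar j (Finset.mem_filter.2 ⟨Finset.mem_range.2 hj, Or.inr hne⟩)
    omega
  draw_row w hw i j j₀ hj₀ hi hi' hj h1 h2 := by
    rw [D.draw_band w hw i j hi hi' hj]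
    congr 1
    by_cases he : j = j₀
    · subst he
      rw [if_pos (sub_self _), Equiv.symm_apply_apply]
      by_cases h0 : j = 0
      · subst h0; simp [D.hs_zero w hw]
      · simp [h0]
    · rw [if_neg (by omega)]
      by_contra hne
      simp only [Finset.mem_filter, Finset.mem_range] at hj₀
      have hg := D.gap
      rcases lt_or_gt_of_ne he with h | h
      · have hne0 : D.hs w j₀ ≠ D.o := hj₀.2.resolve_left (by omega)
        have := D.hs_sep w hw j j₀ h hj₀.1 (Or.inr hne) hne0
        have := Nat.mul_le_mul_left c (show j₀ - j ≤ 2 by omega)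
        have hc : 0 < c := by
          rcases Nat.eq_zero_or_pos c with rfl | hc
          · have := S.zoom_pos n; simp at *; omega
          · exact hc
        nlinarith
      · have := D.hs_sep w hw j₀ j h hj hj₀.2 hne
        have := Nat.mul_le_mul_left c (show j - j₀ ≤ 2 by omega)
        have hc : 0 < c := by
          rcases Nat.eq_zero_or_pos c with rfl | hc
          · have := S.zoom_pos n; simp at *; omega
          · exact hc
        nlinarith
  draw_top w hw i j hi hi' hj htop w' _ := by
    rw [D.draw_band w hw i j hi hi' hj, if_neg (by omega),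
      D.hs_high w hw j (by have := D.lo_lt; omega) hj]
  exCol w := (Finset.range D.lo).filter fun i => i = 0 ∨ D.vs w i ≠ D.o
  exCol_zero w _ := by simp; have := D.lo_pos; omega
  exCol_lt w _ i hi := by
    have := Finset.mem_range.1 (Finset.mem_filter.1 hi).1
    have := D.lo_lt
    omega
  exCol_sep w hw i hi i' hi' hlt := by
    simp only [Finset.mem_filter, Finset.mem_range] at hi hi'
    have hne : D.vs w i' ≠ D.o := hi'.2.resolve_left (by omega)
    exact ⟨D.vs_sep w hw i i' hlt hi'.1 hi.2 hne,
      D.wide.trans (Nat.mul_le_mul_left c (by omega))⟩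
  pblank j := D.bandP j D.o
  colLabel w i := Fintype.equivFin (Option α) (if i = 0 then none else some (D.vs w i))
  colLabel_zero := ⟨Fintype.equivFin (Option α) none, fun w _ => by simp⟩
  colPat j d l := match (Fintype.equivFin (Option α)).symm l with
    | none => if d < 0 then D.band ((d + S.Z n).toNat) D.o
      else D.bandP j (if d = 0 then D.t₀ else D.o)
    | some a => D.bandP j (if d = 0 then a else D.o)
  draw_pblank w hw i j hj hj' hi _ hout hfar := by
    have hlt : i < D.lo := by omega
    rw [D.draw_bandP w hw i j hlt hj hj']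
    congr 1
    by_contra hne
    have := hfar i (Finset.mem_filter.2 ⟨Finset.mem_range.2 hlt, Or.inr hne⟩)
    omega
  draw_col w hw i j i₀ hi₀ hj hj' hi hout h1 h2 := by
    have hlt : i < D.lo := by omega
    simp only [Finset.mem_filter, Finset.mem_range] at hi₀
    rw [D.draw_bandP w hw i j hlt hj hj']
    have hc : 0 < c := by
      rcases Nat.eq_zero_or_pos c with rfl | hc
      · have := D.wide; simp at this; omega
      · exact hc
    have hg := D.gap
    have other : i ≠ i₀ → D.vs w i = D.o := by
      intro he
      by_contra hne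
      rcases lt_or_gt_of_ne he with h | h
      · have hne0 : D.vs w i₀ ≠ D.o := hi₀.2.resolve_left (by omega)
        have := D.vs_sep w hw i i₀ h hi₀.1 (Or.inr hne) hne0
        have := Nat.mul_le_mul_left c (show i₀ - i ≤ 2 by omega)
        nlinarith
      · have := D.vs_sep w hw i₀ i h hlt hi₀.2 hne
        have := Nat.mul_le_mul_left c (show i - i₀ ≤ 2 by omega)
        nlinarith
    by_cases h0 : i₀ = 0
    · subst h0
      simp only [if_true, Equiv.symm_apply_apply]
      rw [if_neg (by omega)]
      congr 1
      by_cases he : i = 0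
      · subst he; simp [D.vs_zero w hw]
      · rw [if_neg (by omega), other he]
    · simp only [if_neg h0, Equiv.symm_apply_apply]
      congr 1
      by_cases he : i = i₀
      · subst he; simp
      · rw [if_neg (by omega), other he]
  draw_right w hw i j hj hj' hi htop w' _ := by
    have := D.lo_lt
    have := D.lo_pos
    rw [D.draw_band w hw i j (by omega) hi hj', D.hs_high w hw j (by omega) hj']
    simp only [if_true, Equiv.symm_apply_apply]
    rw [if_pos (by omega)]
    congr 1
    omega

/-- Bands at every level from signals at every level. -/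
noncomputable def hasBandsOfSignals (hc : 0 < c) (D : ∀ n, S.BandSignals n c α)
    (hz : ∀ m : ℕ, ∃ N, ∀ n ≥ N, m ≤ S.Z n) : S.HasBands where
  c := c
  c_pos := hc
  V := Fintype.card (Option α)
  band n := (D n).toBand
  zoom_tendsto := hz

end MacroSystem

end Vale.Agent.P196.Sft
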