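import Vale.Agent.P196.W.Geometry

/-!
# P196: spacing of the rows that cross the last segment

A position `(s, z)` is offset `z` of segment `s`. It is the corner, a lane (a positive multiple of
`gap n` in a lane segment) or the one line of a movable segment. If no two movable segments are
adjacent, any two such positions are at least `gap n` apart.
-/

namespace Vale.Agent.P196.W

/-- The kinds of positions that may carry a signal through the last segment. -/
def Crosses (M0 n : ℕ) (lane mov : ℕ → Prop) (line : ℕ → ℕ) (s z : ℕ) : Prop :=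
  z < segLen M0 n ∧
    ((s = 0 ∧ z = 0) ∨ (lane s ∧ gap n ∣ z ∧ 0 < z) ∨ (mov s ∧ z = line s))

/-- Two positions that cross are at least `gap n` apart. -/
theorem crosses_sep {M0 n : ℕ} (h4 : 4 ∣ M0) {lane mov : ℕ → Prop} {line : ℕ → ℕ}
    (hmov : ∀ s, mov s → 2 ≤ s ∧ ¬ lane s ∧ ¬ mov (s + 1))
    {s z s' z' : ℕ} (h : Crosses M0 n lane mov line s z) (h' : Crosses M0 n lane mov line s' z')
    (hlt : s * segLen M0 n + z < s' * segLen M0 n + z') :
    gap n ≤ s' * segLen M0 n + z' - (s * segLen M0 n + z) := by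
  obtain ⟨hz, hk⟩ := h
  obtain ⟨hz', hk'⟩ := h'
  obtain ⟨q, hq⟩ := h4
  have hM : segLen M0 n = gap n * q := by rw [segLen, gap, hq]; ring
  have hg : gap n = 4 * 2 ^ n := rfl
  have hp : 0 < 2 ^ n := Nat.two_pow_pos n
  have hMg : gap n ≤ segLen M0 n := by
    rw [hM]
    refine Nat.le_mul_of_pos_right _ ?_
    rcases Nat.eq_zero_or_pos q with rfl | h
    · rw [hM] at hz; simp at hz
    · exact h
  -- a lane stays `gap n` away from both ends of its segment
  have lane_end : ∀ w, gap n ∣ w → w < segLen M0 n → w + gap n ≤ segLen M0 n := by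
    rintro w ⟨a, rfl⟩ hw
    rw [hM] at hw ⊢
    have : a + 1 ≤ q := Nat.lt_of_mul_lt_mul_left hw
    calc gap n * a + gap n = gap n * (a + 1) := by ring
      _ ≤ gap n * q := Nat.mul_le_mul_left _ this
  have step : ∀ w, gap n ∣ w → 0 < w → gap n ≤ w := fun w hd hw => Nat.le_of_dvd hw hd
  set M := segLen M0 n with hMdef
  rcases lt_trichotomy s s' with hs | rfl | hs
  · rcases Nat.lt_or_ge (s + 1) s' with h2 | h2
    · have : (s + 2) * M ≤ s' * M := Nat.mul_le_mul_right _ h2
      rw [add_mul] at this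
      omega
    · obtain rfl : s' = s + 1 := by omega
      rw [add_mul, one_mul] at hlt ⊢
      rcases hk with ⟨-, rfl⟩ | ⟨-, hd, hpos⟩ | ⟨hm, -⟩
      · omega
      · have := lane_end z hd hz
        omega
      · rcases hk' with ⟨h0, -⟩ | ⟨-, hd, hpos⟩ | ⟨hm', -⟩
        · omega
        · have := step z' hd hpos
          omega
        · exact absurd hm' (hmov s hm).2.2
  · rcases hk with ⟨rfl, rfl⟩ | ⟨hl, hd, hpos⟩ | ⟨hm, hzl⟩
    · rcases hk' with ⟨-, rfl⟩ | ⟨-, hd', hpos'⟩ | ⟨hm', -⟩
      · omega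
      · have := step z' hd' hpos'
        omega
      · have := (hmov 0 hm').1; omega
    · rcases hk' with ⟨rfl, rfl⟩ | ⟨-, hd', -⟩ | ⟨hm', -⟩
      · omega
      · have : gap n ∣ z' - z := Nat.dvd_sub hd' hd
        have := step _ this (by omega)
        omega
      · exact absurd hl (hmov _ hm').2.1
    · rcases hk' with ⟨rfl, -⟩ | ⟨hl', -⟩ | ⟨-, hzl'⟩
      · have := (hmov 0 hm).1; omega
      · exact absurd hl' (hmov _ hm).2.1
      · omega
  · have : (s' + 1) * M ≤ s * M := Nat.mul_le_mul_right _ hs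
    rw [add_mul, one_mul] at this
    omega

/-- The same bound against the number of offsets of the parent. -/
theorem crosses_sep_mul {M0 n : ℕ} (h4 : 4 ∣ M0) {lane mov : ℕ → Prop} {line : ℕ → ℕ}
    (hmov : ∀ s, mov s → 2 ≤ s ∧ ¬ lane s ∧ ¬ mov (s + 1))
    {s z s' z' : ℕ} (h : Crosses M0 n lane mov line s z) (h' : Crosses M0 n lane mov line s' z')
    (hlt : s * segLen M0 n + z < s' * segLen M0 n + z') (g : ℕ) :
    (g + 1) * segLen M0 n ≤
      (g + 1) * (M0 / 4) * (s' * segLen M0 n + z' - (s * segLen M0 n + z)) := by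
  refine le_trans (le_of_eq ?_) (Nat.mul_le_mul_left _ (crosses_sep h4 hmov h h' hlt))
  obtain ⟨q, rfl⟩ := h4
  rw [segLen, gap, Nat.mul_div_cancel_left _ (by norm_num : 0 < 4)]; ring

end Vale.Agent.P196.W
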