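import Vale.Agent.P196.W.Raw
import Vale.Agent.P196.W.Spacing

/-!
# P196: which rows and columns cross the bands

Only the marked row, the lanes of the self bundle and the two lines cross the band of columns;
only the bundle lanes and the two lines cross the band of rows. Any two of them are at least
`gap n` apart.
-/

namespace Vale.Agent.P196.W

noncomputable section

variable {T : Tables} {M0 n : ℕ}

theorem symAt_ne_none (hT : T.sym 0 = .none) {z : ℕ} (h : symAt T M0 n z ≠ .none) :
    gap n ∣ z ∧ 0 < z := by
  simp only [symAt, Tables.side] at h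
  by_cases hd : gap n ∣ z
  · refine ⟨hd, Nat.pos_of_ne_zero fun h0 => ?_⟩
    subst h0
    rw [if_pos hd, Nat.zero_div] at h
    exact h hT
  · rw [if_neg hd] at h
    exact absurd rfl h

theorem laneSig_ne_none {C : Choices} {src : Bool} {z : ℕ}
    (h : laneSig T M0 n C src z ≠ .none) : symAt T M0 n z ≠ .none := by
  intro e
  simp [laneSig, e, Sym.derived?, Sym.isSrc] at h

theorem ofLine_ne_none {o : Option Line} (h : Sig.ofLine o ≠ .none) : ∃ l, o = some l := by
  cases o with
  | none => exact absurd rfl h
  | some l => exact ⟨l, rfl⟩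

theorem band_kr_index : XSeg.index .kr = segCount - 1 := by simp [XSeg.index, segCount]; omega

theorem kr_since {A : XSeg} (hA : A.index < 19) (z x : ℕ) : sinceX A z .kr x :=
  Or.inl (by simp only [XSeg.index] at *; omega)

theorem kt_since {A : YSeg} (hA : A.index < 19) (z y : ℕ) : sinceY A z .kt y :=
  Or.inl (by simp only [YSeg.index] at *; omega)

@[simp] theorem kr_self (x : ℕ) : sinceX .kr 0 .kr x := Or.inr ⟨rfl, Nat.zero_le _⟩

@[simp] theorem kt_self (y : ℕ) : sinceY .kt 0 .kt y := Or.inr ⟨rfl, Nat.zero_le _⟩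

@[simp] theorem sh_kr (z x : ℕ) : sinceX .sh z .kr x := kr_since (by simp [XSeg.index]) z x

@[simp] theorem src_kr (z x : ℕ) : sinceX .src z .kr x := kr_since (by simp [XSeg.index]) z x

@[simp] theorem pa_kr (c : Fin 4) (z x : ℕ) : sinceX (.pa c) z .kr x :=
  kr_since (by simp [XSeg.index]; omega) z x

@[simp] theorem pr_kr (c : Fin 3) (z x : ℕ) : sinceX (.pr c) z .kr x :=
  kr_since (by simp [XSeg.index]; omega) z x

@[simp] theorem r_kt (c : Fin 4) (z y : ℕ) : sinceY (.r c) z .kt y :=
  kt_since (by simp [YSeg.index]; omega) z y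

@[simp] theorem rd_kt (c : Fin 4) (z y : ℕ) : sinceY (.rd c) z .kt y :=
  kt_since (by simp [YSeg.index]; omega) z y

/-- The offset of the line of a movable vertical segment. -/
def rowLineAt (w : Quad) (s : ℕ) : ℕ :=
  if s = 6 then (((w 2).oy).map Prod.fst).getD 0 else (((w 2).ox).map Prod.fst).getD 0

/-- The offset of the line of a movable horizontal segment. -/
def colLineAt (w : Quad) (s : ℕ) : ℕ :=
  if s = 4 then (((w 2).ox).map Prod.fst).getD 0 else (((w 2).oy).map Prod.fst).getD 0

/-- Segments of rows that keep lanes. -/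
def rowLanes (s : ℕ) : Prop := s = 4 ∨ s = 11

/-- Segments of rows with one line. -/
def rowMov (s : ℕ) : Prop := s = 6 ∨ s = 8

/-- Segments of columns that keep lanes. -/
def colLanes (s : ℕ) : Prop := 8 ≤ s ∧ s ≤ 11

/-- Segments of columns with one line. -/
def colMov (s : ℕ) : Prop := s = 4 ∨ s = 6

/-- The rows that cross the band of columns. -/
theorem rawBandH_ne_none (hT : T.sym 0 = .none) {w : Quad} {Y : YSeg} {y : ℕ}
    (hy : y < segLen M0 n) (h : rawBandH T M0 n w Y y ≠ .none) :
    Crosses M0 n rowLanes rowMov (rowLineAt w) Y.index y := by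
  refine ⟨hy, ?_⟩
  cases Y with
  | y0 =>
    left
    simp only [rawBandH, rawH] at h
    split at h
    · next hh => exact ⟨rfl, hh.1⟩
    · exact absurd rfl h
  | lx => simp [rawBandH, rawH] at h
  | r c =>
    right; left
    fin_cases c <;> simp [rawBandH, rawH] at h
    obtain ⟨hd, hp⟩ := symAt_ne_none hT (laneSig_ne_none h)
    exact ⟨Or.inl (by simp [YSeg.index]), hd, hp⟩
  | my =>
    right; right
    simp only [rawBandH, rawH] at h
    rw [if_pos (kr_since (by simp [XSeg.index]) _ _)] at h
    obtain ⟨l, hl⟩ := ofLine_ne_none h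
    obtain ⟨p, hp, hp'⟩ := Option.bind_eq_some_iff.1 hl
    split at hp'
    · next e => exact ⟨Or.inl rfl, by simp [rowLineAt, YSeg.index, hp, e]⟩
    · simp at hp'
  | gap => simp [rawBandH, rawH] at h
  | ta =>
    right; right
    simp only [rawBandH, rawH, taRow] at h
    obtain ⟨l, hl⟩ := ofLine_ne_none h
    rcases Option.or_eq_some_iff.1 hl with hown | ⟨-, hf⟩
    · obtain ⟨p, hp, hp'⟩ := Option.bind_eq_some_iff.1 hown
      split at hp'
      · next e => exact ⟨Or.inr rfl, by simp [rowLineAt, YSeg.index, hp, e.1]⟩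
      · simp at hp'
    · obtain ⟨p, hp, hp'⟩ := Option.bind_eq_some_iff.1 hf
      split at hp'
      · next e => exact absurd (kr_since (by simp [XSeg.index]) _ _) e.2
      · simp at hp'
  | rd c =>
    right; left
    simp only [rawBandH, rawH] at h
    split at h
    · exact absurd rfl h
    next q hq =>
      have hs : symAt T M0 n y ≠ .none := by
        intro e; rw [e] at hq; simp [Sym.derived?] at hq
      obtain ⟨hd, hp⟩ := symAt_ne_none hT hs
      refine ⟨Or.inr ?_, hd, hp⟩
      fin_cases c <;> simp [YSeg.index] at h ⊢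
  | ma =>
    simp [rawBandH, rawH] at h
  | mr =>
    simp [rawBandH, rawH] at h
  | pad i => simp [rawBandH, rawH] at h
  | bench t j => simp [rawBandH, rawH] at h
  | kt => simp [rawBandH, rawH] at h

/-- The columns that cross the band of rows. -/
theorem rawBandV_ne_none (hT : T.sym 0 = .none) {w : Quad} {X : XSeg} {x : ℕ}
    (hx : x < segLen M0 n) (h : rawBandV T M0 n w X x ≠ .none) :
    Crosses M0 n colLanes colMov (colLineAt w) X.index x := by
  refine ⟨hx, ?_⟩
  have hkt : ∀ z y, sinceY .kt 0 .kt y ∧ sinceY .lx z .kt y := fun z y =>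
    ⟨Or.inr ⟨rfl, Nat.zero_le _⟩, kt_since (by simp [YSeg.index]) z y⟩
  have lane : ∀ {C : Choices} {src : Bool}, laneSig T M0 n C src x ≠ .none →
      gap n ∣ x ∧ 0 < x := fun h => symAt_ne_none hT (laneSig_ne_none h)
  cases X with
  | x0 => simp [rawBandV, rawV] at h
  | sh => simp [rawBandV, rawV] at h
  | ly => simp [rawBandV, rawV] at h
  | src => simp [rawBandV, rawV] at h
  | mx =>
    right; right
    simp only [rawBandV, rawV] at h
    rw [if_pos (hkt _ _).2] at h
    obtain ⟨l, hl⟩ := ofLine_ne_none h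
    obtain ⟨p, hp, hp'⟩ := Option.bind_eq_some_iff.1 hl
    split at hp'
    · next e => exact ⟨Or.inl rfl, by simp [colLineAt, XSeg.index, hp, e]⟩
    · simp at hp'
  | gap => simp [rawBandV, rawV] at h
  | tb =>
    right; right
    simp only [rawBandV, rawV, tbCol] at h
    obtain ⟨l, hl⟩ := ofLine_ne_none h
    rcases Option.or_eq_some_iff.1 hl with hown | ⟨-, hf⟩
    · obtain ⟨p, hp, hp'⟩ := Option.bind_eq_some_iff.1 hown
      split at hp'
      · next e => exact ⟨Or.inr rfl, by simp [colLineAt, XSeg.index, hp, e.1]⟩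
      · simp at hp'
    · obtain ⟨p, hp, hp'⟩ := Option.bind_eq_some_iff.1 hf
      split at hp'
      · next e => exact absurd (kt_since (by simp [YSeg.index]) _ _) e.2
      · simp at hp'
  | setAbs => simp [rawBandV, rawV] at h
  | up =>
    right; left
    simp [rawBandV, rawV] at h
    exact ⟨by simp [colLanes, XSeg.index], lane h⟩
  | upl =>
    right; left
    simp [rawBandV, rawV] at h
    exact ⟨by simp [colLanes, XSeg.index], lane h⟩
  | upd =>
    right; left
    simp [rawBandV, rawV] at h
    exact ⟨by simp [colLanes, XSeg.index], lane h⟩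
  | updl =>
    right; left
    simp [rawBandV, rawV] at h
    exact ⟨by simp [colLanes, XSeg.index], lane h⟩
  | pa c => simp [rawBandV, rawV] at h
  | pr c => simp [rawBandV, rawV] at h
  | bench t i => simp [rawBandV, rawV] at h
  | kr => simp [rawBandV, rawV] at h

/-- Position `j` as a named vertical segment and an offset. -/
def ySegAt (M : ℕ) (j : ℕ) : YSeg :=
  if h : j / M < segCount then ySegEquiv.symm ⟨j / M, h⟩ else .kt

/-- Position `i` as a named horizontal segment and an offset. -/
def xSegAt (M : ℕ) (i : ℕ) : XSeg :=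
  if h : i / M < segCount then xSegEquiv.symm ⟨i / M, h⟩ else .kr

theorem ySegAt_index {M j : ℕ} (h : j / M < segCount) : (ySegAt M j).index = j / M := by
  rw [ySegAt, dif_pos h]
  exact congrArg Fin.val (ySegEquiv.apply_symm_apply ⟨j / M, h⟩)

theorem xSegAt_index {M i : ℕ} (h : i / M < segCount) : (xSegAt M i).index = i / M := by
  rw [xSegAt, dif_pos h]
  exact congrArg Fin.val (xSegEquiv.apply_symm_apply ⟨i / M, h⟩)

variable (T M0 n)

/-- The signal of row `j` in the band of columns. -/
def bandRow (w : Quad) (j : ℕ) : Sig :=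
  if j < segCount * segLen M0 n then
    rawBandH T M0 n w (ySegAt (segLen M0 n) j) (j % segLen M0 n)
  else .none

/-- The signal of column `i` in the band of rows. -/
def bandCol (w : Quad) (i : ℕ) : Sig :=
  if i < segCount * segLen M0 n then
    rawBandV T M0 n w (xSegAt (segLen M0 n) i) (i % segLen M0 n)
  else .none

variable {T M0 n}

theorem rowMov_ok : ∀ s, rowMov s → 2 ≤ s ∧ ¬ rowLanes s ∧ ¬ rowMov (s + 1) := by
  intro s h; simp only [rowMov, rowLanes] at *; omega

theorem colMov_ok : ∀ s, colMov s → 2 ≤ s ∧ ¬ colLanes s ∧ ¬ colMov (s + 1) := by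
  intro s h; simp only [colMov, colLanes] at *; omega

theorem bandRow_crosses (hT : T.sym 0 = .none) (hM : 0 < segLen M0 n) {w : Quad} {j : ℕ}
    (h : j = 0 ∨ bandRow T M0 n w j ≠ .none) :
    Crosses M0 n rowLanes rowMov (rowLineAt w) (j / segLen M0 n) (j % segLen M0 n) := by
  rcases h with rfl | h
  · exact ⟨Nat.mod_lt _ hM, Or.inl ⟨Nat.zero_div _, Nat.zero_mod _⟩⟩
  · rw [bandRow] at h
    split at h
    · next hlt =>
        rw [← ySegAt_index ((Nat.div_lt_iff_lt_mul hM).2 hlt)]
        exact rawBandH_ne_none hT (Nat.mod_lt _ hM) h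
    · exact absurd rfl h

theorem bandCol_crosses (hT : T.sym 0 = .none) (hM : 0 < segLen M0 n) {w : Quad} {i : ℕ}
    (h : i = 0 ∨ bandCol T M0 n w i ≠ .none) :
    Crosses M0 n colLanes colMov (colLineAt w) (i / segLen M0 n) (i % segLen M0 n) := by
  rcases h with rfl | h
  · exact ⟨Nat.mod_lt _ hM, Or.inl ⟨Nat.zero_div _, Nat.zero_mod _⟩⟩
  · rw [bandCol] at h
    split at h
    · next hlt =>
        rw [← xSegAt_index ((Nat.div_lt_iff_lt_mul hM).2 hlt)]
        exact rawBandV_ne_none hT (Nat.mod_lt _ hM) h
    · exact absurd rfl h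

/-- Two rows that cross the band of columns are far apart. -/
theorem bandRow_sep (hT : T.sym 0 = .none) (h4 : 4 ∣ M0) (hM : 0 < segLen M0 n) {w : Quad}
    {j j' : ℕ} (hlt : j < j') (h : j = 0 ∨ bandRow T M0 n w j ≠ .none)
    (h' : bandRow T M0 n w j' ≠ .none) :
    (segCount + 1) * segLen M0 n ≤ (segCount + 1) * (M0 / 4) * (j' - j) := by
  have e := crosses_sep_mul h4 rowMov_ok (bandRow_crosses hT hM h)
    (bandRow_crosses hT hM (Or.inr h')) (by rw [Nat.div_add_mod', Nat.div_add_mod']; exact hlt)
    segCount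
  rwa [Nat.div_add_mod', Nat.div_add_mod'] at e

/-- Two columns that cross the band of rows are far apart. -/
theorem bandCol_sep (hT : T.sym 0 = .none) (h4 : 4 ∣ M0) (hM : 0 < segLen M0 n) {w : Quad}
    {i i' : ℕ} (hlt : i < i') (h : i = 0 ∨ bandCol T M0 n w i ≠ .none)
    (h' : bandCol T M0 n w i' ≠ .none) :
    (segCount + 1) * segLen M0 n ≤ (segCount + 1) * (M0 / 4) * (i' - i) := by
  have e := crosses_sep_mul h4 colMov_ok (bandCol_crosses hT hM h)
    (bandCol_crosses hT hM (Or.inr h')) (by rw [Nat.div_add_mod', Nat.div_add_mod']; exact hlt)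
    segCount
  rwa [Nat.div_add_mod', Nat.div_add_mod'] at e

theorem bandRow_zero (hM : 0 < segLen M0 n) (w : Quad) : bandRow T M0 n w 0 = .lm := by
  have hg : 0 < segCount := by simp [segCount]
  rw [bandRow, if_pos (Nat.mul_pos hg hM)]
  have e : ySegAt (segLen M0 n) 0 = .y0 := by
    apply YSeg.fin_injective
    apply Fin.ext
    show (ySegAt (segLen M0 n) 0).index = YSeg.index .y0
    rw [ySegAt_index (by simpa using hg)]
    simp [YSeg.index]
  rw [e, Nat.zero_mod]
  simp [rawBandH, rawH, Nat.sub_add_cancel hM]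

theorem bandCol_zero (hM : 0 < segLen M0 n) (w : Quad) : bandCol T M0 n w 0 = .none := by
  have hg : 0 < segCount := by simp [segCount]
  rw [bandCol, if_pos (Nat.mul_pos hg hM)]
  have e : xSegAt (segLen M0 n) 0 = .x0 := by
    apply XSeg.fin_injective
    apply Fin.ext
    show (xSegAt (segLen M0 n) 0).index = XSeg.index .x0
    rw [xSegAt_index (by simpa using hg)]
    simp [XSeg.index]
  rw [e]
  simp [rawBandV, rawV]

theorem bandRow_high {w : Quad} {j : ℕ} (hM : 2 ≤ segLen M0 n)
    (h : segCount * segLen M0 n ≤ j + 2) : bandRow T M0 n w j = .none := by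
  rw [bandRow]
  split
  · next hlt =>
      have hd : j / segLen M0 n = segCount - 1 := by
        have hg : 0 < segCount := by simp [segCount]
        have h1 := (Nat.div_lt_iff_lt_mul (show 0 < segLen M0 n by omega)).2 hlt
        have h2 : segCount - 1 ≤ j / segLen M0 n := by
          rw [Nat.le_div_iff_mul_le (by omega), Nat.sub_mul, one_mul]
          omega
        omega
      have e : ySegAt (segLen M0 n) j = .kt := by
        apply YSeg.fin_injective
        apply Fin.ext
        show (ySegAt (segLen M0 n) j).index = YSeg.index .kt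
        rw [ySegAt_index (by rw [hd]; simp [segCount]), hd]
        simp [YSeg.index, segCount]; omega
      rw [e]
      simp [rawBandH, rawH]
  · rfl

theorem bandCol_high {w : Quad} {i : ℕ} (hM : 2 ≤ segLen M0 n)
    (h : segCount * segLen M0 n ≤ i + 2) : bandCol T M0 n w i = .none := by
  rw [bandCol]
  split
  · next hlt =>
      have hd : i / segLen M0 n = segCount - 1 := by
        have hg : 0 < segCount := by simp [segCount]
        have h1 := (Nat.div_lt_iff_lt_mul (show 0 < segLen M0 n by omega)).2 hlt
        have h2 : segCount - 1 ≤ i / segLen M0 n := by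
          rw [Nat.le_div_iff_mul_le (by omega), Nat.sub_mul, one_mul]
          omega
        omega
      have e : xSegAt (segLen M0 n) i = .kr := by
        apply XSeg.fin_injective
        apply Fin.ext
        show (xSegAt (segLen M0 n) i).index = XSeg.index .kr
        rw [xSegAt_index (by rw [hd]; simp [segCount]), hd]
        simp [XSeg.index, segCount]; omega
      rw [e]
      simp [rawBandV, rawV]
  · rfl

end

end Vale.Agent.P196.W
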