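import Vale.Agent.P196.W.Draw
import Vale.Agent.P196.W.BandRaw
import Vale.Agent.P196.W.BandOfSignals

/-!
# P196: the layout has bands

In the band of columns a cell shows its offset and the signal of its row, in the band of rows its
offset and the signal of its column; the signals are `bandRow` and `bandCol` of the parents'
bundles. This gives `HasBands` for the macro-tile system of the layout, whatever the proofs of its
other fields are.
-/

namespace Vale.Agent.P196.W

open Sft

noncomputable section

variable (T : Tables) (M0 : ℕ) [NeZero M0]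

theorem drawTile_band (n : ℕ) (w : Win (Tint M0 (n + 1))) {i j : ℕ}
    (hi : segCount * segLen M0 n ≤ i) :
    drawTile T M0 n w i j =
      ⟨Addr.band ⟨(i - segCount * segLen M0 n) % segLen M0 n, Nat.mod_lt _ (segLen_pos n)⟩,
        bandRow T M0 n (quadOf T M0 n w) j, .none⟩ := by
  have hM := segLen_pos (M0 := M0) n
  unfold drawTile
  congr 1
  · rw [addrAt, if_pos hi]
  · unfold sigH bandRow
    by_cases hj : segCount * segLen M0 n ≤ j
    · rw [if_pos hj, if_neg (not_lt.2 hj)]
    · rw [if_neg hj, if_pos hi, if_pos (not_le.1 hj)]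
      have hd : j / segLen M0 n < segCount := (Nat.div_lt_iff_lt_mul hM).2 (not_le.1 hj)
      simp only [ysegAt, ySegAt, dif_pos hd, addrAt.segOf, Nat.mod_eq_of_lt hd]
  · rw [sigV, if_pos hi]

theorem drawTile_bandP (n : ℕ) (w : Win (Tint M0 (n + 1))) {i j : ℕ}
    (hi : i < segCount * segLen M0 n) (hj : segCount * segLen M0 n ≤ j) :
    drawTile T M0 n w i j =
      ⟨Addr.bandP ⟨(j - segCount * segLen M0 n) % segLen M0 n, Nat.mod_lt _ (segLen_pos n)⟩,
        .none, bandCol T M0 n (quadOf T M0 n w) i⟩ := by
  have hM := segLen_pos (M0 := M0) n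
  unfold drawTile
  congr 1
  · rw [addrAt, if_neg (not_le.2 hi), if_pos hj]
  · rw [sigH, if_pos hj]
  · unfold sigV bandCol
    rw [if_neg (not_le.2 hi), if_pos hj, if_pos hi]
    have hd : i / segLen M0 n < segCount := (Nat.div_lt_iff_lt_mul hM).2 hi
    simp only [xsegAt, xSegAt, dif_pos hd, addrAt.segOf, Nat.mod_eq_of_lt hd]

/-- The macro-tile system of the layout, given the proofs of its fields. -/
abbrev systemWith
    (h1 : ∀ n, ∃ t, Legal (rules T M0 n) t)
    (h2 : ∀ n o U, Legal (rules T M0 (n + 1)) U →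
      Legal (rules T M0 n) (expand (side segCount (segLen M0 n)) (drawTile T M0 n) o U))
    (h3 : ∀ n t, Legal (rules T M0 n) t →
      ∃! p : (Fin (side segCount (segLen M0 n)) × Fin (side segCount (segLen M0 n))) ×
        (Cell → Tint M0 (n + 1)),
      Legal (rules T M0 (n + 1)) p.2 ∧ t = expand (side segCount (segLen M0 n)) (drawTile T M0 n)
        ((p.1.1.val : ℤ), (p.1.2.val : ℤ)) p.2)
    (h4 : ∀ n (U t : Cell → Tint M0 n), Legal (rules T M0 n) U → Legal (rules T M0 n) t →
      ∃ u : Cell, ∀ c : Cell, -2 ≤ c.1 → c.1 ≤ 0 → -2 ≤ c.2 → c.2 ≤ 0 → t (u + c) = U c)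
    (h5 : ∀ n, 8 ≤ side segCount (segLen M0 n)) : MacroSystem where
  C := Tint M0
  fin _ := inferInstance
  Z n := side segCount (segLen M0 n)
  zoom_ge := h5
  W := rules T M0
  draw n := drawTile T M0 n
  legal_nonempty := h1
  expand_legal := h2
  desub := h3
  mixes := h4

variable {T M0}

theorem segLen_ge (h4 : 4 ∣ M0) (n : ℕ) : gap n ≤ segLen M0 n := by
  obtain ⟨q, rfl⟩ := h4
  have hq : 0 < q := Nat.pos_of_ne_zero fun h => NeZero.ne (4 * q) (by simp [h])
  rw [segLen, gap, ← mul_assoc, mul_comm (4 : ℕ)]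
  exact Nat.le_mul_of_pos_right _ hq

/-- The layout has bands. -/
def hasBands (hT : T.sym 0 = .none) (hM0 : 4 ∣ M0)
    (h1 : ∀ n, ∃ t, Legal (rules T M0 n) t)
    (h2 : ∀ n o U, Legal (rules T M0 (n + 1)) U →
      Legal (rules T M0 n) (expand (side segCount (segLen M0 n)) (drawTile T M0 n) o U))
    (h3 : ∀ n t, Legal (rules T M0 n) t →
      ∃! p : (Fin (side segCount (segLen M0 n)) × Fin (side segCount (segLen M0 n))) ×
        (Cell → Tint M0 (n + 1)),
      Legal (rules T M0 (n + 1)) p.2 ∧ t = expand (side segCount (segLen M0 n)) (drawTile T M0 n)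
        ((p.1.1.val : ℤ), (p.1.2.val : ℤ)) p.2)
    (h4 : ∀ n (U t : Cell → Tint M0 n), Legal (rules T M0 n) U → Legal (rules T M0 n) t →
      ∃ u : Cell, ∀ c : Cell, -2 ≤ c.1 → c.1 ≤ 0 → -2 ≤ c.2 → c.2 ≤ 0 → t (u + c) = U c)
    (h5 : ∀ n, 8 ≤ side segCount (segLen M0 n)) :
    (systemWith T M0 h1 h2 h3 h4 h5).HasBands :=
  have hq : 0 < M0 / 4 := Nat.div_pos (Nat.le_of_dvd (NeZero.pos M0) hM0) (by norm_num)
  have hg : 20 ≤ segCount := by simp [segCount]
  MacroSystem.hasBandsOfSignals (c := (segCount + 1) * (M0 / 4))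
    (Nat.mul_pos (Nat.succ_pos _) hq)
    (fun n =>
      { lo := segCount * segLen M0 n
        lo_lt := by
          have := segLen_ge hM0 n
          have : 4 ≤ gap n := by simp only [gap]; have := Nat.two_pow_pos n; omega
          show segCount * segLen M0 n + 3 ≤ side segCount (segLen M0 n)
          rw [side_eq]; omega
        wide := by
          show side segCount (segLen M0 n) ≤
            _ * (side segCount (segLen M0 n) - segCount * segLen M0 n)
          rw [side_eq, Nat.add_sub_cancel_left, ← side_eq, side]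
          exact Nat.mul_le_mul_right _ (Nat.le_mul_of_pos_right _ hq)
        o := Sig.none
        band := fun i s => ⟨Addr.band ⟨(i - segCount * segLen M0 n) % segLen M0 n,
          Nat.mod_lt _ (segLen_pos n)⟩, s, .none⟩
        bandP := fun j s => ⟨Addr.bandP ⟨(j - segCount * segLen M0 n) % segLen M0 n,
          Nat.mod_lt _ (segLen_pos n)⟩, .none, s⟩
        hs := fun w => bandRow T M0 n (quadOf T M0 n w)
        vs := fun w => bandCol T M0 n (quadOf T M0 n w)
        s₀ := .lm
        t₀ := .none
        hs_zero := fun w _ => bandRow_zero (segLen_pos n) _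
        vs_zero := fun w _ => bandCol_zero (segLen_pos n) _
        lo_pos := by
          have := segLen_pos (M0 := M0) n
          nlinarith
        hs_high := fun w _ j hj _ => bandRow_high
          (le_trans (by simp only [gap]; have := Nat.two_pow_pos n; omega) (segLen_ge hM0 n)) hj
        vs_high := fun w _ i hi _ => bandCol_high
          (le_trans (by simp only [gap]; have := Nat.two_pow_pos n; omega) (segLen_ge hM0 n)) hi
        hs_sep := fun w _ j j' hlt _ h h' => bandRow_sep hT hM0 (segLen_pos n) hlt h h'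
        vs_sep := fun w _ i i' hlt _ h h' => bandCol_sep hT hM0 (segLen_pos n) hlt h h'
        gap := by
          show 3 * ((segCount + 1) * (M0 / 4)) ≤ (segCount + 1) * segLen M0 n
          have : 3 * (M0 / 4) ≤ segLen M0 n :=
            le_trans (by omega) (Nat.le_mul_of_pos_left M0 (Nat.two_pow_pos n))
          calc 3 * ((segCount + 1) * (M0 / 4)) = (segCount + 1) * (3 * (M0 / 4)) := by ring
            _ ≤ _ := Nat.mul_le_mul_left _ this
        draw_band := fun w _ i j hi _ _ => drawTile_band T M0 n w hi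
        draw_bandP := fun w _ i j hi hj _ => drawTile_bandP T M0 n w hi hj })
    fun m => ⟨m, fun n hn => by
      show m ≤ side segCount (segLen M0 n)
      have h1 := Nat.lt_two_pow_self (n := n)
      have h2 := Nat.le_mul_of_pos_right (2 ^ n) (NeZero.pos M0)
      rw [side, segLen]
      calc m ≤ 2 ^ n * M0 := by omega
        _ ≤ _ := Nat.le_mul_of_pos_left _ (Nat.succ_pos _)⟩

end

end Vale.Agent.P196.W
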