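import Vale.Agent.P196.Sft.Basic

/-!
# P196: compactness and recurrence of blocks, generically

Stated on raw data (colours, rule windows, zoom and drawing), before the macro-tile system is
assembled from them.
-/

namespace Vale.Agent.P196.W

open Sft

/-- If the rules can be obeyed on boxes of every size, they can be obeyed on the whole plane. -/
theorem exists_legal_of_boxes {α : Type} [Finite α] (W : Set (Win α))
    (h : ∀ k : ℕ, ∃ a : Cell → α, ∀ v : Cell, |v.1| ≤ (k : ℤ) → |v.2| ≤ (k : ℤ) →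
      windowAt a v ∈ W) :
    ∃ t, Legal W t := by
  let : TopologicalSpace α := ⊥
  have : DiscreteTopology α := ⟨rfl⟩
  let F : ℕ → Set (Cell → α) := fun k =>
    ⋂ v ∈ {v : Cell | |v.1| ≤ (k : ℤ) ∧ |v.2| ≤ (k : ℤ)}, (fun a => windowAt a v) ⁻¹' W
  have hc : ∀ k, IsClosed (F k) := fun k => isClosed_biInter fun v _ => IsClosed.preimage
    (continuous_pi fun d => continuous_apply _) (isClosed_discrete _)
  obtain ⟨t, ht⟩ := IsCompact.nonempty_iInter_of_sequence_nonempty_isCompact_isClosed F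
    (fun k a ha => by
      simp only [F, Set.mem_iInter, Set.mem_ofPred_eq] at ha ⊢
      exact fun v hv => ha v ⟨hv.1.trans (by push_cast; omega), hv.2.trans (by push_cast; omega)⟩)
    (fun k => by
      obtain ⟨a, ha⟩ := h k
      exact ⟨a, by simpa [F] using fun x y hx hy => ha (x, y) hx hy⟩)
    (hc 0).isCompact hc
  simp only [Set.mem_iInter, F, Set.mem_preimage, Set.mem_ofPred_eq] at ht
  exact ⟨t, fun v => ht (v.1.natAbs + v.2.natAbs) v
    ⟨by push_cast; linarith [abs_nonneg v.2], by push_cast; linarith [abs_nonneg v.1]⟩⟩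

variable {C : ℕ → Type} (W : ∀ n, Set (Win (C n))) (Z : ℕ → ℕ)
  (draw : ∀ n, Win (C (n + 1)) → ℕ → ℕ → C n)

/-- A window of the children obeys the rules as soon as the parents do near it. -/
def LocalExpand : Prop :=
  ∀ n (o : Cell) (T : Cell → C (n + 1)) (v : Cell),
    (∀ u : Cell, |u.1 - (v.1 - o.1) / (Z n : ℤ)| ≤ 2 → |u.2 - (v.2 - o.2) / (Z n : ℤ)| ≤ 2 →
      windowAt T u ∈ W (n + 1)) →
    windowAt (expand (Z n) (draw n) o T) v ∈ W n

/-- At every level some box of radius `3` obeys the rules. -/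
def SmallBox : Prop :=
  ∀ n, ∃ a : Cell → C n, ∀ v : Cell, |v.1| ≤ 3 → |v.2| ≤ 3 → windowAt a v ∈ W n

/-- The children of a legal tiling of parents form a legal tiling. -/
theorem expand_legal_of_local (hE : LocalExpand W Z draw) (n : ℕ) (o : Cell)
    (T : Cell → C (n + 1)) (hT : Legal (W (n + 1)) T) :
    Legal (W n) (expand (Z n) (draw n) o T) :=
  fun v => hE n o T v fun u _ _ => hT u

theorem abs_ediv_le {x z r : ℤ} (hz : 0 < z) (h : |x| ≤ r * z) : |x / z| ≤ r := by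
  rw [abs_le] at h ⊢
  exact ⟨Int.le_ediv_of_mul_le hz (by linarith),
    Int.ediv_le_of_le_mul hz (by linarith)⟩

theorem boxes (hz : ∀ n, 8 ≤ Z n) (hE : LocalExpand W Z draw) (hS : SmallBox W) :
    ∀ k n : ℕ, ∃ a : Cell → C n, ∀ v : Cell, |v.1| ≤ (k : ℤ) + 3 → |v.2| ≤ (k : ℤ) + 3 →
      windowAt a v ∈ W n := by
  intro k
  induction k with
  | zero => exact fun n => by simpa using hS n
  | succ k ih =>
    intro n
    obtain ⟨T, hT⟩ := ih (n + 1)
    refine ⟨expand (Z n) (draw n) 0 T, fun v h1 h2 => hE n 0 T v fun u u1 u2 => ?_⟩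
    have hzn : (8 : ℤ) ≤ Z n := by exact_mod_cast hz n
    push_cast at h1 h2
    have e : ∀ x : ℤ, |x| ≤ (k : ℤ) + 1 + 3 → |x / (Z n : ℤ)| ≤ (k : ℤ) + 1 := fun x hx =>
      abs_ediv_le (by omega) (hx.trans (by nlinarith))
    have a1 := e v.1 h1
    have a2 := e v.2 h2
    simp only [Prod.fst_zero, Prod.snd_zero, sub_zero] at u1 u2
    rw [abs_le] at a1 a2 u1 u2
    exact hT u (abs_le.2 ⟨by omega, by omega⟩) (abs_le.2 ⟨by omega, by omega⟩)

/-- Legal tilings exist at every level. -/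
theorem legal_nonempty_of_local [∀ n, Finite (C n)] (hz : ∀ n, 8 ≤ Z n)
    (hE : LocalExpand W Z draw) (hS : SmallBox W) (n : ℕ) : ∃ t, Legal (W n) t :=
  exists_legal_of_boxes (W n) fun k => by
    obtain ⟨a, ha⟩ := boxes W Z draw hz hE hS k n
    exact ⟨a, fun v h1 h2 => ha v (h1.trans (by omega)) (h2.trans (by omega))⟩

/-- Every legal tiling is drawn from a legal tiling of parents. -/
def HasParent : Prop :=
  ∀ n t, Legal (W n) t →
    ∃ (o : Cell) (T : Cell → C (n + 1)), Legal (W (n + 1)) T ∧ t = expand (Z n) (draw n) o T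

/-- Every `3 × 3` block of a legal tiling is determined by three offsets: it is drawn, whatever
stands three levels higher. -/
def BlockChain : Prop :=
  ∀ n (T : Cell → C n), Legal (W n) T → ∃ o₀ o₁ o₂ : Cell,
    ∀ R : Cell → C (n + 3), Legal (W (n + 3)) R →
      ∀ c : Cell, -2 ≤ c.1 → c.1 ≤ 0 → -2 ≤ c.2 → c.2 ≤ 0 →
        expand (Z n) (draw n) o₀
          (expand (Z (n + 1)) (draw (n + 1)) o₁ (expand (Z (n + 2)) (draw (n + 2)) o₂ R)) c = T c

/-- Every `3 × 3` block of a legal tiling occurs in every legal tiling. -/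
theorem mixes_of_blockChain (hz : ∀ n, 0 < Z n) (hP : HasParent W Z draw)
    (hB : BlockChain W Z draw) : ∀ n T t, Legal (W n) T → Legal (W n) t →
    ∃ u : Cell, ∀ c : Cell, -2 ≤ c.1 → c.1 ≤ 0 → -2 ≤ c.2 → c.2 ≤ 0 → t (u + c) = T c := by
  intro n T t hT ht
  obtain ⟨o₀, o₁, o₂, hb⟩ := hB n T hT
  obtain ⟨p₀, T₁, hT₁, e₀⟩ := hP n t ht
  obtain ⟨p₁, T₂, hT₂, e₁⟩ := hP (n + 1) T₁ hT₁
  obtain ⟨p₂, R, hR, e₂⟩ := hP (n + 2) T₂ hT₂
  have h₂ : expand (Z (n + 2)) (draw (n + 2)) o₂ R = shiftBy (p₂ - o₂) T₂ := by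
    rw [e₂, shiftBy_expand, sub_sub_cancel]
  obtain ⟨v, h₁⟩ : ∃ v, expand (Z (n + 1)) (draw (n + 1)) o₁ (shiftBy (p₂ - o₂) T₂) =
      shiftBy v T₁ := by
    refine ⟨p₁ - (o₁.1 - (p₂ - o₂).1 * (Z (n + 1) : ℤ), o₁.2 - (p₂ - o₂).2 * (Z (n + 1) : ℤ)), ?_⟩
    rw [expand_shiftBy _ (hz _), e₁, shiftBy_expand, sub_sub_cancel]
  obtain ⟨u, h₀⟩ : ∃ u, expand (Z n) (draw n) o₀ (shiftBy v T₁) = shiftBy u t := by
    refine ⟨p₀ - (o₀.1 - v.1 * (Z n : ℤ), o₀.2 - v.2 * (Z n : ℤ)), ?_⟩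
    rw [expand_shiftBy _ (hz _), e₀, shiftBy_expand, sub_sub_cancel]
  refine ⟨u, fun c c1 c2 c3 c4 => ?_⟩
  have h := hb R hR c c1 c2 c3 c4
  rw [h₂, h₁, h₀] at h
  rw [← h, add_comm]
  rfl

end Vale.Agent.P196.W
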