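import Vale.Agent.P196.W.Lanes

/-!
# P196: what the match rows allow is exactly a rule window of parents

The allowed assignments do not mention the level: a parent is described by its segments and its
static symbols. The offsets themselves are compared by lines, not by rows (`HLine`, `VLine`). So
a window of parents obeys the rules iff its bits are allowed and its lines step correctly.
-/

namespace Vale.Agent.P196.W

variable {g : ℕ}

/-! ## Descriptions of parents -/

/-- What the rows see of the address of a parent. -/
inductive Desc (g : ℕ)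
  | band (x : Side)
  | bandP (y : Side)
  | full (sA sB : Fin g) (l : Loc)
  deriving DecidableEq

/-- The kind of a parent. -/
def Desc.kind (K : Fin g → Fin g → Loc → Kind) : Desc g → Kind
  | .band _ => .passH
  | .bandP _ => .colOnly
  | .full sA sB l => K sA sB l

/-- The side of the horizontal offset, if known. -/
def Desc.x? : Desc g → Option Side
  | .band x => some x
  | .bandP _ => none
  | .full _ _ l => some l.x

/-- The side of the vertical offset, if known. -/
def Desc.y? : Desc g → Option Side
  | .band _ => none
  | .bandP y => some y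
  | .full _ _ l => some l.y

/-- The symbol of both offsets, if known. -/
def Desc.cross? : Desc g → Option Cross
  | .full _ _ l => some l.cross
  | _ => none

/-- Bit number `q ∈ [20, 37)` of a cross symbol. -/
def Cross.bit (c : Cross) (q : ℕ) : Bool :=
  if q = 20 then c.eq
  else if q = 21 then c.succ
  else if q = 22 then c.succT
  else
    let op := c.gate (Fin.ofNat 7 ((q - 23) / 2))
    if (q - 23) % 2 = 0 then op.1 else op.2

/-- The derived bits of a parent. -/
def Desc.derived (d : Desc g) (q : ℕ) : Bool :=
  if q < 10 then d.x?.any fun s => s.bit q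
  else if q < 20 then d.y?.any fun s => s.bit (q - 10)
  else if q < 37 then d.cross?.any fun c => c.bit q
  else if q = 37 then d.x?.isSome
  else if q = 38 then d.y?.isSome
  else false

/-- The bits of a parent on the lanes, channels excepted. -/
def Desc.code (K : Fin g → Fin g → Loc → Kind) (d : Desc g) : Lane g → Bool
  | .derived q => d.derived q.val
  | .segA s => match d with
    | .full sA _ _ => decide (sA = s)
    | _ => false
  | .segB s => match d with
    | .full _ sB _ => decide (sB = s)
    | _ => false
  | .kind k => decide (d.kind K = k)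
  | .outH _ | .outV _ => false

theorem Sym.code_lt (s : Sym) : s.code < 128 := by
  cases s <;> simp [Sym.code]
  omega

theorem Sym.code_injective : Function.Injective Sym.code := by
  intro a b h
  cases a <;> cases b <;> simp [Sym.code] at h <;>
    first | rfl | (congr 1; exact Fin.ext (by omega)) | omega

theorem Side.ext_bit {s t : Side} (h : ∀ i < 10, s.bit i = t.bit i) : s = t := by
  obtain ⟨a, b, c, d⟩ := s
  obtain ⟨a', b', c', d'⟩ := t
  have h0 : a = a' := h 0 (by norm_num)
  have h1 : b = b' := h 1 (by norm_num)
  have h2 : c = c' := h 2 (by norm_num)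
  have h3 : d = d' := Sym.code_injective <| Nat.eq_of_testBit_eq fun i => by
    by_cases hi : i < 7
    · exact h (i + 3) (by omega)
    · have hp : 2 ^ 7 ≤ 2 ^ i := Nat.pow_le_pow_right (by norm_num) (by omega)
      rw [Nat.testBit_lt_two_pow (lt_of_lt_of_le d.code_lt hp),
        Nat.testBit_lt_two_pow (lt_of_lt_of_le d'.code_lt hp)]
  subst h0 h1 h2 h3
  rfl

theorem Cross.ext_bit {c d : Cross} (h : ∀ q, 20 ≤ q → q < 37 → c.bit q = d.bit q) : c = d := by
  obtain ⟨a, b, e, o⟩ := c
  obtain ⟨a', b', e', o'⟩ := d
  have h0 : a = a' := by simpa [Cross.bit] using h 20 (by norm_num) (by norm_num)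
  have h1 : b = b' := by simpa [Cross.bit] using h 21 (by norm_num) (by norm_num)
  have h2 : e = e' := by simpa [Cross.bit] using h 22 (by norm_num) (by norm_num)
  have h3 : o = o' := by
    funext k
    refine Prod.ext ?_ ?_
    · have := h (23 + 2 * k.val) (by omega) (by omega)
      have e1 : (Fin.ofNat 7 ((23 + 2 * k.val - 23) / 2)) = k :=
        Fin.ext (by simp [Fin.ofNat, Nat.mod_eq_of_lt k.isLt])
      simp only [Cross.bit, show 23 + 2 * k.val ≠ 20 by omega,
        show 23 + 2 * k.val ≠ 21 by omega, show 23 + 2 * k.val ≠ 22 by omega, if_false, e1] at this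
      simpa using this
    · have := h (24 + 2 * k.val) (by omega) (by omega)
      have e1 : (Fin.ofNat 7 ((24 + 2 * k.val - 23) / 2)) = k :=
        Fin.ext (by simp [Fin.ofNat, show (24 + 2 * k.val - 23) / 2 = k.val by omega,
          Nat.mod_eq_of_lt k.isLt])
      simp only [Cross.bit, show 24 + 2 * k.val ≠ 20 by omega,
        show 24 + 2 * k.val ≠ 21 by omega, show 24 + 2 * k.val ≠ 22 by omega, if_false, e1,
        show (24 + 2 * k.val - 23) % 2 ≠ 0 by omega] at this
      exact this
  subst h0 h1 h2 h3
  rfl

theorem Desc.code_injective (K : Fin g → Fin g → Loc → Kind) :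
    Function.Injective (Desc.code K) := by
  intro d d' h
  have hd : ∀ q : ℕ, q < 40 → d.derived q = d'.derived q := fun q hq =>
    congrFun h (.derived ⟨q, hq⟩)
  have hx := hd 37 (by norm_num)
  have hy := hd 38 (by norm_num)
  have hX : ∀ i < 10, (d.x?.any fun s => s.bit i) = d'.x?.any fun s => s.bit i := fun i hi => by
    simpa [Desc.derived, hi] using hd i (by omega)
  have hY : ∀ i < 10, (d.y?.any fun s => s.bit i) = d'.y?.any fun s => s.bit i := fun i hi => by
    have := hd (10 + i) (by omega)
    simpa [Desc.derived, show ¬ 10 + i < 10 by omega, show 10 + i < 20 by omega] using this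
  cases d with
  | band x =>
    cases d' with
    | band x' => rw [Side.ext_bit (s := x) (t := x') fun i hi => by simpa [Desc.x?] using hX i hi]
    | bandP y' => simp [Desc.derived, Desc.x?] at hx
    | full a b l => simp [Desc.derived, Desc.y?] at hy
  | bandP y =>
    cases d' with
    | band x' => simp [Desc.derived, Desc.x?] at hx
    | bandP y' => rw [Side.ext_bit (s := y) (t := y') fun i hi => by simpa [Desc.y?] using hY i hi]
    | full a b l => simp [Desc.derived, Desc.x?] at hx
  | full sA sB l =>
    cases d' with
    | band x' => simp [Desc.derived, Desc.y?] at hy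
    | bandP y' => simp [Desc.derived, Desc.x?] at hx
    | full sA' sB' l' =>
      have ha : sA' = sA := by simpa [Desc.code] using congrFun h (.segA sA)
      have hb : sB' = sB := by simpa [Desc.code] using congrFun h (.segB sB)
      obtain ⟨x, y, c⟩ := l
      obtain ⟨x', y', c'⟩ := l'
      have hl : x = x' := Side.ext_bit fun i hi => by simpa [Desc.x?] using hX i hi
      have hl' : y = y' := Side.ext_bit fun i hi => by simpa [Desc.y?] using hY i hi
      have hc : c = c' := Cross.ext_bit fun q h1 h2 => by
        have := hd q (by omega)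
        simpa [Desc.derived, show ¬ q < 10 by omega, show ¬ q < 20 by omega, h2,
          Desc.cross?] using this
      subst ha hb hl hl' hc
      rfl

/-! ## Rules between neighbours -/

/-- The rules for `q` right of `p` that the rows check. -/
def HRule : Desc g → Desc g → Prop
  | .band x, .band _ => x.last = false
  | .band x, .full sA _ l => x.last = true ∧ sA.val = 0 ∧ l.x.first = true
  | .band x, .bandP _ => x.last = true
  | .bandP _, .bandP _ => True
  | .bandP _, .band x => x.first = true
  | .bandP _, .full .. => False
  | .full .., .bandP _ => False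
  | .full sA _ l, .band x => sA.val + 1 = g ∧ l.x.last = true ∧ x.first = true
  | .full sA sB l, .full sA' sB' _ => sB' = sB ∧ sA'.val = sA.val + l.x.last.toNat

/-- The rules for `q` above `p` that the rows check. -/
def VRule : Desc g → Desc g → Prop
  | .band _, .band _ => True
  | .band _, _ => False
  | _, .band _ => False
  | .bandP y, .bandP _ => y.last = false
  | .bandP y, .full _ sB l => y.last = true ∧ sB.val = 0 ∧ l.y.first = true
  | .full _ sB l, .bandP y => sB.val + 1 = g ∧ l.y.last = true ∧ y.first = true
  | .full sA sB l, .full sA' sB' _ => sA' = sA ∧ sB'.val = sB.val + l.y.last.toNat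

/-- The cell of a window read by column segment `c`. -/
def cellOf (c : Fin 7) : Fin 2 × Fin 2 :=
  ![(1, 1), (0, 1), (1, 0), (0, 0), (1, 1), (0, 1), (1, 0)] c

/-- The bits of four described parents. -/
def codeAssign (K : Fin g → Fin g → Loc → Kind) (d : Fin 2 × Fin 2 → Desc g) : Assign g :=
  fun c => Desc.code K (d (cellOf c))

/-- The bits of an event on the three event segments. -/
def eventAssign (e : Event) : Assign g := fun c l =>
  match l with
  | .kind k => decide (e.kind = k)
  | .outH a => decide ((if c = 5 then e.hL else e.h) = a)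
  | .outV a => decide ((if c = 6 then e.vB else e.v) = a)
  | _ => false

/-- The allowed assignments of the address segments. -/
def AllowA (K : Fin g → Fin g → Loc → Kind) (f : Assign g) : Prop :=
  ∃ d : Fin 2 × Fin 2 → Desc g, (codeAssign K d).mask true = f ∧
    (∀ j, HRule (d (0, j)) (d (1, j))) ∧ ∀ i, VRule (d (i, 0)) (d (i, 1))

/-- The allowed assignments of the event segments. -/
def AllowR (f : Assign g) : Prop :=
  ∃ e : Event, e.Ok ∧ (eventAssign e).mask false = f

/-- The allowed assignments. -/
def allowOf (K : Fin g → Fin g → Loc → Kind) : Bool → Assign g → Prop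
  | true => AllowA K
  | false => AllowR

/-- The tables of the layout with kinds `K`. -/
noncomputable def tables (K : Fin g → Fin g → Loc → Kind) : Tables := tablesOf (allowOf K)

/-! ## Parents at a level -/

section Level

variable (K : Fin g → Fin g → Loc → Kind) (T : Tables) (M0 n : ℕ)

/-- The static symbols at a level. -/
def locF : Fin (segLen M0 n) → Fin (segLen M0 n) → Loc := fun a b => T.loc M0 n a.val b.val

/-- The description of an address. -/
def descOf : Addr g (segLen M0 n) → Desc g
  | .band a => .band (T.side M0 n a.val)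
  | .bandP b => .bandP (T.side M0 n b.val)
  | .full sA oA sB oB => .full sA sB (T.loc M0 n oA.val oB.val)

/-- The bits of a colour. -/
def colourBits (c : Colour g (segLen M0 n)) : Lane g → Bool
  | .outH a => decide (c.h = a)
  | .outV a => decide (c.v = a)
  | l => Desc.code K (descOf T M0 n c.addr) l

/-- The bits of a window. -/
def bitsW (w : Sft.Win (Colour g (segLen M0 n))) : Assign g :=
  fun c => colourBits K T M0 n (w (cellOf c))

theorem kindAt_eq (A : Addr g (segLen M0 n)) :
    kindAt K (locF T M0 n) A = (descOf T M0 n A).kind K := by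
  cases A <;> rfl

end Level

/-! ## Offsets compared by lines -/

section Lines

variable {M : ℕ}

/-- The horizontal offset, if known. -/
def Addr.xoff : Addr g M → Option (Fin M)
  | .band a => some a
  | .bandP _ => none
  | .full _ oA _ _ => some oA

/-- The vertical offset, if known. -/
def Addr.yoff : Addr g M → Option (Fin M)
  | .band _ => none
  | .bandP b => some b
  | .full _ _ _ oB => some oB

/-- The successor of an offset, cyclically. -/
def nextOff (M a : ℕ) : ℕ := if a + 1 = M then 0 else a + 1

/-- The lines of `q` right of `p`. -/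
def HLine (p q : Addr g M) : Prop :=
  (∀ a ∈ p.xoff, ∀ a' ∈ q.xoff, a'.val = nextOff M a.val) ∧ ∀ b ∈ p.yoff, ∀ b' ∈ q.yoff, b' = b

/-- The lines of `q` above `p`. -/
def VLine (p q : Addr g M) : Prop :=
  (∀ b ∈ p.yoff, ∀ b' ∈ q.yoff, b'.val = nextOff M b.val) ∧ ∀ a ∈ p.xoff, ∀ a' ∈ q.xoff, a' = a

theorem mul_add_inj {s t o r : ℕ} (ho : o < M) (hr : r < M) (h : s * M + o = t * M + r) :
    s = t ∧ o = r := by
  rcases lt_trichotomy s t with hst | hst | hst
  · have := Nat.mul_le_mul_right M (hst : s + 1 ≤ t); rw [Nat.succ_mul] at this; omega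
  · subst hst; exact ⟨rfl, by omega⟩
  · have := Nat.mul_le_mul_right M (hst : t + 1 ≤ s); rw [Nat.succ_mul] at this; omega

theorem pos_succ_iff (s s' : Fin g) (o o' : Fin M) :
    pos s' o' = pos s o + 1 ↔
      s'.val = s.val + (decide (o.val + 1 = M)).toNat ∧ o'.val = nextOff M o.val := by
  unfold pos nextOff
  by_cases h : o.val + 1 = M
  · simp only [h, decide_true, Bool.toNat_true, if_true]
    have e : s.val * M + o.val + 1 = (s.val + 1) * M + 0 := by rw [Nat.succ_mul]; omega
    rw [e]
    exact ⟨fun he => mul_add_inj o'.isLt (by omega) he, fun ⟨a, b⟩ => by rw [a, b]⟩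
  · simp only [h, decide_false, Bool.toNat_false, if_false, add_zero]
    rw [add_assoc]
    exact ⟨fun he => mul_add_inj o'.isLt (by omega) he, fun ⟨a, b⟩ => by rw [a, b]⟩

theorem pos_eq_zero_iff (s : Fin g) (o : Fin M) : pos s o = 0 ↔ s.val = 0 ∧ o.val = 0 := by
  unfold pos
  constructor
  · intro h
    exact mul_add_inj o.isLt (by omega) (by simpa using h : s.val * M + o.val = 0 * M + 0)
  · rintro ⟨a, b⟩; simp [a, b]

theorem pos_last_iff (s : Fin g) (o : Fin M) :
    pos s o + 1 = g * M ↔ s.val + 1 = g ∧ o.val + 1 = M := by
  unfold pos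
  constructor
  · intro h
    have hg : g * M = (g - 1) * M + (M - 1) + 1 := by
      have := s.isLt
      have := o.isLt
      obtain ⟨g', rfl⟩ : ∃ k, g = k + 1 := ⟨g - 1, by omega⟩
      rw [Nat.succ_mul]; simp only [Nat.add_sub_cancel]; omega
    have := mul_add_inj o.isLt (by have := o.isLt; omega)
      (by omega : s.val * M + o.val = (g - 1) * M + (M - 1))
    omega
  · rintro ⟨a, b⟩
    conv_rhs => rw [← a, Nat.succ_mul]
    omega

end Lines

section Window

variable (K : Fin g → Fin g → Loc → Kind) (T : Tables) (M0 n : ℕ)

theorem hstep_iff (p q : Addr g (segLen M0 n)) :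
    HStep p q ↔ HRule (descOf T M0 n p) (descOf T M0 n q) ∧ HLine p q := by
  cases p <;> cases q <;>
    simp only [HStep, HRule, HLine, descOf, Addr.xoff, Addr.yoff, Option.mem_def,
      Option.some.injEq, forall_eq', reduceCtorEq, false_implies, implies_true, and_true,
      Tables.side, Tables.loc, decide_eq_true_eq, decide_eq_false_iff_not, pos_succ_iff,
      pos_eq_zero_iff, pos_last_iff, nextOff] <;>
    (try simp only [Fin.ext_iff]) <;>
    first
      | tauto
      | (have := Fin.isLt ‹Fin (segLen M0 n)›; split_ifs <;> constructor <;> intros <;> omega)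

theorem vstep_iff (p q : Addr g (segLen M0 n)) :
    VStep p q ↔ VRule (descOf T M0 n p) (descOf T M0 n q) ∧ VLine p q := by
  cases p <;> cases q <;>
    simp only [VStep, VRule, VLine, descOf, Addr.xoff, Addr.yoff, Option.mem_def,
      Option.some.injEq, forall_eq', reduceCtorEq, false_implies, implies_true, and_true,
      Tables.side, Tables.loc, decide_eq_true_eq, decide_eq_false_iff_not, pos_succ_iff,
      pos_eq_zero_iff, pos_last_iff, nextOff] <;>
    (try simp only [Fin.ext_iff]) <;>
    first
      | tauto
      | (have := Fin.isLt ‹Fin (segLen M0 n)›; split_ifs <;> constructor <;> intros <;> omega)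

theorem bitsW_maskA (w : Sft.Win (Colour g (segLen M0 n))) :
    (bitsW K T M0 n w).mask true =
      (codeAssign K fun d => descOf T M0 n (w d).addr).mask true := by
  refine (Assign.mask_eq_iff _ _ _).2 fun c l hc hv => ?_
  have hc' : c.val < 4 := by simpa [inA] using hc
  cases l <;> simp [Lane.vis, Lane.sym, Sym.vis] at hv <;>
    first | rfl | omega

theorem codeAssign_inj {d d' : Fin 2 × Fin 2 → Desc g}
    (h : (codeAssign K d).mask true = (codeAssign K d').mask true) : d = d' := by
  have h' := (Assign.mask_eq_iff _ _ _).1 h
  funext e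
  obtain ⟨c, hc, rfl⟩ : ∃ c : Fin 7, c.val < 4 ∧ cellOf c = e := by
    revert e; decide
  refine Desc.code_injective K (funext fun l => ?_)
  have hA : inA c = true := by simpa [inA] using hc
  cases l with
  | outH a => rfl
  | outV a => rfl
  | derived q => exact h' c _ hA (by simp [Lane.vis, Lane.sym, Sym.vis, hc])
  | segA s => exact h' c _ hA (by simp [Lane.vis, Lane.sym, Sym.vis, hc])
  | segB s => exact h' c _ hA (by simp [Lane.vis, Lane.sym, Sym.vis, hc])
  | kind k => exact h' c _ hA (by simp [Lane.vis, Lane.sym, Sym.vis]; omega)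

theorem allowA_bitsW_iff (w : Sft.Win (Colour g (segLen M0 n))) :
    AllowA K ((bitsW K T M0 n w).mask true) ↔
      (∀ j, HRule (descOf T M0 n (w (0, j)).addr) (descOf T M0 n (w (1, j)).addr)) ∧
        ∀ i, VRule (descOf T M0 n (w (i, 0)).addr) (descOf T M0 n (w (i, 1)).addr) := by
  rw [bitsW_maskA]
  constructor
  · rintro ⟨d, hd, h1, h2⟩
    rw [codeAssign_inj K hd] at h1 h2
    exact ⟨h1, h2⟩
  · rintro ⟨h1, h2⟩
    exact ⟨_, rfl, h1, h2⟩

theorem allowR_bitsW_iff (w : Sft.Win (Colour g (segLen M0 n))) :
    AllowR ((bitsW K T M0 n w).mask false) ↔ (winEvent K (locF T M0 n) w).Ok := by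
  have key : (bitsW K T M0 n w).mask false =
      (eventAssign (winEvent K (locF T M0 n) w)).mask false := by
    refine (Assign.mask_eq_iff _ _ _).2 fun c l hc hv => ?_
    have hc' : 4 ≤ c.val := by simpa [inA] using hc
    cases l with
    | derived q => simp [Lane.vis, Lane.sym, Sym.vis] at hv; omega
    | segA s => simp [Lane.vis, Lane.sym, Sym.vis] at hv; omega
    | segB s => simp [Lane.vis, Lane.sym, Sym.vis] at hv; omega
    | kind k =>
      simp [Lane.vis, Lane.sym, Sym.vis] at hv
      obtain rfl : c = 4 := Fin.ext (by simp; omega)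
      simp [bitsW, colourBits, eventAssign, winEvent, kindAt_eq, Desc.code, cellOf]
      rfl
    | outH a =>
      simp [Lane.vis, Lane.sym, Sym.vis] at hv
      obtain rfl | rfl : c = 4 ∨ c = 5 := by
        rcases hv with hv | hv
        · exact Or.inl (Fin.ext hv)
        · exact Or.inr (Fin.ext hv)
      all_goals
        (simp [bitsW, colourBits, eventAssign, winEvent, cellOf]
         rfl)
    | outV a =>
      simp [Lane.vis, Lane.sym, Sym.vis] at hv
      obtain rfl | rfl : c = 4 ∨ c = 6 := by
        rcases hv with hv | hv
        · exact Or.inl (Fin.ext hv)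
        · exact Or.inr (Fin.ext hv)
      all_goals
        (simp [bitsW, colourBits, eventAssign, winEvent, cellOf]
         rfl)
  rw [key]
  constructor
  · rintro ⟨e, he, hm⟩
    have h' := (Assign.mask_eq_iff _ _ _).1 hm
    have e0 : (winEvent K (locF T M0 n) w).kind = e.kind := by
      simpa [eventAssign] using h' 4 (.kind e.kind) rfl rfl
    have e1 : (winEvent K (locF T M0 n) w).hL = e.hL := by
      simpa [eventAssign] using h' 5 (.outH e.hL) rfl rfl
    have e2 : (winEvent K (locF T M0 n) w).vB = e.vB := by
      simpa [eventAssign] using h' 6 (.outV e.vB) rfl rfl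
    have e3 : (winEvent K (locF T M0 n) w).h = e.h := by
      simpa [eventAssign] using h' 4 (.outH e.h) rfl rfl
    have e4 : (winEvent K (locF T M0 n) w).v = e.v := by
      simpa [eventAssign] using h' 4 (.outV e.v) rfl rfl
    have : winEvent K (locF T M0 n) w = e := by
      generalize winEvent K (locF T M0 n) w = e' at *
      cases e'; cases e; simp_all
    rwa [this]
  · exact fun h => ⟨_, h, rfl⟩

/-- **Decoding.** A window of parents obeys the rules iff the rows allow its bits and its lines
step correctly. -/
theorem mem_windows_iff (w : Sft.Win (Colour g (segLen M0 n))) :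
    w ∈ windows K (locF T M0 n) ↔
      allowOf K true ((bitsW K T M0 n w).mask true) ∧
      allowOf K false ((bitsW K T M0 n w).mask false) ∧
      (∀ j, HLine (w (0, j)).addr (w (1, j)).addr) ∧
        ∀ i, VLine (w (i, 0)).addr (w (i, 1)).addr := by
  show (_ ∧ _ ∧ _) ↔ AllowA K _ ∧ AllowR _ ∧ _
  rw [allowA_bitsW_iff, allowR_bitsW_iff]
  simp only [hstep_iff T, vstep_iff T, forall_and]
  tauto

/-- No row fires on either family exactly when the bits are those of rule parents, lines apart. -/
theorem mem_windows_iff_not_fires (w : Sft.Win (Colour g (segLen M0 n))) :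
    w ∈ windows K (locF T M0 n) ↔
      (∀ A f, ¬ Fires (allowOf K) f (bitsW K T M0 n w) A) ∧
      (∀ j, HLine (w (0, j)).addr (w (1, j)).addr) ∧
        ∀ i, VLine (w (i, 0)).addr (w (i, 1)).addr := by
  rw [mem_windows_iff, Bool.forall_bool]
  simp only [forall_not_fires_iff]
  tauto

end Window

/-! ## The crossings compute the bits of the parent -/

theorem predX_eq (T : Tables) (M0 n : ℕ) (q : Fin 40) (x : ℕ) (l : Line) :
    predX q (T.side M0 n x) l =
      if q.val < 10 then some ((T.side M0 (n + 1) (2 * x + l.u.toNat)).bit q.val)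
      else if q.val = 37 then some true
      else if q.val < 20 ∨ 37 < q.val then none
      else l.copy.map fun c => c.bit q.val := by
  rw [Tables.side_succ]
  rfl

theorem predY_eq (T : Tables) (M0 n : ℕ) (q : Fin 40) (y : ℕ) (l : Line) :
    predY q (T.side M0 n y) l =
      if 10 ≤ q.val ∧ q.val < 20 then
        some ((T.side M0 (n + 1) (2 * y + l.u.toNat)).bit (q.val - 10))
      else if q.val = 38 then some true
      else none := by
  rw [Tables.side_succ]
  rfl

end Vale.Agent.P196.W
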