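import Vale.Agent.P196.W.StepConst
import Vale.Agent.P196.W.Decode

/-!
# P196: the cells with a choice or a constraint

At a choosing cell the closed form is one of the possible outputs iff the two lines are compatible,
and every possible output sending up (resp. right) the chosen line equals it. At a comparing cell
and at the end of a match row the only possible output is the closed form, under the condition.
-/

namespace Vale.Agent.P196.W

variable {T : Tables} {M0 n : ℕ} {w : Quad}

/-- The absolute value of a halved offset. -/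
def lineVal (p : ℕ × Bool) : ℕ := 2 * p.1 + p.2.toNat

/-- The parity of a line standing exactly at `z`. -/
def chosenAt (o : Option (ℕ × Bool)) (z : ℕ) : Option Bool :=
  o.bind fun p => if p.1 = z then some p.2 else Option.none

/-- Whether a line stands before `z`. -/
def seenBefore (o : Option (ℕ × Bool)) (z : ℕ) : Bool :=
  (o.map fun p => decide (p.1 < z)).getD false

/-- Two offsets that must be equal are so, as far as seen up to `z`. -/
def PickOk (own other : Option (ℕ × Bool)) (z : ℕ) : Prop :=
  ∀ p ∈ own, ∀ q ∈ other, max p.1 q.1 = z → p = q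

/-- Two offsets that must be consecutive are so, as far as seen at the crossing `(a, b)`. -/
def CmpOk (M : ℕ) (own other : Option (ℕ × Bool)) (a b : ℕ) : Prop :=
  ∀ p ∈ own, ∀ q ∈ other, p.1 = a → q.1 = b → lineVal p = nextOff (2 * M) (lineVal q)

theorem Sig.line?_ofLine_eq (o : Option Line) : (Sig.ofLine o).line? = o := by
  cases o <;> rfl

/-- The line signal of a choice. -/
def chosenSig : Option Bool → Sig
  | some u => .line { u := u, own := true }
  | Option.none => .none

theorem pick_eq_some_iff {last : Bool} {st : Bool × Bool} {old : Option Line} {new : Option Bool}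
    {p : Sig × Sig} :
    pick last st old new = some p ↔
      ((old.isSome ∨ new.isSome) → st.1 = false ∧ st.2 = false) ∧
      (∀ a ∈ old, ∀ u ∈ new, a.u = u) ∧
      p = (if last then .none else .seen (st.1 || new.isSome) (st.2 || old.isSome),
        chosenSig new) := by
  rcases st with ⟨s, s'⟩
  cases old <;> cases new <;> cases s <;> cases s' <;>
    simp [pick, chosenSig] <;> grind

theorem mem_pickX_iff {last : Bool} {h v : Sig} {st : Bool × Bool} {p : Sig × Sig}
    (hs : h.seen? = some st) :
    p ∈ (Kind.pickX last).outs h v ↔ ∃ new, pick last st v.line? new = some p := by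
  simp only [Kind.outs, hs, List.mem_filterMap]
  constructor
  · rintro ⟨new, -, e⟩
    exact ⟨new, e⟩
  · rintro ⟨new, e⟩
    refine ⟨new, ?_, e⟩
    rcases new with _ | _ | _ <;> simp

theorem mem_pickY_iff {last : Bool} {h v : Sig} {st : Bool × Bool} {p : Sig × Sig}
    (hs : v.seen? = some st) :
    p ∈ (Kind.pickY last).outs h v ↔ ∃ new, pick last st h.line? new = some p.swap := by
  simp only [Kind.outs, hs, List.mem_map, List.mem_filterMap]
  constructor
  · rintro ⟨q, ⟨new, -, e⟩, rfl⟩
    exact ⟨new, by simpa using e⟩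
  · rintro ⟨new, e⟩
    refine ⟨p.swap, ⟨new, ?_, e⟩, Prod.swap_swap p⟩
    rcases new with _ | _ | _ <;> simp

/-- The choosing conditions in terms of the lines. -/
theorem pickOk_iff (own other : Option (ℕ × Bool)) (z : ℕ) (old : Option Line)
    (hold : old.map Line.u = chosenAt other z) :
    PickOk own other z ↔
      ((old.isSome ∨ (chosenAt own z).isSome) →
          seenBefore own z = false ∧ seenBefore other z = false) ∧
        ∀ a ∈ old, ∀ u ∈ chosenAt own z, a.u = u := by
  unfold PickOk seenBefore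
  rcases own with _ | ⟨p, u⟩ <;> rcases other with _ | ⟨q, v⟩ <;> rcases old with _ | a <;>
    simp [chosenAt] at hold ⊢ <;> simp_all [max_def] <;> grind

theorem colLine_below_my (C : Choices) (x : ℕ) {Y : YSeg} (y : ℕ) (hY : Y.index < 6) :
    colLine T n C x Y y = (chosenAt C.ox x).map fun u => { u := u, own := true } := by
  have hs : ∀ z, ¬ sinceY .my z Y y := fun z => by
    rw [sinceY_iff, show YSeg.my.index = 6 from rfl]; omega
  rcases hC : C.ox with _ | ⟨p, u⟩
  · simp [colLine, chosenAt, hC]
  · by_cases h : p = x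
    · cases hO : C.oy <;> simp [colLine, chosenAt, hC, hO, h, hs]
    · simp [colLine, chosenAt, hC, h]

theorem colLine_isSome (C : Choices) (x : ℕ) (Y : YSeg) (y : ℕ) :
    (colLine T n C x Y y).map Line.u = chosenAt C.ox x := by
  rcases hC : C.ox with _ | ⟨p, u⟩
  · simp [colLine, chosenAt, hC]
  · by_cases h : p = x <;> simp [colLine, chosenAt, hC, h]

theorem rowLine_eq (C : Choices) (y : ℕ) :
    rowLine C y = (chosenAt C.oy y).map fun u => { u := u, own := true } := by
  rcases hC : C.oy with _ | ⟨p, u⟩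
  · simp [rowLine, chosenAt, hC]
  · by_cases h : p = y <;> simp [rowLine, chosenAt, hC, h]

theorem ofLine_map_chosen (o : Option Bool) :
    Sig.ofLine (o.map fun u => ({ u := u, own := true } : Line)) = chosenSig o := by
  cases o <;> rfl

theorem seenBy_eq (o : Option (ℕ × Bool)) (z : ℕ) :
    seenBy o z = (seenBefore o z || (chosenAt o z).isSome) := by
  rcases o with _ | ⟨p, u⟩
  · rfl
  · by_cases h : p = z <;> simp [seenBy, seenBefore, chosenAt, h]
    omega

theorem seenBy_pred (o : Option (ℕ × Bool)) (z : ℕ) : seenBy o z = seenBefore o (z + 1) := by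
  cases o <;> simp [seenBy, seenBefore]

theorem seenBefore_zero (o : Option (ℕ × Bool)) : seenBefore o 0 = false := by
  cases o <;> simp [seenBefore]

/-! ## The choice of the first offset -/

section PickX

variable (H : TabOK T M0) {x : ℕ} (hx : x < segLen M0 n)
include H hx

omit H hx in
theorem kind_pickX :
    kindOn .mx .lx (T.loc M0 n x 0) = .pickX (decide (x + 1 = segLen M0 n)) := by
  simp [kindOn, mxKind, Tables.loc, Tables.side]

theorem inH_pickX :
    (inH T M0 n w .mx x .lx 0).seen? =
      some (seenBefore (w 2).ox x, seenBefore (w 0).ox x) := by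
  have hM := H.len_pos n
  obtain ⟨X', x', hx', hp⟩ := exists_xPred hM hx (by simp : ¬(XSeg.mx = .x0 ∧ x = 0))
  rw [inH_eq w .lx 0 hx' hp]
  rcases hp with ⟨rfl, rfl⟩ | ⟨h1, rfl, h3⟩
  · simp [rawH, Sig.seen?, seenBy_pred, hx]
  · have : X' ≠ .mx := by rintro rfl; simp at h1
    simp [rawH, Sig.seen?, this, seenBefore_zero]

omit hx in
theorem inV_pickX :
    inV T M0 n w .mx x .lx 0 = Sig.ofLine (colLine T n (w 0) x .kt 0) := by
  have hM := H.len_pos n
  rw [inV_eq w .mx x (Y' := .y0) (y' := segLen M0 n - 1) (by omega)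
    (Or.inr ⟨rfl, rfl, by omega⟩)]
  simp [rawV, sinceY, YSeg.index]

omit H in
theorem raw_pickX :
    (rawH T M0 n w .mx x .lx 0, rawV T M0 n w .mx x .lx 0) =
      (if decide (x + 1 = segLen M0 n) then .none
        else .seen (seenBefore (w 2).ox x || (chosenAt (w 2).ox x).isSome)
          (seenBefore (w 0).ox x || (colLine T n (w 0) x .kt 0).isSome),
        chosenSig (chosenAt (w 2).ox x)) := by
  have e : (colLine T n (w 0) x .kt 0).isSome = (chosenAt (w 0).ox x).isSome := by
    rw [← colLine_isSome (T := T) (n := n) (w 0) x .kt 0]; simp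
  refine Prod.ext ?_ ?_
  · simp only [rawH, seenBy_eq, e]
    by_cases h : x + 1 = segLen M0 n
    · simp [h]
    · have : x + 1 < segLen M0 n := by omega
      simp [h, this]
  · simp [rawV, sinceY, colLine_below_my _ _ 0 (show YSeg.lx.index < 6 by decide),
      ofLine_map_chosen]

/-- The closed form is a possible choice iff the offset agrees with that of the tile below. -/
theorem pickX_mem_iff :
    (rawH T M0 n w .mx x .lx 0, rawV T M0 n w .mx x .lx 0) ∈
        (kindOn .mx .lx (T.loc M0 n x 0)).outs (inH T M0 n w .mx x .lx 0)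
          (inV T M0 n w .mx x .lx 0) ↔
      PickOk (w 2).ox (w 0).ox x := by
  rw [kind_pickX, mem_pickX_iff (inH_pickX H hx), inV_pickX H, Sig.line?_ofLine_eq,
    raw_pickX hx, pickOk_iff _ _ _ _ (colLine_isSome (T := T) (n := n) (w 0) x .kt 0)]
  constructor
  · rintro ⟨new, h⟩
    obtain ⟨h1, h2, h3⟩ := pick_eq_some_iff.1 h
    have : chosenAt (w 2).ox x = new := by
      have e := congrArg Prod.snd h3
      revert e
      cases chosenAt (w 2).ox x <;> cases new <;> simp [chosenSig]
    subst this
    exact ⟨h1, h2⟩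
  · rintro ⟨h1, h2⟩
    exact ⟨_, pick_eq_some_iff.2 ⟨h1, h2, rfl⟩⟩

/-- Every possible output is a choice of a line, or of none, and the line is the only thing free. -/
theorem pickX_forced {p : Sig × Sig}
    (hp : p ∈ (kindOn .mx .lx (T.loc M0 n x 0)).outs (inH T M0 n w .mx x .lx 0)
      (inV T M0 n w .mx x .lx 0)) :
    ∃ new : Option Bool, p.2 = chosenSig new ∧
      (new.isSome → seenBefore (w 2).ox x = false) ∧
      (chosenAt (w 2).ox x = new → p = (rawH T M0 n w .mx x .lx 0, rawV T M0 n w .mx x .lx 0)) := by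
  rw [kind_pickX, mem_pickX_iff (inH_pickX H hx), inV_pickX H, Sig.line?_ofLine_eq] at hp
  obtain ⟨new, h⟩ := hp
  obtain ⟨h1, -, h3⟩ := pick_eq_some_iff.1 h
  refine ⟨new, by rw [h3], fun hn => (h1 (Or.inr hn)).1, fun e => ?_⟩
  rw [raw_pickX hx, e, h3]

end PickX

/-! ## The choice of the second offset -/

section PickY

variable (H : TabOK T M0) {y : ℕ} (hy : y < segLen M0 n)
include H hy

omit H hy in
theorem kind_pickY :
    kindOn .ly .my (T.loc M0 n 0 y) = .pickY (decide (y + 1 = segLen M0 n)) := by
  simp [kindOn, lyKind, Tables.loc, Tables.side]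

theorem inV_pickY :
    (inV T M0 n w .ly 0 .my y).seen? =
      some (seenBefore (w 2).oy y, seenBefore (w 3).oy y) := by
  have hM := H.len_pos n
  obtain ⟨Y', y', hy', hp⟩ := exists_yPred hM hy (by simp : ¬(YSeg.my = .y0 ∧ y = 0))
  rw [inV_eq w .ly 0 hy' hp]
  rcases hp with ⟨rfl, rfl⟩ | ⟨h1, rfl, h3⟩
  · simp [rawV, Sig.seen?, seenBy_pred, hy]
  · have : Y' ≠ .my := by rintro rfl; simp at h1
    simp [rawV, Sig.seen?, this, seenBefore_zero]

omit hy in
theorem inH_pickY :
    inH T M0 n w .ly 0 .my y = Sig.ofLine (rowLine (w 3) y) := by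
  have hM := H.len_pos n
  rw [inH_eq w .my y (X' := .sh) (x' := segLen M0 n - 1) (by omega)
    (Or.inr ⟨rfl, rfl, by omega⟩)]
  simp [rawH, sinceX, XSeg.index]

omit H in
theorem raw_pickY :
    (rawH T M0 n w .ly 0 .my y, rawV T M0 n w .ly 0 .my y) =
      (chosenSig (chosenAt (w 2).oy y),
        if decide (y + 1 = segLen M0 n) then .none
        else .seen (seenBefore (w 2).oy y || (chosenAt (w 2).oy y).isSome)
          (seenBefore (w 3).oy y || (rowLine (w 3) y).isSome)) := by
  refine Prod.ext ?_ ?_
  · simp [rawH, sinceX, rowLine_eq, ofLine_map_chosen]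
  · simp only [rawV, seenBy_eq, rowLine_eq, Option.isSome_map]
    by_cases h : y + 1 = segLen M0 n
    · simp [h]
    · have : y + 1 < segLen M0 n := by omega
      simp [h, this]

/-- The closed form is a possible choice iff the offset agrees with that of the left tile. -/
theorem pickY_mem_iff :
    (rawH T M0 n w .ly 0 .my y, rawV T M0 n w .ly 0 .my y) ∈
        (kindOn .ly .my (T.loc M0 n 0 y)).outs (inH T M0 n w .ly 0 .my y)
          (inV T M0 n w .ly 0 .my y) ↔
      PickOk (w 2).oy (w 3).oy y := by
  rw [kind_pickY, mem_pickY_iff (inV_pickY H hy), inH_pickY H, Sig.line?_ofLine_eq,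
    raw_pickY hy, pickOk_iff _ _ _ (rowLine (w 3) y)
      (by simp [rowLine_eq, Option.map_map, Function.comp_def])]
  constructor
  · rintro ⟨new, h⟩
    obtain ⟨h1, h2, h3⟩ := pick_eq_some_iff.1 h
    have : chosenAt (w 2).oy y = new := by
      have e := congrArg Prod.snd h3
      revert e
      simp only [Prod.swap]
      cases chosenAt (w 2).oy y <;> cases new <;> simp [chosenSig]
    subst this
    exact ⟨h1, h2⟩
  · rintro ⟨h1, h2⟩
    exact ⟨_, pick_eq_some_iff.2 ⟨h1, h2, rfl⟩⟩

/-- Every possible output is a choice of a line, or of none, and the line is the only thing free. -/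
theorem pickY_forced {p : Sig × Sig}
    (hp : p ∈ (kindOn .ly .my (T.loc M0 n 0 y)).outs (inH T M0 n w .ly 0 .my y)
      (inV T M0 n w .ly 0 .my y)) :
    ∃ new : Option Bool, p.1 = chosenSig new ∧
      (new.isSome → seenBefore (w 2).oy y = false) ∧
      (chosenAt (w 2).oy y = new → p = (rawH T M0 n w .ly 0 .my y, rawV T M0 n w .ly 0 .my y)) := by
  rw [kind_pickY, mem_pickY_iff (inV_pickY H hy), inH_pickY H, Sig.line?_ofLine_eq] at hp
  obtain ⟨new, h⟩ := hp
  obtain ⟨h1, -, h3⟩ := pick_eq_some_iff.1 h
  refine ⟨new, by rw [← Prod.snd_swap (p := p), h3], fun hn => (h1 (Or.inr hn)).1, fun e => ?_⟩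
  rw [raw_pickY hy, e, ← Prod.swap_swap p, h3]
  rfl

end PickY

/-! ## Free bits -/

section SrcBit

variable (H : TabOK T M0) {y : ℕ} (hy : y < segLen M0 n) (hs : (symAt T M0 n y).isSrc = true)
include H hy hs

theorem srcBit_outs :
    (kindOn .src (.r 2) (T.loc M0 n 0 y)).outs (inH T M0 n w .src 0 (.r 2) y)
        (inV T M0 n w .src 0 (.r 2) y) =
      [(.bit false, rawV T M0 n w .src 0 (.r 2) y), (.bit true, rawV T M0 n w .src 0 (.r 2) y)] := by
  have hy4 := (H.sym_inner n hy (fun e => by simp [e, Sym.isSrc] at hs)).1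
  rw [inV_eq w .src 0 (Y' := .r 2) (y' := y - 1) (by omega) (Or.inl ⟨rfl, by omega⟩)]
  simp only [symAt] at hs
  simp [kindOn, srcKind, Tables.loc, Tables.side, Kind.outs, rawV] at hs ⊢
  simp [hs]

omit H hy in
theorem srcBit_raw :
    rawH T M0 n w .src 0 (.r 2) y = .bit ((w 2).bit y) := by
  have hd : (symAt T M0 n y).derived? = Option.none := by
    revert hs; cases symAt T M0 n y <;> simp [Sym.isSrc, Sym.derived?]
  simp [rawH, sinceX, XSeg.index, laneSig, hd, hs]

/-- The closed form is a possible output. -/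
theorem srcBit_mem :
    (rawH T M0 n w .src 0 (.r 2) y, rawV T M0 n w .src 0 (.r 2) y) ∈
      (kindOn .src (.r 2) (T.loc M0 n 0 y)).outs (inH T M0 n w .src 0 (.r 2) y)
        (inV T M0 n w .src 0 (.r 2) y) := by
  rw [srcBit_outs H hy hs, srcBit_raw hs]
  cases (w 2).bit y <;> simp

end SrcBit

/-! ## Comparisons -/

/-- The relation of a comparing cell, `a` along the own line and `b` along the other. -/
def cmpRel (M a b : ℕ) : Cmp :=
  if a = b then .same else if a = b + 1 ∨ (a = 0 ∧ b + 1 = M) then .next else .apart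

/-- The line arriving at the cell `(a, b)` of a comparison, and the one leaving it. -/
def cmpLine (M : ℕ) (P Q : Option (ℕ × Bool)) (b : ℕ) (born alive : ℕ → Prop)
    [DecidablePred born] [DecidablePred alive] : Option Line :=
  (P.bind fun p =>
    if p.1 = b ∧ born b then some ({ u := p.2, own := true } : Line) else Option.none).or
    (Q.bind fun q =>
      if q.1 = b ∧ ¬ alive ((P.map Prod.fst).getD (M - 1)) then
        some ({ u := q.2, own := false } : Line)
      else Option.none)

theorem cmp_core {M a b : ℕ} {P Q : Option (ℕ × Bool)} {o : Option Line} (hM : 2 ≤ M)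
    (ha : a < M) (hb : b < M) (hP : ∀ p ∈ P, p.1 < M) (ho : o.map Line.u = chosenAt P a) :
    (CmpOk M P Q a b →
      (Kind.cmpA (cmpRel M a b) (decide (a + 1 = M))).outs
          (Sig.ofLine (cmpLine M P Q b (· < a) (· < a))) (Sig.ofLine o) =
        [(Sig.ofLine (cmpLine M P Q b (· ≤ a) (· ≤ a)), Sig.ofLine o)]) ∧
    (¬ CmpOk M P Q a b →
      (Kind.cmpA (cmpRel M a b) (decide (a + 1 = M))).outs
          (Sig.ofLine (cmpLine M P Q b (· < a) (· < a))) (Sig.ofLine o) = []) := by
  simp only [Kind.outs, Sig.line?_ofLine_eq]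
  rcases P with _ | ⟨p, u⟩
  · rcases Q with _ | ⟨q, v⟩ <;> rcases o with _ | l <;>
      simp [chosenAt] at ho <;> simp [CmpOk, cmpLine, Sig.ofLine] <;>
      (by_cases h : q = b) <;> (by_cases h2 : a + 1 = M) <;> simp [h, h2] <;> grind
  · have hp : p < M := hP _ rfl
    rcases o with _ | l
    · have hne : p ≠ a := by intro e; simp [chosenAt, e] at ho
      rcases Q with _ | ⟨q, v⟩ <;> simp [CmpOk, cmpLine, Sig.ofLine, hne] <;>
        (by_cases h : p = b) <;> (by_cases h1 : b < a) <;> (by_cases h4 : p < a) <;>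
        (try (by_cases h3 : q = b)) <;> simp_all <;> grind
    · obtain ⟨rfl, hu⟩ : p = a ∧ l.u = u := by
        by_cases e : p = a <;> simp [chosenAt, e] at ho
        exact ⟨e, ho⟩
      rcases Q with _ | ⟨q, v⟩
      · by_cases h : p = b <;> simp [CmpOk, cmpLine, cmpRel, Sig.ofLine, hu, h] <;> grind
      · by_cases h : p = b
        · subst h
          by_cases h3 : q = p
          · cases u <;> cases v <;>
              simp [CmpOk, cmpLine, cmpRel, Sig.ofLine, lineVal, nextOff, hu, h3] <;> grind
          · simp [CmpOk, cmpLine, cmpRel, Sig.ofLine, hu, h3]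
        · by_cases h3 : q = b
          · by_cases h5 : p = b + 1 ∨ (p = 0 ∧ b + 1 = M) <;> cases u <;> cases v <;>
              simp [CmpOk, cmpLine, cmpRel, Sig.ofLine, lineVal, nextOff, hu, h, h3, h5] <;>
              grind
          · simp [CmpOk, cmpLine, cmpRel, Sig.ofLine, h, h3] <;> grind

/-- A comparing row cell with the axes exchanged is a comparing column cell. -/
theorem cmpB_outs_eq (r : Cmp) (last : Bool) (h v : Sig) :
    (Kind.cmpB r last).outs h v = ((Kind.cmpA r last).outs v h).map Prod.swap := by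
  simp only [Kind.outs]
  rcases v.line? with _ | a <;> rcases h.line? with _ | b <;> cases r <;> simp <;> grind

section CmpA

variable (H : TabOK T M0) (hR : w.InRange (segLen M0 n)) {x y : ℕ} (hx : x < segLen M0 n)
  (hy : y < segLen M0 n)
include H hR hx hy

/-- The row of the first offset is compared with the offset of the left tile. -/
theorem cmpA_outs :
    (CmpOk (segLen M0 n) (w 2).ox (w 3).ox x y →
      (kindOn .mx .ta (T.loc M0 n x y)).outs (inH T M0 n w .mx x .ta y)
          (inV T M0 n w .mx x .ta y) =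
        [(rawH T M0 n w .mx x .ta y, rawV T M0 n w .mx x .ta y)]) ∧
    (¬ CmpOk (segLen M0 n) (w 2).ox (w 3).ox x y →
      (kindOn .mx .ta (T.loc M0 n x y)).outs (inH T M0 n w .mx x .ta y)
          (inV T M0 n w .mx x .ta y) = []) := by
  have hM : 4 ≤ segLen M0 n := le_trans (Nat.le_mul_of_pos_right _ (by positivity)) (H.eight_le n)
  rw [← rawV_eq_inV H hR hx hy (by simp [VEvent])]
  obtain ⟨X', x', hx', hpx⟩ := exists_xPred (H.len_pos n) hx (by simp : ¬(XSeg.mx = .x0 ∧ x = 0))
  rw [inH_eq w .ta y hx' hpx]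
  have hP : ∀ p ∈ (w 2).ox, p.1 < segLen M0 n := (hR 2).1
  have hs : sinceX .sh 0 X' x' := by
    rw [hpx.since .sh (H.len_pos n)]; simp [sinceX, XSeg.index]
  have hz : ∀ z, z < segLen M0 n → (sinceX .mx z X' x' ↔ z < x) := fun z hz => by
    rw [hpx.since .mx hz]; simp [sinceX]; omega
  have hstop : ((w 2).ox.map Prod.fst).getD (segLen M0 n - 1) < segLen M0 n := by
    rcases hp : (w 2).ox with _ | p
    · simp; omega
    · simpa using hP p hp
  have ein : rawH T M0 n w X' x' .ta y =
      Sig.ofLine (cmpLine (segLen M0 n) (w 2).ox (w 3).ox y (· < x) (· < x)) := by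
    simp only [rawH, taRow, cmpLine, hz _ hy, hz _ hstop, hs, decide_true, Bool.not_true]
  have eout : rawH T M0 n w .mx x .ta y =
      Sig.ofLine (cmpLine (segLen M0 n) (w 2).ox (w 3).ox y (· ≤ x) (· ≤ x)) := by
    have h1 : ∀ z, sinceX .mx z .mx x ↔ z ≤ x := fun z => by simp [sinceX]
    have h2 : sinceX .sh 0 .mx x := by simp [sinceX, XSeg.index]
    simp only [rawH, taRow, cmpLine, h1, h2, decide_true, Bool.not_true]
  obtain ⟨o, ho, hou⟩ : ∃ o : Option Line, rawV T M0 n w .mx x .ta y = Sig.ofLine o ∧
      o.map Line.u = chosenAt (w 2).ox x :=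
    ⟨colLine T n (w 2) x .ta y, by simp [rawV, sinceY, YSeg.index], colLine_isSome _ _ _ _⟩
  have hk : kindOn .mx .ta (T.loc M0 n x y) =
      .cmpA (cmpRel (segLen M0 n) x y) (decide (x + 1 = segLen M0 n)) := by
    simp [kindOn, mxKind, cmpARel, cmpRel, Tables.loc, Tables.side, Tables.crossAt]
  rw [ein, eout, ho, hk]
  exact cmp_core (by omega) hx hy hP hou

end CmpA

section CmpB

variable (H : TabOK T M0) (hR : w.InRange (segLen M0 n)) {x y : ℕ} (hx : x < segLen M0 n)
  (hy : y < segLen M0 n)
include H hR hx hy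

/-- The column of the second offset is compared with the offset of the tile below. -/
theorem cmpB_outs :
    (CmpOk (segLen M0 n) (w 2).oy (w 0).oy y x →
      (kindOn .tb .my (T.loc M0 n x y)).outs (inH T M0 n w .tb x .my y)
          (inV T M0 n w .tb x .my y) =
        [(rawH T M0 n w .tb x .my y, rawV T M0 n w .tb x .my y)]) ∧
    (¬ CmpOk (segLen M0 n) (w 2).oy (w 0).oy y x →
      (kindOn .tb .my (T.loc M0 n x y)).outs (inH T M0 n w .tb x .my y)
          (inV T M0 n w .tb x .my y) = []) := by
  have hM : 4 ≤ segLen M0 n := le_trans (Nat.le_mul_of_pos_right _ (by positivity)) (H.eight_le n)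
  rw [← rawH_eq_inH H hR hx hy (by simp [HEvent])]
  obtain ⟨Y', y', hy', hpy⟩ := exists_yPred (H.len_pos n) hy (by simp : ¬(YSeg.my = .y0 ∧ y = 0))
  rw [inV_eq w .tb x hy' hpy]
  have hP : ∀ p ∈ (w 2).oy, p.1 < segLen M0 n := (hR 2).2
  have hs : sinceY .lx 0 Y' y' := by
    rw [hpy.since .lx (H.len_pos n)]; simp [sinceY, YSeg.index]
  have hz : ∀ z, z < segLen M0 n → (sinceY .my z Y' y' ↔ z < y) := fun z hz => by
    rw [hpy.since .my hz]; simp [sinceY]; omega
  have hstop : ((w 2).oy.map Prod.fst).getD (segLen M0 n - 1) < segLen M0 n := by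
    rcases hp : (w 2).oy with _ | p
    · simp; omega
    · simpa using hP p hp
  have ein : rawV T M0 n w .tb x Y' y' =
      Sig.ofLine (cmpLine (segLen M0 n) (w 2).oy (w 0).oy x (· < y) (· < y)) := by
    simp only [rawV, tbCol, cmpLine, hz _ hx, hz _ hstop, hs, decide_true, Bool.not_true]
  have eout : rawV T M0 n w .tb x .my y =
      Sig.ofLine (cmpLine (segLen M0 n) (w 2).oy (w 0).oy x (· ≤ y) (· ≤ y)) := by
    have h1 : ∀ z, sinceY .my z .my y ↔ z ≤ y := fun z => by simp [sinceY]
    have h2 : sinceY .lx 0 .my y := by simp [sinceY, YSeg.index]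
    simp only [rawV, tbCol, cmpLine, h1, h2, decide_true, Bool.not_true]
  obtain ⟨o, ho, hou⟩ : ∃ o : Option Line, rawH T M0 n w .tb x .my y = Sig.ofLine o ∧
      o.map Line.u = chosenAt (w 2).oy y :=
    ⟨rowLine (w 2) y, by simp [rawH, sinceX, XSeg.index],
      by simp [rowLine_eq, Option.map_map, Function.comp_def]⟩
  have hk : kindOn .tb .my (T.loc M0 n x y) =
      .cmpB (cmpRel (segLen M0 n) y x) (decide (y + 1 = segLen M0 n)) := by
    simp only [kindOn, tbKind, cmpBRel, cmpRel, Tables.loc, Tables.side, Tables.crossAt]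
    grind
  rw [ein, eout, ho, hk, cmpB_outs_eq]
  have h := cmp_core (a := y) (b := x) (Q := (w 0).oy) (M := segLen M0 n) (by omega) hy hx hP hou
  exact ⟨fun hc => by rw [h.1 hc]; rfl, fun hc => by rw [h.2 hc]; rfl⟩

end CmpB

/-! ## The ends of the match rows -/

section MatchEnd

variable (H : TabOK T M0) (hR : w.InRange (segLen M0 n)) {x y : ℕ}
  (hx : x + 1 = segLen M0 n) (hy : y < segLen M0 n) (hs : symAt T M0 n y = .mrow)
include H hR hx hy hs

omit hR hy hs in
/-- The last offset of a segment has no role. -/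
theorem sym_last : symAt T M0 n x = .none :=
  by_contra fun h => by have := (H.sym_inner n (by omega) h).2; omega

/-- An address row must end false. -/
theorem maEnd_outs :
    (kindOn (.pa 3) .ma (T.loc M0 n x y)).outs (inH T M0 n w (.pa 3) x .ma y)
        (inV T M0 n w (.pa 3) x .ma y) =
      if maTruth T M0 n w y (.pa 3) x then []
      else [(rawH T M0 n w (.pa 3) x .ma y, rawV T M0 n w (.pa 3) x .ma y)] := by
  have hM : 4 ≤ segLen M0 n := le_trans (Nat.le_mul_of_pos_right _ (by positivity)) (H.eight_le n)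
  have hl := sym_last H hx
  rw [← rawV_eq_inV H hR (by omega) hy (by simp [VEvent]),
    inH_eq w .ma y (X' := .pa 3) (x' := x - 1) (by omega) (Or.inl ⟨rfl, by omega⟩)]
  have ht : maTruth T M0 n w y (.pa 3) (x - 1) = maTruth T M0 n w y (.pa 3) x := by
    simp only [maTruth, decide_eq_decide]
    refine forall_congr' fun c => forall_congr' fun z => forall_congr' fun hz => ?_
    by_cases hzx : c = 3 ∧ z = x
    · obtain ⟨rfl, rfl⟩ := hzx
      simp [hl, Sym.vis]
    · refine imp_congr_left ?_
      simp only [sinceX_iff, XSeg.index]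
      have : ¬ (c.val = 3 ∧ z = x) := fun h => hzx ⟨Fin.ext h.1, h.2⟩
      simp only [show ((3 : Fin 4) : ℕ) = 3 from rfl]
      omega
  have e1 : rawH T M0 n w (.pa 3) (x - 1) .ma y = .bit (maTruth T M0 n w y (.pa 3) x) := by
    rw [← ht]; simp [rawH, hs, sinceX, XSeg.index]; omega
  have e2 : rawH T M0 n w (.pa 3) x .ma y = .none := by
    simp [rawH, sinceX, XSeg.index]; omega
  have hk : kindOn (.pa 3) .ma (T.loc M0 n x y) = .matchEnd := by
    simp only [symAt, Tables.side] at hs
    simp [kindOn, paKind, Tables.loc, hs, Tables.side, hx]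
  rw [e1, e2, hk]
  cases maTruth T M0 n w y (.pa 3) x <;> simp [Kind.outs, Sig.truth]

/-- An event row must end false. -/
theorem mrEnd_outs :
    (kindOn (.pr 2) .mr (T.loc M0 n x y)).outs (inH T M0 n w (.pr 2) x .mr y)
        (inV T M0 n w (.pr 2) x .mr y) =
      if mrTruth T M0 n w y (.pr 2) x then []
      else [(rawH T M0 n w (.pr 2) x .mr y, rawV T M0 n w (.pr 2) x .mr y)] := by
  have hM : 4 ≤ segLen M0 n := le_trans (Nat.le_mul_of_pos_right _ (by positivity)) (H.eight_le n)
  have hl := sym_last H hx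
  rw [← rawV_eq_inV H hR (by omega) hy (by simp [VEvent]),
    inH_eq w .mr y (X' := .pr 2) (x' := x - 1) (by omega) (Or.inl ⟨rfl, by omega⟩)]
  have ht : mrTruth T M0 n w y (.pr 2) (x - 1) = mrTruth T M0 n w y (.pr 2) x := by
    simp only [mrTruth, decide_eq_decide]
    refine forall_congr' fun c => forall_congr' fun z => forall_congr' fun hz => ?_
    by_cases hzx : c = 2 ∧ z = x
    · obtain ⟨rfl, rfl⟩ := hzx
      simp [hl, Sym.vis]
    · refine imp_congr_left ?_
      simp only [sinceX_iff, XSeg.index]
      have : ¬ (c.val = 2 ∧ z = x) := fun h => hzx ⟨Fin.ext h.1, h.2⟩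
      simp only [show ((2 : Fin 3) : ℕ) = 2 from rfl]
      omega
  have e1 : rawH T M0 n w (.pr 2) (x - 1) .mr y = .bit (mrTruth T M0 n w y (.pr 2) x) := by
    rw [← ht]; simp [rawH, hs, sinceX, XSeg.index]; omega
  have e2 : rawH T M0 n w (.pr 2) x .mr y = .none := by
    simp [rawH, sinceX, XSeg.index]; omega
  have hk : kindOn (.pr 2) .mr (T.loc M0 n x y) = .matchEnd := by
    simp only [symAt, Tables.side] at hs
    simp [kindOn, prKind, Tables.loc, hs, Tables.side, hx]
  rw [e1, e2, hk]
  cases mrTruth T M0 n w y (.pr 2) x <;> simp [Kind.outs, Sig.truth]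

end MatchEnd

/-! ## Benches -/

/-- Only the centre of an event bench may be undetermined. -/
theorem Bench.kind_det {b : Bench} {i j : Fin 2} {l : Loc}
    (h : b.isLeft = true → i = 1 → j = 1 → l.x.first = true → ¬ l.y.first = true) :
    (b.kind i j l).Det := by
  cases b with
  | inl e =>
    simp only [Bench.kind]
    repeat' split
    all_goals first
      | exact True.intro
      | (rename_i hc; exact absurd hc.2.2.2 (h rfl hc.1 hc.2.1 hc.2.2.1))
  | inr c =>
    simp only [Bench.kind]
    repeat' split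
    all_goals exact True.intro

section BenchCells

variable (H : TabOK T M0) {t : Fin benchCard} {i j : Fin 2} {x y : ℕ} (hx : x < segLen M0 n)
  (hy : y < segLen M0 n)
include H hx hy

omit hy in
theorem inH_bench :
    inH T M0 n w (.bench t i) x (.bench t j) y =
      if x ≠ 0 then ((benchEquiv.symm t).out i j (T.loc M0 n (x - 1) y)).1
      else if i = 1 then ((benchEquiv.symm t).out 0 j (T.loc M0 n (segLen M0 n - 1) y)).1
      else .none := by
  by_cases h0 : x = 0
  · subst h0
    obtain ⟨X', x', hx', hp⟩ := exists_xPred (H.len_pos n) hx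
      (by simp : ¬(XSeg.bench t i = .x0 ∧ 0 = 0))
    rw [inH_eq w _ y hx' hp]
    rcases hp with ⟨-, h⟩ | ⟨h1, -, h3⟩
    · omega
    · obtain rfl : x' = segLen M0 n - 1 := by omega
      by_cases hi : i = 1
      · subst hi
        obtain rfl : X' = .bench t 0 := XSeg.eq_of_index (by simp [XSeg.index] at h1 ⊢; omega)
        simp [rawH, locAt]
      · have hi0 : i.val = 0 := by omega
        rcases X' with _ | _ | _ | _ | _ | _ | _ | _ | _ | _ | _ | _ | c | c | ⟨t', i'⟩ | _ <;>
          simp [rawH, hi] at h1 ⊢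
        rintro rfl
        simp [XSeg.index] at h1; omega
  · rw [inH_eq w _ y (X' := .bench t i) (x' := x - 1) (by omega) (Or.inl ⟨rfl, by omega⟩)]
    simp [rawH, locAt, h0]

omit hx in
theorem inV_bench :
    inV T M0 n w (.bench t i) x (.bench t j) y =
      if y ≠ 0 then ((benchEquiv.symm t).out i j (T.loc M0 n x (y - 1))).2
      else if j = 1 then ((benchEquiv.symm t).out i 0 (T.loc M0 n x (segLen M0 n - 1))).2
      else .none := by
  by_cases h0 : y = 0
  · subst h0
    obtain ⟨Y', y', hy', hp⟩ := exists_yPred (H.len_pos n) hy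
      (by simp : ¬(YSeg.bench t j = .y0 ∧ 0 = 0))
    rw [inV_eq w _ x hy' hp]
    rcases hp with ⟨-, h⟩ | ⟨h1, -, h3⟩
    · omega
    · obtain rfl : y' = segLen M0 n - 1 := by omega
      by_cases hj : j = 1
      · subst hj
        obtain rfl : Y' = .bench t 0 := YSeg.eq_of_index (by simp [YSeg.index] at h1 ⊢; omega)
        simp [rawV, locAt]
      · have hj0 : j.val = 0 := by omega
        rcases Y' with _ | _ | c | _ | _ | _ | c | _ | _ | c | ⟨t', j'⟩ | _ <;>
          simp [rawV, hj] at h1 ⊢
        rintro rfl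
        simp [YSeg.index] at h1; omega
  · rw [inV_eq w _ x (Y' := .bench t j) (y' := y - 1) (by omega) (Or.inl ⟨rfl, by omega⟩)]
    simp [rawV, locAt, h0]

/-- The centre of the bench of an event. -/
def BenchCentre (t : Fin benchCard) (i j : Fin 2) (x y : ℕ) : Prop :=
  (benchEquiv.symm t).isLeft = true ∧ i = 1 ∧ j = 1 ∧ x = 0 ∧ y = 0

/-- The closed form is a possible output in every cell of a bench. -/
theorem bench_mem :
    (rawH T M0 n w (.bench t i) x (.bench t j) y, rawV T M0 n w (.bench t i) x (.bench t j) y) ∈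
      (kindOn (.bench t i) (.bench t j) (T.loc M0 n x y)).outs
        (inH T M0 n w (.bench t i) x (.bench t j) y)
        (inV T M0 n w (.bench t i) x (.bench t j) y) := by
  have hM : 4 ≤ segLen M0 n := le_trans (Nat.le_mul_of_pos_right _ (by positivity)) (H.eight_le n)
  rw [inH_bench H hx, inV_bench H hy]
  simp only [kindOn, rawH, rawV, if_true, locAt]
  rcases benchEquiv.symm t with e | c
  · by_cases hc : i = 1 ∧ j = 1 ∧ x = 0 ∧ y = 0
    · obtain ⟨rfl, rfl, rfl, rfl⟩ := hc
      have h1 : segLen M0 n - 1 + 1 = segLen M0 n := by omega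
      simp [Bench.kind, Bench.out, Tables.loc, Tables.side, h1]
      exact e.2
    · fin_cases i <;> fin_cases j <;> simp at hc ⊢ <;>
        simp [Bench.kind, Bench.out, Tables.loc, Tables.side] <;>
        (try split_ifs) <;> simp_all [Kind.outs]
  · fin_cases i <;> fin_cases j <;> simp [Bench.kind, Bench.out, Tables.loc, Tables.side] <;>
      (try split_ifs) <;> simp_all [Kind.outs]

/-- Off the centre the closed form is the only possible output. -/
theorem bench_unique (hc : ¬ BenchCentre t i j x y) {p : Sig × Sig}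
    (hp : p ∈ (kindOn (.bench t i) (.bench t j) (T.loc M0 n x y)).outs
      (inH T M0 n w (.bench t i) x (.bench t j) y)
      (inV T M0 n w (.bench t i) x (.bench t j) y)) :
    p = (rawH T M0 n w (.bench t i) x (.bench t j) y,
      rawV T M0 n w (.bench t i) x (.bench t j) y) := by
  have hM : 4 ≤ segLen M0 n := le_trans (Nat.le_mul_of_pos_right _ (by positivity)) (H.eight_le n)
  refine Kind.outs_unique ?_ hp (bench_mem H hx hy)
  simp only [kindOn, if_true]
  refine Bench.kind_det ?_
  simpa [BenchCentre, Tables.loc, Tables.side] using hc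

omit H hx hy in
/-- The check right of the centre accepts only the prescribed signal. -/
theorem bench_expH {e : {e : Event // e.Ok}} (ht : benchEquiv.symm t = .inl e) {h v : Sig}
    (hne : (kindOn (.bench t 1) (.bench t 1) (T.loc M0 n 1 0)).outs h v ≠ []) :
    h = rawH T M0 n w (.bench t 1) 0 (.bench t 1) 0 := by
  simp [kindOn, ht, Bench.kind, Tables.loc, Tables.side, Kind.outs] at hne
  simp [rawH, ht, Bench.out, locAt, Tables.loc, Tables.side, hne]

omit H hx hy in
/-- The check above the centre accepts only the prescribed signal. -/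
theorem bench_expV {e : {e : Event // e.Ok}} (ht : benchEquiv.symm t = .inl e) {h v : Sig}
    (hne : (kindOn (.bench t 1) (.bench t 1) (T.loc M0 n 0 1)).outs h v ≠ []) :
    v = rawV T M0 n w (.bench t 1) 0 (.bench t 1) 0 := by
  simp [kindOn, ht, Bench.kind, Tables.loc, Tables.side, Kind.outs] at hne
  simp [rawV, ht, Bench.out, locAt, Tables.loc, Tables.side, hne]

end BenchCells

end Vale.Agent.P196.W
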