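import Vale.Agent.P196.W.Draw
import Vale.Agent.P196.W.StepSpecial

/-!
# P196: the conditions at the special cells are the rules of the parents

For the bundles of a window of parents the choosing and comparing cells ask exactly for the lines
of that window and the row ends for allowed bits. Conversely, choices whose rows end false come
from exactly one parent colour.
-/

namespace Vale.Agent.P196.W

open Sft

/-! ## Lines -/

section Lines

variable {T : Tables} {M0 n : ℕ}

theorem lineVal_halve {m : ℕ} (a : Fin m) : lineVal (halve a) = a.val := (halve_spec a).symm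

theorem halve_injective (m : ℕ) : Function.Injective (halve (m := m)) := fun a b h =>
  Fin.ext (by rw [← lineVal_halve a, ← lineVal_halve b, h])

theorem choices_bit_laneAt (c : Tint M0 (n + 1)) (l : Lane segCount) :
    (choices T M0 n c).bit (laneAt n l) = colourBits layoutKind T M0 (n + 1) c l := by
  simp only [choices]
  exact laneBit_laneAt T M0 n c l

theorem choices_inRange (c : Tint M0 (n + 1)) :
    (∀ p ∈ (choices T M0 n c).ox, p.1 < segLen M0 n) ∧
      ∀ p ∈ (choices T M0 n c).oy, p.1 < segLen M0 n := by
  constructor <;> intro p hp <;> simp only [choices, Option.mem_def, Option.map_eq_some_iff] at hp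
    <;> obtain ⟨a, -, rfl⟩ := hp <;> exact halve_lt M0 n a

theorem quadOf_inRange (w : Win (Tint M0 (n + 1))) :
    (quadOf T M0 n w).InRange (segLen M0 n) := by
  intro c
  fin_cases c <;> exact choices_inRange _

/-- The choosing cells along a segment ask for equal offsets. -/
theorem forall_pickOk_iff (own other : Option (Fin (segLen M0 (n + 1)))) :
    (∀ z < segLen M0 n, PickOk (own.map halve) (other.map halve) z) ↔
      ∀ a ∈ other, ∀ a' ∈ own, a' = a := by
  constructor
  · intro h a ha a' ha'
    refine halve_injective _ (h (max (halve a').1 (halve a).1)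
      (max_lt (halve_lt M0 n a') (halve_lt M0 n a)) _ ?_ _ ?_ rfl)
    · exact Option.mem_map.2 ⟨a', ha', rfl⟩
    · exact Option.mem_map.2 ⟨a, ha, rfl⟩
  · intro h z _ p hp q hq _
    obtain ⟨a', ha', rfl⟩ := Option.mem_map.1 hp
    obtain ⟨a, ha, rfl⟩ := Option.mem_map.1 hq
    rw [h a ha a' ha']

/-- The comparing cells of a segment ask for consecutive offsets. -/
theorem forall_cmpOk_iff (own other : Option (Fin (segLen M0 (n + 1)))) :
    (∀ a < segLen M0 n, ∀ b < segLen M0 n,
        CmpOk (segLen M0 n) (own.map halve) (other.map halve) a b) ↔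
      ∀ a ∈ other, ∀ a' ∈ own, a'.val = nextOff (segLen M0 (n + 1)) a.val := by
  constructor
  · intro h a ha a' ha'
    have := h _ (halve_lt M0 n a') _ (halve_lt M0 n a) _ (Option.mem_map.2 ⟨a', ha', rfl⟩) _
      (Option.mem_map.2 ⟨a, ha, rfl⟩) rfl rfl
    rwa [lineVal_halve, lineVal_halve, ← segLen_succ] at this
  · intro h x _ y _ p hp q hq _ _
    obtain ⟨a', ha', rfl⟩ := Option.mem_map.1 hp
    obtain ⟨a, ha, rfl⟩ := Option.mem_map.1 hq
    rw [lineVal_halve, lineVal_halve, ← segLen_succ]
    exact h a ha a' ha'

/-- All choosing and comparing cells of a tile accept its bundles. -/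
def LinesOk (M : ℕ) (q : Quad) : Prop :=
  (∀ x < M, PickOk (q 2).ox (q 0).ox x) ∧ (∀ y < M, PickOk (q 2).oy (q 3).oy y) ∧
    (∀ a < M, ∀ b < M, CmpOk M (q 2).ox (q 3).ox a b) ∧
    ∀ a < M, ∀ b < M, CmpOk M (q 2).oy (q 0).oy a b

/-- The special cells of a tile check the steps from the left and from below. -/
theorem linesOk_quadOf_iff (w : Win (Tint M0 (n + 1))) :
    LinesOk (segLen M0 n) (quadOf T M0 n w) ↔
      HLine (w (0, 1)).addr (w (1, 1)).addr ∧ VLine (w (1, 0)).addr (w (1, 1)).addr := by
  simp only [LinesOk, quadOf_self, quadOf_left, quadOf_below, choices, forall_pickOk_iff,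
    forall_cmpOk_iff, HLine, VLine]
  tauto

end Lines

/-! ## Bits -/

section Bits

variable {g : ℕ} {allow : Bool → Assign segCount → Prop} {n : ℕ}

/-- The bundle of a column segment of the rows. -/
def classOf (c : Fin 7) : Fin 4 := ![2, 3, 0, 1, 2, 3, 0] c

/-- What one tile's choices show on a lane. -/
noncomputable def laneVal (T : Tables) (M0 n : ℕ) (C : Choices) : Lane segCount → Bool
  | .derived q => dval T M0 n C q
  | l => C.bit (laneAt n l)

/-- What four bundles show to the rows. -/
noncomputable def bitsQ (T : Tables) (M0 n : ℕ) (q : Quad) : Assign segCount :=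
  fun c => laneVal T M0 n (q (classOf c))

theorem tabOK_tablesOf (allow : Bool → Assign g → Prop) : TabOK (tablesOf allow) (m0 g) where
  sym_zero := by
    have h1 : laneOf g 0 = none := Option.eq_none_iff_forall_ne_some.2 fun l h =>
      (laneIdx_pos l).ne (laneOf_eq_some.1 h)
    have h2 : rowOf g 0 = none := Option.eq_none_iff_forall_ne_some.2 fun f h =>
      (rowIdx_pos f).ne (rowOf_eq_some.1 h)
    simp [tablesOf, h1, h2]
  gate_zero j := by
    have h1 : laneOf g 0 = none := Option.eq_none_iff_forall_ne_some.2 fun l h =>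
      (laneIdx_pos l).ne (laneOf_eq_some.1 h)
    simp [tablesOf, h1]
  four_dvd := dvd_mul_right 4 _
  pos := by unfold m0; omega

theorem litOk_bit (op : Bool × Bool) (b : Bool) :
    litOk op (.bit b) = true ↔ ¬ Falsifies op b := by
  obtain ⟨p, q⟩ := op
  cases p <;> cases q <;> cases b <;> simp [litOk, Falsifies]

theorem laneSig_laneAt (C : Choices) (l : Lane segCount) :
    laneSig (tablesOf allow) (m0 segCount) n C l.sym.isSrc (laneAt n l) =
      .bit (laneVal (tablesOf allow) (m0 segCount) n C l) := by
  simp only [laneSig, symAt, side_sym_laneAt]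
  cases l <;> simp [Lane.sym, Sym.derived?, Sym.isSrc, laneVal]

theorem paCol_laneAt (q : Quad) (c : Fin 4) (l : Lane segCount) :
    paCol (tablesOf allow) (m0 segCount) n q c (laneAt n l) =
      .bit (bitsQ (tablesOf allow) (m0 segCount) n q (paGate c) l) := by
  have hc : classOf (paGate c) = paClass c := by fin_cases c <;> rfl
  rw [bitsQ, hc, ← laneSig_laneAt (allow := allow) (n := n) (q (paClass c)) l]
  simp only [paCol, symAt, side_sym_laneAt]
  cases l.sym.isSrc <;> simp

theorem prCol_laneAt (q : Quad) (c : Fin 3) (l : Lane segCount)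
    (hv : l.vis (prGate c) = true) :
    prCol (tablesOf allow) (m0 segCount) n q c (laneAt n l) =
      .bit (bitsQ (tablesOf allow) (m0 segCount) n q (prGate c) l) := by
  have hc : classOf (prGate c) = prClass c := by fin_cases c <;> rfl
  have hs : l.sym.isSrc = true := Sym.isSrc_of_vis_event hv
  rw [bitsQ, hc, ← laneSig_laneAt (allow := allow) (n := n) (q (prClass c)) l, hs]
  simp only [prCol, symAt, side_sym_laneAt]
  simp only [Lane.vis] at hv
  simp [hv]

theorem rowAt_lt (f : Assign g) : rowAt n f < segLen (m0 g) n := by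
  have := rowAt_add_gap_le n f
  have := gap_pos n
  omega

/-- An address row ends true iff it fires. -/
theorem maTruth_rowAt (q : Quad) (f : Assign segCount) {x : ℕ}
    (hx : x + 1 = segLen (m0 segCount) n) :
    maTruth (tablesOf allow) (m0 segCount) n q (rowAt n f) (.pa 3) x = true ↔
      Fires allow f (bitsQ (tablesOf allow) (m0 segCount) n q) true := by
  simp only [maTruth, decide_eq_true_eq, Fires]
  constructor
  · intro h c l hc
    by_cases hv : l.vis c = true
    · have hc' : c.val < 4 := by simpa [inA] using hc
      have he : paGate ⟨c.val, hc'⟩ = c := rfl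
      have hlt : laneAt n l < segLen (m0 segCount) n := by
        have := laneAt_add_gap_lt n l
        omega
      have := h ⟨c.val, hc'⟩ (laneAt n l) hlt
        (by rw [sinceX_iff]; simp only [XSeg.index, show ((3 : Fin 4) : ℕ) = 3 from rfl]; omega)
        (by simp only [symAt, side_sym_laneAt, he]; exact hv)
      rwa [paCol_laneAt, litOk_bit, gate_laneAt_rowAt, he] at this
    · simp [rowOp, Falsifies, hv]
  · intro h c z _ _ hv
    simp only [symAt] at hv
    obtain ⟨l, rfl⟩ := exists_lane_of_side_sym allow n z (fun e => by simp [e, Sym.vis] at hv)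
      (fun e => by simp [e, Sym.vis] at hv)
    rw [paCol_laneAt, litOk_bit, gate_laneAt_rowAt]
    exact h _ l (by simp [inA, paGate])

/-- An event row ends true iff it fires. -/
theorem mrTruth_rowAt (q : Quad) (f : Assign segCount) {x : ℕ}
    (hx : x + 1 = segLen (m0 segCount) n) :
    mrTruth (tablesOf allow) (m0 segCount) n q (rowAt n f) (.pr 2) x = true ↔
      Fires allow f (bitsQ (tablesOf allow) (m0 segCount) n q) false := by
  simp only [mrTruth, decide_eq_true_eq, Fires]
  constructor
  · intro h c l hc
    by_cases hv : l.vis c = true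
    · have hc' : 4 ≤ c.val := by simpa [inA] using hc
      have he : prGate ⟨c.val - 4, by omega⟩ = c := Fin.ext (by simp [prGate]; omega)
      have hlt : laneAt n l < segLen (m0 segCount) n := by
        have := laneAt_add_gap_lt n l
        omega
      have := h ⟨c.val - 4, by omega⟩ (laneAt n l) hlt
        (by rw [sinceX_iff]; simp only [XSeg.index, show ((2 : Fin 3) : ℕ) = 2 from rfl]; omega)
        (by simp only [symAt, side_sym_laneAt, he]; exact hv)
      rwa [prCol_laneAt _ _ _ (by rw [he]; exact hv), litOk_bit, gate_laneAt_rowAt, he] at this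
    · simp [rowOp, Falsifies, hv]
  · intro h c z _ _ hv
    simp only [symAt] at hv
    obtain ⟨l, rfl⟩ := exists_lane_of_side_sym allow n z (fun e => by simp [e, Sym.vis] at hv)
      (fun e => by simp [e, Sym.vis] at hv)
    rw [side_sym_laneAt] at hv
    rw [prCol_laneAt _ _ _ hv, litOk_bit, gate_laneAt_rowAt]
    exact h _ l (by simp [inA, prGate])

end Bits

section Level

variable {n : ℕ}


/-- The rows of a tile all end false. -/
def RowsOk (n : ℕ) (q : Quad) : Prop :=
  ∀ y < segLen (m0 segCount) n, symAt (tables layoutKind) (m0 segCount) n y = .mrow →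
    maTruth (tables layoutKind) (m0 segCount) n q y (.pa 3) (segLen (m0 segCount) n - 1) = false ∧
      mrTruth (tables layoutKind) (m0 segCount) n q y (.pr 2) (segLen (m0 segCount) n - 1) = false

theorem rowsOk_iff (q : Quad) :
    RowsOk n q ↔ ∀ A, allowOf layoutKind A ((bitsQ (tables layoutKind) (m0 segCount) n q).mask A) := by
  have hM : segLen (m0 segCount) n - 1 + 1 = segLen (m0 segCount) n := by
    have := (tabOK_tablesOf (g := segCount) (allowOf layoutKind)).len_pos n
    omega
  simp only [← forall_not_fires_iff]
  constructor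
  · intro h A f
    have hy := h (rowAt n f) (rowAt_lt f) (side_sym_rowAt _ n f)
    simp only [tables] at hy ⊢
    cases A
    · rw [← mrTruth_rowAt _ f hM, hy.2]; simp
    · rw [← maTruth_rowAt _ f hM, hy.1]; simp
  · intro h y _ hs
    obtain ⟨f, rfl⟩ := exists_row_of_side_sym _ n y hs
    simp only [tables] at h ⊢
    constructor
    · simpa only [← maTruth_rowAt _ f hM, Bool.not_eq_true] using h true f
    · simpa only [← mrTruth_rowAt _ f hM, Bool.not_eq_true] using h false f

/-- The derived lanes show the static symbols of the parent. -/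
theorem dval_choices (T : Tables) (M0 : ℕ) (c : Tint M0 (n + 1)) (q : Fin 40) :
    dval T M0 n (choices T M0 n c) q = (descOf T M0 (n + 1) c.addr).derived q.val := by
  have hy : ∀ r, sinceY .my r .kt 0 := fun r => by
    rw [sinceY_iff]; exact Or.inl (show 6 < 19 + 2 * benchCard by omega)
  have hcr : ∀ a b : Fin (segLen M0 (n + 1)),
      (T.crossAt n (halve a).1 (halve b).1).sub (halve a).2 (halve b).2 =
        T.crossAt (n + 1) a.val b.val := fun a b => by
    rw [← Tables.crossAt_succ, ← halve_spec, ← halve_spec]
  obtain ⟨addr, h, v⟩ := c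
  cases addr <;>
    simp only [dval, derX, derY, colLine, choices, descOf, Addr.xoff, Addr.yoff, Desc.derived,
      Desc.x?, Desc.y?, Desc.cross?, Option.map_some, Option.map_none, Option.bind_some,
      Option.bind_none, if_true, hy, predX_eq, predY_eq, ← halve_spec, hcr, Tables.loc,
      Option.any_some, Option.any_none, Option.isSome_some, Option.isSome_none] <;>
    repeat' split
  all_goals first
    | omega
    | simp

theorem bitsQ_quadOf (w : Win (Tint (m0 segCount) (n + 1))) :
    bitsQ (tables layoutKind) (m0 segCount) n (quadOf (tables layoutKind) (m0 segCount) n w) = bitsW layoutKind (tables layoutKind) (m0 segCount) (n + 1) w := by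
  funext c l
  have e : quadOf (tables layoutKind) (m0 segCount) n w (classOf c) = choices (tables layoutKind) (m0 segCount) n (w (cellOf c)) := by
    fin_cases c <;> rfl
  simp only [bitsQ, bitsW, e]
  cases l with
  | derived q => exact dval_choices _ _ _ q
  | segA s =>
    simp only [laneVal]
    rw [choices_bit_laneAt]
  | segB s =>
    simp only [laneVal]
    rw [choices_bit_laneAt]
  | kind k =>
    simp only [laneVal]
    rw [choices_bit_laneAt]
  | outH a =>
    simp only [laneVal]
    rw [choices_bit_laneAt]
  | outV a =>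
    simp only [laneVal]
    rw [choices_bit_laneAt]

/-- **The parent rules.** A window of parents obeys the rules iff the rows of its tile end false
and its lines step correctly. -/
theorem mem_rules_succ_iff (w : Win (Tint (m0 segCount) (n + 1))) :
    w ∈ rules (tables layoutKind) (m0 segCount) (n + 1) ↔
      RowsOk n (quadOf (tables layoutKind) (m0 segCount) n w) ∧
        (∀ j, HLine (w (0, j)).addr (w (1, j)).addr) ∧
          ∀ i, VLine (w (i, 0)).addr (w (i, 1)).addr := by
  rw [rules, mem_windows_iff, rowsOk_iff, bitsQ_quadOf, Bool.forall_bool]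
  tauto

/-- The tile of a rule window accepts its bundles. -/
theorem linesOk_of_mem_rules {w : Win (Tint (m0 segCount) (n + 1))} (h : w ∈ rules (tables layoutKind) (m0 segCount) (n + 1)) :
    LinesOk (segLen (m0 segCount) n) (quadOf (tables layoutKind) (m0 segCount) n w) ∧ RowsOk n (quadOf (tables layoutKind) (m0 segCount) n w) := by
  obtain ⟨h1, h2, h3⟩ := (mem_rules_succ_iff w).1 h
  exact ⟨(linesOk_quadOf_iff w).2 ⟨h2 1, h3 1⟩, h1⟩

/-- Two choices that no cell of a tile can tell apart. -/
def Choices.Same (n : ℕ) (C C' : Choices) : Prop :=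
  C.ox = C'.ox ∧ C.oy = C'.oy ∧
    ∀ z, (symAt (tables layoutKind) (m0 segCount) n z).isSrc = true → C.bit z = C'.bit z

/-- A colour is determined by its choices. -/
theorem eq_of_same_choices {c c' : Tint (m0 segCount) (n + 1)}
    (h : (choices (tables layoutKind) (m0 segCount) n c).Same n (choices (tables layoutKind) (m0 segCount) n c')) : c = c' := by
  obtain ⟨hx, hy, hb⟩ := h
  have hl : ∀ l : Lane segCount, l.sym.isSrc = true →
      colourBits layoutKind (tables layoutKind) (m0 segCount) (n + 1) c l = colourBits layoutKind (tables layoutKind) (m0 segCount) (n + 1) c' l :=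
    fun l hs => by
      rw [← choices_bit_laneAt, ← choices_bit_laneAt]
      exact hb _ (by simp only [symAt, tables, side_sym_laneAt]; exact hs)
  have ex : c.addr.xoff = c'.addr.xoff := Option.map_injective (halve_injective _) hx
  have ey : c.addr.yoff = c'.addr.yoff := Option.map_injective (halve_injective _) hy
  have eh : c.h = c'.h := by simpa [colourBits] using hl (.outH c'.h) rfl
  have ev : c.v = c'.v := by simpa [colourBits] using hl (.outV c'.v) rfl
  have ha : c.addr = c'.addr := by
    obtain ⟨A, h₁, v₁⟩ := c
    obtain ⟨A', h₂, v₂⟩ := c'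
    cases A <;> cases A' <;>
      simp only [Addr.xoff, Addr.yoff, Option.some.injEq, reduceCtorEq] at ex ey ⊢
    · simp [ex]
    · simp [ey]
    · rename_i sA oA sB oB sA' oA' sB' oB'
      have h1 : sA' = sA := by
        simpa [colourBits, Desc.code, descOf] using (hl (.segA sA) rfl).symm
      have h2 : sB' = sB := by
        simpa [colourBits, Desc.code, descOf] using (hl (.segB sB) rfl).symm
      simp [ex, ey, h1, h2]
  cases c; cases c'; simp_all

/-- Choices whose rows end false are those of a colour. -/
theorem exists_colour {q : Quad} (hR : q.InRange (segLen (m0 segCount) n)) (h : RowsOk n q) :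
    ∃ c : Tint (m0 segCount) (n + 1), (choices (tables layoutKind) (m0 segCount) n c).Same n (q 2) := by
  have hA := (rowsOk_iff q).1 h
  obtain ⟨d, hd, -, -⟩ := hA true
  obtain ⟨e, -, he⟩ := hA false
  have hd' := (Assign.mask_eq_iff _ _ _).1 hd
  have he' := (Assign.mask_eq_iff _ _ _).1 he
  set C := q 2 with hC
  have lanesA : ∀ l : Lane segCount, l.vis 0 = true →
      Desc.code layoutKind (d (1, 1)) l = laneVal (tables layoutKind) (m0 segCount) n C l := fun l hv => hd' 0 l rfl hv
  have eh : ∀ a, decide (e.h = a) = laneVal (tables layoutKind) (m0 segCount) n C (.outH a) := fun a => by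
    simpa [eventAssign, bitsQ, classOf] using he' 4 (.outH a) rfl rfl
  have ev : ∀ a, decide (e.v = a) = laneVal (tables layoutKind) (m0 segCount) n C (.outV a) := fun a => by
    simpa [eventAssign, bitsQ, classOf] using he' 4 (.outV a) rfl rfl
  have hlt : ∀ p : ℕ × Bool, p.1 < segLen (m0 segCount) n → lineVal p < segLen (m0 segCount) (n + 1) := by
    rintro ⟨p, u⟩ hp
    rw [segLen_succ]; cases u <;> simp [lineVal] at hp ⊢ <;> omega
  have hh : ∀ (p : ℕ × Bool) (hp : p.1 < segLen (m0 segCount) n),
      halve (⟨lineVal p, hlt p hp⟩ : Fin (segLen (m0 segCount) (n + 1))) = p := by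
    rintro ⟨p, u⟩ hp
    cases u <;> simp [halve, lineVal] <;> omega
  have dx : (d (1, 1)).derived 37 = dval (tables layoutKind) (m0 segCount) n C 37 := lanesA (.derived 37) rfl
  have dy : (d (1, 1)).derived 38 = dval (tables layoutKind) (m0 segCount) n C 38 := lanesA (.derived 38) rfl
  have px : (d (1, 1)).x?.isSome = C.ox.isSome := by
    rw [show (d (1, 1)).derived 37 = (d (1, 1)).x?.isSome by simp [Desc.derived]] at dx
    rw [dx]
    rcases hx : C.ox with _ | p <;> rcases hy : C.oy with _ | r <;>
      simp [dval, derX, derY, hx, hy, colLine, predX, predY]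
  have py : (d (1, 1)).y?.isSome = C.oy.isSome := by
    rw [show (d (1, 1)).derived 38 = (d (1, 1)).y?.isSome by simp [Desc.derived]] at dy
    rw [dy]
    rcases hx : C.ox with _ | p <;> rcases hy : C.oy with _ | r <;>
      simp [dval, derX, derY, hx, hy, colLine, predX, predY]
  -- the address
  obtain ⟨A, hAx, hAy, hAs⟩ : ∃ A : Addr segCount (segLen (m0 segCount) (n + 1)),
      A.xoff.map halve = C.ox ∧ A.yoff.map halve = C.oy ∧
        match A, d (1, 1) with
        | .band _, .band _ => True
        | .bandP _, .bandP _ => True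
        | .full sA _ sB _, .full sA' sB' _ => sA = sA' ∧ sB = sB'
        | _, _ => False := by
    cases hd0 : d (1, 1) <;> rw [hd0] at px py <;>
      rcases hx : C.ox with _ | p <;> rcases hy : C.oy with _ | r <;>
      simp [hx, hy, Desc.x?, Desc.y?] at px py
    · exact ⟨.band ⟨lineVal p, hlt p ((hR 2).1 p hx)⟩, by simp [Addr.xoff, hh _ ((hR 2).1 p hx)],
        rfl, trivial⟩
    · exact ⟨.bandP ⟨lineVal r, hlt r ((hR 2).2 r hy)⟩, rfl,
        by simp [Addr.yoff, hh _ ((hR 2).2 r hy)], trivial⟩
    · rename_i sA sB l
      exact ⟨.full sA ⟨lineVal p, hlt p ((hR 2).1 p hx)⟩ sB ⟨lineVal r, hlt r ((hR 2).2 r hy)⟩,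
        by simp [Addr.xoff, hh _ ((hR 2).1 p hx)], by simp [Addr.yoff, hh _ ((hR 2).2 r hy)],
        rfl, rfl⟩
  refine ⟨⟨A, e.h, e.v⟩, hAx, hAy, fun z hz => ?_⟩
  have hdv : ∀ k : Fin 40,
      dval (tables layoutKind) (m0 segCount) n (choices (tables layoutKind) (m0 segCount) n ⟨A, e.h, e.v⟩) k = dval (tables layoutKind) (m0 segCount) n C k := fun k => by
    simp only [dval, derX, derY, colLine, choices, hAx, hAy]
  have hdesc : descOf (tables layoutKind) (m0 segCount) (n + 1) A = d (1, 1) := by
    refine Desc.code_injective (fun _ _ _ => Kind.blank) (funext fun l => ?_)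
    cases l with
    | derived k =>
      show (descOf (tables layoutKind) (m0 segCount) (n + 1) A).derived k.val = _
      have e1 := dval_choices (tables layoutKind) (m0 segCount) (⟨A, e.h, e.v⟩ : Tint (m0 segCount) (n + 1)) k
      rw [hdv] at e1
      rw [← e1]
      exact (lanesA (.derived k) rfl).symm
    | segA s => cases A <;> cases hd0 : d (1, 1) <;> simp_all [Desc.code, descOf]
    | segB s => cases A <;> cases hd0 : d (1, 1) <;> simp_all [Desc.code, descOf]
    | kind k =>
      cases A <;> cases hd0 : d (1, 1) <;> simp_all [Desc.code, descOf, Desc.kind] <;> rfl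
    | outH a => rfl
    | outV a => rfl
  have hne : ∀ r : Sym, r.isSrc = false →
      ((tablesOf (allowOf layoutKind)).side (m0 segCount) n z).sym ≠ r := fun r hr e => by
    simp only [symAt, tables] at hz
    rw [e, hr] at hz
    simp at hz
  obtain ⟨l, rfl⟩ : ∃ l : Lane segCount, z = laneAt n l :=
    exists_lane_of_side_sym (allowOf layoutKind) n z (hne _ rfl) (hne _ rfl)
  rw [choices_bit_laneAt]
  simp only [symAt, tables, side_sym_laneAt] at hz
  cases l with
  | derived k => simp [Lane.sym, Sym.isSrc] at hz
  | segA s => simpa [colourBits, hdesc, laneVal] using lanesA (.segA s) rfl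
  | segB s => simpa [colourBits, hdesc, laneVal] using lanesA (.segB s) rfl
  | kind k => simpa [colourBits, hdesc, laneVal] using lanesA (.kind k) rfl
  | outH a => simpa [colourBits, laneVal] using eh a
  | outV a => simpa [colourBits, laneVal] using ev a

end Level

end Vale.Agent.P196.W
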