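import Vale.Agent.P196.W.BlockExpand
import Vale.Agent.P196.W.Compact
import Vale.Agent.P196.W.Conditions

/-!
# P196: every block of the layout recurs

Three offsets fix a block whatever stands three levels higher: the residue in its tile, and one
level up either a bench (for an event or for four pairs of channels) or the residues of the four
parents, together with, one more level up, what gives their one channel.
-/

namespace Vale.Agent.P196.W

open Sft

noncomputable section

variable {T : Tables} {M0 : ℕ} [NeZero M0]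

/-- What a bench shows at the four cells around its centre. -/
def Bench.shows : Bench → Corner
  | .inl e, d => if d = (0, 1) then (e.1.hL, .none) else if d = (1, 0) then (.none, e.1.vB)
      else if d = (1, 1) then (e.1.h, e.1.v) else (.none, .none)
  | .inr c, d => c d

/-- A residue at which the window of children shows a bench. -/
theorem exists_bench (H : TabOK T M0) (n : ℕ) (b : Bench) : ∃ ρ : Cell,
    ∀ (v : Cell) (U : Cell → Tint M0 (n + 1)),
      (∀ d, ((windowAt (expand (side segCount (segLen M0 n)) (drawTile T M0 n) (v - ρ) U)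
          (v.1 - 1, v.2 - 1) d).h,
        (windowAt (expand (side segCount (segLen M0 n)) (drawTile T M0 n) (v - ρ) U)
          (v.1 - 1, v.2 - 1) d).v) = b.shows d) ∧
      ∀ e, b = .inl e → winEvent layoutKind (locF T M0 n)
        (windowAt (expand (side segCount (segLen M0 n)) (drawTile T M0 n) (v - ρ) U)
          (v.1 - 1, v.2 - 1)) = e.1 := by
  have hM := four_le_segLen (n := n) H
  obtain ⟨t, rfl⟩ := benchEquiv.symm.surjective b
  let off : Fin 2 → Fin (segLen M0 n) := fun i =>
    if i = 0 then ⟨segLen M0 n - 1, by omega⟩ else ⟨0, by omega⟩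
  refine ⟨((xlin (segLen M0 n) (.bench t 1) 0 : ℕ), (ylin (segLen M0 n) (.bench t 1) 0 : ℕ)),
    fun v U => ?_⟩
  generalize hw : windowAt (expand (side segCount (segLen M0 n)) (drawTile T M0 n)
    (v - (((xlin (segLen M0 n) (.bench t 1) 0 : ℕ) : ℤ),
      ((ylin (segLen M0 n) (.bench t 1) 0 : ℕ) : ℤ))) U) (v.1 - 1, v.2 - 1) = w
  have key : ∀ i j : Fin 2, ∃ w', w (i, j) = drawTile T M0 n w'
      (pos (xSegEquiv (.bench t i)) (off i)) (pos (ySegEquiv (.bench t j)) (off j)) := by
    intro i j
    have lx := ord_lt_tsize (pos_lt (xSegEquiv (.bench t i)) (off i) :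
      pos (xSegEquiv (.bench t i)) (off i) < segCount * segLen M0 n)
    have ly := ord_lt_tsize (pos_lt (ySegEquiv (.bench t j)) (off j) :
      pos (ySegEquiv (.bench t j)) (off j) < segCount * segLen M0 n)
    have ex : (v.1 - 1 + (i.val : ℤ) - (v.1 - (xlin (segLen M0 n) (.bench t 1) 0 : ℕ))) =
        (pos (xSegEquiv (.bench t i)) (off i) : ℕ) := by
      rw [pos_xSegEquiv]
      have hp := XPred.xlin_succ (M := segLen M0 n) (X' := .bench t 0) (x' := segLen M0 n - 1)
        (X := .bench t 1) (x := 0) (Or.inr ⟨by simp [XSeg.index]; omega, rfl, by omega⟩)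
      fin_cases i <;> simp [off] <;> omega
    have ey : (v.2 - 1 + (j.val : ℤ) - (v.2 - (ylin (segLen M0 n) (.bench t 1) 0 : ℕ))) =
        (pos (ySegEquiv (.bench t j)) (off j) : ℕ) := by
      rw [pos_ySegEquiv]
      have hp := YPred.ylin_succ (M := segLen M0 n) (Y' := .bench t 0) (y' := segLen M0 n - 1)
        (Y := .bench t 1) (y := 0) (Or.inr ⟨by simp [YSeg.index]; omega, rfl, by omega⟩)
      fin_cases j <;> simp [off] <;> omega
    refine ⟨windowAt U (-1, -1), ?_⟩
    rw [← hw]
    simp only [windowAt, expand, Prod.fst_sub, Prod.snd_sub]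
    rw [ex, ey, Int.ediv_eq_zero_of_lt (by positivity) (by unfold tsize at lx; omega),
      Int.ediv_eq_zero_of_lt (by positivity) (by unfold tsize at ly; omega),
      Int.emod_eq_of_lt (by positivity) (by unfold tsize at lx; omega),
      Int.emod_eq_of_lt (by positivity) (by unfold tsize at ly; omega), Int.toNat_natCast,
      Int.toNat_natCast, zero_sub]
  have o0 : (off 0).val = segLen M0 n - 1 := rfl
  have o1 : (off 1).val = 0 := rfl
  have m1 : segLen M0 n - 1 + 1 = segLen M0 n := by omega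
  have m2 : segLen M0 n - 1 ≠ 0 := by omega
  have m3 : 1 ≠ segLen M0 n := by omega
  have sig : ∀ d, ((w d).h, (w d).v) = (benchEquiv.symm t).shows d := by
    rintro ⟨i, j⟩
    obtain ⟨w', e⟩ := key i j
    obtain ⟨e1, e2⟩ := sig_named T M0 n (quadOf T M0 n w') (.bench t i) (off i) (.bench t j) (off j)
    rw [e]
    simp only [drawTile, e1, e2, rawH, rawV, if_true, Prod.mk.eta]
    cases benchEquiv.symm t <;> fin_cases i <;> fin_cases j <;>
      simp only [Fin.mk_one, Fin.zero_eta] <;>
      simp [Bench.out, Bench.shows, locAt, Tables.loc, Tables.side, o0, o1, m1, m2, m3]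
  refine ⟨sig, fun e he => ?_⟩
  obtain ⟨w', hk⟩ := key 1 1
  have k1 : kindAt layoutKind (locF T M0 n) (w (1, 1)).addr = e.1.kind := by
    rw [hk]
    simp only [drawTile, kindAt_named, kindOn, if_true, he]
    simp [Bench.kind, Tables.loc, Tables.side, o1, m3]
  have s0 := sig (0, 1)
  have s1 := sig (1, 0)
  have s2 := sig (1, 1)
  simp [he, Bench.shows] at s0 s1 s2
  simp [winEvent, k1, s0, s1, s2]

/-- The lanes stand where the tables say. -/
abbrev LanesOK (T : Tables) (M0 : ℕ) : Prop :=
  ∀ n (l : Lane segCount), symAt T M0 n (laneAt n l) = l.sym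

variable (T M0) in
/-- The drawing of level `n`. -/
abbrev down (n : ℕ) (o : Cell) (U : Cell → Tint M0 (n + 1)) : Cell → Tint M0 n :=
  expand (side segCount (segLen M0 n)) (drawTile T M0 n) o U

/-- Whatever stands above, some offset gives the event of a legal window. -/
theorem realise_event (H : TabOK T M0) (hL : LanesOK T M0) (m : ℕ)
    {W : Win (Tint M0 (m + 1))} (hW : W ∈ rules T M0 (m + 1)) (v : Cell) : ∃ o, ∀ R,
    EqE T M0 m (quadOf T M0 m (windowAt (down T M0 (m + 1) o R) (v.1 - 1, v.2 - 1)))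
      (quadOf T M0 m W) := by
  obtain ⟨ρ, hρ⟩ := exists_bench H (m + 1)
    (.inl ⟨winEvent layoutKind (locF T M0 (m + 1)) W, hW.2.2⟩)
  exact ⟨v - ρ, fun R => eqE_of_event (hL m) ((hρ v R).2 _ rfl)⟩

/-- Whatever stands above, some offset gives the channels of a window. -/
theorem realise_channels (H : TabOK T M0) (hL : LanesOK T M0) (m : ℕ)
    (W : Win (Tint M0 (m + 1))) (v : Cell) : ∃ o, ∀ R,
    EqR T M0 m (quadOf T M0 m (windowAt (down T M0 (m + 1) o R) (v.1 - 1, v.2 - 1)))
      (quadOf T M0 m W) := by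
  obtain ⟨ρ, hρ⟩ := exists_bench H (m + 1) (.inr fun d => ((W d).h, (W d).v))
  exact ⟨v - ρ, fun R => eqR_of_chan (hL m) (fun d => congrArg Prod.fst ((hρ v R).1 d))
    fun d => congrArg Prod.snd ((hρ v R).1 d)⟩

/-- Addresses do not depend on what stands above. -/
theorem down_addr (m : ℕ) (o : Cell) (U U' : Cell → Tint M0 (m + 1)) (c : Cell) :
    (down T M0 m o U c).addr = (down T M0 m o U' c).addr := rfl

/-- A function of a window that reads addresses, or the event, or channels is given by an offset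
one level up. -/
theorem exists_offset_one (H : TabOK T M0) (hL : LanesOK T M0) (m : ℕ) {α : Type}
    (f : Quad → α)
    (hf : (∀ q q', EqA T M0 m q q' → f q = f q') ∨ (∀ q q', EqE T M0 m q q' → f q = f q') ∨
      ∀ q q', EqR T M0 m q q' → f q = f q')
    (o' : Cell) (U' : Cell → Tint M0 (m + 2)) (hU : Legal (rules T M0 (m + 1)) (down T M0 (m + 1) o' U'))
    (v : Cell) : ∃ o, ∀ R,
    f (quadOf T M0 m (windowAt (down T M0 (m + 1) o R) (v.1 - 1, v.2 - 1))) =
      f (quadOf T M0 m (windowAt (down T M0 (m + 1) o' U') (v.1 - 1, v.2 - 1))) := by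
  rcases hf with h | h | h
  · exact ⟨o', fun R => h _ _ (eqA_of_addr (hL m) fun d => down_addr _ _ _ _ _)⟩
  · obtain ⟨o, ho⟩ := realise_event H hL m (hU (v.1 - 1, v.2 - 1)) v
    exact ⟨o, fun R => h _ _ (ho R)⟩
  · obtain ⟨o, ho⟩ := realise_channels H hL m
      (windowAt (down T M0 (m + 1) o' U') (v.1 - 1, v.2 - 1)) v
    exact ⟨o, fun R => h _ _ (ho R)⟩

/-- One channel of a drawn cell is given by an offset one level up. -/
theorem exists_offset_chan (H : TabOK T M0) (hL : LanesOK T M0) (m : ℕ) (ch : Bool) (o : Cell)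
    (o' : Cell) (U' : Cell → Tint M0 (m + 2)) (hU : Legal (rules T M0 (m + 1)) (down T M0 (m + 1) o' U'))
    (u : Cell) : ∃ o₂, ∀ R,
    (if ch then (down T M0 m o (down T M0 (m + 1) o₂ R) u).v
      else (down T M0 m o (down T M0 (m + 1) o₂ R) u).h) =
    (if ch then (down T M0 m o (down T M0 (m + 1) o' U') u).v
      else (down T M0 m o (down T M0 (m + 1) o' U') u).h) := by
  have e : ∀ U : Cell → Tint M0 (m + 1), down T M0 m o U u = haloCell T M0 m
      (quadOf T M0 m (windowAt U ((u.1 - o.1) / (side segCount (segLen M0 m) : ℤ) - 1,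
        (u.2 - o.2) / (side segCount (segLen M0 m) : ℤ) - 1)))
      ((u.1 - o.1) % (side segCount (segLen M0 m) : ℤ) + 0)
      ((u.2 - o.2) % (side segCount (segLen M0 m) : ℤ) + 0) := fun U => by
    rw [← expand_block H o U u (by norm_num) le_rfl (by norm_num) le_rfl, add_zero, add_zero]
  simp only [e, haloCell]
  cases ch
  · exact exists_offset_one H hL m (fun q => hSig T M0 m q _ _) (hSig_cases T M0 m _ _) o' U' hU
      ((u.1 - o.1) / (side segCount (segLen M0 m) : ℤ),
        (u.2 - o.2) / (side segCount (segLen M0 m) : ℤ))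
  · exact exists_offset_one H hL m (fun q => vSig T M0 m q _ _)
      ((vSig_cases T M0 m _ _).imp_right Or.inr) o' U' hU
      ((u.1 - o.1) / (side segCount (segLen M0 m) : ℤ),
        (u.2 - o.2) / (side segCount (segLen M0 m) : ℤ))

/-- **Blocks are determined by three offsets.** -/
theorem blockChain (H : TabOK T M0) (hL : LanesOK T M0)
    (hP : HasParent (rules T M0) (fun n => side segCount (segLen M0 n))
      (fun n => drawTile T M0 n)) :
    BlockChain (rules T M0) (fun n => side segCount (segLen M0 n))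
      (fun n => drawTile T M0 n) := by
  intro n T₀ hT₀
  obtain ⟨o, T₁, hT₁, rfl⟩ := hP n T₀ hT₀
  obtain ⟨o', T₂, hT₂, rfl⟩ := hP (n + 1) T₁ hT₁
  obtain ⟨o'', T₃, hT₃, rfl⟩ := hP (n + 2) T₂ hT₂
  dsimp only at hT₁ hT₂ ⊢
  have hZ : (0 : ℤ) < side segCount (segLen M0 n) := by exact_mod_cast side_pos
  set a := (0 - o.1) % (side segCount (segLen M0 n) : ℤ) with ha
  set b := (0 - o.2) % (side segCount (segLen M0 n) : ℤ) with hb
  let P : Cell := ((0 - o.1) / (side segCount (segLen M0 n) : ℤ),
    (0 - o.2) / (side segCount (segLen M0 n) : ℤ))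
  let w₁ := windowAt (down T M0 (n + 1) o' (down T M0 (n + 2) o'' T₃)) (P.1 - 1, P.2 - 1)
  suffices ∃ o₁ o₂, ∀ R, BlockEq T M0 n a b
      (quadOf T M0 n (windowAt (down T M0 (n + 1) o₁ (down T M0 (n + 2) o₂ R)) (-1, -1)))
      (quadOf T M0 n w₁) by
    obtain ⟨o₁, o₂, h⟩ := this
    refine ⟨(-a, -b), o₁, o₂, fun R _ c c1 c2 c3 c4 => ?_⟩
    have e1 := expand_block H (-a, -b) (down T M0 (n + 1) o₁ (down T M0 (n + 2) o₂ R)) (0, 0)
      c1 c2 c3 c4
    have e2 := expand_block H o (down T M0 (n + 1) o' (down T M0 (n + 2) o'' T₃)) (0, 0)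
      c1 c2 c3 c4
    simp only [zero_add, zero_sub, neg_neg] at e1 e2
    simp only [zero_sub] at ha hb
    rw [← ha, ← hb] at e2
    have la := Int.emod_lt_of_pos (-o.1) hZ
    have lb := Int.emod_lt_of_pos (-o.2) hZ
    have na := Int.emod_nonneg (-o.1) hZ.ne'
    have nb := Int.emod_nonneg (-o.2) hZ.ne'
    rw [Int.ediv_eq_zero_of_lt (by omega) (by omega), Int.ediv_eq_zero_of_lt (by omega) (by omega),
      Int.emod_eq_of_lt (by omega) (by omega), Int.emod_eq_of_lt (by omega) (by omega),
      zero_sub] at e1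
    rw [e1, e2]
    obtain ⟨k1, k2⟩ := h R (a + c.1) (b + c.2) (by omega) (by omega) (by omega) (by omega)
    simp only [haloCell, Colour.mk.injEq, true_and]
    simp only [w₁, P, zero_sub] at k1 k2
    exact ⟨k1, k2⟩
  rcases block_cases H a b (n := n) with h | h | ⟨d, ch, h⟩
  · obtain ⟨o₁, ho⟩ := realise_event H hL n
      (hT₁ (P.1 - 1, P.2 - 1) : w₁ ∈ rules T M0 (n + 1)) (0, 0)
    exact ⟨o₁, 0, fun R => h _ _ (ho _)⟩
  · obtain ⟨o₁, ho⟩ := realise_channels H hL n w₁ (0, 0)
    exact ⟨o₁, 0, fun R => h _ _ (ho _)⟩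
  · obtain ⟨o₂, ho⟩ := exists_offset_chan H hL (n + 1) ch o' o'' T₃ hT₂
      (P.1 - 1 + ((quadCell d).1.val : ℤ), P.2 - 1 + ((quadCell d).2.val : ℤ))
    have shift : ∀ (U : Cell → Tint M0 (n + 2)) (e : Fin 2 × Fin 2),
        windowAt (down T M0 (n + 1) (o'.1 - P.1, o'.2 - P.2) U) (-1, -1) e =
          down T M0 (n + 1) o' U (P.1 - 1 + (e.1.val : ℤ), P.2 - 1 + (e.2.val : ℤ)) := fun U e => by
      simp only [windowAt, down, expand]
      ring_nf
    refine ⟨(o'.1 - P.1, o'.2 - P.2), o₂, fun R => h _ _ (eqA_of_addr (hL n) fun e => ?_)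
      (eqSlot_of_chan (hL n) ?_)⟩
    · rw [shift]
      rfl
    · rw [shift]
      exact ho R

/-- **Blocks recur**, given that every legal tiling has parents. -/
theorem mixes_layout (H : TabOK T M0) (hL : LanesOK T M0)
    (hP : HasParent (rules T M0) (fun n => side segCount (segLen M0 n))
      (fun n => drawTile T M0 n))
    (n : ℕ) (U t : Cell → Tint M0 n) (hU : Legal (rules T M0 n) U) (ht : Legal (rules T M0 n) t) :
    ∃ u : Cell, ∀ c : Cell, -2 ≤ c.1 → c.1 ≤ 0 → -2 ≤ c.2 → c.2 ≤ 0 → t (u + c) = U c :=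
  mixes_of_blockChain _ _ _ (fun _ => side_pos) hP (blockChain H hL hP) n U t hU ht

/-- The lanes of the tables stand where they say. -/
theorem lanesOK_tablesOf (allow : Bool → Assign segCount → Prop) :
    LanesOK (tablesOf allow) (m0 segCount) :=
  fun n l => side_sym_laneAt allow n l

end

end Vale.Agent.P196.W
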