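import Vale.Agent.P196.W.BlockExpand
import Vale.Agent.P196.W.Band
import Vale.Agent.P196.W.Mixes
import Vale.Agent.P196.Span.One

/-!
# P196: the layout satisfies Halo, Corner and Classes, hence Span0 and Span1

The cells of a tile and of its margin are `hSig` and `vSig` of the bundles of one window, so the
classes of blocks give the classes of child windows.
-/

namespace Vale.Agent.P196.W

open Sft Sft.MacroSystem

noncomputable section

variable {T : Tables} {M0 : ℕ} [NeZero M0]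
  {h1 : ∀ n, ∃ t, Legal (rules T M0 n) t}
  {h2 : ∀ n o U, Legal (rules T M0 (n + 1)) U →
      Legal (rules T M0 n) (expand (side segCount (segLen M0 n)) (drawTile T M0 n) o U)}
  {h3 : ∀ n t, Legal (rules T M0 n) t →
      ∃! p : (Fin (side segCount (segLen M0 n)) × Fin (side segCount (segLen M0 n))) ×
        (Cell → Tint M0 (n + 1)),
      Legal (rules T M0 (n + 1)) p.2 ∧ t = expand (side segCount (segLen M0 n)) (drawTile T M0 n)
        ((p.1.1.val : ℤ), (p.1.2.val : ℤ)) p.2}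
  {h4 : ∀ n (U t : Cell → Tint M0 n), Legal (rules T M0 n) U → Legal (rules T M0 n) t →
      ∃ u : Cell, ∀ c : Cell, -2 ≤ c.1 → c.1 ≤ 0 → -2 ≤ c.2 → c.2 ≤ 0 → t (u + c) = U c}
  {h5 : ∀ n, 8 ≤ side segCount (segLen M0 n)}

theorem apply_expand {S : MacroSystem} {n : ℕ} {U : S.Conf n} (hU : S.AtCorner n U) (c : Cell) :
    U.1 c = expand (S.Z n) (S.draw n) 0 (S.par n U).1 c := by
  conv_lhs => rw [← S.base_par hU]
  simp [MacroSystem.base, build, res0, Res.cell, show ((0, 0) : Cell) = 0 from rfl]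

/-- A child, or a cell of the margin, in closed form. -/
theorem cell_apply (H : TabOK T M0) {n : ℕ}
    {U : (systemWith T M0 h1 h2 h3 h4 h5).Conf n}
    (hU : (systemWith T M0 h1 h2 h3 h4 h5).AtCorner n U) (c : Cell)
    (c1 : -2 ≤ c.1) (c1' : c.1 < (systemWith T M0 h1 h2 h3 h4 h5).Z n)
    (c2 : -2 ≤ c.2) (c2' : c.2 < (systemWith T M0 h1 h2 h3 h4 h5).Z n) :
    U.1 c = haloCell T M0 n
      (quadOf T M0 n ((systemWith T M0 h1 h2 h3 h4 h5).win n U)) c.1 c.2 := by
  rw [apply_expand hU c]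
  have h := expand_halo H (0 : Cell) ((systemWith T M0 h1 h2 h3 h4 h5).par n U).1 (0 : Cell)
    c1 c1' c2 c2'
  simp only [Prod.fst_zero, Prod.snd_zero, zero_mul, add_zero, zero_add, zero_sub] at h
  exact h

theorem halo (H : TabOK T M0) : (systemWith T M0 h1 h2 h3 h4 h5).Halo :=
  fun n U U' hU hU' e c c1 c1' c2 c2' => by
    rw [cell_apply H hU c c1 c1' c2 c2', cell_apply H hU' c c1 c1' c2 c2', e]

theorem corner (H : TabOK T M0) : (systemWith T M0 h1 h2 h3 h4 h5).Corner :=
  fun n U U' hU hU' c c1 c1' c2 c2' => by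
    let S := systemWith T M0 h1 h2 h3 h4 h5
    have hz : (0 : ℤ) < S.Z n := by exact_mod_cast S.zoom_pos n
    obtain ⟨e1, e2⟩ := block_corner (T := T) (M0 := M0) (n := n) (quadOf T M0 n (S.win n U))
      (quadOf T M0 n (S.win n U')) c.1 c.2 (by omega) c1' (by omega) c2'
    rw [cell_apply H hU c c1 (c1'.trans_lt hz) c2 (c2'.trans_lt hz),
      cell_apply H hU' c c1 (c1'.trans_lt hz) c2 (c2'.trans_lt hz), haloCell, haloCell, e1, e2]

/-- The addresses in a window. -/
def addrsOf (n : ℕ) (w : Win (Tint M0 n)) : Fin 2 × Fin 2 → Addr segCount (segLen M0 n) :=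
  fun d => (w d).addr

/-- Kinds and signals in a window. -/
def rolesOf (T : Tables) (n : ℕ) (w : Win (Tint M0 n)) : Fin 2 × Fin 2 → Kind × Sig × Sig :=
  fun d => (kindAt layoutKind (locF T M0 n) (w d).addr, (w d).h, (w d).v)

/-- One signal of one parent in the roles. -/
def sigIn (j : (Fin 2 × Fin 2) × Bool) (r : Fin 2 × Fin 2 → Kind × Sig × Sig) : Sig :=
  if j.2 then (r j.1).2.2 else (r j.1).2.1

theorem eqA_of (hL : LanesOK T M0) {n : ℕ} {w w' : Win (Tint M0 (n + 1))}
    (e : addrsOf (n + 1) w = addrsOf (n + 1) w') :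
    EqA T M0 n (quadOf T M0 n w) (quadOf T M0 n w') :=
  eqA_of_addr (hL n) fun d => congrFun e d

theorem eqSlot_of (hL : LanesOK T M0) {n : ℕ} {w w' : Win (Tint M0 (n + 1))} (d : Fin 4)
    (ch : Bool) (e : sigIn (quadCell d, ch) (rolesOf T (n + 1) w) =
      sigIn (quadCell d, ch) (rolesOf T (n + 1) w')) :
    EqSlot T M0 n d ch (quadOf T M0 n w) (quadOf T M0 n w') := by
  refine eqSlot_of_chan (hL n) ?_
  cases ch <;> simpa [sigIn, rolesOf] using e

theorem eqR_of (hL : LanesOK T M0) {n : ℕ} {w w' : Win (Tint M0 (n + 1))}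
    (e : rolesOf T (n + 1) w = rolesOf T (n + 1) w') :
    EqR T M0 n (quadOf T M0 n w) (quadOf T M0 n w') :=
  fun d ch => eqSlot_of hL d ch (by rw [e])

theorem eqE_of (hL : LanesOK T M0) {n : ℕ} {w w' : Win (Tint M0 (n + 1))}
    (e : rolesOf T (n + 1) w = rolesOf T (n + 1) w') :
    EqE T M0 n (quadOf T M0 n w) (quadOf T M0 n w') := by
  refine eqE_of_event (hL n) ?_
  have h : ∀ d, _ := fun d => congrFun e d
  simp only [rolesOf, Prod.mk.injEq] at h
  simp [winEvent, (h (0, 1)).2.1, (h (1, 0)).2.2, (h (1, 1)).1, (h (1, 1)).2.1, (h (1, 1)).2.2]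

/-- A child window in closed form. -/
theorem childWin_apply (H : TabOK T M0) {n : ℕ} {p : ℕ × ℕ}
    (p1 : p.1 < (systemWith T M0 h1 h2 h3 h4 h5).Z n)
    (p2 : p.2 < (systemWith T M0 h1 h2 h3 h4 h5).Z n)
    (U : (systemWith T M0 h1 h2 h3 h4 h5).Conf (n + 1)) (d : Fin 2 × Fin 2) :
    (systemWith T M0 h1 h2 h3 h4 h5).childWin n p U d =
      haloCell T M0 n (quadOf T M0 n ((systemWith T M0 h1 h2 h3 h4 h5).cw (n + 1) U))
        ((p.1 : ℤ) - 1 + d.1.val) ((p.2 : ℤ) - 1 + d.2.val) := by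
  have := d.1.isLt
  have := d.2.isLt
  have p1' : (p.1 : ℤ) < (systemWith T M0 h1 h2 h3 h4 h5).Z n := by exact_mod_cast p1
  have p2' : (p.2 : ℤ) < (systemWith T M0 h1 h2 h3 h4 h5).Z n := by exact_mod_cast p2
  rw [← (systemWith T M0 h1 h2 h3 h4 h5).win_base n U, childWin, cw_act]
  exact cell_apply H ((systemWith T M0 h1 h2 h3 h4 h5).atCorner_base n U) _
    (show -2 ≤ (p.1 : ℤ) - 1 + d.1.val by omega)
    (show (p.1 : ℤ) - 1 + d.1.val < (systemWith T M0 h1 h2 h3 h4 h5).Z n by omega)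
    (show -2 ≤ (p.2 : ℤ) - 1 + d.2.val by omega)
    (show (p.2 : ℤ) - 1 + d.2.val < (systemWith T M0 h1 h2 h3 h4 h5).Z n by omega)

/-- The layout has classes. -/
def classes (H : TabOK T M0) (hL : LanesOK T M0) : (systemWith T M0 h1 h2 h3 h4 h5).Classes where
  A n := Fin 2 × Fin 2 → Addr segCount (segLen M0 n)
  Q := Fin 2 × Fin 2 → Kind × Sig × Sig
  finQ := inferInstance
  J := (Fin 2 × Fin 2) × Bool
  finJ := inferInstance
  Lab := Sig
  addr := fun n => addrsOf n
  role := fun n => rolesOf T n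
  lab := sigIn
  addr_child n p p1 p2 U U' := by
    funext d
    simp only [addrsOf, childWin_apply H p1 p2, haloCell]
  cases_child n p p1 p2 := by
    let S := systemWith T M0 h1 h2 h3 h4 h5
    have key : ∀ U U' : S.Conf (n + 1), BlockEq T M0 n p.1 p.2
        (quadOf T M0 n (S.cw (n + 1) U)) (quadOf T M0 n (S.cw (n + 1) U')) →
        S.childWin n p U = S.childWin n p U' := by
      intro U U' h
      funext d
      have := d.1.isLt
      have := d.2.isLt
      obtain ⟨e1, e2⟩ := h ((p.1 : ℤ) - 1 + d.1.val) ((p.2 : ℤ) - 1 + d.2.val) (by omega)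
        (by omega) (by omega) (by omega)
      rw [childWin_apply H p1 p2, childWin_apply H p1 p2, haloCell, haloCell, e1, e2]
    rcases block_cases H (p.1 : ℤ) (p.2 : ℤ) with h | h | ⟨d, ch, h⟩
    · exact Or.inr (Or.inl fun U U' e => key U U' (h _ _ (eqE_of hL e)))
    · exact Or.inr (Or.inl fun U U' e => key U U' (h _ _ (eqR_of hL e)))
    · exact Or.inr (Or.inr ⟨(quadCell d, ch), fun U U' ea el =>
        key U U' (h _ _ (eqA_of hL ea) (eqSlot_of hL d ch el))⟩)
  lab_child n p j p1 p2 := by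
    obtain ⟨d, ch⟩ := j
    simp only [sigIn, rolesOf, childWin_apply H p1 p2, haloCell]
    cases ch
    · simp only [Bool.false_eq_true, if_false]
      rcases hSig_cases T M0 n ((p.1 : ℤ) - 1 + d.1.val) ((p.2 : ℤ) - 1 + d.2.val) with
        h | h | h
      · exact Or.inl fun U U' e => h _ _ (eqA_of hL e)
      · exact Or.inr fun U U' e => h _ _ (eqE_of hL e)
      · exact Or.inr fun U U' e => h _ _ (eqR_of hL e)
    · simp only [if_true]
      rcases vSig_cases T M0 n ((p.1 : ℤ) - 1 + d.1.val) ((p.2 : ℤ) - 1 + d.2.val) with h | h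
      · exact Or.inl fun U U' e => h _ _ (eqA_of hL e)
      · exact Or.inr fun U U' e => h _ _ (eqR_of hL e)

theorem span0 (H : TabOK T M0) (hL : LanesOK T M0) : (systemWith T M0 h1 h2 h3 h4 h5).Span0 :=
  span0_of_classes (halo H) (classes H hL)

theorem span1 (H : TabOK T M0) (hL : LanesOK T M0) : (systemWith T M0 h1 h2 h3 h4 h5).Span1 :=
  span1_of_classes (halo H) (corner H) (classes H hL)

end

end Vale.Agent.P196.W
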