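import Vale.Agent.P196.W.Parts

/-!
# P196: what allowed bits say about four parents

Allowed bits are those of four descriptions obeying the rules between neighbours and of one event
of the relation. A derived bit of the first offset does not depend on the second one; a marked
first or last offset is unique.
-/

namespace Vale.Agent.P196.W

open Vale.Agent.P196.Sft

noncomputable section

/-- The number of offsets of a segment of a parent. -/
abbrev parentLen (n : ℕ) : ℕ := segLen (m0 segCount) (n + 1)

/-- A lane of an outgoing signal. -/
def Lane.IsOut : Lane segCount → Prop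
  | .outH _ | .outV _ => True
  | _ => False

/-- Four descriptions and an event that explain the bits of a window. -/
structure Reading (φ : WinBits) where
  D : Fin 2 × Fin 2 → Desc segCount
  e : Event
  code : ∀ d l, ¬ l.IsOut → φ d l = (D d).code layoutKind l
  hrule : ∀ j, HRule (D (0, j)) (D (1, j))
  vrule : ∀ i, VRule (D (i, 0)) (D (i, 1))
  ok : e.Ok
  kind_eq : e.kind = (D (1, 1)).kind layoutKind
  outH_self : ∀ a, φ (1, 1) (.outH a) = decide (e.h = a)
  outV_self : ∀ a, φ (1, 1) (.outV a) = decide (e.v = a)
  outH_left : ∀ a, φ (0, 1) (.outH a) = decide (e.hL = a)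
  outV_below : ∀ a, φ (1, 0) (.outV a) = decide (e.vB = a)

theorem AllowedBits.reading {φ : WinBits} (h : AllowedBits φ) : Nonempty (Reading φ) := by
  obtain ⟨D, hD, h1, h2⟩ := h true
  obtain ⟨e, he, hE⟩ := h false
  have a := (Assign.mask_eq_iff _ _ _).1 hD
  have r := (Assign.mask_eq_iff _ _ _).1 hE
  have code : ∀ d l, ¬ l.IsOut → φ d l = (D d).code layoutKind l := by
    intro d l hl
    obtain ⟨c, hc, rfl⟩ : ∃ c : Fin 7, c.val < 4 ∧ cellOf c = d := by revert d; decide
    have hA : inA c = true := by simpa [inA] using hc
    have hv : l.vis c = true := by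
      cases l <;> simp [Lane.IsOut] at hl <;> simp [Lane.vis, Lane.sym, Sym.vis] <;> omega
    exact (a c l hA hv).symm
  refine ⟨⟨D, e, code, h1, h2, he, ?_, fun x => ?_, fun x => ?_, fun x => ?_, fun x => ?_⟩⟩
  · have := r 4 (.kind e.kind) rfl rfl
    simp [eventAssign, cellOf, code (1, 1) (.kind e.kind) id, Desc.code] at this
    exact this.symm
  · exact (r 4 (.outH x) rfl rfl).symm.trans (by simp [eventAssign])
  · exact (r 4 (.outV x) rfl rfl).symm.trans (by simp [eventAssign])
  · exact (r 5 (.outH x) rfl rfl).symm.trans (by simp [eventAssign])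
  · exact (r 6 (.outV x) rfl rfl).symm.trans (by simp [eventAssign])

namespace Reading

variable {φ φ' : WinBits} (R : Reading φ) (R' : Reading φ')

theorem derived (d : Fin 2 × Fin 2) (q : Fin 40) :
    φ d (.derived q) = (R.D d).derived q.val :=
  R.code d (.derived q) id

/-- Descriptions are read off the bits. -/
theorem desc_eq {d d' : Fin 2 × Fin 2} (h : φ d = φ' d') : R.D d = R'.D d' :=
  Desc.code_injective layoutKind (funext fun l => by
    cases l with
    | outH a => rfl
    | outV a => rfl
    | derived q => rw [← R.code d (.derived q) id, ← R'.code d' (.derived q) id, h]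
    | segA s => rw [← R.code d (.segA s) id, ← R'.code d' (.segA s) id, h]
    | segB s => rw [← R.code d (.segB s) id, ← R'.code d' (.segB s) id, h]
    | kind k => rw [← R.code d (.kind k) id, ← R'.code d' (.kind k) id, h])

theorem x_isSome (d : Fin 2 × Fin 2) : (R.D d).x?.isSome = φ d (.derived 37) := by
  rw [R.derived]; simp [Desc.derived]

theorem y_isSome (d : Fin 2 × Fin 2) : (R.D d).y?.isSome = φ d (.derived 38) := by
  rw [R.derived]; simp [Desc.derived]

include R in
/-- A parent knows one of its offsets. -/
theorem some_offset (d : Fin 2 × Fin 2) :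
    φ d (.derived 37) = true ∨ φ d (.derived 38) = true := by
  rw [← R.x_isSome, ← R.y_isSome]
  cases R.D d <;> simp [Desc.x?, Desc.y?]

include R in
/-- Left of a parent without first offset a known first offset is the last one. -/
theorem left_last (j : Fin 2) (hr : φ (1, j) (.derived 37) = false)
    (hl : φ (0, j) (.derived 37) = true) : φ (0, j) (.derived 2) = true := by
  rw [← R.x_isSome] at hr hl
  rw [R.derived]
  have h := R.hrule j
  cases hd : R.D (0, j) <;> cases he : R.D (1, j) <;>
    simp [hd, he, Desc.x?, Desc.derived, HRule, Side.bit] at hr hl h ⊢ <;> exact h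

include R in
/-- Below a parent without second offset none is known. -/
theorem below_y_none (i : Fin 2) (ht : φ (i, 1) (.derived 38) = false) :
    φ (i, 0) (.derived 38) = false := by
  rw [← R.y_isSome] at ht ⊢
  have h := R.vrule i
  cases hd : R.D (i, 0) <;> cases he : R.D (i, 1) <;>
    simp [hd, he, Desc.y?, VRule] at ht h ⊢

end Reading

/-! ## Derived bits of offsets -/

variable {n : ℕ}

theorem derBit_x_only (x y : Off n) (q : Fin 40) (h : q.val < 10 ∨ q.val = 37) :
    derBit n x y q = derBit n x none q := by
  rcases h with h | h <;> rcases x with _ | a <;> rcases y with _ | b <;>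
    simp [derBit, dval, derX, derY, colLine, predX, predY, h,
      show q.val ≠ 38 by omega, show ¬ (10 ≤ q.val ∧ q.val < 20) by omega]

theorem derBit_y_only (x y : Off n) (q : Fin 40)
    (h : (10 ≤ q.val ∧ q.val < 20) ∨ q.val = 38) :
    derBit n x y q = derBit n none y q := by
  rcases h with h | h <;> rcases x with _ | a <;> rcases y with _ | b <;>
    simp [derBit, dval, derX, derY, colLine, predX, predY, h,
      show ¬ q.val < 10 by omega, show q.val ≠ 37 by omega]

/-- The derived bits of a band of columns. -/
theorem derBit_band (a : Fin (parentLen n)) (q : Fin 40) :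
    derBit n (some a) none q =
      (Desc.band (g := segCount) ((tables layoutKind).side (m0 segCount) (n + 1) a.val)).derived
        q.val := by
  have h := dval_choices (tables layoutKind) (m0 segCount)
    (⟨.band a, .none, .none⟩ : Tint (m0 segCount) (n + 1)) q
  simp only [descOf] at h
  rw [← h]
  simp only [derBit, dval, derX, derY, colLine, choices, Addr.xoff, Addr.yoff]

/-- The derived bits of a band of rows. -/
theorem derBit_bandP (b : Fin (parentLen n)) (q : Fin 40) :
    derBit n none (some b) q =
      (Desc.bandP (g := segCount) ((tables layoutKind).side (m0 segCount) (n + 1) b.val)).derived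
        q.val := by
  have h := dval_choices (tables layoutKind) (m0 segCount)
    (⟨.bandP b, .none, .none⟩ : Tint (m0 segCount) (n + 1)) q
  simp only [descOf] at h
  rw [← h]
  simp only [derBit, dval, derX, derY, colLine, choices, Addr.xoff, Addr.yoff]

theorem derBit_none (q : Fin 40) : derBit n none none q = false := by
  simp [derBit, dval, derX, derY]

theorem derBit_x_isSome (x y : Off n) : derBit n x y 37 = x.isSome := by
  rw [derBit_x_only x y 37 (Or.inr rfl)]
  rcases x with _ | a
  · exact derBit_none 37
  · rw [derBit_band]; simp [Desc.derived, Desc.x?]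

theorem derBit_y_isSome (x y : Off n) : derBit n x y 38 = y.isSome := by
  rw [derBit_y_only x y 38 (Or.inr rfl)]
  rcases y with _ | b
  · exact derBit_none 38
  · rw [derBit_bandP]; simp [Desc.derived, Desc.y?]

theorem derBit_x_last (a : Fin (parentLen n)) (y : Off n) :
    derBit n (some a) y 2 = decide (a.val + 1 = parentLen n) := by
  rw [derBit_x_only _ y 2 (Or.inl (by decide)), derBit_band]
  simp [Desc.derived, Desc.x?, Side.bit, Tables.side]

theorem derBit_x_first (a : Fin (parentLen n)) (y : Off n) :
    derBit n (some a) y 0 = decide (a.val = 0) := by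
  rw [derBit_x_only _ y 0 (Or.inl (by decide)), derBit_band]
  simp [Desc.derived, Desc.x?, Side.bit, Tables.side]

theorem derBit_y_first (x : Off n) (b : Fin (parentLen n)) :
    derBit n x (some b) 10 = decide (b.val = 0) := by
  rw [derBit_y_only x _ 10 (Or.inl (by decide)), derBit_bandP]
  simp [Desc.derived, Desc.y?, Side.bit, Tables.side]

end

end Vale.Agent.P196.W
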