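import Vale.Agent.P196.W.AllowedBits

/-!
# P196: windows with a free offset are fixed by half of their bits

If the parent of a tile knows no first offset and the one below it does, the bits of the lower
pair fix all others. The same holds with the axes exchanged, for the left pair.
-/

namespace Vale.Agent.P196.W

open Vale.Agent.P196.Sft

noncomputable section

/-- The offset zero of a parent. -/
def offZero (n : ℕ) : Fin (parentLen n) :=
  ⟨0, Nat.mul_pos (Nat.two_pow_pos _) (by unfold m0; omega)⟩

/-- The last offset of a parent. -/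
def offLast (n : ℕ) : Fin (parentLen n) :=
  ⟨parentLen n - 1, by have := (offZero n).isLt; omega⟩

theorem eq_offLast {n : ℕ} {a : Fin (parentLen n)} (h : a.val + 1 = parentLen n) : a = offLast n :=
  Fin.ext (by simp [offLast]; omega)

theorem eq_offZero {n : ℕ} {a : Fin (parentLen n)} (h : a.val = 0) : a = offZero n :=
  Fin.ext (by simpa [offZero] using h)

variable {n : ℕ} {φ φ' ψ ψ' : WinBits}

/-- A lane that is not a derived one and not an outgoing signal depends on the description. -/
theorem Reading.bits_eq (R : Reading φ) (R' : Reading φ') {d : Fin 2 × Fin 2}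
    (hD : R.D d = R'.D d) (hh : ∀ a, φ d (.outH a) = φ' d (.outH a))
    (hv : ∀ a, φ d (.outV a) = φ' d (.outV a)) : φ d = φ' d :=
  funext fun l => by
    cases l with
    | outH a => exact hh a
    | outV a => exact hv a
    | derived q => rw [R.code d (.derived q) id, R'.code d (.derived q) id, hD]
    | segA s => rw [R.code d (.segA s) id, R'.code d (.segA s) id, hD]
    | segB s => rw [R.code d (.segB s) id, R'.code d (.segB s) id, hD]
    | kind k => rw [R.code d (.kind k) id, R'.code d (.kind k) id, hD]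

/-- The event of a band of columns. -/
theorem Reading.event_band (R : Reading φ) {s : Side} (h : R.D (1, 1) = .band s) :
    R.e.h = R.e.hL ∧ R.e.v = .none := by
  have hk := R.kind_eq
  rw [h] at hk
  have := R.ok
  simp [Event.Ok, hk, Desc.kind, Kind.outs] at this
  exact this

/-- The event of a band of rows. -/
theorem Reading.event_bandP (R : Reading φ) {s : Side} (h : R.D (1, 1) = .bandP s) :
    R.e.hL = .none ∧ R.e.h = .none ∧ R.e.v = R.e.vB := by
  have hk := R.kind_eq
  rw [h] at hk
  have := R.ok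
  simp [Event.Ok, hk, Desc.kind, Kind.outs] at this
  tauto

/-- The side of a band is read off its derived bits. -/
theorem band_side_eq {s t : Side}
    (h : ∀ q : Fin 40, q.val < 10 →
      (Desc.band (g := segCount) s).derived q.val = (Desc.band (g := segCount) t).derived q.val) :
    s = t :=
  Side.ext_bit fun i hi => by
    simpa [Desc.derived, Desc.x?, hi] using h ⟨i, by omega⟩ hi

/-- The side of a band of rows is read off its derived bits. -/
theorem bandP_side_eq {s t : Side}
    (h : ∀ q : Fin 40, 10 ≤ q.val → q.val < 20 →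
      (Desc.bandP (g := segCount) s).derived q.val = (Desc.bandP (g := segCount) t).derived q.val) :
    s = t :=
  Side.ext_bit fun i hi => by
    simpa [Desc.derived, Desc.y?, show ¬ 10 + i < 10 by omega, show 10 + i < 20 by omega] using
      h ⟨10 + i, by omega⟩ (Nat.le_add_right _ _) (show 10 + i < 20 by omega)

/-- With no first offset above a known one the upper parent is a first band of rows and the parent
left of it knows no first offset or the last one. -/
theorem Reading.upper_of_free_x (R : Reading φ) (hS : φ (1, 1) (.derived 37) = false)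
    (hB : φ (1, 0) (.derived 37) = true) :
    (∃ s, R.D (1, 1) = .bandP s ∧ s.first = true) ∧
      ((∃ s, R.D (0, 1) = .band s ∧ ∃ t, R.D (0, 0) = .band t) ∨
        ∃ s, R.D (0, 1) = .bandP s ∧ ∀ t, R.D (0, 0) ≠ .band t) := by
  rw [← R.x_isSome] at hS hB
  have h1 := R.vrule 1
  have h2 := R.hrule 1
  have h3 := R.vrule 0
  cases e1 : R.D (1, 1) <;> cases e2 : R.D (1, 0) <;>
    simp [e1, e2, Desc.x?, VRule] at hS hB h1
  rename_i s sA sB l
  refine ⟨⟨s, rfl, h1.2.2⟩, ?_⟩
  cases e3 : R.D (0, 1) <;> cases e4 : R.D (0, 0) <;>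
    simp [e1, e3, e4, HRule, VRule] at h2 h3 ⊢

/-- With no second offset right of a known one the right parent is a first band of columns and
stands above a band of columns. -/
theorem Reading.right_of_free_y (R : Reading φ) (hS : φ (1, 1) (.derived 38) = false)
    (hL : φ (0, 1) (.derived 38) = true) :
    (∃ s, R.D (1, 1) = .band s ∧ s.first = true) ∧ ∃ t, R.D (1, 0) = .band t := by
  rw [← R.y_isSome] at hS hL
  have h1 := R.vrule 1
  have h2 := R.hrule 1
  cases e1 : R.D (1, 1) <;> cases e2 : R.D (0, 1) <;> cases e3 : R.D (1, 0) <;>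
    simp [e1, e2, e3, Desc.y?, VRule, HRule] at hS hL h1 h2 ⊢
  all_goals first | exact h2 | exact h2.2.2

/-- What an atom of a tile with a free first offset below its parent must show. -/
structure FreeX (n : ℕ) (φ : WinBits) (y : Off n) : Prop where
  self : ∀ q, φ (1, 1) (.derived q) = derBit n none y q
  left_x : φ (0, 1) (.derived 37) = true →
    ∀ q : Fin 40, q.val < 10 → φ (0, 1) (.derived q) = derBit n (some (offLast n)) none q
  left_y : φ (0, 1) (.derived 38) = true →
    ∀ q : Fin 40, 10 ≤ q.val → q.val < 20 →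
      φ (0, 1) (.derived q) = derBit n none (some (offZero n)) q
  left_tile : ∃ ψ, AllowedBits ψ ∧ ψ (1, 1) = φ (0, 1) ∧ ψ (1, 0) = φ (0, 0)

theorem Reading.y_eq_of_free_x {y : Off n} (R : Reading φ)
    (hself : ∀ q, φ (1, 1) (.derived q) = derBit n none y q)
    (hB : φ (1, 0) (.derived 37) = true) : y = some (offZero n) := by
  have hS : φ (1, 1) (.derived 37) = false := by rw [hself, derBit_x_isSome]; rfl
  obtain ⟨⟨s, hs, hf⟩, -⟩ := R.upper_of_free_x hS hB
  have h10 := hself 10
  have h38 := hself 38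
  rw [R.derived, hs] at h10 h38
  rw [derBit_y_isSome] at h38
  simp [Desc.derived, Desc.y?] at h38
  obtain ⟨b, rfl⟩ := Option.isSome_iff_exists.1 h38
  rw [derBit_y_first] at h10
  simp [Desc.derived, Desc.y?, Side.bit, hf] at h10
  exact congrArg some (eq_offZero (by rw [h10]; rfl))

/-- **A free first offset**: the bits of the lower pair fix all bits and the second offset. -/
theorem FreeX.unique {y y' : Off n} (h : FreeX n φ y) (h' : FreeX n φ' y') (ha : AllowedBits φ)
    (ha' : AllowedBits φ') (hB : φ (1, 0) (.derived 37) = true) (eB : φ (1, 0) = φ' (1, 0))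
    (eD : φ (0, 0) = φ' (0, 0)) : φ = φ' ∧ y = y' := by
  obtain ⟨R⟩ := ha.reading
  obtain ⟨R'⟩ := ha'.reading
  have hB' : φ' (1, 0) (.derived 37) = true := eB ▸ hB
  have hy := R.y_eq_of_free_x h.self hB
  have hy' := R'.y_eq_of_free_x h'.self hB'
  subst hy hy'
  have hS : φ (1, 1) (.derived 37) = false := by rw [h.self, derBit_x_isSome]; rfl
  have hS' : φ' (1, 1) (.derived 37) = false := by rw [h'.self, derBit_x_isSome]; rfl
  obtain ⟨⟨s, hs, -⟩, hcls⟩ := R.upper_of_free_x hS hB
  obtain ⟨⟨s', hs', -⟩, hcls'⟩ := R'.upper_of_free_x hS' hB'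
  obtain ⟨eh, eh1, ev⟩ := R.event_bandP hs
  obtain ⟨eh', eh1', ev'⟩ := R'.event_bandP hs'
  have evB : R.e.vB = R'.e.vB := by
    have := R.outV_below R.e.vB
    rw [eB, R'.outV_below] at this
    simpa [eq_comm] using this
  have e11 : φ (1, 1) = φ' (1, 1) := by
    refine R.bits_eq R' ?_ (fun a => ?_) (fun a => ?_)
    · rw [hs, hs', bandP_side_eq (s := s) (t := s') fun q _ _ => by
        rw [← hs, ← hs', ← R.derived, ← R'.derived, h.self, h'.self]]
    · rw [R.outH_self, R'.outH_self, eh1, eh1']
    · rw [R.outV_self, R'.outV_self, ev, ev', evB]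
  have eDD : R.D (0, 0) = R'.D (0, 0) := R.desc_eq R' eD
  have eL : R.D (0, 1) = R'.D (0, 1) := by
    rcases hcls with ⟨t, ht, u, hu⟩ | ⟨t, ht, hu⟩ <;>
      rcases hcls' with ⟨t', ht', u', hu'⟩ | ⟨t', ht', hu'⟩
    · rw [ht, ht', band_side_eq (s := t) (t := t') fun q hq => by
        rw [← ht, ← ht', ← R.derived, ← R'.derived,
          h.left_x (by rw [← R.x_isSome, ht]; rfl) q hq,
          h'.left_x (by rw [← R'.x_isSome, ht']; rfl) q hq]]
    · exact absurd (eDD.symm.trans hu) (hu' u)
    · exact absurd (eDD.trans hu') (hu u')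
    · rw [ht, ht', bandP_side_eq (s := t) (t := t') fun q h1 h2 => by
        rw [← ht, ← ht', ← R.derived, ← R'.derived,
          h.left_y (by rw [← R.y_isSome, ht]; rfl) q h1 h2,
          h'.left_y (by rw [← R'.y_isSome, ht']; rfl) q h1 h2]]
  have e01 : φ (0, 1) = φ' (0, 1) := by
    refine R.bits_eq R' eL (fun a => ?_) (fun a => ?_)
    · rw [R.outH_left, R'.outH_left, eh, eh']
    · obtain ⟨ψ, hψ, a1, a0⟩ := h.left_tile
      obtain ⟨ψ', hψ', b1, b0⟩ := h'.left_tile
      obtain ⟨Q⟩ := hψ.reading
      obtain ⟨Q'⟩ := hψ'.reading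
      have dQ : Q.D (1, 1) = R.D (0, 1) := Q.desc_eq R a1
      have dQ' : Q'.D (1, 1) = R.D (0, 1) := (Q'.desc_eq R' b1).trans eL.symm
      rw [← a1, ← b1, Q.outV_self, Q'.outV_self]
      rcases hcls with ⟨t, ht, -⟩ | ⟨t, ht, -⟩
      · rw [(Q.event_band (dQ.trans ht)).2, (Q'.event_band (dQ'.trans ht)).2]
      · have hv : Q.e.vB = Q'.e.vB := by
          have := Q.outV_below Q.e.vB
          rw [a0, eD, ← b0, Q'.outV_below] at this
          simpa [eq_comm] using this
        rw [(Q.event_bandP (dQ.trans ht)).2.2, (Q'.event_bandP (dQ'.trans ht)).2.2, hv]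
  refine ⟨funext fun d => ?_, rfl⟩
  obtain ⟨i, j⟩ := d
  fin_cases i <;> fin_cases j <;> assumption

/-- What an atom of a tile with a free second offset left of its parent must show. -/
structure FreeY (n : ℕ) (φ : WinBits) (x : Off n) : Prop where
  self : ∀ q, φ (1, 1) (.derived q) = derBit n x none q
  below_x : φ (1, 0) (.derived 37) = true →
    ∀ q : Fin 40, q.val < 10 → φ (1, 0) (.derived q) = derBit n (some (offZero n)) none q
  below_tile : ∃ ψ, AllowedBits ψ ∧ ψ (1, 1) = φ (1, 0) ∧ ψ (0, 1) = φ (0, 0)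

theorem Reading.x_eq_of_free_y {x : Off n} (R : Reading φ)
    (hself : ∀ q, φ (1, 1) (.derived q) = derBit n x none q)
    (hL : φ (0, 1) (.derived 38) = true) : x = some (offZero n) := by
  have hS : φ (1, 1) (.derived 38) = false := by rw [hself, derBit_y_isSome]; rfl
  obtain ⟨⟨s, hs, hf⟩, -⟩ := R.right_of_free_y hS hL
  have h0 := hself 0
  have h37 := hself 37
  rw [R.derived, hs] at h0 h37
  rw [derBit_x_isSome] at h37
  simp [Desc.derived, Desc.x?] at h37
  obtain ⟨a, rfl⟩ := Option.isSome_iff_exists.1 h37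
  rw [derBit_x_first] at h0
  simp [Desc.derived, Desc.x?, Side.bit, hf] at h0
  exact congrArg some (eq_offZero (by rw [h0]; rfl))

/-- **A free second offset**: the bits of the left pair fix all bits and the first offset. -/
theorem FreeY.unique {x x' : Off n} (h : FreeY n φ x) (h' : FreeY n φ' x') (ha : AllowedBits φ)
    (ha' : AllowedBits φ') (hL : φ (0, 1) (.derived 38) = true) (eL : φ (0, 1) = φ' (0, 1))
    (eD : φ (0, 0) = φ' (0, 0)) : φ = φ' ∧ x = x' := by
  obtain ⟨R⟩ := ha.reading
  obtain ⟨R'⟩ := ha'.reading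
  have hL' : φ' (0, 1) (.derived 38) = true := eL ▸ hL
  have hx := R.x_eq_of_free_y h.self hL
  have hx' := R'.x_eq_of_free_y h'.self hL'
  subst hx hx'
  have hS : φ (1, 1) (.derived 38) = false := by rw [h.self, derBit_y_isSome]; rfl
  have hS' : φ' (1, 1) (.derived 38) = false := by rw [h'.self, derBit_y_isSome]; rfl
  obtain ⟨⟨s, hs, -⟩, t, ht⟩ := R.right_of_free_y hS hL
  obtain ⟨⟨s', hs', -⟩, t', ht'⟩ := R'.right_of_free_y hS' hL'
  obtain ⟨eh, ev⟩ := R.event_band hs
  obtain ⟨eh', ev'⟩ := R'.event_band hs'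
  have ehL : R.e.hL = R'.e.hL := by
    have := R.outH_left R.e.hL
    rw [eL, R'.outH_left] at this
    simpa [eq_comm] using this
  have e11 : φ (1, 1) = φ' (1, 1) := by
    refine R.bits_eq R' ?_ (fun a => ?_) (fun a => ?_)
    · rw [hs, hs', band_side_eq (s := s) (t := s') fun q _ => by
        rw [← hs, ← hs', ← R.derived, ← R'.derived, h.self, h'.self]]
    · rw [R.outH_self, R'.outH_self, eh, eh', ehL]
    · rw [R.outV_self, R'.outV_self, ev, ev']
  have eB : R.D (1, 0) = R'.D (1, 0) := by
    rw [ht, ht', band_side_eq (s := t) (t := t') fun q hq => by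
      rw [← ht, ← ht', ← R.derived, ← R'.derived,
        h.below_x (by rw [← R.x_isSome, ht]; rfl) q hq,
        h'.below_x (by rw [← R'.x_isSome, ht']; rfl) q hq]]
  have e10 : φ (1, 0) = φ' (1, 0) := by
    obtain ⟨ψ, hψ, a1, a0⟩ := h.below_tile
    obtain ⟨ψ', hψ', b1, b0⟩ := h'.below_tile
    obtain ⟨Q⟩ := hψ.reading
    obtain ⟨Q'⟩ := hψ'.reading
    have dQ : Q.D (1, 1) = .band t := (Q.desc_eq R a1).trans ht
    have dQ' : Q'.D (1, 1) = .band t := ((Q'.desc_eq R' b1).trans eB.symm).trans ht
    have hh : Q.e.hL = Q'.e.hL := by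
      have := Q.outH_left Q.e.hL
      rw [a0, eD, ← b0, Q'.outH_left] at this
      simpa [eq_comm] using this
    refine R.bits_eq R' eB (fun a => ?_) (fun a => ?_)
    · rw [← a1, ← b1, Q.outH_self, Q'.outH_self, (Q.event_band dQ).1, (Q'.event_band dQ').1, hh]
    · rw [← a1, ← b1, Q.outV_self, Q'.outV_self, (Q.event_band dQ).2, (Q'.event_band dQ').2]
  refine ⟨funext fun d => ?_, rfl⟩
  obtain ⟨i, j⟩ := d
  fin_cases i <;> fin_cases j <;> assumption

end

end Vale.Agent.P196.W
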