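import Vale.Agent.P196.Sft.Defs

/-!
# P196: alphabet, cell kinds and the finite relation of the macro-tiles

A colour is an address together with the signal it sends to the right and the signal it sends
upwards. The kind of a cell is read from its address; the relation `Kind.outs` between the two
incoming and the two outgoing signals is a finite table, the same at every level. Signals,
predicates and the static symbols do not depend on the number of segments or on the size of the
segments.
-/

namespace Vale.Agent.P196.W

/-! ## Static symbols -/

/-- Role of an offset on the grid of lanes: a derived predicate lane, a lane of a free bit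
(address only, kind, either channel) or a match row. -/
inductive Sym
  | none
  | derived (q : Fin 40)
  | srcA
  | srcK
  | srcH
  | srcV
  | mrow
  deriving DecidableEq, Fintype, Inhabited

/-- Binary code of a role, below `128`. -/
def Sym.code : Sym → ℕ
  | .none => 0
  | .srcA => 1
  | .srcK => 2
  | .srcH => 3
  | .srcV => 4
  | .mrow => 5
  | .derived q => 64 + q.val

/-- Whether column segment `c` of the match rows carries a lane of this role. Segments `0 … 3` read
the addresses and kinds of `S, L, B, DL`; `4, 5, 6` read the event of `S`: its kind and channels,
the horizontal channel of `L` and the vertical channel of `B`. -/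
def Sym.vis (c : Fin 7) : Sym → Bool
  | .derived _ | .srcA => decide (c.val < 4)
  | .srcK => decide (c.val ≤ 4)
  | .srcH => decide (c.val = 4 ∨ c.val = 5)
  | .srcV => decide (c.val = 4 ∨ c.val = 6)
  | .none | .mrow => false

/-- What a cell knows about one coordinate `z` inside its segment: `z = 0`, `z = 1`, `z` is last,
and the role of `z` on the grid of lanes. -/
structure Side where
  first : Bool := false
  second : Bool := false
  last : Bool := false
  sym : Sym := .none
  deriving DecidableEq, Fintype, Inhabited

/-- The symbol of `2 z + u` from the symbol of `z`. -/
def Side.sub (s : Side) (u : Bool) : Side where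
  first := s.first && !u
  second := s.first && u
  last := s.last && u
  sym := if u then .none else s.sym

/-- Bit number `i < 10` of a side symbol. -/
def Side.bit (s : Side) : ℕ → Bool
  | 0 => s.first
  | 1 => s.second
  | 2 => s.last
  | i + 3 => s.sym.code.testBit i

/-- The operations of the match rows in the seven column segments that they read: whether a
`false` bit, resp. a `true` bit, falsifies the row. -/
abbrev Gate : Type := Fin 7 → Bool × Bool

/-- The gate of a crossing off the grid. -/
def Gate.off : Gate := fun _ => (false, false)

/-- What a cell knows about both coordinates together: `x = y`, `x = y + 1`, `y = x + 1`, and the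
gate. -/
structure Cross where
  eq : Bool := false
  succ : Bool := false
  succT : Bool := false
  gate : Gate := Gate.off
  deriving DecidableEq, Fintype, Inhabited

/-- The symbol of `(2 x + u, 2 y + v)` from the symbol of `(x, y)`. -/
def Cross.sub (c : Cross) (u v : Bool) : Cross where
  eq := c.eq && (u == v)
  succ := (c.eq && u && !v) || (c.succ && !u && v)
  succT := (c.eq && !u && v) || (c.succT && u && !v)
  gate := if u || v then Gate.off else c.gate

/-- All static information of a cell inside its pair of segments. -/
structure Loc where
  x : Side := {}
  y : Side := {}
  cross : Cross := {}
  deriving DecidableEq, Fintype, Inhabited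

/-- The symbol of `(2 x + u, 2 y + v)` from the symbol of `(x, y)`. -/
def Loc.sub (l : Loc) (u v : Bool) : Loc where
  x := l.x.sub u
  y := l.y.sub v
  cross := l.cross.sub u v

/-! ## Signals -/

/-- A moving line: the parity of the parent offset, whether it was born in this tile, and the
symbol of the parent offsets once the transposed line has been crossed. -/
structure Line where
  u : Bool
  own : Bool
  copy : Option Cross := Option.none
  deriving DecidableEq, Fintype, Inhabited

/-- Signals, used in both directions. -/
inductive Sig
  | none
  | bit (b : Bool)
  | unset
  | lm
  | seen (own below : Bool)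
  | line (l : Line)
  deriving DecidableEq, Fintype, Inhabited

/-- The line of a signal. -/
def Sig.line? : Sig → Option Line
  | .line l => some l
  | _ => Option.none

/-- The state of a choosing row, blank meaning that nothing was seen. -/
def Sig.seen? : Sig → Option (Bool × Bool)
  | .none => some (false, false)
  | .seen o b => some (o, b)
  | _ => Option.none

/-- The bit of a match row, only `bit false` being false. -/
def Sig.truth : Sig → Bool
  | .bit b => b
  | _ => true

/-! ## Derived predicates -/

/-- Derived lane `q` set at the crossing with the column of the first parent offset: the bits of
its side, of the copy and the presence of the line. -/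
def predX (q : Fin 40) (s : Side) (l : Line) : Option Bool :=
  if q.val < 10 then some ((s.sub l.u).bit q.val)
  else if q.val = 37 then some true
  else if q.val < 20 ∨ 37 < q.val then Option.none
  else l.copy.map fun c =>
    if q.val = 20 then c.eq
    else if q.val = 21 then c.succ
    else if q.val = 22 then c.succT
    else
      let op := c.gate (Fin.ofNat 7 ((q.val - 23) / 2))
      if (q.val - 23) % 2 = 0 then op.1 else op.2

/-- Derived lane `q` set at the crossing with the column of the second parent offset. -/
def predY (q : Fin 40) (s : Side) (l : Line) : Option Bool :=
  if 10 ≤ q.val ∧ q.val < 20 then some ((s.sub l.u).bit (q.val - 10))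
  else if q.val = 38 then some true
  else Option.none

/-! ## Kinds -/

/-- Relation of the coordinates at a crossing of two compared lines. -/
inductive Cmp
  | same
  | next
  | apart
  deriving DecidableEq, Inhabited

instance : Fintype Cmp :=
  Fintype.ofList [.same, .next, .apart] fun x => by cases x <;> simp

/-- Kinds of cells. -/
inductive Kind
  /-- kills both signals -/
  | blank
  /-- passes both signals -/
  | pass
  /-- the band of columns: passes to the right, sends nothing up -/
  | passH
  /-- kills the row -/
  | passV
  /-- the band of rows: passes up and receives nothing from the left -/
  | colOnly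
  /-- first column: passes to the right, refusing the marked row, and sends nothing up -/
  | col0
  /-- last column before the band on the marked row -/
  | lmOut
  /-- first column on the marked row -/
  | lmIn
  /-- a free bit -/
  | srcBit
  /-- a derived lane starts unset -/
  | srcUnset
  /-- a row turns up -/
  | turnUp
  /-- a row continues and also goes up -/
  | fanUp
  /-- a column turns right -/
  | turnRight
  /-- the choosing row of the first parent offset -/
  | pickX (last : Bool)
  /-- the choosing column of the second parent offset -/
  | pickY (last : Bool)
  /-- the two own lines cross -/
  | cross (c : Cross)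
  /-- the first offset is compared with that of the left neighbour and becomes a row -/
  | cmpA (r : Cmp) (last : Bool)
  /-- the second offset is compared with that of the neighbour below and becomes a column -/
  | cmpB (r : Cmp) (last : Bool)
  /-- a row line becomes foreign, anything else is killed -/
  | resetH
  /-- a column line becomes foreign, anything else is killed -/
  | resetV
  /-- a derived lane crosses the column of the first offset -/
  | exX (q : Fin 40) (s : Side)
  /-- a derived lane crosses the column of the second offset -/
  | exY (q : Fin 40) (s : Side)
  /-- unset lanes become false -/
  | setAbs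
  /-- a match row starts -/
  | matchStart
  /-- a match row reads a column -/
  | test (op : Bool × Bool)
  /-- a match row ends and must be false -/
  | matchEnd
  /-- constant outputs -/
  | const (h v : Sig)
  /-- the signal from the left is prescribed -/
  | expH (a : Sig)
  /-- the signal from below is prescribed -/
  | expV (a : Sig)
  deriving DecidableEq, Fintype, Inhabited

/-- The possible outputs `(to the right, upwards)` of a choice of line in a choosing row, given the
state, the line arriving across the row and the choice. -/
def pick (last : Bool) (st : Bool × Bool) (old : Option Line) (new : Option Bool) :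
    Option (Sig × Sig) :=
  let st' : Bool × Bool := (st.1 || new.isSome, st.2 || old.isSome)
  let ok : Bool :=
    match old, new with
    | some a, some u => !st.1 && !st.2 && (a.u == u)
    | some _, Option.none => !st.1 && !st.2
    | Option.none, some _ => !st.1 && !st.2
    | Option.none, Option.none => true
  if ok then
    some (if last then .none else .seen st'.1 st'.2,
      match new with
      | some u => .line { u := u, own := true }
      | Option.none => .none)
  else Option.none

/-- The possible outputs `(to the right, upwards)` from the inputs `(from the left, from below)`. -/
def Kind.outs : Kind → Sig → Sig → List (Sig × Sig)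
  | .blank, _, _ => [(.none, .none)]
  | .pass, h, v => [(h, v)]
  | .passH, h, _ => [(h, .none)]
  | .passV, _, v => [(.none, v)]
  | .colOnly, h, v => if h = .none then [(.none, v)] else []
  | .col0, h, _ => if h = .lm then [] else [(h, .none)]
  | .lmOut, _, v => [(.lm, v)]
  | .lmIn, h, _ => if h = .lm then [(.none, .none)] else []
  | .srcBit, _, v => [(.bit false, v), (.bit true, v)]
  | .srcUnset, _, v => [(.unset, v)]
  | .turnUp, h, _ => [(.none, h)]
  | .fanUp, h, _ => [(h, h)]
  | .turnRight, _, v => [(v, .none)]
  | .pickX last, h, v =>
    match h.seen? with
    | some st => [Option.none, some false, some true].filterMap (pick last st v.line?)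
    | Option.none => []
  | .pickY last, h, v =>
    match v.seen? with
    | some st =>
      ([Option.none, some false, some true].filterMap (pick last st h.line?)).map Prod.swap
    | Option.none => []
  | .cross c, h, v =>
    match h.line?, v.line? with
    | some a, some b => [(h, .line { b with copy := some (c.sub b.u a.u) })]
    | _, _ => [(h, v)]
  | .cmpA r last, h, v =>
    match h.line?, v.line? with
    | some a, some b =>
      match r with
      | .same => if !a.own && !a.u && b.u then [(.line { u := b.u, own := true }, v)] else []
      | .next => if !a.own && a.u && !b.u then [(.none, v)] else []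
      | .apart => []
    | Option.none, some b =>
      if r = .same then [(.line { u := b.u, own := true }, v)] else [(h, v)]
    | some a, Option.none => if last && !a.own then [(.none, v)] else [(h, v)]
    | Option.none, Option.none => [(h, v)]
  | .cmpB r last, h, v =>
    match v.line?, h.line? with
    | some a, some b =>
      match r with
      | .same => if !a.own && !a.u && b.u then [(h, .line { u := b.u, own := true })] else []
      | .next => if !a.own && a.u && !b.u then [(h, .none)] else []
      | .apart => []
    | Option.none, some b =>
      if r = .same then [(h, .line { u := b.u, own := true })] else [(h, v)]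
    | some a, Option.none => if last && !a.own then [(h, .none)] else [(h, v)]
    | Option.none, Option.none => [(h, v)]
  | .resetH, h, v =>
    match h.line? with
    | some a => [(.line { u := a.u, own := false }, v)]
    | Option.none => [(.none, v)]
  | .resetV, h, v =>
    match v.line? with
    | some a => [(h, .line { u := a.u, own := false })]
    | Option.none => [(h, .none)]
  | .exX q s, h, v =>
    match v.line?.bind (predX q s) with
    | some b => if h = .unset then [(.bit b, v)] else []
    | Option.none => [(h, v)]
  | .exY q s, h, v =>
    match v.line?.bind (predY q s) with
    | some b => if h = .unset then [(.bit b, v)] else []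
    | Option.none => [(h, v)]
  | .setAbs, h, v => [(if h = .unset then .bit false else h, v)]
  | .matchStart, _, v => [(.bit true, v)]
  | .test op, h, v =>
    [(.bit (h.truth && !(op.1 && decide (v = .bit false)) && !(op.2 && decide (v = .bit true))), v)]
  | .matchEnd, h, v => if h.truth then [] else [(.none, v)]
  | .const a b, _, _ => [(a, b)]
  | .expH a, h, v => if h = a then [(.none, v)] else []
  | .expV a, h, v => if v = a then [(h, .none)] else []

/-- An event: a kind with its two inputs and its two outputs. -/
structure Event where
  kind : Kind
  hL : Sig
  vB : Sig
  h : Sig
  v : Sig
  deriving DecidableEq, Fintype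

/-- The finite relation. -/
def Event.Ok (e : Event) : Prop := (e.h, e.v) ∈ e.kind.outs e.hL e.vB

instance (e : Event) : Decidable e.Ok := by unfold Event.Ok; infer_instance

theorem eq_of_length_le_one {α : Type} : ∀ {l : List α}, l.length ≤ 1 → ∀ {a b : α},
    a ∈ l → b ∈ l → a = b
  | [], _, _, _, h, _ => absurd h List.not_mem_nil
  | [x], _, a, b, ha, hb => (List.mem_singleton.1 ha).trans (List.mem_singleton.1 hb).symm
  | _ :: _ :: _, h, _, _, _, _ => absurd h (by simp)

/-- Kinds with exactly one output for every pair of inputs that they accept. -/
def Kind.Det : Kind → Prop
  | .srcBit | .pickX _ | .pickY _ => False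
  | _ => True

theorem Kind.outs_length {k : Kind} (hk : k.Det) (h v : Sig) : (k.outs h v).length ≤ 1 := by
  cases k <;> simp only [Kind.Det] at hk <;> simp only [Kind.outs] <;>
    repeat' split
  all_goals first | exact Nat.zero_le _ | exact le_refl _

theorem Kind.outs_unique {k : Kind} (hk : k.Det) {h v : Sig} {p q : Sig × Sig}
    (hp : p ∈ k.outs h v) (hq : q ∈ k.outs h v) : p = q :=
  eq_of_length_le_one (Kind.outs_length hk h v) hp hq

/-! ## Addresses and colours -/

/-- An address. Segments `0 … g-1` are ordinary, the last one is the band. In the band of columns
only the horizontal offset is known, in the band of rows outside it only the vertical one. -/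
inductive Addr (g M : ℕ)
  | band (a : Fin M)
  | bandP (b : Fin M)
  | full (sA : Fin g) (oA : Fin M) (sB : Fin g) (oB : Fin M)
  deriving DecidableEq, Fintype

/-- The absolute coordinate of an ordinary segment and offset. -/
def pos {g M : ℕ} (s : Fin g) (o : Fin M) : ℕ := s.val * M + o.val

/-- `q` may be directly to the right of `p`. -/
def HStep {g M : ℕ} : Addr g M → Addr g M → Prop
  | .band a, .band a' => a'.val = a.val + 1
  | .band a, .full sA oA _ _ => a.val + 1 = M ∧ pos sA oA = 0
  | .band a, .bandP _ => a.val + 1 = M
  | .bandP b, .bandP b' => b' = b
  | .bandP _, .band a => a.val = 0
  | .bandP _, .full .. => False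
  | .full .., .bandP _ => False
  | .full sA oA _ _, .band a => pos sA oA + 1 = g * M ∧ a.val = 0
  | .full sA oA sB oB, .full sA' oA' sB' oB' =>
    pos sA' oA' = pos sA oA + 1 ∧ sB' = sB ∧ oB' = oB

/-- `q` may be directly above `p`. -/
def VStep {g M : ℕ} : Addr g M → Addr g M → Prop
  | .band a, .band a' => a' = a
  | .band _, _ => False
  | _, .band _ => False
  | .bandP b, .bandP b' => b'.val = b.val + 1
  | .bandP b, .full _ _ sB oB => b.val + 1 = M ∧ pos sB oB = 0
  | .full _ _ sB oB, .bandP b => pos sB oB + 1 = g * M ∧ b.val = 0
  | .full sA oA sB oB, .full sA' oA' sB' oB' =>
    pos sB' oB' = pos sB oB + 1 ∧ sA' = sA ∧ oA' = oA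

/-- A colour: an address and the two outgoing signals. -/
structure Colour (g M : ℕ) where
  addr : Addr g M
  h : Sig
  v : Sig
  deriving DecidableEq, Fintype

/-- The kind of an address under a kind table for the ordinary segments. -/
def kindAt {g M : ℕ} (K : Fin g → Fin g → Loc → Kind) (loc : Fin M → Fin M → Loc) :
    Addr g M → Kind
  | .band _ => .passH
  | .bandP _ => .colOnly
  | .full sA oA sB oB => K sA sB (loc oA oB)

/-- The event at the upper right cell of a window. -/
def winEvent {g M : ℕ} (K : Fin g → Fin g → Loc → Kind) (loc : Fin M → Fin M → Loc)
    (w : Sft.Win (Colour g M)) : Event where
  kind := kindAt K loc (w (1, 1)).addr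
  hL := (w (0, 1)).h
  vB := (w (1, 0)).v
  h := (w (1, 1)).h
  v := (w (1, 1)).v

/-- The rule windows: addresses step along all four sides and the upper right cell obeys the
relation. -/
def windows {g M : ℕ} (K : Fin g → Fin g → Loc → Kind) (loc : Fin M → Fin M → Loc) :
    Set (Sft.Win (Colour g M)) :=
  {w | (∀ j, HStep (w (0, j)).addr (w (1, j)).addr) ∧
    (∀ i, VStep (w (i, 0)).addr (w (i, 1)).addr) ∧ (winEvent K loc w).Ok}

end Vale.Agent.P196.W
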