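import Vale.Agent.P196.W.Raw

/-!
# P196: neighbouring cells of a tile and the signals they send
-/

namespace Vale.Agent.P196.W

/-- What the closed form assumes of the tables. -/
structure TabOK (T : Tables) (M0 : ℕ) : Prop where
  sym_zero : T.sym 0 = .none
  gate_zero : ∀ j, T.gate 0 j = Gate.off
  four_dvd : 4 ∣ M0
  pos : 0 < M0

/-- `(X', x')` is the cell left of `(X, x)` in a tile whose segments have length `M`. -/
def XPred (M : ℕ) (X' : XSeg) (x' : ℕ) (X : XSeg) (x : ℕ) : Prop :=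
  (X' = X ∧ x = x' + 1) ∨ (X'.index + 1 = X.index ∧ x = 0 ∧ x' + 1 = M)

/-- `(Y', y')` is the cell below `(Y, y)` in a tile whose segments have length `M`. -/
def YPred (M : ℕ) (Y' : YSeg) (y' : ℕ) (Y : YSeg) (y : ℕ) : Prop :=
  (Y' = Y ∧ y = y' + 1) ∨ (Y'.index + 1 = Y.index ∧ y = 0 ∧ y' + 1 = M)

theorem XSeg.eq_of_index {A B : XSeg} (h : A.index = B.index) : A = B :=
  XSeg.fin_injective (Fin.ext h)

theorem YSeg.eq_of_index {A B : YSeg} (h : A.index = B.index) : A = B :=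
  YSeg.fin_injective (Fin.ext h)

theorem sinceX_iff {A X : XSeg} {z x : ℕ} :
    sinceX A z X x ↔ A.index < X.index ∨ (X.index = A.index ∧ z ≤ x) :=
  or_congr Iff.rfl (and_congr ⟨fun h => h ▸ rfl, XSeg.eq_of_index⟩ Iff.rfl)

theorem sinceY_iff {A Y : YSeg} {z y : ℕ} :
    sinceY A z Y y ↔ A.index < Y.index ∨ (Y.index = A.index ∧ z ≤ y) :=
  or_congr Iff.rfl (and_congr ⟨fun h => h ▸ rfl, YSeg.eq_of_index⟩ Iff.rfl)

/-- Being at or right of an event, one cell earlier. -/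
theorem XPred.since {M : ℕ} {X' X : XSeg} {x' x : ℕ} (h : XPred M X' x' X x) (A : XSeg) {z : ℕ}
    (hz : z < M) : sinceX A z X' x' ↔ sinceX A z X x ∧ ¬(X = A ∧ x = z) := by
  have e : (X = A ↔ X.index = A.index) := ⟨fun h => h ▸ rfl, XSeg.eq_of_index⟩
  rw [sinceX_iff, sinceX_iff, e]
  rcases h with ⟨rfl, rfl⟩ | ⟨h1, rfl, h3⟩ <;> omega

/-- Being at or above an event, one cell earlier. -/
theorem YPred.since {M : ℕ} {Y' Y : YSeg} {y' y : ℕ} (h : YPred M Y' y' Y y) (A : YSeg) {z : ℕ}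
    (hz : z < M) : sinceY A z Y' y' ↔ sinceY A z Y y ∧ ¬(Y = A ∧ y = z) := by
  have e : (Y = A ↔ Y.index = A.index) := ⟨fun h => h ▸ rfl, YSeg.eq_of_index⟩
  rw [sinceY_iff, sinceY_iff, e]
  rcases h with ⟨rfl, rfl⟩ | ⟨h1, rfl, h3⟩ <;> omega

theorem exists_xPred {M : ℕ} (hM : 0 < M) {X : XSeg} {x : ℕ} (hx : x < M)
    (h : ¬(X = .x0 ∧ x = 0)) : ∃ X' x', x' < M ∧ XPred M X' x' X x := by
  rcases Nat.eq_zero_or_pos x with rfl | hp
  · have hi : X.index ≠ 0 := fun e => h ⟨XSeg.eq_of_index (e.trans rfl), rfl⟩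
    obtain ⟨X', hX'⟩ := XSeg.fin_surjective ⟨X.index - 1, by have := X.index_lt; omega⟩
    refine ⟨X', M - 1, by omega, Or.inr ⟨?_, rfl, by omega⟩⟩
    have : X'.index = X.index - 1 := congrArg Fin.val hX'
    omega
  · exact ⟨X, x - 1, by omega, Or.inl ⟨rfl, by omega⟩⟩

theorem exists_yPred {M : ℕ} (hM : 0 < M) {Y : YSeg} {y : ℕ} (hy : y < M)
    (h : ¬(Y = .y0 ∧ y = 0)) : ∃ Y' y', y' < M ∧ YPred M Y' y' Y y := by
  rcases Nat.eq_zero_or_pos y with rfl | hp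
  · have hi : Y.index ≠ 0 := fun e => h ⟨YSeg.eq_of_index (e.trans rfl), rfl⟩
    obtain ⟨Y', hY'⟩ := YSeg.fin_surjective ⟨Y.index - 1, by have := Y.index_lt; omega⟩
    refine ⟨Y', M - 1, by omega, Or.inr ⟨?_, rfl, by omega⟩⟩
    have : Y'.index = Y.index - 1 := congrArg Fin.val hY'
    omega
  · exact ⟨Y, y - 1, by omega, Or.inl ⟨rfl, by omega⟩⟩

theorem not_xPred_first {M : ℕ} {X' : XSeg} {x' : ℕ} : ¬ XPred M X' x' .x0 0 := by
  rintro (⟨rfl, h⟩ | ⟨h, -⟩)
  · omega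
  · simp [XSeg.index] at h

theorem not_yPred_first {M : ℕ} {Y' : YSeg} {y' : ℕ} : ¬ YPred M Y' y' .y0 0 := by
  rintro (⟨rfl, h⟩ | ⟨h, -⟩)
  · omega
  · simp [YSeg.index] at h

/-- The cell before stays in the segment, unless it is the first one. -/
theorem XPred.eq_of_ne_zero {M : ℕ} {X' X : XSeg} {x' x : ℕ} (h : XPred M X' x' X x)
    (hx : x ≠ 0) : X' = X ∧ x = x' + 1 :=
  h.resolve_right fun e => hx e.2.1

theorem YPred.eq_of_ne_zero {M : ℕ} {Y' Y : YSeg} {y' y : ℕ} (h : YPred M Y' y' Y y)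
    (hy : y ≠ 0) : Y' = Y ∧ y = y' + 1 :=
  h.resolve_right fun e => hy e.2.1

/-- The offsets of all lines are inside their segments. -/
def Quad.InRange (M : ℕ) (w : Quad) : Prop :=
  ∀ c, (∀ p ∈ (w c).ox, p.1 < M) ∧ ∀ p ∈ (w c).oy, p.1 < M

/-- The cells with a choice or a constraint, and the cells of a bench in its own pair. -/
def Special (T : Tables) (M0 n : ℕ) (X : XSeg) (x : ℕ) (Y : YSeg) (y : ℕ) : Prop :=
  (X = .mx ∧ Y = .lx ∧ y = 0) ∨ (X = .ly ∧ x = 0 ∧ Y = .my) ∨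
  (X = .src ∧ x = 0 ∧ Y = .r 2 ∧ (symAt T M0 n y).isSrc = true) ∨
  (X = .mx ∧ Y = .ta) ∨ (X = .tb ∧ Y = .my) ∨
  (X = .pa 3 ∧ x + 1 = segLen M0 n ∧ Y = .ma ∧ symAt T M0 n y = .mrow) ∨
  (X = .pr 2 ∧ x + 1 = segLen M0 n ∧ Y = .mr ∧ symAt T M0 n y = .mrow) ∨
  ∃ t i j, X = .bench t i ∧ Y = .bench t j

section Tile

variable {T : Tables} {M0 : ℕ} (n : ℕ)

theorem TabOK.eight_le (H : TabOK T M0) : 4 * 2 ^ n ≤ segLen M0 n := by
  obtain ⟨q, rfl⟩ := H.four_dvd
  have := H.pos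
  rw [segLen, ← mul_assoc, mul_comm (4 : ℕ)]
  exact Nat.le_mul_of_pos_right _ (by omega)

theorem TabOK.len_pos (H : TabOK T M0) : 0 < segLen M0 n :=
  lt_of_lt_of_le (by positivity) (H.eight_le n)

/-- An offset with a role keeps away from both ends of its segment. -/
theorem TabOK.sym_inner (H : TabOK T M0) {z : ℕ} (hz : z < segLen M0 n)
    (h : symAt T M0 n z ≠ .none) : 4 ≤ z ∧ z + 4 ≤ segLen M0 n := by
  simp only [symAt, Tables.side] at h
  by_cases hd : gap n ∣ z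
  · rw [if_pos hd] at h
    obtain ⟨j, rfl⟩ := hd
    have hj : j ≠ 0 := fun e => h (by simp [e, H.sym_zero])
    have h4 : 4 ≤ gap n := Nat.le_mul_of_pos_right _ (by positivity)
    obtain ⟨q, hq⟩ : gap n ∣ segLen M0 n := by
      obtain ⟨q, rfl⟩ := H.four_dvd
      exact ⟨q, by simp only [gap, segLen]; ring⟩
    rw [hq] at hz ⊢
    have hlt : j + 1 ≤ q := Nat.lt_of_mul_lt_mul_left hz
    refine ⟨le_trans h4 (Nat.le_mul_of_pos_right _ (Nat.pos_of_ne_zero hj)), ?_⟩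
    calc gap n * j + 4 ≤ gap n * j + gap n := by omega
      _ = gap n * (j + 1) := by ring
      _ ≤ gap n * q := Nat.mul_le_mul_left _ hlt
  · rw [if_neg hd] at h
    exact absurd rfl h

variable (T M0)

/-- The two lines set different derived lanes. -/
theorem derY_eq_none_of_derX (C : Choices) (q : Fin 40) {a : Bool}
    (h : derX T M0 n C q = some a) : derY T M0 n C q = Option.none := by
  have hq : q.val < 10 ∨ (20 ≤ q.val ∧ q.val ≤ 37) := by
    by_contra hc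
    unfold derX at h
    cases hx : C.ox with
    | none => simp [hx] at h
    | some p =>
      simp only [hx, Option.bind_some, Option.bind_eq_some_iff] at h
      obtain ⟨l, -, hl⟩ := h
      simp only [predX] at hl
      rw [if_neg (by omega), if_neg (by omega), if_pos (by omega)] at hl
      exact absurd hl (by simp)
  unfold derY
  cases C.oy with
  | none => rfl
  | some p =>
    simp only [Option.bind_some, predY]
    rw [if_neg (by omega), if_neg (by omega)]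

/-- The signals arriving from the left edge, sent by the tile of the left neighbour. -/
noncomputable def edgeH (w : Quad) (Y : YSeg) (y : ℕ) : Sig :=
  rawBandH T M0 n (fun _ => w 3) Y y

/-- The signals arriving from the lower edge, sent by the tile of the neighbour below. -/
noncomputable def edgeV (w : Quad) (X : XSeg) (x : ℕ) : Sig :=
  rawBandV T M0 n (fun c => if c = 2 then w 0 else w 1) X x

/-- The signal entering a cell from the left. -/
noncomputable def inH (w : Quad) (X : XSeg) (x : ℕ) (Y : YSeg) (y : ℕ) : Sig :=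
  @dite _ (∃ X' x', x' < segLen M0 n ∧ XPred (segLen M0 n) X' x' X x) (Classical.propDecidable _)
    (fun h => rawH T M0 n w h.choose h.choose_spec.choose Y y) fun _ => edgeH T M0 n w Y y

/-- The signal entering a cell from below. -/
noncomputable def inV (w : Quad) (X : XSeg) (x : ℕ) (Y : YSeg) (y : ℕ) : Sig :=
  @dite _ (∃ Y' y', y' < segLen M0 n ∧ YPred (segLen M0 n) Y' y' Y y) (Classical.propDecidable _)
    (fun h => rawV T M0 n w X x h.choose h.choose_spec.choose) fun _ => edgeV T M0 n w X x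

variable {T M0 n}

theorem XPred.unique {M : ℕ} {X X₁ X₂ : XSeg} {x x₁ x₂ : ℕ} (h₁ : XPred M X₁ x₁ X x)
    (h₂ : XPred M X₂ x₂ X x) : X₁ = X₂ ∧ x₁ = x₂ := by
  rcases h₁ with ⟨rfl, rfl⟩ | ⟨a, rfl, c⟩ <;> rcases h₂ with ⟨e, f⟩ | ⟨a', f, c'⟩
  · exact ⟨e.symm, by omega⟩
  · omega
  · omega
  · exact ⟨XSeg.eq_of_index (by omega), by omega⟩

theorem YPred.unique {M : ℕ} {Y Y₁ Y₂ : YSeg} {y y₁ y₂ : ℕ} (h₁ : YPred M Y₁ y₁ Y y)
    (h₂ : YPred M Y₂ y₂ Y y) : Y₁ = Y₂ ∧ y₁ = y₂ := by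
  rcases h₁ with ⟨rfl, rfl⟩ | ⟨a, rfl, c⟩ <;> rcases h₂ with ⟨e, f⟩ | ⟨a', f, c'⟩
  · exact ⟨e.symm, by omega⟩
  · omega
  · omega
  · exact ⟨YSeg.eq_of_index (by omega), by omega⟩

theorem inH_eq (w : Quad) {X X' : XSeg} {x x' : ℕ} (Y : YSeg) (y : ℕ) (hx : x' < segLen M0 n)
    (h : XPred (segLen M0 n) X' x' X x) : inH T M0 n w X x Y y = rawH T M0 n w X' x' Y y := by
  have he : ∃ X' x', x' < segLen M0 n ∧ XPred (segLen M0 n) X' x' X x := ⟨X', x', hx, h⟩
  rw [inH, dif_pos he]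
  obtain ⟨e₁, e₂⟩ := he.choose_spec.choose_spec.2.unique h
  exact congrArg₂ (fun a b => rawH T M0 n w a b Y y) e₁ e₂

theorem inV_eq (w : Quad) (X : XSeg) (x : ℕ) {Y Y' : YSeg} {y y' : ℕ} (hy : y' < segLen M0 n)
    (h : YPred (segLen M0 n) Y' y' Y y) : inV T M0 n w X x Y y = rawV T M0 n w X x Y' y' := by
  have he : ∃ Y' y', y' < segLen M0 n ∧ YPred (segLen M0 n) Y' y' Y y := ⟨Y', y', hy, h⟩
  rw [inV, dif_pos he]
  obtain ⟨e₁, e₂⟩ := he.choose_spec.choose_spec.2.unique h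
  exact congrArg₂ (fun a b => rawV T M0 n w X x a b) e₁ e₂

theorem inH_first (w : Quad) (Y : YSeg) (y : ℕ) :
    inH T M0 n w .x0 0 Y y = edgeH T M0 n w Y y := by
  rw [inH, dif_neg]
  rintro ⟨X', x', -, h⟩
  exact not_xPred_first h

theorem inV_first (w : Quad) (X : XSeg) (x : ℕ) :
    inV T M0 n w X x .y0 0 = edgeV T M0 n w X x := by
  rw [inV, dif_neg]
  rintro ⟨Y', y', -, h⟩
  exact not_yPred_first h

end Tile

end Vale.Agent.P196.W
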