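import Vale.Agent.P196.W.Draw
import Vale.Agent.P196.W.StepBase

/-!
# P196: the cells of an aligned tiling by name, and signals that are carried on
-/

namespace Vale.Agent.P196.W

open Sft

noncomputable section

/-- The linear coordinate of an offset of a horizontal segment. -/
def xlin (M : ℕ) (X : XSeg) (x : ℕ) : ℕ := X.index * M + x

/-- The linear coordinate of an offset of a vertical segment. -/
def ylin (M : ℕ) (Y : YSeg) (y : ℕ) : ℕ := Y.index * M + y

theorem pos_xSegEquiv {M : ℕ} (X : XSeg) (x : Fin M) :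
    pos (xSegEquiv X) x = xlin M X x.val := rfl

theorem pos_ySegEquiv {M : ℕ} (Y : YSeg) (y : Fin M) :
    pos (ySegEquiv Y) y = ylin M Y y.val := rfl

theorem index_eq_or_lt {i j M x y : ℕ} (_hx : x < M) (hy : y < M)
    (h : i * M + x ≤ j * M + y) : (i = j ∧ x ≤ y) ∨ i < j := by
  rcases lt_trichotomy i j with h' | h' | h'
  · exact Or.inr h'
  · subst h'; exact Or.inl ⟨rfl, by omega⟩
  · have : (j + 1) * M ≤ i * M := Nat.mul_le_mul_right M h'
    rw [Nat.succ_mul] at this; omega

theorem XPred.xlin_succ {M : ℕ} {X' X : XSeg} {x' x : ℕ} (h : XPred M X' x' X x) :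
    xlin M X x = xlin M X' x' + 1 := by
  rcases h with ⟨rfl, rfl⟩ | ⟨h1, rfl, h3⟩
  · simp [xlin]; omega
  · simp only [xlin, ← h1, Nat.succ_mul]; omega

theorem YPred.ylin_succ {M : ℕ} {Y' Y : YSeg} {y' y : ℕ} (h : YPred M Y' y' Y y) :
    ylin M Y y = ylin M Y' y' + 1 := by
  rcases h with ⟨rfl, rfl⟩ | ⟨h1, rfl, h3⟩
  · simp [ylin]; omega
  · simp only [ylin, ← h1, Nat.succ_mul]; omega

theorem xlin_inj {M : ℕ} {X X' : XSeg} {x x' : ℕ} (hx : x < M) (hx' : x' < M)
    (h : xlin M X x = xlin M X' x') : X = X' ∧ x = x' := by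
  rcases index_eq_or_lt hx hx' h.le with ⟨a, b⟩ | a <;>
    rcases index_eq_or_lt hx' hx h.ge with ⟨c, d⟩ | c <;>
    exact ⟨XSeg.eq_of_index (by omega), by omega⟩

theorem ylin_inj {M : ℕ} {Y Y' : YSeg} {y y' : ℕ} (hy : y < M) (hy' : y' < M)
    (h : ylin M Y y = ylin M Y' y') : Y = Y' ∧ y = y' := by
  rcases index_eq_or_lt hy hy' h.le with ⟨a, b⟩ | a <;>
    rcases index_eq_or_lt hy' hy h.ge with ⟨c, d⟩ | c <;>
    exact ⟨YSeg.eq_of_index (by omega), by omega⟩

/-- The kind passes the signal from the left on. -/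
def KeepsH (k : Kind) : Prop := ∀ h v, ∀ p ∈ k.outs h v, p.1 = h

/-- The kind passes the signal from below on. -/
def KeepsV (k : Kind) : Prop := ∀ h v, ∀ p ∈ k.outs h v, p.2 = v

theorem keepsH_pass : KeepsH .pass := fun h v p hp => by simp [Kind.outs] at hp; simp [hp]

theorem keepsV_pass : KeepsV .pass := fun h v p hp => by simp [Kind.outs] at hp; simp [hp]

theorem keepsH_passH : KeepsH .passH := fun h v p hp => by simp [Kind.outs] at hp; simp [hp]

theorem keepsV_passV : KeepsV .passV := fun h v p hp => by simp [Kind.outs] at hp; simp [hp]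

theorem keepsH_col0 : KeepsH .col0 := fun h v p hp => by
  simp only [Kind.outs] at hp; split_ifs at hp <;> simp at hp; simp [hp]

theorem keepsH_fanUp : KeepsH .fanUp := fun h v p hp => by simp [Kind.outs] at hp; simp [hp]

theorem keepsH_cross (c : Cross) : KeepsH (.cross c) := fun h v p hp => by
  simp only [Kind.outs] at hp; split at hp <;> simp at hp <;> simp [hp]

theorem keepsH_cmpB (r : Cmp) (b : Bool) : KeepsH (.cmpB r b) := fun h v p hp => by
  simp only [Kind.outs] at hp; repeat' split at hp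
  all_goals first | (simp at hp; simp [hp]) | simp at hp

theorem keepsV_cmpA (r : Cmp) (b : Bool) : KeepsV (.cmpA r b) := fun h v p hp => by
  simp only [Kind.outs] at hp; repeat' split at hp
  all_goals first | (simp at hp; simp [hp]) | simp at hp

theorem keepsV_exX (q : Fin 40) (s : Side) : KeepsV (.exX q s) := fun h v p hp => by
  simp only [Kind.outs] at hp; repeat' split at hp
  all_goals first | (simp at hp; simp [hp]) | simp at hp

theorem keepsV_exY (q : Fin 40) (s : Side) : KeepsV (.exY q s) := fun h v p hp => by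
  simp only [Kind.outs] at hp; repeat' split at hp
  all_goals first | (simp at hp; simp [hp]) | simp at hp

theorem keepsV_test (op : Bool × Bool) : KeepsV (.test op) := fun h v p hp => by
  simp [Kind.outs] at hp; simp [hp]

theorem turnAt_off {ok : Sym → Bool} {k : Kind} {l : Loc} (h : l.cross.eq = false) :
    turnAt ok k l = .pass := by simp [turnAt, h]

theorem turnAt_cases (ok : Sym → Bool) (k : Kind) (l : Loc) :
    turnAt ok k l = k ∨ turnAt ok k l = .pass := by
  unfold turnAt; split_ifs <;> simp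

variable (T : Tables) (M0 n : ℕ) [NeZero M0]

/-- A tiling with the grid at the origin. -/
def Aligned (t : Cell → Tint M0 n) : Prop :=
  ∀ v : Cell, (t v).addr = addrAt (res segCount (segLen M0 n) 0 v.1) (res segCount (segLen M0 n) 0 v.2)

/-- The side of a tile. -/
def tsize : ℕ := side segCount (segLen M0 n)

/-- The cell of the tile `P` at linear coordinates `(a, b)`. -/
def cellOfLin (P : Cell) (a b : ℕ) : Cell :=
  (P.1 * (tsize M0 n : ℤ) + a, P.2 * (tsize M0 n : ℤ) + b)

variable {M0 n} (t : Cell → Tint M0 n)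

/-- The signal that a named cell of the tile `P` sends to the right. -/
def gH (P : Cell) (X : XSeg) (x : ℕ) (Y : YSeg) (y : ℕ) : Sig :=
  (t (cellOfLin M0 n P (xlin (segLen M0 n) X x) (ylin (segLen M0 n) Y y))).h

/-- The signal that a named cell of the tile `P` sends upwards. -/
def gV (P : Cell) (X : XSeg) (x : ℕ) (Y : YSeg) (y : ℕ) : Sig :=
  (t (cellOfLin M0 n P (xlin (segLen M0 n) X x) (ylin (segLen M0 n) Y y))).v

variable {T} {t}

omit [NeZero M0] in
theorem xlin_lt (X : XSeg) {x : ℕ} (hx : x < segLen M0 n) :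
    xlin (segLen M0 n) X x < segCount * segLen M0 n :=
  pos_xSegEquiv X ⟨x, hx⟩ ▸ pos_lt _ _

omit [NeZero M0] in
theorem ylin_lt (Y : YSeg) {y : ℕ} (hy : y < segLen M0 n) :
    ylin (segLen M0 n) Y y < segCount * segLen M0 n :=
  pos_ySegEquiv Y ⟨y, hy⟩ ▸ pos_lt _ _

theorem res_lin (P : ℤ) {a : ℕ} (ha : a < tsize M0 n) :
    res segCount (segLen M0 n) 0 (P * (tsize M0 n : ℤ) + a) = a := by
  have := res_add (g := segCount) (M := segLen M0 n) 0 P ha
  simpa [tsize] using this

theorem addr_lin (ha : Aligned M0 n t) (P : Cell) {a b : ℕ} (h1 : a < tsize M0 n)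
    (h2 : b < tsize M0 n) : (t (cellOfLin M0 n P a b)).addr = addrAt a b := by
  rw [ha]; simp only [cellOfLin, res_lin _ h1, res_lin _ h2]

omit [NeZero M0] in
theorem ord_lt_tsize {a : ℕ} (h : a < segCount * segLen M0 n) : a < tsize M0 n := by
  rw [tsize, side_eq]; omega

/-- The relation at a cell given by linear coordinates. -/
theorem event_lin (ht : Legal (rules T M0 n) t) (ha : Aligned M0 n t) (P : Cell) {a b : ℕ}
    (h1 : a < tsize M0 n) (h2 : b < tsize M0 n) :
    ((t (cellOfLin M0 n P a b)).h, (t (cellOfLin M0 n P a b)).v) ∈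
      (kindAt layoutKind (locF T M0 n) (addrAt a b)).outs
        (t ((cellOfLin M0 n P a b).1 - 1, (cellOfLin M0 n P a b).2)).h
        (t ((cellOfLin M0 n P a b).1, (cellOfLin M0 n P a b).2 - 1)).v := by
  have := legal_event ht (cellOfLin M0 n P a b).1 (cellOfLin M0 n P a b).2
  rw [← addr_lin ha P h1 h2]
  exact this

/-- The signal entering a named cell from the left. -/
def gInH (t : Cell → Tint M0 n) (P : Cell) (X : XSeg) (x : ℕ) (Y : YSeg) (y : ℕ) : Sig :=
  (t ((cellOfLin M0 n P (xlin (segLen M0 n) X x) (ylin (segLen M0 n) Y y)).1 - 1,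
    (cellOfLin M0 n P (xlin (segLen M0 n) X x) (ylin (segLen M0 n) Y y)).2)).h

/-- The signal entering a named cell from below. -/
def gInV (t : Cell → Tint M0 n) (P : Cell) (X : XSeg) (x : ℕ) (Y : YSeg) (y : ℕ) : Sig :=
  (t ((cellOfLin M0 n P (xlin (segLen M0 n) X x) (ylin (segLen M0 n) Y y)).1,
    (cellOfLin M0 n P (xlin (segLen M0 n) X x) (ylin (segLen M0 n) Y y)).2 - 1)).v

/-- The relation at a named cell. -/
theorem event_named (ht : Legal (rules T M0 n) t) (ha : Aligned M0 n t) (P : Cell) (X : XSeg)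
    {x : ℕ} (hx : x < segLen M0 n) (Y : YSeg) {y : ℕ} (hy : y < segLen M0 n) :
    (gH t P X x Y y, gV t P X x Y y) ∈
      (kindOn X Y (T.loc M0 n x y)).outs (gInH t P X x Y y) (gInV t P X x Y y) := by
  have h := event_lin ht ha P (ord_lt_tsize (xlin_lt (n := n) X hx))
    (ord_lt_tsize (ylin_lt (n := n) Y hy))
  rwa [show addrAt (g := segCount) (M := segLen M0 n) (xlin (segLen M0 n) X x)
      (ylin (segLen M0 n) Y y) = addrAt (pos (xSegEquiv X) (⟨x, hx⟩ : Fin (segLen M0 n)))
        (pos (ySegEquiv Y) (⟨y, hy⟩ : Fin (segLen M0 n))) from rfl, kindAt_named] at h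

omit [NeZero M0] in
theorem gInH_pred {P : Cell} {X X' : XSeg} {x x' : ℕ} (h : XPred (segLen M0 n) X' x' X x)
    (Y : YSeg) (y : ℕ) : gInH t P X x Y y = gH t P X' x' Y y := by
  simp only [gInH, gH, cellOfLin, h.xlin_succ]
  push_cast
  rw [← add_assoc, add_sub_cancel_right]

omit [NeZero M0] in
theorem gInV_pred {P : Cell} (X : XSeg) (x : ℕ) {Y Y' : YSeg} {y y' : ℕ}
    (h : YPred (segLen M0 n) Y' y' Y y) : gInV t P X x Y y = gV t P X x Y' y' := by
  simp only [gInV, gV, cellOfLin, h.ylin_succ]
  push_cast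
  rw [← add_assoc, add_sub_cancel_right]

theorem band_row (ht : Legal (rules T M0 n) t) (ha : Aligned M0 n t) (P : Cell) {b : ℕ}
    (hb : b < tsize M0 n) {k : ℕ} (hk : k ≤ segLen M0 n) :
    (t (cellOfLin M0 n P (segCount * segLen M0 n + k - 1) b)).h =
      (t (cellOfLin M0 n P (segCount * segLen M0 n - 1) b)).h := by
  induction k with
  | zero => rfl
  | succ k ih =>
    have hlt : segCount * segLen M0 n + k < tsize M0 n := by rw [tsize, side_eq]; omega
    have e := event_lin ht ha P hlt hb
    rw [addrAt, if_pos (by omega)] at e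
    simp [kindAt, Kind.outs] at e
    rw [show segCount * segLen M0 n + (k + 1) - 1 = segCount * segLen M0 n + k by omega,
      ← ih (by omega), e.1]
    have hp : 0 < segCount * segLen M0 n :=
      Nat.mul_pos (NeZero.pos segCount) (segLen_pos n)
    congr 2
    ext
    · simp only [cellOfLin, Nat.cast_sub (show 1 ≤ segCount * segLen M0 n + k by omega)]
      push_cast; ring
    · rfl

theorem bandP_col (ht : Legal (rules T M0 n) t) (ha : Aligned M0 n t) (P : Cell) {a : ℕ}
    (h1 : a < segCount * segLen M0 n) {k : ℕ} (hk : k ≤ segLen M0 n) :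
    (t (cellOfLin M0 n P a (segCount * segLen M0 n + k - 1))).v =
      (t (cellOfLin M0 n P a (segCount * segLen M0 n - 1))).v := by
  induction k with
  | zero => rfl
  | succ k ih =>
    have hlt : segCount * segLen M0 n + k < tsize M0 n := by rw [tsize, side_eq]; omega
    have e := event_lin ht ha P (ord_lt_tsize h1) hlt
    rw [addrAt, if_neg (by omega), if_pos (by omega)] at e
    simp [kindAt, Kind.outs] at e
    rw [show segCount * segLen M0 n + (k + 1) - 1 = segCount * segLen M0 n + k by omega,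
      ← ih (by omega), e.2.2]
    have hp : 0 < segCount * segLen M0 n :=
      Nat.mul_pos (NeZero.pos segCount) (segLen_pos n)
    congr 2
    ext
    · rfl
    · simp only [cellOfLin, Nat.cast_sub (show 1 ≤ segCount * segLen M0 n + k by omega)]
      push_cast; ring

theorem kr_last : xlin (segLen M0 n) .kr (segLen M0 n - 1) = segCount * segLen M0 n - 1 := by
  have := segLen_pos (M0 := M0) n
  have h : segCount * segLen M0 n = (19 + 2 * benchCard) * segLen M0 n + segLen M0 n := by
    rw [segCount]; ring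
  simp only [xlin, XSeg.index]; omega

theorem kt_last : ylin (segLen M0 n) .kt (segLen M0 n - 1) = segCount * segLen M0 n - 1 := by
  have := segLen_pos (M0 := M0) n
  have h : segCount * segLen M0 n = (19 + 2 * benchCard) * segLen M0 n + segLen M0 n := by
    rw [segCount]; ring
  simp only [ylin, YSeg.index]; omega

/-- The left edge of a tile receives what the last segment of the left neighbour sends. -/
theorem gInH_first (ht : Legal (rules T M0 n) t) (ha : Aligned M0 n t) (P : Cell) (Y : YSeg)
    {y : ℕ} (hy : y < segLen M0 n) :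
    gInH t P .x0 0 Y y = gH t (P.1 - 1, P.2) .kr (segLen M0 n - 1) Y y := by
  have hb := ord_lt_tsize (ylin_lt (n := n) Y hy)
  have h := band_row ht ha (P.1 - 1, P.2) hb (le_refl (segLen M0 n))
  rw [gH, kr_last, ← h, gInH]
  have := segLen_pos (M0 := M0) n
  congr 2
  ext
  · simp only [cellOfLin, xlin, XSeg.index, zero_mul, Nat.cast_zero, add_zero, tsize, side_eq,
      Nat.cast_sub (show 1 ≤ segCount * segLen M0 n + segLen M0 n by omega)]
    push_cast; ring
  · rfl

/-- The lower edge of a tile receives what the top segment of the neighbour below sends. -/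
theorem gInV_first (ht : Legal (rules T M0 n) t) (ha : Aligned M0 n t) (P : Cell) (X : XSeg)
    {x : ℕ} (hx : x < segLen M0 n) :
    gInV t P X x .y0 0 = gV t (P.1, P.2 - 1) X x .kt (segLen M0 n - 1) := by
  have h := bandP_col ht ha (P.1, P.2 - 1) (xlin_lt (n := n) X hx) (le_refl (segLen M0 n))
  rw [gV, kt_last, ← h, gInV]
  have := segLen_pos (M0 := M0) n
  congr 2
  ext
  · rfl
  · simp only [cellOfLin, ylin, YSeg.index, zero_mul, Nat.cast_zero, add_zero, tsize, side_eq,
      Nat.cast_sub (show 1 ≤ segCount * segLen M0 n + segLen M0 n by omega)]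
    push_cast; ring

/-- A row signal is constant along kinds that pass it on. -/
theorem row_keep (ht : Legal (rules T M0 n) t) (ha : Aligned M0 n t) (P : Cell) (Y : YSeg)
    {y : ℕ} (hy : y < segLen M0 n) {X₀ X : XSeg} {x₀ x : ℕ} (hx₀ : x₀ < segLen M0 n)
    (hx : x < segLen M0 n) (hle : xlin (segLen M0 n) X₀ x₀ ≤ xlin (segLen M0 n) X x)
    (hk : ∀ X' x', x' < segLen M0 n →
      xlin (segLen M0 n) X₀ x₀ < xlin (segLen M0 n) X' x' →
      xlin (segLen M0 n) X' x' ≤ xlin (segLen M0 n) X x →
      KeepsH (kindOn X' Y (T.loc M0 n x' y))) :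
    gH t P X x Y y = gH t P X₀ x₀ Y y := by
  induction hm : xlin (segLen M0 n) X x using Nat.strong_induction_on generalizing X x with
  | _ m ih =>
    subst hm
    rcases hle.eq_or_lt with h | h
    · obtain ⟨rfl, rfl⟩ := xlin_inj hx₀ hx h; rfl
    · have hne : ¬(X = .x0 ∧ x = 0) := by
        rintro ⟨rfl, rfl⟩; simp [xlin, XSeg.index] at h
      obtain ⟨X', x', hx', hp⟩ := exists_xPred (segLen_pos n) hx hne
      have hs := hp.xlin_succ
      have e := hk X x hx h le_rfl _ _ _ (event_named ht ha P X hx Y hy)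
      rw [gInH_pred hp] at e
      exact e.trans (ih _ (by omega) hx' (by omega)
        (fun A a ha' h1 h2 => hk A a ha' h1 (by omega)) rfl)

/-- A column signal is constant along kinds that pass it on. -/
theorem col_keep (ht : Legal (rules T M0 n) t) (ha : Aligned M0 n t) (P : Cell) (X : XSeg)
    {x : ℕ} (hx : x < segLen M0 n) {Y₀ Y : YSeg} {y₀ y : ℕ} (hy₀ : y₀ < segLen M0 n)
    (hy : y < segLen M0 n) (hle : ylin (segLen M0 n) Y₀ y₀ ≤ ylin (segLen M0 n) Y y)
    (hk : ∀ Y' y', y' < segLen M0 n →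
      ylin (segLen M0 n) Y₀ y₀ < ylin (segLen M0 n) Y' y' →
      ylin (segLen M0 n) Y' y' ≤ ylin (segLen M0 n) Y y →
      KeepsV (kindOn X Y' (T.loc M0 n x y'))) :
    gV t P X x Y y = gV t P X x Y₀ y₀ := by
  induction hm : ylin (segLen M0 n) Y y using Nat.strong_induction_on generalizing Y y with
  | _ m ih =>
    subst hm
    rcases hle.eq_or_lt with h | h
    · obtain ⟨rfl, rfl⟩ := ylin_inj hy₀ hy h; rfl
    · have hne : ¬(Y = .y0 ∧ y = 0) := by
        rintro ⟨rfl, rfl⟩; simp [ylin, YSeg.index] at h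
      obtain ⟨Y', y', hy', hp⟩ := exists_yPred (segLen_pos n) hy hne
      have hs := hp.ylin_succ
      have e := hk Y y hy h le_rfl _ _ _ (event_named ht ha P X hx Y hy)
      rw [gInV_pred _ _ hp] at e
      exact e.trans (ih _ (by omega) hy' (by omega)
        (fun A a ha' h1 h2 => hk A a ha' h1 (by omega)) rfl)

end

end Vale.Agent.P196.W
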