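import Vale.Agent.P196.W.Alpha

/-!
# P196: the static symbols of a segment, in closed form and invariant under doubling

At level `n` a segment has `2 ^ n * M0` offsets and the grid of lanes consists of the multiples of
`4 * 2 ^ n`. The roles of the grid points and the gates at the grid crossings are given by two
tables, read off the index of the grid point, so they do not see the level.
-/

namespace Vale.Agent.P196.W

/-- The tables of a layout: roles of grid indices and gates of pairs of grid indices. -/
structure Tables where
  sym : ℕ → Sym
  gate : ℕ → ℕ → Gate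

/-- The length of a segment at level `n`. -/
def segLen (M0 n : ℕ) : ℕ := 2 ^ n * M0

/-- The spacing of the grid at level `n`. -/
def gap (n : ℕ) : ℕ := 4 * 2 ^ n

/-- The symbol of one coordinate. -/
def Tables.side (T : Tables) (M0 n z : ℕ) : Side where
  first := decide (z = 0)
  second := decide (z = 1)
  last := decide (z + 1 = segLen M0 n)
  sym := if gap n ∣ z then T.sym (z / gap n) else .none

/-- The symbol of a pair of coordinates. -/
def Tables.crossAt (T : Tables) (n x y : ℕ) : Cross where
  eq := decide (x = y)
  succ := decide (x = y + 1)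
  succT := decide (y = x + 1)
  gate := if gap n ∣ x ∧ gap n ∣ y then T.gate (x / gap n) (y / gap n) else Gate.off

/-- All static information at a pair of coordinates. -/
def Tables.loc (T : Tables) (M0 n x y : ℕ) : Loc where
  x := T.side M0 n x
  y := T.side M0 n y
  cross := T.crossAt n x y

theorem segLen_succ (M0 n : ℕ) : segLen M0 (n + 1) = 2 * segLen M0 n := by
  rw [segLen, segLen, pow_succ]; ring

theorem gap_succ (n : ℕ) : gap (n + 1) = 2 * gap n := by
  rw [gap, gap, pow_succ]; ring

theorem gap_succ_dvd_iff (n z : ℕ) (u : Bool) :
    gap (n + 1) ∣ 2 * z + u.toNat ↔ u = false ∧ gap n ∣ z := by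
  rw [gap_succ]
  cases u
  · simp [Nat.mul_dvd_mul_iff_left]
  · simp only [Bool.toNat_true, Bool.true_eq_false, false_and, iff_false]
    rintro ⟨c, hc⟩
    rw [mul_assoc] at hc
    omega

theorem two_mul_div_gap_succ (n z : ℕ) : 2 * z / gap (n + 1) = z / gap n := by
  rw [gap_succ, Nat.mul_div_mul_left _ _ Nat.two_pos]

/-- Doubling of one coordinate. -/
theorem Tables.side_succ (T : Tables) (M0 n z : ℕ) (u : Bool) :
    T.side M0 (n + 1) (2 * z + u.toNat) = (T.side M0 n z).sub u := by
  simp only [Tables.side, Side.sub, gap_succ_dvd_iff, segLen_succ]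
  cases u
  · simp only [Bool.toNat_false, add_zero, Bool.not_false, Bool.and_true, Bool.and_false,
      true_and, Bool.false_eq_true, if_false, two_mul_div_gap_succ]
    simp only [Side.mk.injEq]
    refine ⟨?_, ?_, ?_, trivial⟩
    · simp
    · simp only [decide_eq_false_iff_not]; omega
    · simp only [decide_eq_false_iff_not]; omega
  · simp only [Bool.toNat_true, Bool.not_true, Bool.and_false, Bool.and_true, Bool.true_eq_false,
      false_and, if_false, if_true]
    simp only [Side.mk.injEq]
    refine ⟨?_, ?_, ?_, trivial⟩
    · simp
    · simp only [decide_eq_decide]; omega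
    · simp only [decide_eq_decide]; omega

/-- Doubling of a pair of coordinates. -/
theorem Tables.crossAt_succ (T : Tables) (n x y : ℕ) (u v : Bool) :
    T.crossAt (n + 1) (2 * x + u.toNat) (2 * y + v.toNat) = (T.crossAt n x y).sub u v := by
  simp only [Tables.crossAt, Cross.sub, gap_succ_dvd_iff, Cross.mk.injEq]
  refine ⟨?_, ?_, ?_, ?_⟩
  · rw [Bool.eq_iff_iff]; cases u <;> cases v <;> simp <;> omega
  · rw [Bool.eq_iff_iff]; cases u <;> cases v <;> simp <;> omega
  · rw [Bool.eq_iff_iff]; cases u <;> cases v <;> simp <;> omega
  · cases u <;> cases v <;> simp [two_mul_div_gap_succ]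

/-- Doubling of the static symbols: the only self-reference of the construction. -/
theorem Tables.loc_succ (T : Tables) (M0 n x y : ℕ) (u v : Bool) :
    T.loc M0 (n + 1) (2 * x + u.toNat) (2 * y + v.toNat) = (T.loc M0 n x y).sub u v := by
  simp only [Tables.loc, Loc.sub, Tables.side_succ, Tables.crossAt_succ]

end Vale.Agent.P196.W
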