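import Vale.Agent.P196.W.Alpha

/-!
# P196: the segments and the kind table

Both axes have `g` ordinary segments in a fixed order: the named ones, the bench pairs, and the
killing segment (`kr`, resp. `kt`). The kind of a cell is a closed function of the two names and
of the static symbol of the cell inside its segments.

The four bundles are numbered `0` below, `1` below left, `2` self, `3` left. A kill at the first
column comes from `col0` and `lmIn`, at the other ones from `kt`.
-/

namespace Vale.Agent.P196.W

noncomputable section

/-- A role that carries a free bit. -/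
def Sym.isSrc : Sym → Bool
  | .srcA | .srcK | .srcH | .srcV => true
  | _ => false

/-- A role that carries a derived predicate. -/
def Sym.isDerived : Sym → Bool
  | .derived _ => true
  | _ => false

/-- The derived predicate of a role. -/
def Sym.derived? : Sym → Option (Fin 40)
  | .derived q => some q
  | _ => Option.none

/-! ## Benches -/

/-- Four pairs of signals around the common corner of four cells. -/
abbrev Corner : Type := Fin 2 × Fin 2 → Sig × Sig

/-- What a bench shows: an event of the relation, or a corner. -/
abbrev Bench : Type := {e : Event // e.Ok} ⊕ Corner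

/-- The number of benches. -/
irreducible_def benchCard : ℕ := Nat.card Bench

/-- The numbering of the benches. -/
def benchEquiv : Bench ≃ Fin benchCard :=
  (Finite.equivFin Bench).trans (finCongr benchCard_def.symm)

/-- The kinds of bench `b` in the pair of segments `(i, j)` of its own: an event sits at the first
cell of the second segments with constants left of it and below it and checks right of it and
above it; a corner is four constants. -/
def Bench.kind : Bench → Fin 2 → Fin 2 → Loc → Kind
  | .inl e, i, j, l =>
    if i = 0 ∧ j = 1 ∧ l.x.last ∧ l.y.first then .const e.1.hL .none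
    else if i = 1 ∧ j = 0 ∧ l.x.first ∧ l.y.last then .const .none e.1.vB
    else if i = 1 ∧ j = 1 ∧ l.x.first ∧ l.y.first then e.1.kind
    else if i = 1 ∧ j = 1 ∧ l.x.second ∧ l.y.first then .expH e.1.h
    else if i = 1 ∧ j = 1 ∧ l.x.first ∧ l.y.second then .expV e.1.v
    else .blank
  | .inr c, i, j, l =>
    if (if i = 0 then l.x.last else l.x.first) ∧ (if j = 0 then l.y.last else l.y.first) then
      .const (c (i, j)).1 (c (i, j)).2
    else .blank

/-! ## Names of segments -/

/-- The segments from left to right. -/
inductive XSeg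
  | x0
  | sh
  | ly
  | src
  | mx
  | gap
  | tb
  | setAbs
  | up
  | upl
  | upd
  | updl
  | pa (c : Fin 4)
  | pr (c : Fin 3)
  | bench (t : Fin benchCard) (i : Fin 2)
  | kr
  deriving DecidableEq

/-- The segments from bottom to top. -/
inductive YSeg
  | y0
  | lx
  | r (c : Fin 4)
  | my
  | gap
  | ta
  | rd (c : Fin 4)
  | ma
  | mr
  | pad (i : Fin 4)
  | bench (t : Fin benchCard) (j : Fin 2)
  | kt
  deriving DecidableEq

/-- The number of ordinary segments of each axis. -/
def segCount : ℕ := 2 * benchCard + 20

/-- The index of a horizontal segment. -/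
def XSeg.index : XSeg → ℕ
  | .x0 => 0
  | .sh => 1
  | .ly => 2
  | .src => 3
  | .mx => 4
  | .gap => 5
  | .tb => 6
  | .setAbs => 7
  | .up => 8
  | .upl => 9
  | .upd => 10
  | .updl => 11
  | .pa c => 12 + c.val
  | .pr c => 16 + c.val
  | .bench t i => 19 + (2 * t.val + i.val)
  | .kr => 19 + 2 * benchCard

/-- The index of a vertical segment. -/
def YSeg.index : YSeg → ℕ
  | .y0 => 0
  | .lx => 1
  | .r c => 2 + c.val
  | .my => 6
  | .gap => 7
  | .ta => 8
  | .rd c => 9 + c.val
  | .ma => 13
  | .mr => 14
  | .pad i => 15 + i.val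
  | .bench t j => 19 + (2 * t.val + j.val)
  | .kt => 19 + 2 * benchCard

theorem XSeg.index_lt (s : XSeg) : s.index < segCount := by
  cases s <;> simp only [XSeg.index, segCount] <;> omega

theorem YSeg.index_lt (s : YSeg) : s.index < segCount := by
  cases s <;> simp only [YSeg.index, segCount] <;> omega

/-- A horizontal segment as an element of `Fin`. -/
def XSeg.fin (s : XSeg) : Fin segCount := ⟨s.index, s.index_lt⟩

/-- A vertical segment as an element of `Fin`. -/
def YSeg.fin (s : YSeg) : Fin segCount := ⟨s.index, s.index_lt⟩

theorem XSeg.fin_injective : Function.Injective XSeg.fin := by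
  intro a b h
  have h' : a.index = b.index := congrArg Fin.val h
  cases a <;> cases b <;> simp only [XSeg.index] at h' <;>
    first
    | rfl
    | omega
    | (congr 1 <;> apply Fin.ext <;> omega)

theorem YSeg.fin_injective : Function.Injective YSeg.fin := by
  intro a b h
  have h' : a.index = b.index := congrArg Fin.val h
  cases a <;> cases b <;> simp only [YSeg.index] at h' <;>
    first
    | rfl
    | omega
    | (congr 1 <;> apply Fin.ext <;> omega)

theorem XSeg.fin_surjective : Function.Surjective XSeg.fin := by
  intro k
  have hk : k.val < 2 * benchCard + 20 := k.isLt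
  have key : ∃ s : XSeg, s.index = k.val := by
    rcases Nat.lt_or_ge k.val 12 with h | h
    · interval_cases hv : k.val
      exacts [⟨.x0, rfl⟩, ⟨.sh, rfl⟩, ⟨.ly, rfl⟩, ⟨.src, rfl⟩, ⟨.mx, rfl⟩, ⟨.gap, rfl⟩,
        ⟨.tb, rfl⟩, ⟨.setAbs, rfl⟩, ⟨.up, rfl⟩, ⟨.upl, rfl⟩, ⟨.upd, rfl⟩, ⟨.updl, rfl⟩]
    rcases Nat.lt_or_ge k.val 16 with h' | h'
    · exact ⟨.pa ⟨k.val - 12, by omega⟩, by simp only [XSeg.index]; omega⟩
    rcases Nat.lt_or_ge k.val 19 with h'' | h''
    · exact ⟨.pr ⟨k.val - 16, by omega⟩, by simp only [XSeg.index]; omega⟩
    rcases Nat.lt_or_ge k.val (19 + 2 * benchCard) with h''' | h'''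
    · exact ⟨.bench ⟨(k.val - 19) / 2, by omega⟩ ⟨(k.val - 19) % 2, by omega⟩,
        by simp only [XSeg.index]; omega⟩
    exact ⟨.kr, by simp only [XSeg.index]; omega⟩
  obtain ⟨s, hs⟩ := key
  exact ⟨s, Fin.ext hs⟩

theorem YSeg.fin_surjective : Function.Surjective YSeg.fin := by
  intro k
  have hk : k.val < 2 * benchCard + 20 := k.isLt
  have key : ∃ s : YSeg, s.index = k.val := by
    rcases Nat.lt_or_ge k.val 2 with h | h
    · interval_cases hv : k.val
      exacts [⟨.y0, rfl⟩, ⟨.lx, rfl⟩]
    rcases Nat.lt_or_ge k.val 6 with h1 | h1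
    · exact ⟨.r ⟨k.val - 2, by omega⟩, by simp only [YSeg.index]; omega⟩
    rcases Nat.lt_or_ge k.val 9 with h2 | h2
    · interval_cases hv : k.val
      exacts [⟨.my, rfl⟩, ⟨.gap, rfl⟩, ⟨.ta, rfl⟩]
    rcases Nat.lt_or_ge k.val 13 with h3 | h3
    · exact ⟨.rd ⟨k.val - 9, by omega⟩, by simp only [YSeg.index]; omega⟩
    rcases Nat.lt_or_ge k.val 15 with h4 | h4
    · interval_cases hv : k.val
      exacts [⟨.ma, rfl⟩, ⟨.mr, rfl⟩]
    rcases Nat.lt_or_ge k.val 19 with h5 | h5
    · exact ⟨.pad ⟨k.val - 15, by omega⟩, by simp only [YSeg.index]; omega⟩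
    rcases Nat.lt_or_ge k.val (19 + 2 * benchCard) with h6 | h6
    · exact ⟨.bench ⟨(k.val - 19) / 2, by omega⟩ ⟨(k.val - 19) % 2, by omega⟩,
        by simp only [YSeg.index]; omega⟩
    exact ⟨.kt, by simp only [YSeg.index]; omega⟩
  obtain ⟨s, hs⟩ := key
  exact ⟨s, Fin.ext hs⟩

/-- The names of the horizontal segments. -/
def xSegEquiv : XSeg ≃ Fin segCount :=
  Equiv.ofBijective _ ⟨XSeg.fin_injective, XSeg.fin_surjective⟩

/-- The names of the vertical segments. -/
def ySegEquiv : YSeg ≃ Fin segCount :=
  Equiv.ofBijective _ ⟨YSeg.fin_injective, YSeg.fin_surjective⟩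

/-! ## The kind table -/

/-- The gate component of a column segment of the event rows. -/
def prGate (c : Fin 3) : Fin 7 := ⟨4 + c.val, by omega⟩

/-- The gate component of a column segment of the address rows. -/
def paGate (c : Fin 4) : Fin 7 := ⟨c.val, by omega⟩

/-- The bundle read by a column segment of the match rows: `S, L, B, DL`, then `S, L, B`. -/
def paClass : Fin 4 → Fin 4
  | 0 => 2
  | 1 => 3
  | 2 => 0
  | 3 => 1

/-- The bundle read by a column segment of the event rows. -/
def prClass : Fin 3 → Fin 4
  | 0 => 2
  | 1 => 3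
  | 2 => 0

/-- Comparison of a row line of the left neighbour with an own column line. -/
def cmpARel (l : Loc) : Cmp :=
  if l.cross.eq then .same else if l.cross.succ || (l.x.first && l.y.last) then .next else .apart

/-- Comparison of a column line of the neighbour below with an own row line. -/
def cmpBRel (l : Loc) : Cmp :=
  if l.cross.eq then .same else if l.cross.succT || (l.x.last && l.y.first) then .next else .apart

/-- A turn of bundle lanes `ok` on the diagonal. -/
def turnAt (ok : Sym → Bool) (k : Kind) (l : Loc) : Kind :=
  if l.cross.eq ∧ ok l.y.sym then k else .pass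

/-- Rows that leave a tile to the right. -/
def keepsRow : YSeg → Sym → Bool
  | .r c, s => decide (c = 2) && s.isSrc
  | .rd c, s => decide (c = 2) && s.isDerived
  | .my, _ => true
  | .ta, _ => true
  | _, _ => false

/-- Columns that leave a tile upwards. -/
def keepsCol : XSeg → Sym → Bool
  | .up, s | .upl, s => s.isSrc
  | .upd, s | .updl, s => s.isDerived
  | .mx, _ => true
  | .tb, _ => true
  | _, _ => false

/-- The first column. -/
def x0Kind (Y : YSeg) (l : Loc) : Kind :=
  if l.x.first then (if Y = .y0 ∧ l.y.first then .lmIn else .col0)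
  else if Y = .kt ∧ l.y.first then .passH else .pass

/-- The last segment before the band. -/
def krKind (Y : YSeg) (l : Loc) : Kind :=
  if l.x.last ∧ Y = .y0 ∧ l.y.first then .lmOut
  else if l.x.first ∧ Y = .kt ∧ l.y.first then .blank
  else if l.x.first ∧ keepsRow Y l.y.sym = false then .passV
  else if Y = .kt ∧ l.y.first then .passH
  else .pass

/-- The top segment below the band of rows. -/
def ktKind (X : XSeg) (l : Loc) : Kind :=
  if l.y.first ∧ keepsCol X l.x.sym = false then .passH else .pass

/-- The segment where the bundle of the left neighbour is moved up. -/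
def shKind (Y : YSeg) (l : Loc) : Kind :=
  match Y with
  | .ta => if l.x.first then .resetH else .pass
  | .r c => if c = 2 then turnAt Sym.isSrc .turnUp l
      else if c = 3 then turnAt Sym.isSrc .turnRight l else .pass
  | .rd c => if c = 2 then turnAt Sym.isDerived .turnUp l
      else if c = 3 then turnAt Sym.isDerived .turnRight l else .pass
  | _ => .pass

/-- The choosing column. -/
def lyKind (Y : YSeg) (l : Loc) : Kind :=
  if Y = .my ∧ l.x.first then .pickY l.y.last else .pass

/-- The sources of the self bundle. -/
def srcKind (Y : YSeg) (l : Loc) : Kind :=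
  if Y = .r 2 ∧ l.x.first ∧ l.y.sym.isSrc then .srcBit
  else if Y = .rd 2 ∧ l.x.first ∧ l.y.sym.isDerived then .srcUnset
  else .pass

/-- The columns of the first offset. -/
def mxKind (Y : YSeg) (l : Loc) : Kind :=
  match Y with
  | .lx => if l.y.first then .pickX l.x.last else .pass
  | .my => .cross l.cross
  | .ta => .cmpA (cmpARel l) l.x.last
  | .rd c =>
    match l.y.sym.derived? with
    | some q => if c = 2 then .exX q l.x else .pass
    | Option.none => .pass
  | _ => .pass

/-- The columns of the second offset. -/
def tbKind (Y : YSeg) (l : Loc) : Kind :=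
  match Y with
  | .lx => if l.y.first then .resetV else .pass
  | .my => .cmpB (cmpBRel l) l.y.last
  | .rd c =>
    match l.y.sym.derived? with
    | some q => if c = 2 then .exY q l.x else .pass
    | Option.none => .pass
  | _ => .pass

/-- Where unset lanes are closed. -/
def setAbsKind (Y : YSeg) (l : Loc) : Kind :=
  if Y = .rd 2 ∧ l.x.first ∧ l.y.sym.isDerived then .setAbs else .pass

/-- A segment of relayed columns: `lo` turns right, `hi` also goes up. -/
def upKind (ok : Sym → Bool) (lo hi : YSeg) (Y : YSeg) (l : Loc) : Kind :=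
  if Y = lo then turnAt ok .turnRight l else if Y = hi then turnAt ok .fanUp l else .pass

/-- A column segment of the address rows. Every lane of its bundle goes up, so that all lanes of
the four bundles cross; the rows only read the lanes that are visible to them. -/
def paKind (c : Fin 4) (Y : YSeg) (l : Loc) : Kind :=
  match Y with
  | .r d => if d = paClass c then turnAt Sym.isSrc .fanUp l else .pass
  | .rd d => if d = paClass c then turnAt Sym.isDerived .fanUp l else .pass
  | .ma =>
    if l.y.sym = .mrow then
      if c = 0 ∧ l.x.first then .matchStart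
      else if c = 3 ∧ l.x.last then .matchEnd
      else if Sym.vis (paGate c) l.x.sym then .test (l.cross.gate (paGate c))
      else .pass
    else .pass
  | _ => .pass

/-- A column segment of the event rows. -/
def prKind (c : Fin 3) (Y : YSeg) (l : Loc) : Kind :=
  match Y with
  | .r d => if d = prClass c then turnAt (Sym.vis (prGate c)) .fanUp l else .pass
  | .mr =>
    if l.y.sym = .mrow then
      if c = 0 ∧ l.x.first then .matchStart
      else if c = 2 ∧ l.x.last then .matchEnd
      else if Sym.vis (prGate c) l.x.sym then .test (l.cross.gate (prGate c))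
      else .pass
    else .pass
  | _ => .pass

/-- The kind at a pair of named segments. -/
def kindOn : XSeg → YSeg → Loc → Kind
  | .x0, Y, l => x0Kind Y l
  | .kr, Y, l => krKind Y l
  | .bench t i, .bench t' j, l =>
    if t = t' then (benchEquiv.symm t).kind i j l else .blank
  | .bench _ _, _, _ => .passH
  | _, .bench _ _, _ => .passV
  | X, .kt, l => ktKind X l
  | .sh, Y, l => shKind Y l
  | .ly, Y, l => lyKind Y l
  | .src, Y, l => srcKind Y l
  | .mx, Y, l => mxKind Y l
  | .tb, Y, l => tbKind Y l
  | .setAbs, Y, l => setAbsKind Y l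
  | .up, Y, l => upKind Sym.isSrc (.r 0) (.r 2) Y l
  | .upl, Y, l => upKind Sym.isSrc (.r 1) (.r 3) Y l
  | .upd, Y, l => upKind Sym.isDerived (.rd 0) (.rd 2) Y l
  | .updl, Y, l => upKind Sym.isDerived (.rd 1) (.rd 3) Y l
  | .pa c, Y, l => paKind c Y l
  | .pr c, Y, l => prKind c Y l
  | .gap, _, _ => .pass

/-- The kind table of the layout. -/
def layoutKind (sA sB : Fin segCount) (l : Loc) : Kind :=
  kindOn (xSegEquiv.symm sA) (ySegEquiv.symm sB) l

@[simp] theorem layoutKind_fin (X : XSeg) (Y : YSeg) (l : Loc) :
    layoutKind (xSegEquiv X) (ySegEquiv Y) l = kindOn X Y l := by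
  simp [layoutKind]

end

end Vale.Agent.P196.W
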