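import Vale.Agent.P196.W.Grid
import Vale.Agent.P196.W.Layout
import Vale.Agent.P196.W.Geometry

/-!
# P196: the layout obeys the rule of the marked row
-/

namespace Vale.Agent.P196.W

/-- A static symbol that sees the ends of the segments. -/
structure SeesEnds {M : ℕ} (loc : Fin M → Fin M → Loc) : Prop where
  xfirst : ∀ a b, (loc a b).x.first = decide (a.val = 0)
  xlast : ∀ a b, (loc a b).x.last = decide (a.val + 1 = M)
  yfirst : ∀ a b, (loc a b).y.first = decide (b.val = 0)

theorem seesEnds_loc (T : Tables) (M0 n : ℕ) :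
    SeesEnds fun a b : Fin (segLen M0 n) => T.loc M0 n a.val b.val :=
  ⟨fun _ _ => rfl, fun _ _ => rfl, fun _ _ => rfl⟩

theorem pos_eq_zero {g M : ℕ} {s : Fin g} {o : Fin M} (h : pos s o = 0) :
    s.val = 0 ∧ o.val = 0 := by
  simp only [pos] at h
  have := o.2
  rcases Nat.eq_zero_or_pos s.val with hs | hs
  · exact ⟨hs, by omega⟩
  · have : 1 * M ≤ s.val * M := Nat.mul_le_mul_right M hs
    omega

theorem pos_eq_last {g M : ℕ} {s : Fin g} {o : Fin M} (h : pos s o + 1 = g * M) :
    s.val + 1 = g ∧ o.val + 1 = M := by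
  simp only [pos] at h
  have := o.2
  have hs := s.2
  rcases Nat.lt_or_ge (s.val + 1) g with hlt | hge
  · have h2 : (s.val + 2) * M ≤ g * M := Nat.mul_le_mul_right M hlt
    rw [show (s.val + 2) * M = s.val * M + M + M by ring] at h2
    omega
  · have hg : g * M = (s.val + 1) * M := by congr 1; omega
    rw [show (s.val + 1) * M = s.val * M + M by ring] at hg
    omega

theorem xSegEquiv_eq {X : XSeg} {s : Fin segCount} (h : X.index = s.val) :
    xSegEquiv.symm s = X := by
  rw [Equiv.symm_apply_eq]; exact Fin.ext h.symm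

theorem ySegEquiv_eq {Y : YSeg} {s : Fin segCount} (h : Y.index = s.val) :
    ySegEquiv.symm s = Y := by
  rw [Equiv.symm_apply_eq]; exact Fin.ext h.symm

/-- The marked row leaves the last column and is refused elsewhere by the first one. -/
theorem gridRule_layout {M : ℕ} {loc : Fin M → Fin M → Loc} (h : SeesEnds loc) :
    GridRule layoutKind loc where
  lm_out := by
    intro sA oA sB oB hL vB hx hy p hp
    obtain ⟨hs, ho⟩ := pos_eq_last hx
    obtain ⟨ht, hb⟩ := pos_eq_zero hy
    have eX : xSegEquiv.symm sA = .kr := xSegEquiv_eq (by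
      simp only [XSeg.index]; simp only [segCount] at hs; omega)
    have eY : ySegEquiv.symm sB = .y0 := ySegEquiv_eq (by simp only [YSeg.index]; omega)
    simp only [kindAt, layoutKind, eX, eY, kindOn, krKind, h.xlast, h.yfirst, ho, hb,
      decide_true, and_self, if_true, Kind.outs, List.mem_singleton] at hp
    rw [hp]
  lm_in := by
    intro sA oA sB oB vB hx hy
    obtain ⟨hs, ho⟩ := pos_eq_zero hx
    have eX : xSegEquiv.symm sA = .x0 := xSegEquiv_eq (by simp only [XSeg.index]; omega)
    simp only [kindAt, layoutKind, eX, kindOn, x0Kind, h.xfirst, h.yfirst, ho, decide_true,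
      if_true, decide_eq_true_eq]
    rw [if_neg ?_]
    · simp [Kind.outs]
    · rintro ⟨e, hb⟩
      have : (sB.val : ℕ) = 0 := by
        rw [Equiv.symm_apply_eq] at e
        exact congrArg Fin.val e
      exact hy (by simp [pos, this, hb])

end Vale.Agent.P196.W
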