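import Vale.Agent.P196.W.Grid

/-!
# P196: drawing and desubstitution reduced to one aligned tile

For a drawing whose addresses are those of the residues, the rule windows of the children follow
from the relation at the cells of single tiles, and desubstitution follows from desubstitution of
the tilings aligned at the origin.
-/

namespace Vale.Agent.P196.W

open Vale.Agent.P196.Sft

variable {g M : ℕ} [NeZero g] [NeZero M] {β : Type} {K : Fin g → Fin g → Loc → Kind}
  {loc : Fin M → Fin M → Loc} {W' : Set (Win β)} {draw : Win β → ℕ → ℕ → Colour g M}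

/-- The drawing puts the address of the residue at every cell. -/
def DrawAddr (draw : Win β → ℕ → ℕ → Colour g M) : Prop :=
  ∀ w x y, x < side g M → y < side g M → (draw w x y).addr = addrAt x y

/-- The relation holds at every cell of the tile of the parent `P`, the tiles on its left and
below it supplying the signals at its edges, when the three windows of parents obey the rules. -/
def DrawOk (K : Fin g → Fin g → Loc → Kind) (loc : Fin M → Fin M → Loc) (W' : Set (Win β))
    (draw : Win β → ℕ → ℕ → Colour g M) : Prop :=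
  ∀ (T : Cell → β) (P : Cell), windowAt T (P.1 - 1, P.2 - 1) ∈ W' →
    windowAt T (P.1 - 2, P.2 - 1) ∈ W' → windowAt T (P.1 - 1, P.2 - 2) ∈ W' →
    ∀ x y, x < side g M → y < side g M →
      let w := windowAt T (P.1 - 1, P.2 - 1)
      let c := draw w x y
      let l := if x = 0 then draw (windowAt T (P.1 - 2, P.2 - 1)) (side g M - 1) y
        else draw w (x - 1) y
      let b := if y = 0 then draw (windowAt T (P.1 - 1, P.2 - 2)) x (side g M - 1)
        else draw w x (y - 1)
      (c.h, c.v) ∈ (kindAt K loc (addrAt x y)).outs l.h b.v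

omit [NeZero g] in
theorem side_pos : 0 < side g M := Nat.mul_pos g.succ_pos (NeZero.pos M)

omit [NeZero g] [NeZero M] in
theorem expand_apply {γ : Type} (d : Win β → ℕ → ℕ → γ) (o : Cell) (T : Cell → β) (x y : ℤ) :
    expand (side g M) d o T (x, y) =
      d (windowAt T ((x - o.1) / (side g M : ℤ) - 1, (y - o.2) / (side g M : ℤ) - 1))
        (res g M o.1 x) (res g M o.2 y) := rfl

omit [NeZero g] in
/-- The parent and the residue of the cell before. -/
theorem pred_res (o c : ℤ) :
    (res g M o c = 0 ∧ (c - 1 - o) / (side g M : ℤ) = (c - o) / (side g M : ℤ) - 1 ∧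
      res g M o (c - 1) = side g M - 1) ∨
    (0 < res g M o c ∧ (c - 1 - o) / (side g M : ℤ) = (c - o) / (side g M : ℤ) ∧
      res g M o (c - 1) = res g M o c - 1) := by
  have hN : (0 : ℤ) < side g M := by exact_mod_cast side_pos
  have hc := res_cast (g := g) (M := M) o c
  have hc1 := res_cast (g := g) (M := M) o (c - 1)
  have hlt := res_lt (g := g) (M := M) o c
  have key : c - o = (side g M : ℤ) * ((c - o) / (side g M : ℤ)) + (res g M o c : ℤ) := by
    rw [hc, Int.emod_def]; ring
  generalize (c - o) / (side g M : ℤ) = q at key ⊢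
  by_cases h : res g M o c = 0
  · left
    have e : c - 1 - o = ((side g M : ℤ) - 1) + (q - 1) * (side g M : ℤ) := by
      rw [h] at key; push_cast at key; linarith
    refine ⟨h, ?_, ?_⟩
    · rw [e, Int.add_mul_ediv_right _ _ hN.ne', Int.ediv_eq_zero_of_lt (by omega) (by omega)]
      ring
    · rw [e, Int.add_mul_emod_self_right, Int.emod_eq_of_lt (by omega) (by omega)] at hc1
      omega
  · right
    have e : c - 1 - o = ((res g M o c : ℤ) - 1) + q * (side g M : ℤ) := by linarith
    refine ⟨Nat.pos_of_ne_zero h, ?_, ?_⟩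
    · rw [e, Int.add_mul_ediv_right _ _ hN.ne', Int.ediv_eq_zero_of_lt (by omega) (by omega)]
      ring
    · rw [e, Int.add_mul_emod_self_right, Int.emod_eq_of_lt (by omega) (by omega)] at hc1
      omega

omit [NeZero g] in
theorem div_mono {a b : ℤ} (h : a ≤ b) :
    a / (side g M : ℤ) ≤ b / (side g M : ℤ) :=
  Int.ediv_le_ediv (by exact_mod_cast side_pos) h

omit [NeZero g] in
theorem div_succ_le (a : ℤ) : (a + 1) / (side g M : ℤ) ≤ a / (side g M : ℤ) + 1 := by
  have hN : (0 : ℤ) < side g M := by exact_mod_cast side_pos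
  rw [← Int.add_mul_ediv_right a 1 hN.ne', one_mul]
  exact div_mono (by omega)

/-- A drawn window obeys the rules as soon as the parents do near it. -/
theorem windowAt_expand_mem (hA : DrawAddr draw) (hO : DrawOk K loc W' draw) (o : Cell)
    (T : Cell → β) (v : Cell)
    (hT : ∀ u : Cell, |u.1 - (v.1 - o.1) / (side g M : ℤ)| ≤ 2 →
      |u.2 - (v.2 - o.2) / (side g M : ℤ)| ≤ 2 → windowAt T u ∈ W') :
    windowAt (expand (side g M) draw o T) v ∈ windows K loc := by
  obtain ⟨x, y⟩ := v
  have addr : ∀ a b : ℤ, (expand (side g M) draw o T (a, b)).addr =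
      addrAt (res g M o.1 a) (res g M o.2 b) := fun a b => by
    rw [expand_apply]; exact hA _ _ _ (res_lt _ _) (res_lt _ _)
  refine ⟨fun j => ?_, fun i => ?_, ?_⟩
  · simp only [windowAt, addr, Fin.val_zero, Fin.val_one, Nat.cast_zero, Nat.cast_one, add_zero]
    exact hStep_res _ _ _ _
  · simp only [windowAt, addr, Fin.val_zero, Fin.val_one, Nat.cast_zero, Nat.cast_one, add_zero]
    exact vStep_res _ _ _ _
  · have ev := hO T ((x + 1 - o.1) / (side g M : ℤ), (y + 1 - o.2) / (side g M : ℤ))
    have m1 := div_mono (g := g) (M := M) (show x - o.1 ≤ x + 1 - o.1 by omega)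
    have m2 := div_mono (g := g) (M := M) (show y - o.2 ≤ y + 1 - o.2 by omega)
    have s1 := div_succ_le (g := g) (M := M) (x - o.1)
    have s2 := div_succ_le (g := g) (M := M) (y - o.2)
    rw [show x - o.1 + 1 = x + 1 - o.1 by ring] at s1
    rw [show y - o.2 + 1 = y + 1 - o.2 by ring] at s2
    have ev := ev (hT _ (abs_le.2 ⟨by dsimp; omega, by dsimp; omega⟩)
        (abs_le.2 ⟨by dsimp; omega, by dsimp; omega⟩))
      (hT _ (abs_le.2 ⟨by dsimp; omega, by dsimp; omega⟩)
        (abs_le.2 ⟨by dsimp; omega, by dsimp; omega⟩))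
      (hT _ (abs_le.2 ⟨by dsimp; omega, by dsimp; omega⟩)
        (abs_le.2 ⟨by dsimp; omega, by dsimp; omega⟩))
      (res g M o.1 (x + 1)) (res g M o.2 (y + 1)) (res_lt _ _) (res_lt _ _)
    simp only [Event.Ok, winEvent, windowAt, Fin.val_zero, Fin.val_one, Nat.cast_zero,
      Nat.cast_one, add_zero, addr]
    simp only [expand_apply] at ev ⊢
    have hx := pred_res (g := g) (M := M) o.1 (x + 1)
    have hy := pred_res (g := g) (M := M) o.2 (y + 1)
    rw [add_sub_cancel_right] at hx hy
    rcases hx with ⟨r1, q1, p1⟩ | ⟨r1, q1, p1⟩ <;> rcases hy with ⟨r2, q2, p2⟩ | ⟨r2, q2, p2⟩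
    · rw [if_pos r1, if_pos r2] at ev
      rw [q1, q2, p1, p2, sub_sub, sub_sub]; exact ev
    · rw [if_pos r1, if_neg (by omega)] at ev
      rw [q1, q2, p1, p2, sub_sub]; exact ev
    · rw [if_neg (by omega), if_pos r2] at ev
      rw [q1, q2, p1, p2, sub_sub]; exact ev
    · rw [if_neg (by omega), if_neg (by omega)] at ev
      rw [q1, q2, p1, p2]; exact ev

omit [NeZero g] [NeZero M] in
theorem expand_zero_sub (o : Cell) (T : Cell → β) (v : Cell) :
    expand (side g M) draw o T v = expand (side g M) draw 0 T (v - o) := by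
  simp [expand]

/-- Desubstitution follows from that of the aligned tilings. -/
theorem desub_of_aligned (hK : GridRule K loc) (hA : DrawAddr draw)
    (hD : ∀ t, Legal (windows K loc) t →
      (∀ v : Cell, (t v).addr = addrAt (res g M 0 v.1) (res g M 0 v.2)) →
      ∃! T : Cell → β, Legal W' T ∧ t = expand (side g M) draw 0 T)
    (t : Cell → Colour g M) (ht : Legal (windows K loc) t) :
    ∃! p : (Fin (side g M) × Fin (side g M)) × (Cell → β),
      Legal W' p.2 ∧
        t = expand (side g M) draw ((p.1.1.val : ℤ), (p.1.2.val : ℤ)) p.2 := by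
  obtain ⟨o, ho⟩ := exists_offset hK ht
  let s : Cell := ((o.1.val : ℤ), (o.2.val : ℤ))
  have hs : Legal (windows K loc) (shiftBy s t) := by
    intro u
    have e : windowAt (shiftBy s t) u = windowAt t (u.1 + s.1, u.2 + s.2) := by
      funext d; simp only [windowAt, shiftBy]; congr 1; ext <;> simp only <;> ring
    rw [e]; exact ht _
  have ha : ∀ v : Cell, ((shiftBy s t) v).addr = addrAt (res g M 0 v.1) (res g M 0 v.2) := by
    intro v
    simp only [shiftBy, ho, res, s, add_sub_cancel_right, sub_zero]
  obtain ⟨T, ⟨hT, eT⟩, uT⟩ := hD _ hs ha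
  refine ⟨(o, T), ⟨hT, ?_⟩, ?_⟩
  · funext v
    rw [expand_zero_sub, ← eT]
    simp only [shiftBy, s, Prod.fst_sub, Prod.snd_sub, sub_add_cancel]
  · rintro ⟨o', T'⟩ ⟨hT', e'⟩
    have hoo : o' = o := by
      refine offset_unique fun v => ?_
      rw [← ho, e', expand_apply]
      exact (hA _ _ _ (res_lt _ _) (res_lt _ _)).symm
    subst hoo
    refine Prod.ext rfl (uT T' ⟨hT', ?_⟩)
    funext v
    simp only [shiftBy, e']
    rw [expand_zero_sub]
    congr 1
    ext <;> simp [s]

end Vale.Agent.P196.W
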