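import Vale.Agent.P196.W.Raw
import Vale.Agent.P196.W.Decode
import Vale.Agent.P196.W.Tiles
import Vale.Agent.P196.W.GridLayout

/-!
# P196: the drawing of a tile from a window of parents

A parent gives the free choices of its tile: the two offsets halved, with their parities, and its
bits on the lanes. A window gives the four bundles of its upper right parent: `0` the parent
below, `1` below left, `2` the parent itself, `3` the left one.
-/

namespace Vale.Agent.P196.W

open Sft

noncomputable section

/-- The number of offsets of a segment is positive. -/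
theorem segLen_pos {M0 : ℕ} [NeZero M0] (n : ℕ) : 0 < segLen M0 n :=
  Nat.mul_pos (Nat.two_pow_pos n) (NeZero.pos M0)

instance {M0 : ℕ} [NeZero M0] (n : ℕ) : NeZero (segLen M0 n) :=
  ⟨(segLen_pos n).ne'⟩

instance : NeZero segCount := ⟨by simp [segCount]⟩

instance (g : ℕ) : NeZero (m0 g) := ⟨by simp [m0]⟩

variable (T : Tables) (M0 n : ℕ)

/-- A colour of level `n` of the layout. -/
abbrev Tint : Type := Colour segCount (segLen M0 n)

/-- The rule windows of level `n` of the layout. -/
def rules : Set (Win (Tint M0 n)) := windows layoutKind (locF T M0 n)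

/-- An offset of a parent as an offset of its tile and a parity. -/
def halve {m : ℕ} (a : Fin m) : ℕ × Bool := (a.val / 2, decide (a.val % 2 = 1))

/-- The bit of a parent on the lane that stands at offset `z`. -/
def laneBit (c : Tint M0 (n + 1)) (z : ℕ) : Bool :=
  open Classical in
  decide (∃ l : Lane segCount, z = laneAt n l ∧ colourBits layoutKind T M0 (n + 1) c l = true)

/-- The free choices in the tile of a parent. -/
def choices (c : Tint M0 (n + 1)) : Choices where
  ox := c.addr.xoff.map halve
  oy := c.addr.yoff.map halve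
  bit := laneBit T M0 n c

/-- The four bundles of a window of parents. -/
def quadOf (w : Win (Tint M0 (n + 1))) : Quad :=
  ![choices T M0 n (w (1, 0)), choices T M0 n (w (0, 0)),
    choices T M0 n (w (1, 1)), choices T M0 n (w (0, 1))]

/-- The horizontal segment at a coordinate. -/
def xsegAt [NeZero M0] (x : ℕ) : XSeg :=
  xSegEquiv.symm (addrAt.segOf (g := segCount) (M := segLen M0 n) x)

/-- The vertical segment at a coordinate. -/
def ysegAt [NeZero M0] (y : ℕ) : YSeg :=
  ySegEquiv.symm (addrAt.segOf (g := segCount) (M := segLen M0 n) y)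

/-- The signal sent to the right by the cell `(x, y)` of a tile with bundles `q`. -/
def sigH [NeZero M0] (q : Quad) (x y : ℕ) : Sig :=
  if segCount * segLen M0 n ≤ y then .none
  else if segCount * segLen M0 n ≤ x then
    rawBandH T M0 n q (ysegAt M0 n y) (y % segLen M0 n)
  else rawH T M0 n q (xsegAt M0 n x) (x % segLen M0 n) (ysegAt M0 n y) (y % segLen M0 n)

/-- The signal sent upwards by the cell `(x, y)` of a tile with bundles `q`. -/
def sigV [NeZero M0] (q : Quad) (x y : ℕ) : Sig :=
  if segCount * segLen M0 n ≤ x then .none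
  else if segCount * segLen M0 n ≤ y then
    rawBandV T M0 n q (xsegAt M0 n x) (x % segLen M0 n)
  else rawV T M0 n q (xsegAt M0 n x) (x % segLen M0 n) (ysegAt M0 n y) (y % segLen M0 n)

/-- The interior of a parent. -/
def drawTile [NeZero M0] (w : Win (Tint M0 (n + 1))) (x y : ℕ) : Tint M0 n :=
  ⟨addrAt x y, sigH T M0 n (quadOf T M0 n w) x y, sigV T M0 n (quadOf T M0 n w) x y⟩

/-- The drawing puts the address of the residue at every cell. -/
theorem drawAddr_drawTile [NeZero M0] : DrawAddr (drawTile T M0 n) := fun _ _ _ _ _ => rfl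

/-- The marked row fixes the grid at every level. -/
theorem gridRule_level : GridRule layoutKind (locF T M0 n) :=
  gridRule_layout (seesEnds_loc T M0 n)

theorem quadOf_self (w : Win (Tint M0 (n + 1))) :
    quadOf T M0 n w 2 = choices T M0 n (w (1, 1)) := rfl

theorem quadOf_left (w : Win (Tint M0 (n + 1))) :
    quadOf T M0 n w 3 = choices T M0 n (w (0, 1)) := rfl

theorem quadOf_below (w : Win (Tint M0 (n + 1))) :
    quadOf T M0 n w 0 = choices T M0 n (w (1, 0)) := rfl

theorem quadOf_belowLeft (w : Win (Tint M0 (n + 1))) :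
    quadOf T M0 n w 1 = choices T M0 n (w (0, 0)) := rfl

theorem halve_spec {m : ℕ} (a : Fin m) :
    a.val = 2 * (halve a).1 + (halve a).2.toNat := by
  simp only [halve]
  rcases Nat.mod_two_eq_zero_or_one a.val with h | h <;> simp [h] <;> omega

theorem halve_lt (a : Fin (segLen M0 (n + 1))) : (halve a).1 < segLen M0 n := by
  have := a.2
  simp only [halve, segLen_succ] at this ⊢
  omega

theorem laneBit_laneAt (c : Tint M0 (n + 1)) (l : Lane segCount) :
    laneBit T M0 n c (laneAt n l) = colourBits layoutKind T M0 (n + 1) c l := by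
  rw [laneBit, Bool.eq_iff_iff, decide_eq_true_eq]
  exact ⟨fun ⟨l', h, hb⟩ => laneAt_injective n h ▸ hb, fun hb => ⟨l, rfl, hb⟩⟩

theorem segOf_pos {g M : ℕ} [NeZero g] [NeZero M] (s : Fin g) (o : Fin M) :
    addrAt.segOf (g := g) (M := M) (pos s o) = s ∧ (pos s o) % M = o.val := by
  have h : pos s o < g * M := pos_lt s o
  have := pos_inj (pos_ofNat (g := g) (M := M) h)
  exact ⟨this.1, congrArg Fin.val this.2⟩

/-- The address at a named pair of offsets. -/
theorem addrAt_named [NeZero M0] (X : XSeg) (x : Fin (segLen M0 n)) (Y : YSeg)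
    (y : Fin (segLen M0 n)) :
    (addrAt (pos (xSegEquiv X) x) (pos (ySegEquiv Y) y) : Addr segCount (segLen M0 n)) =
      .full (xSegEquiv X) x (ySegEquiv Y) y := by
  rw [addrAt, if_neg (not_le.2 (pos_lt _ _)), if_neg (not_le.2 (pos_lt _ _))]
  have hx := segOf_pos (xSegEquiv X) x
  have hy := segOf_pos (ySegEquiv Y) y
  simp only [addrAt.offOf, hx, hy, Fin.eta]

/-- The kind at a named pair of offsets. -/
theorem kindAt_named [NeZero M0] (X : XSeg) (x : Fin (segLen M0 n)) (Y : YSeg)
    (y : Fin (segLen M0 n)) :
    kindAt layoutKind (locF T M0 n) (addrAt (pos (xSegEquiv X) x) (pos (ySegEquiv Y) y)) =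
      kindOn X Y (T.loc M0 n x.val y.val) := by
  rw [addrAt_named]; simp [kindAt, locF]

/-- The signals at a named pair of offsets. -/
theorem sig_named [NeZero M0] (q : Quad) (X : XSeg) (x : Fin (segLen M0 n)) (Y : YSeg)
    (y : Fin (segLen M0 n)) :
    sigH T M0 n q (pos (xSegEquiv X) x) (pos (ySegEquiv Y) y) = rawH T M0 n q X x.val Y y.val ∧
      sigV T M0 n q (pos (xSegEquiv X) x) (pos (ySegEquiv Y) y) =
        rawV T M0 n q X x.val Y y.val := by
  have hx := segOf_pos (xSegEquiv X) x
  have hy := segOf_pos (ySegEquiv Y) y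
  simp only [sigH, sigV, if_neg (not_le.2 (pos_lt _ _)), xsegAt, ysegAt, hx, hy,
    Equiv.symm_apply_apply, and_self]

end

end Vale.Agent.P196.W
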