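import Vale.Agent.P196.W.BlockSignal
import Vale.Agent.P196.W.Draw
import Vale.Agent.P196.W.Cells
import Vale.Agent.P196.W.BandRaw

/-!
# P196: the classes of `3 × 3` blocks

`hSig` and `vSig` continue the signals of a tile over a margin on its left and below it, where the
bundles of the two neighbours are those of the same window. A block meets at most one lane in
either direction, so it reads either the event, or channels only, or the addresses and one channel.
-/

namespace Vale.Agent.P196.W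

open Sft

noncomputable section

/-- The bundles that the margin on the left reads. -/
def leftQuad (q : Quad) : Quad := fun _ => q 3

/-- The bundles that the margin below reads. -/
def belowQuad (q : Quad) : Quad := fun c => if c = 2 then q 0 else q 1

variable (T : Tables) (M0 n : ℕ) [NeZero M0]

/-- The signal to the right of the cell `(x, y)`, the margins included. -/
def hSig (q : Quad) (x y : ℤ) : Sig :=
  if 0 ≤ y ∧ y < (segCount * segLen M0 n : ℕ) then
    if x < 0 then
      rawBandH T M0 n (leftQuad q) (ysegAt M0 n y.toNat) (y.toNat % segLen M0 n)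
    else if x < (segCount * segLen M0 n : ℕ) then
      rawH T M0 n q (xsegAt M0 n x.toNat) (x.toNat % segLen M0 n)
        (ysegAt M0 n y.toNat) (y.toNat % segLen M0 n)
    else rawBandH T M0 n q (ysegAt M0 n y.toNat) (y.toNat % segLen M0 n)
  else .none

/-- The signal upwards of the cell `(x, y)`, the margins included. -/
def vSig (q : Quad) (x y : ℤ) : Sig :=
  if 0 ≤ x ∧ x < (segCount * segLen M0 n : ℕ) then
    if y < 0 then
      rawBandV T M0 n (belowQuad q) (xsegAt M0 n x.toNat) (x.toNat % segLen M0 n)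
    else if y < (segCount * segLen M0 n : ℕ) then
      rawV T M0 n q (xsegAt M0 n x.toNat) (x.toNat % segLen M0 n)
        (ysegAt M0 n y.toNat) (y.toNat % segLen M0 n)
    else rawBandV T M0 n q (xsegAt M0 n x.toNat) (x.toNat % segLen M0 n)
  else .none

/-- Two quadruples give the same signals in the block with upper right cell `(a, b)`. -/
def BlockEq (a b : ℤ) (q q' : Quad) : Prop :=
  ∀ x y : ℤ, a - 2 ≤ x → x ≤ a → b - 2 ≤ y → y ≤ b →
    hSig T M0 n q x y = hSig T M0 n q' x y ∧ vSig T M0 n q x y = vSig T M0 n q' x y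

/-- An offset with a channel or another role at coordinate `z`. -/
def lanePt (z : ℕ) : Sym := symAt T M0 n (z % segLen M0 n)

/-- The row `y` carries a channel. -/
def RowChanAt (y : ℕ) : Prop :=
  y < segCount * segLen M0 n ∧ RowChan T M0 n (ysegAt M0 n y) (y % segLen M0 n)

/-- The column `x` carries a channel. -/
def ColChanAt (x : ℕ) : Prop :=
  x < segCount * segLen M0 n ∧ ColChan T M0 n (xsegAt M0 n x) (x % segLen M0 n)

/-- The cell `(x, y)` shows an event row. -/
def EvAt (x y : ℕ) : Prop :=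
  x < segCount * segLen M0 n ∧ y < segCount * segLen M0 n ∧
    EvRow T M0 n (xsegAt M0 n x) (x % segLen M0 n) (ysegAt M0 n y) (y % segLen M0 n)

variable {T M0 n}

theorem xsegAt_index {z : ℕ} (h : z < segCount * segLen M0 n) :
    (xsegAt M0 n z).index = z / segLen M0 n := by
  have hd : z / segLen M0 n < segCount := (Nat.div_lt_iff_lt_mul (segLen_pos n)).2 h
  rw [show (xsegAt M0 n z).index = (xSegEquiv (xsegAt M0 n z)).val from rfl, xsegAt,
    Equiv.apply_symm_apply]
  exact Nat.mod_eq_of_lt hd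

theorem ysegAt_index {z : ℕ} (h : z < segCount * segLen M0 n) :
    (ysegAt M0 n z).index = z / segLen M0 n := by
  have hd : z / segLen M0 n < segCount := (Nat.div_lt_iff_lt_mul (segLen_pos n)).2 h
  rw [show (ysegAt M0 n z).index = (ySegEquiv (ysegAt M0 n z)).val from rfl, ysegAt,
    Equiv.apply_symm_apply]
  exact Nat.mod_eq_of_lt hd

theorem xlin_xsegAt {z : ℕ} (h : z < segCount * segLen M0 n) :
    xlin (segLen M0 n) (xsegAt M0 n z) (z % segLen M0 n) = z := by
  rw [xlin, xsegAt_index h, Nat.div_add_mod']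

theorem ylin_ysegAt {z : ℕ} (h : z < segCount * segLen M0 n) :
    ylin (segLen M0 n) (ysegAt M0 n z) (z % segLen M0 n) = z := by
  rw [ylin, ysegAt_index h, Nat.div_add_mod']

theorem sinceX_lin {M : ℕ} {A X : XSeg} {z x : ℕ} (hz : z < M) (hx : x < M) :
    sinceX A z X x ↔ xlin M A z ≤ xlin M X x := by
  rw [sinceX_iff, xlin, xlin]
  constructor
  · rintro (h | ⟨h, hzx⟩)
    · have := Nat.mul_le_mul_right M (Nat.succ_le_of_lt h)
      rw [Nat.succ_mul] at this; omega
    · rw [h]; omega
  · intro h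
    rcases index_eq_or_lt hz hx h with ⟨a, b⟩ | a
    · exact Or.inr ⟨a.symm, b⟩
    · exact Or.inl a

theorem sinceY_lin {M : ℕ} {A Y : YSeg} {z y : ℕ} (hz : z < M) (hy : y < M) :
    sinceY A z Y y ↔ ylin M A z ≤ ylin M Y y := by
  rw [sinceY_iff, ylin, ylin]
  constructor
  · rintro (h | ⟨h, hzy⟩)
    · have := Nat.mul_le_mul_right M (Nat.succ_le_of_lt h)
      rw [Nat.succ_mul] at this; omega
    · rw [h]; omega
  · intro h
    rcases index_eq_or_lt hz hy h with ⟨a, b⟩ | a
    · exact Or.inr ⟨a.symm, b⟩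
    · exact Or.inl a

/-- Lanes are more than three cells apart and away from the ends of their segment. -/
theorem lane_near (H : TabOK T M0) {u v : ℕ} (hu : lanePt T M0 n u ≠ .none) (h₁ : u ≤ v + 2)
    (h₂ : v ≤ u + 2) :
    v / segLen M0 n = u / segLen M0 n ∧ (v = u ∨ lanePt T M0 n v = .none) := by
  have hM := segLen_pos (M0 := M0) n
  obtain ⟨l1, l2⟩ := H.sym_inner n (Nat.mod_lt _ hM) hu
  have eu := Nat.div_add_mod' u (segLen M0 n)
  have hd : v / segLen M0 n = u / segLen M0 n :=
    Nat.div_eq_of_lt_le (by omega) (by rw [Nat.succ_mul]; omega)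
  refine ⟨hd, ?_⟩
  by_contra hc
  obtain ⟨hne, hv⟩ := not_or.1 hc
  have ev := Nat.div_add_mod' v (segLen M0 n)
  rw [hd] at ev
  have d1 := (symAt_ne_none H.sym_zero hu).1
  have d2 := (symAt_ne_none H.sym_zero hv).1
  have h4 : 4 ≤ gap n := Nat.le_mul_of_pos_right _ (Nat.two_pow_pos n)
  rcases Nat.lt_or_ge (v % segLen M0 n) (u % segLen M0 n) with e | e
  · have := Nat.le_of_dvd (by omega) (Nat.dvd_sub d1 d2)
    omega
  · have := Nat.le_of_dvd (by omega) (Nat.dvd_sub d2 d1)
    omega

omit [NeZero M0] in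
theorem ChanAt.ne_none {z : ℕ} (h : ChanAt T M0 n z) : symAt T M0 n z ≠ .none := by
  rcases h with h | h <;> simp [h]

omit [NeZero M0] in
theorem exists_chanSym {z : ℕ} (h : ChanAt T M0 n z) : ∃ ch, symAt T M0 n z = chanSym ch := by
  rcases h with h | h
  · exact ⟨false, h⟩
  · exact ⟨true, h⟩

omit [NeZero M0] in
theorem EqA.left {q q' : Quad} (h : EqA T M0 n q q') :
    EqA T M0 n (leftQuad q) (leftQuad q') := fun _ => h 3

omit [NeZero M0] in
theorem EqA.below {q q' : Quad} (h : EqA T M0 n q q') :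
    EqA T M0 n (belowQuad q) (belowQuad q') := fun c => by
  simp only [belowQuad]
  split_ifs
  · exact h 0
  · exact h 1

omit [NeZero M0] in
theorem EqR.left {q q' : Quad} (h : EqR T M0 n q q') :
    EqR T M0 n (leftQuad q) (leftQuad q') := fun _ => h 3

omit [NeZero M0] in
theorem EqR.below {q q' : Quad} (h : EqR T M0 n q q') :
    EqR T M0 n (belowQuad q) (belowQuad q') := fun c ch z hz => by
  simp only [belowQuad]
  split_ifs
  · exact h 0 ch z hz
  · exact h 1 ch z hz

omit [NeZero M0] in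
theorem not_evRow_kr (_hM : 0 < segLen M0 n) (Y : YSeg) (y : ℕ) :
    ¬ EvRow T M0 n .kr (segLen M0 n - 1) Y y :=
  fun e => e.2.2.2 (sinceX_kr le_rfl)

omit [NeZero M0] in
/-- Only the self bundle crosses the band of columns. -/
theorem rawBandH_r_ne_two (q : Quad) {c : Fin 4} (hc : c ≠ 2) (y : ℕ) :
    rawBandH T M0 n q (.r c) y = .none := by
  have : sinceX .kr 0 .kr (segLen M0 n - 1) := sinceX_kr (Nat.zero_le _)
  fin_cases c <;> simp_all [rawBandH, rawH]

omit [NeZero M0] in
/-- Only the relayed segments carry bundles across the band of rows. -/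
theorem rawBandV_colBundle (q : Quad) {X : XSeg} (hX : ColBundle X) (h1 : X ≠ .up)
    (h2 : X ≠ .upl) (x : ℕ) : rawBandV T M0 n q X x = .none := by
  have k0 : sinceY .kt 0 .kt (segLen M0 n - 1) := sinceY_kt (Nat.zero_le _)
  have k : ∀ A : YSeg, A.index < 19 → sinceY A x .kt (segLen M0 n - 1) := fun A hA => kt_since hA _ _
  rcases hX with rfl | rfl | rfl | ⟨c, rfl⟩ | ⟨c, rfl⟩
  · simp [rawBandV, rawV]
  · exact absurd rfl h1
  · exact absurd rfl h2
  · simp [rawBandV, rawV, k0]
  · simp [rawBandV, rawV, k0]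

/-! ## Single signals -/

/-- A signal to the right reads the addresses, away from channel rows and event rows. -/
theorem hSig_congr_addr {q q' : Quad} (h : EqA T M0 n q q') {x y : ℤ}
    (hr : 0 ≤ y → ¬ RowChanAt T M0 n y.toNat)
    (he : 0 ≤ x → 0 ≤ y → ¬ EvAt T M0 n x.toNat y.toNat) :
    hSig T M0 n q x y = hSig T M0 n q' x y := by
  unfold hSig
  split_ifs with hy h1 h2
  · exact rawH_congr_addr h.left (fun e => hr hy.1 ⟨by omega, e⟩)
      (not_evRow_kr (segLen_pos n) _ _)
  · exact rawH_congr_addr h (fun e => hr hy.1 ⟨by omega, e⟩)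
      fun e => he (by omega) hy.1 ⟨by omega, by omega, e⟩
  · exact rawH_congr_addr h (fun e => hr hy.1 ⟨by omega, e⟩) (not_evRow_kr (segLen_pos n) _ _)
  · rfl

/-- A signal upwards reads the addresses, away from channel columns. -/
theorem vSig_congr_addr {q q' : Quad} (h : EqA T M0 n q q') {x y : ℤ}
    (hc : 0 ≤ x → ¬ ColChanAt T M0 n x.toNat) :
    vSig T M0 n q x y = vSig T M0 n q' x y := by
  unfold vSig
  split_ifs with hx h1 h2
  · exact rawV_congr_addr h.below (fun e => hc hx.1 ⟨by omega, e⟩) _ _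
  · exact rawV_congr_addr h (fun e => hc hx.1 ⟨by omega, e⟩) _ _
  · exact rawV_congr_addr h (fun e => hc hx.1 ⟨by omega, e⟩) _ _
  · rfl

/-- A row of a bundle off the other lanes reads channels only. -/
theorem hSig_congr_r {q q' : Quad} (h : EqR T M0 n q q') {x y : ℤ} {c : Fin 4}
    (hY : ysegAt M0 n y.toNat = .r c)
    (hy : lanePt T M0 n y.toNat = .none ∨ ChanAt T M0 n (y.toNat % segLen M0 n)) :
    hSig T M0 n q x y = hSig T M0 n q' x y := by
  unfold hSig
  rw [hY]
  split_ifs
  · exact rawH_congr_r h.left c hy _ _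
  · exact rawH_congr_r h c hy _ _
  · exact rawH_congr_r h c hy _ _
  · rfl

/-- A column of a bundle off the other lanes reads channels only. -/
theorem vSig_congr_r {q q' : Quad} (h : EqR T M0 n q q') {x y : ℤ}
    (hX : ColBundle (xsegAt M0 n x.toNat))
    (hx : lanePt T M0 n x.toNat = .none ∨ ChanAt T M0 n (x.toNat % segLen M0 n)) :
    vSig T M0 n q x y = vSig T M0 n q' x y := by
  unfold vSig
  split_ifs
  · exact rawV_congr_r h.below hX hx _ _
  · exact rawV_congr_r h hX hx _ _
  · exact rawV_congr_r h hX hx _ _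
  · rfl

/-- One signal to the right reads the addresses, or the event, or the channels. -/
theorem hSig_cases (T : Tables) (M0 n : ℕ) [NeZero M0] (x y : ℤ) :
    (∀ q q', EqA T M0 n q q' → hSig T M0 n q x y = hSig T M0 n q' x y) ∨
    (∀ q q', EqE T M0 n q q' → hSig T M0 n q x y = hSig T M0 n q' x y) ∨
    (∀ q q', EqR T M0 n q q' → hSig T M0 n q x y = hSig T M0 n q' x y) := by
  by_cases hr : 0 ≤ y ∧ RowChanAt T M0 n y.toNat
  · obtain ⟨-, -, ⟨c, hY⟩, hz⟩ := hr
    exact Or.inr (Or.inr fun q q' h => hSig_congr_r h hY (Or.inr hz))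
  by_cases he : 0 ≤ x ∧ 0 ≤ y ∧ EvAt T M0 n x.toNat y.toNat
  · obtain ⟨h1, h2, hx, hy, hY, -, -, -⟩ := he
    refine Or.inr (Or.inl fun q q' h => ?_)
    simp only [hSig]
    split_ifs <;> first | (exfalso; omega) | rw [hY]
    exact rawH_congr_event h _ _ _
  · exact Or.inl fun q q' h => hSig_congr_addr h (fun h0 e => hr ⟨h0, e⟩)
      fun h1 h2 e => he ⟨h1, h2, e⟩

/-- One signal upwards reads the addresses, or the channels. -/
theorem vSig_cases (T : Tables) (M0 n : ℕ) [NeZero M0] (x y : ℤ) :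
    (∀ q q', EqA T M0 n q q' → vSig T M0 n q x y = vSig T M0 n q' x y) ∨
    (∀ q q', EqR T M0 n q q' → vSig T M0 n q x y = vSig T M0 n q' x y) := by
  by_cases hc : 0 ≤ x ∧ ColChanAt T M0 n x.toNat
  · obtain ⟨-, -, hX, hz⟩ := hc
    exact Or.inr fun q q' h => vSig_congr_r h hX (Or.inr hz)
  · exact Or.inl fun q q' h => vSig_congr_addr h fun h0 e => hc ⟨h0, e⟩

/-! ## Blocks -/

/-- A block with an event row reads the event only. -/
theorem block_event (H : TabOK T M0) {a b : ℤ} {xe ye : ℕ} (hxa : a - 2 ≤ xe) (hxb : (xe : ℤ) ≤ a)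
    (hya : b - 2 ≤ ye) (hyb : (ye : ℤ) ≤ b) (he : EvAt T M0 n xe ye) (q q' : Quad)
    (h : EqE T M0 n q q') : BlockEq T M0 n a b q q' := by
  obtain ⟨hxe, hye, hY, hm, hs1, hs2⟩ := he
  have hM := segLen_pos (M0 := M0) n
  have h4 := H.eight_le n
  have hp := Nat.two_pow_pos n
  rw [sinceX_lin hM (Nat.mod_lt _ hM), xlin_xsegAt hxe] at hs1
  rw [sinceX_lin (by omega) (Nat.mod_lt _ hM), xlin_xsegAt hxe] at hs2
  simp only [xlin, XSeg.index, Fin.val_zero, add_zero, Fin.val_two] at hs1 hs2
  have hG : 20 * segLen M0 n ≤ segCount * segLen M0 n :=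
    Nat.mul_le_mul_right _ (by simp [segCount])
  intro x y hx1 hx2 hy1 hy2
  have hu : lanePt T M0 n ye ≠ .none := by simp [lanePt, hm]
  obtain ⟨l1, l2⟩ := H.sym_inner n (Nat.mod_lt ye hM) hu
  have hye' := Nat.div_add_mod' ye (segLen M0 n)
  have hy0 : 0 ≤ y := by omega
  obtain ⟨hd, -⟩ := lane_near (n := n) (v := y.toNat) H hu (by omega) (by omega)
  have hyG : y.toNat < segCount * segLen M0 n := by
    have hb : ye / segLen M0 n < segCount := (Nat.div_lt_iff_lt_mul hM).2 hye
    have := Nat.mul_le_mul_right (segLen M0 n) (Nat.succ_le_of_lt hb)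
    rw [Nat.succ_mul] at this
    omega
  have hYy : ysegAt M0 n y.toNat = .mr := by
    rw [← hY]
    exact YSeg.eq_of_index (by rw [ysegAt_index hyG, ysegAt_index hye, hd])
  have hx0 : 0 ≤ x := by omega
  have hxG : x.toNat < segCount * segLen M0 n := by omega
  refine ⟨?_, ?_⟩
  · simp only [hSig]
    split_ifs <;> first | (exfalso; omega) | rw [hYy]
    exact rawH_congr_event h _ _ _
  · simp only [vSig]
    split_ifs <;> first | (exfalso; omega) | rw [hYy]
    have hl := xlin_xsegAt (M0 := M0) hxG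
    have ho := Nat.mod_lt x.toNat hM
    generalize xsegAt M0 n x.toNat = X at hl ⊢
    generalize x.toNat % segLen M0 n = o at hl ho ⊢
    have key : 15 ≤ X.index ∧ (X.index = 15 → segLen M0 n ≤ o + 2) := by
      simp only [xlin] at hl
      constructor
      · by_contra hc
        have := Nat.mul_le_mul_right (segLen M0 n) (Nat.le_of_lt_succ (not_le.1 hc))
        omega
      · intro e; rw [e] at hl; omega
    cases X <;> simp only [XSeg.index] at key
    case pr c => exact rawV_congr_event h c _ _ _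
    case pa c =>
      have hn : symAt T M0 n o = .none := by
        by_contra hc
        have := H.sym_inner n ho hc
        omega
      have hp' : ∀ w, paCol T M0 n w c o = .none := fun w =>
        paCol_eq_none w c o (by simp [hn, Sym.isSrc]) (by simp [hn, Sym.isDerived])
      simp [rawV, hp']
    case bench t i => rfl
    case kr => rfl
    all_goals omega

/-- A block with channels in both directions reads channels only. -/
theorem block_channels (H : TabOK T M0) {a b : ℤ} {xr yr : ℕ} (hxa : a - 2 ≤ xr)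
    (hxb : (xr : ℤ) ≤ a) (hya : b - 2 ≤ yr) (hyb : (yr : ℤ) ≤ b) (hr : RowChanAt T M0 n yr)
    (hc : ColChanAt T M0 n xr) (q q' : Quad) (h : EqR T M0 n q q') :
    BlockEq T M0 n a b q q' := by
  obtain ⟨hyr, ⟨c, hY⟩, hzy⟩ := hr
  obtain ⟨hxr, hX, hzx⟩ := hc
  have hM := segLen_pos (M0 := M0) n
  intro x y hx1 hx2 hy1 hy2
  obtain ⟨l1, -⟩ := H.sym_inner n (Nat.mod_lt yr hM) hzy.ne_none
  obtain ⟨m1, -⟩ := H.sym_inner n (Nat.mod_lt xr hM) hzx.ne_none
  have := Nat.mod_le yr (segLen M0 n)
  have := Nat.mod_le xr (segLen M0 n)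
  obtain ⟨dy, ey⟩ := lane_near (n := n) (v := y.toNat) H hzy.ne_none (by omega) (by omega)
  obtain ⟨dx, ex⟩ := lane_near (n := n) (v := x.toNat) H hzx.ne_none (by omega) (by omega)
  have inG : ∀ {v u : ℕ}, v / segLen M0 n = u / segLen M0 n → u < segCount * segLen M0 n →
      v < segCount * segLen M0 n := fun e hu => by
    rw [← Nat.div_lt_iff_lt_mul hM] at hu ⊢
    rwa [e]
  refine ⟨hSig_congr_r h (c := c) ?_ ?_, vSig_congr_r h ?_ ?_⟩
  · rw [← hY]
    exact YSeg.eq_of_index (by rw [ysegAt_index (inG dy hyr), ysegAt_index hyr, dy])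
  · rcases ey with e | e
    · rw [e]; exact Or.inr hzy
    · exact Or.inl e
  · rw [show xsegAt M0 n x.toNat = xsegAt M0 n xr from
      XSeg.eq_of_index (by rw [xsegAt_index (inG dx hxr), xsegAt_index hxr, dx])]
    exact hX
  · rcases ex with e | e
    · rw [e]; exact Or.inr hzx
    · exact Or.inl e

/-- A block with one channel row reads the addresses and one channel. -/
theorem block_row (H : TabOK T M0) {a b : ℤ} {yr : ℕ} (hya : b - 2 ≤ yr) (hyb : (yr : ℤ) ≤ b)
    (hr : RowChanAt T M0 n yr)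
    (hc : ∀ x : ℕ, a - 2 ≤ x → (x : ℤ) ≤ a → ¬ ColChanAt T M0 n x)
    (he : ∀ x y : ℕ, a - 2 ≤ x → (x : ℤ) ≤ a → b - 2 ≤ y → (y : ℤ) ≤ b → ¬ EvAt T M0 n x y) :
    ∃ d ch, ∀ q q', EqA T M0 n q q' → EqSlot T M0 n d ch q q' → BlockEq T M0 n a b q q' := by
  obtain ⟨hyr, ⟨c, hY⟩, hzy⟩ := hr
  obtain ⟨ch, hch⟩ := exists_chanSym hzy
  have hM := segLen_pos (M0 := M0) n
  obtain ⟨l1, l2⟩ := H.sym_inner n (Nat.mod_lt yr hM) hzy.ne_none
  have hG : 20 * segLen M0 n ≤ segCount * segLen M0 n :=
    Nat.mul_le_mul_right _ (by simp [segCount])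
  refine ⟨if c = 2 then (if a < (2 * segLen M0 n : ℕ) then 3 else 2) else c, ch,
    fun q q' hA hs x y hx1 hx2 hy1 hy2 => ⟨?_, ?_⟩⟩
  · by_cases hyy : 0 ≤ y ∧ RowChanAt T M0 n y.toNat
    · obtain ⟨hy0, hyG, -, hz⟩ := hyy
      obtain ⟨-, e | e⟩ := lane_near (n := n) (v := y.toNat) H hzy.ne_none (by omega) (by omega)
      swap
      · exact absurd e hz.ne_none
      unfold hSig
      have hcond : 0 ≤ y ∧ y < ((segCount * segLen M0 n : ℕ) : ℤ) := ⟨hy0, by omega⟩
      simp only [hcond, and_self, if_true, e, hY]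
      by_cases hc2 : c = 2
      · subst hc2
        simp only [if_true] at hs
        split_ifs with h1 h2
        · rw [if_pos (by omega)] at hs
          exact rawH_congr_slot 2 hch (fun _ e => absurd (sh_kr _ _) e) (fun _ _ => hs)
            fun e => absurd rfl e
        · have ho := Nat.mod_lt x.toNat hM
          have hl := xlin_xsegAt (M0 := M0) (show x.toNat < segCount * segLen M0 n by omega)
          refine rawH_congr_slot 2 hch (fun _ e => ?_) (fun _ e => ?_) fun e => absurd rfl e
          · rw [sinceX_lin (by omega) ho, hl, xlin, XSeg.index] at e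
            rw [if_pos (by omega)] at hs
            exact hs
          · rw [sinceX_lin hM ho, hl, xlin, XSeg.index] at e
            rw [if_neg (by omega)] at hs
            exact hs
        · rw [if_neg (by omega)] at hs
          exact rawH_congr_slot 2 hch (fun _ e => absurd (sh_kr _ _) e) (fun _ _ => hs)
            fun e => absurd rfl e
      · rw [if_neg hc2] at hs
        split_ifs
        · rw [rawBandH_r_ne_two _ hc2, rawBandH_r_ne_two _ hc2]
        · exact rawH_congr_slot c hch (fun e => absurd e hc2) (fun e => absurd e hc2) fun _ => hs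
        · rw [rawBandH_r_ne_two _ hc2, rawBandH_r_ne_two _ hc2]
    · exact hSig_congr_addr hA (fun h0 e => hyy ⟨h0, e⟩)
        fun h0 h0' e => he _ _ (by omega) (by omega) (by omega) (by omega) e
  · exact vSig_congr_addr hA fun h0 e => hc _ (by omega) (by omega) e

/-- A block with one channel column reads the addresses and one channel. -/
theorem block_col (H : TabOK T M0) {a b : ℤ} {xr : ℕ} (hxa : a - 2 ≤ xr) (hxb : (xr : ℤ) ≤ a)
    (hc : ColChanAt T M0 n xr)
    (hr : ∀ y : ℕ, b - 2 ≤ y → (y : ℤ) ≤ b → ¬ RowChanAt T M0 n y)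
    (he : ∀ x y : ℕ, a - 2 ≤ x → (x : ℤ) ≤ a → b - 2 ≤ y → (y : ℤ) ≤ b → ¬ EvAt T M0 n x y) :
    ∃ d ch, ∀ q q', EqA T M0 n q q' → EqSlot T M0 n d ch q q' → BlockEq T M0 n a b q q' := by
  obtain ⟨hxr, hX, hzx⟩ := hc
  obtain ⟨ch, hch⟩ := exists_chanSym hzx
  have hM := segLen_pos (M0 := M0) n
  obtain ⟨l1, l2⟩ := H.sym_inner n (Nat.mod_lt xr hM) hzx.ne_none
  have hG : 20 * segLen M0 n ≤ segCount * segLen M0 n :=
    Nat.mul_le_mul_right _ (by simp [segCount])
  let X := xsegAt M0 n xr
  let hi : Bool := decide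
    (((if X = .up then 3 * segLen M0 n else 4 * segLen M0 n : ℕ) : ℤ) ≤ b)
  refine ⟨colSlot X hi, ch, fun q q' hA hs x y hx1 hx2 hy1 hy2 => ⟨?_, ?_⟩⟩
  · exact hSig_congr_addr hA (fun h0 e => hr _ (by omega) (by omega) e)
      fun h0 h0' e => he _ _ (by omega) (by omega) (by omega) (by omega) e
  by_cases hxx : 0 ≤ x ∧ ColChanAt T M0 n x.toNat
  swap
  · exact vSig_congr_addr hA fun h0 e => hxx ⟨h0, e⟩
  obtain ⟨hx0, hxG, -, hz⟩ := hxx
  obtain ⟨-, e | e⟩ := lane_near (n := n) (v := x.toNat) H hzx.ne_none (by omega) (by omega)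
  swap
  · exact absurd e hz.ne_none
  unfold vSig
  have hcond : 0 ≤ x ∧ x < ((segCount * segLen M0 n : ℕ) : ℤ) := ⟨hx0, by omega⟩
  simp only [hcond, and_self, if_true, e]
  change ColBundle X at hX
  show (if y < 0 then rawBandV T M0 n (belowQuad q) X _ else _) =
    if y < 0 then rawBandV T M0 n (belowQuad q') X _ else _
  have hup : X = .up → hi = decide (((3 * segLen M0 n : ℕ) : ℤ) ≤ b) := fun e => by
    simp [hi, e]
  have hupl : X = .upl → hi = decide (((4 * segLen M0 n : ℕ) : ℤ) ≤ b) := fun e => by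
    simp [hi, e]
  have hrest : X ≠ .up → X ≠ .upl → ∀ u, colSlot X u = colSlot X hi := by
    intro e1 e2 u
    rcases hX with e | e | e | ⟨c, e⟩ | ⟨c, e⟩ <;> simp_all [colSlot]
  split_ifs with h1 h2
  · by_cases hu : X = .up
    · rw [hup hu, decide_eq_false (by omega)] at hs
      refine rawV_congr_slot hX hch (fun e _ => absurd (r_kt _ _ _) (e hu)) fun _ _ => ?_
      rw [hu] at hs ⊢
      exact hs
    by_cases hu' : X = .upl
    · rw [hupl hu', decide_eq_false (by omega)] at hs
      refine rawV_congr_slot hX hch (fun _ e => absurd (r_kt _ _ _) (e hu')) fun _ _ => ?_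
      rw [hu'] at hs ⊢
      exact hs
    · rw [rawBandV_colBundle _ hX hu hu', rawBandV_colBundle _ hX hu hu']
  · have ho := Nat.mod_lt y.toNat hM
    have hl := ylin_ysegAt (M0 := M0) (show y.toNat < segCount * segLen M0 n by omega)
    have sy : ∀ A z, z < segLen M0 n →
        (sinceY A z (ysegAt M0 n y.toNat) (y.toNat % segLen M0 n) ↔
          ylin (segLen M0 n) A z ≤ y.toNat) := fun A z hz => by
      rw [sinceY_lin hz ho, hl]
    have hxl := Nat.mod_lt xr hM
    refine rawV_congr_slot hX hch (fun e1 e2 => ?_) fun e1 e2 => ?_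
    · by_cases hu : X = .up
      · have := e1 hu
        rw [sy _ _ hxl, ylin, YSeg.index, Fin.val_zero] at this
        rwa [hup hu, decide_eq_false (by omega)] at hs
      by_cases hu' : X = .upl
      · have := e2 hu'
        rw [sy _ _ hxl, ylin, YSeg.index, Fin.val_one] at this
        rwa [hupl hu', decide_eq_false (by omega)] at hs
      · rwa [hrest hu hu']
    · by_cases hu : X = .up
      · have := e1 hu
        rw [sy _ _ hxl, ylin, YSeg.index, Fin.val_two] at this
        rwa [hup hu, decide_eq_true (by omega)] at hs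
      by_cases hu' : X = .upl
      · have := e2 hu'
        rw [sy _ _ hxl, ylin, YSeg.index, show ((3 : Fin 4) : ℕ) = 3 from rfl] at this
        rwa [hupl hu', decide_eq_true (by omega)] at hs
      · rwa [hrest hu hu']
  · by_cases hu : X = .up
    · rw [hup hu, decide_eq_true (by omega)] at hs
      refine rawV_congr_slot hX hch (fun e _ => absurd (r_kt _ _ _) (e hu)) fun _ _ => hs
    by_cases hu' : X = .upl
    · rw [hupl hu', decide_eq_true (by omega)] at hs
      refine rawV_congr_slot hX hch (fun _ e => absurd (r_kt _ _ _) (e hu')) fun _ _ => hs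
    · rw [rawBandV_colBundle _ hX hu hu', rawBandV_colBundle _ hX hu hu']

/-- **The classes of blocks.** A `3 × 3` block reads the event, or the channels, or the addresses
and one channel. -/
theorem block_cases (H : TabOK T M0) (a b : ℤ) :
    (∀ q q', EqE T M0 n q q' → BlockEq T M0 n a b q q') ∨
    (∀ q q', EqR T M0 n q q' → BlockEq T M0 n a b q q') ∨
    ∃ d ch, ∀ q q', EqA T M0 n q q' → EqSlot T M0 n d ch q q' → BlockEq T M0 n a b q q' := by
  by_cases he : ∃ x y : ℕ, a - 2 ≤ x ∧ (x : ℤ) ≤ a ∧ b - 2 ≤ y ∧ (y : ℤ) ≤ b ∧ EvAt T M0 n x y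
  · obtain ⟨x, y, h1, h2, h3, h4, h5⟩ := he
    exact Or.inl (block_event H h1 h2 h3 h4 h5)
  simp only [not_exists, not_and] at he
  by_cases hr : ∃ y : ℕ, b - 2 ≤ y ∧ (y : ℤ) ≤ b ∧ RowChanAt T M0 n y
  · obtain ⟨y, h3, h4, hy⟩ := hr
    by_cases hc : ∃ x : ℕ, a - 2 ≤ x ∧ (x : ℤ) ≤ a ∧ ColChanAt T M0 n x
    · obtain ⟨x, h1, h2, hx⟩ := hc
      exact Or.inr (Or.inl (block_channels H h1 h2 h3 h4 hy hx))
    · simp only [not_exists, not_and] at hc
      exact Or.inr (Or.inr (block_row H h3 h4 hy hc he))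
  simp only [not_exists, not_and] at hr
  by_cases hc : ∃ x : ℕ, a - 2 ≤ x ∧ (x : ℤ) ≤ a ∧ ColChanAt T M0 n x
  · obtain ⟨x, h1, h2, hx⟩ := hc
    exact Or.inr (Or.inr (block_col H h1 h2 hx hr he))
  simp only [not_exists, not_and] at hc
  exact Or.inr (Or.inr ⟨2, false, fun q q' hA _ x y hx1 hx2 hy1 hy2 =>
    ⟨hSig_congr_addr hA (fun h0 e => hr _ (by omega) (by omega) e)
      fun h0 h0' e => he _ _ (by omega) (by omega) (by omega) (by omega) e,
    vSig_congr_addr hA fun h0 e => hc _ (by omega) (by omega) e⟩⟩)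

/-- The block at the lower left corner of a tile is always the same. -/
theorem block_corner (q q' : Quad) : BlockEq T M0 n 0 0 q q' := by
  intro x y hx1 hx2 hy1 hy2
  have hM := segLen_pos (M0 := M0) n
  have hp : 0 < segCount * segLen M0 n := Nat.mul_pos (NeZero.pos segCount) hM
  have e1 : ysegAt M0 n 0 = .y0 :=
    YSeg.eq_of_index (by rw [ysegAt_index hp, Nat.zero_div]; rfl)
  have e2 : xsegAt M0 n 0 = .x0 :=
    XSeg.eq_of_index (by rw [xsegAt_index hp, Nat.zero_div]; rfl)
  constructor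
  · unfold hSig
    split_ifs with hy h1 h2
    · rw [show y.toNat = 0 by omega, e1]; rfl
    · rw [show y.toNat = 0 by omega, e1]; rfl
    · rw [show y.toNat = 0 by omega, e1]; rfl
    · rfl
  · unfold vSig
    split_ifs with hx h1 h2
    · rw [show x.toNat = 0 by omega, e2]; rfl
    · rw [show x.toNat = 0 by omega, e2]; rfl
    · rw [show x.toNat = 0 by omega, e2]; rfl
    · rfl

end

end Vale.Agent.P196.W
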