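import Vale.Agent.P196.W.BlockClasses

/-!
# P196: drawn tilings block by block

A cell of a drawn tiling in `[-2, Z) ^ 2` of a parent is given by `hSig`, `vSig` of the window of
that parent alone. Colours of equal addresses give bundles that agree on addresses, equal channels
of one cell give one equal slot, equal events agree on what the event rows read.
-/

namespace Vale.Agent.P196.W

open Sft

noncomputable section

/-- The cell of a window that gives bundle `d`. -/
def quadCell : Fin 4 → Fin 2 × Fin 2 := ![(1, 0), (0, 0), (1, 1), (0, 1)]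

section Congr

variable {T : Tables} {M0 n : ℕ}

/-- The band of columns reads the self bundle only. -/
theorem rawBandH_congr_self {q q' : Quad} (h : q 2 = q' 2) (Y : YSeg) (y : ℕ) :
    rawBandH T M0 n q Y y = rawBandH T M0 n q' Y y := by
  have k0 : sinceX .kr 0 .kr (segLen M0 n - 1) := sinceX_kr (Nat.zero_le _)
  cases Y with
  | r c => fin_cases c <;> simp [rawBandH, rawH, k0, h]
  | rd c => fin_cases c <;> simp [rawBandH, rawH, k0, h]
  | my =>
    have : sinceX .ly 0 .kr (segLen M0 n - 1) := kr_since (by simp [XSeg.index]) _ _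
    simp [rawBandH, rawH, this, h]
  | ta =>
    have : ∀ z, sinceX .mx z .kr (segLen M0 n - 1) := fun z => kr_since (by simp [XSeg.index]) _ _
    cases e : (q' 2).ox <;> simp [rawBandH, rawH, taRow, this, h, e]
  | _ => simp [rawBandH, rawH]

/-- The band of rows reads the self bundle and the left one only. -/
theorem rawBandV_congr_self {q q' : Quad} (h : q 2 = q' 2) (h' : q 3 = q' 3) (X : XSeg) (x : ℕ) :
    rawBandV T M0 n q X x = rawBandV T M0 n q' X x := by
  have k0 : sinceY .kt 0 .kt (segLen M0 n - 1) := sinceY_kt (Nat.zero_le _)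
  have k : ∀ (A : YSeg) (z : ℕ), A.index < 19 → sinceY A z .kt (segLen M0 n - 1) :=
    fun A z hA => kt_since hA _ _
  cases X with
  | mx => simp [rawBandV, rawV, k .lx 0 (by simp [YSeg.index]), h]
  | tb =>
    have : ∀ z, sinceY .my z .kt (segLen M0 n - 1) := fun z => k .my z (by simp [YSeg.index])
    simp [rawBandV, rawV, tbCol, this, h]
  | ly => simp [rawBandV, rawV]
  | pa c => simp [rawBandV, rawV, k0]
  | pr c => simp [rawBandV, rawV, k0]
  | bench t i => simp [rawBandV, rawV]
  | _ => simp [rawBandV, rawV, h, h']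

end Congr

variable (T : Tables) (M0 n : ℕ) [NeZero M0]

/-- The residue of an integer coordinate in its tile. -/
def resOf (a : ℤ) : ℕ := (a % (side segCount (segLen M0 n) : ℤ)).toNat

/-- The colour at `(a, b)` of a tile with bundles `q`, the margins included. -/
def haloCell (q : Quad) (a b : ℤ) : Tint M0 n :=
  ⟨addrAt (resOf M0 n a) (resOf M0 n b), hSig T M0 n q a b, vSig T M0 n q a b⟩

variable {T M0 n}

omit [NeZero M0] in
theorem four_le_segLen (H : TabOK T M0) : 4 ≤ segLen M0 n :=
  le_trans (Nat.le_mul_of_pos_right _ (Nat.two_pow_pos n)) (H.eight_le n)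

theorem sigH_eq_hSig (q : Quad) {x y : ℕ} :
    sigH T M0 n q x y = hSig T M0 n q x y := by
  unfold sigH hSig
  simp only [Int.toNat_natCast]
  split_ifs <;> first | rfl | omega

theorem sigV_eq_vSig (q : Quad) {x y : ℕ} :
    sigV T M0 n q x y = vSig T M0 n q x y := by
  unfold sigV vSig
  simp only [Int.toNat_natCast]
  split_ifs <;> first | rfl | omega

omit [NeZero M0] in
/-- A coordinate in a tile or in the margin before it. -/
theorem parent_res {a : ℤ} (ha : -2 ≤ a) (ha' : a < (side segCount (segLen M0 n) : ℤ))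
    (h8 : 2 ≤ side segCount (segLen M0 n)) (P : ℤ) :
    (0 ≤ a ∧ (a + P * (side segCount (segLen M0 n) : ℤ)) / (side segCount (segLen M0 n) : ℤ) = P ∧
      ((a + P * (side segCount (segLen M0 n) : ℤ)) % (side segCount (segLen M0 n) : ℤ)).toNat
        = a.toNat ∧ resOf M0 n a = a.toNat) ∨
    (a < 0 ∧
      (a + P * (side segCount (segLen M0 n) : ℤ)) / (side segCount (segLen M0 n) : ℤ) = P - 1 ∧
      ((a + P * (side segCount (segLen M0 n) : ℤ)) % (side segCount (segLen M0 n) : ℤ)).toNat
        = (a + (side segCount (segLen M0 n) : ℤ)).toNat ∧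
      resOf M0 n a = (a + (side segCount (segLen M0 n) : ℤ)).toNat) := by
  generalize hZ : (side segCount (segLen M0 n) : ℤ) = Z at ha' ⊢
  have hz : 2 ≤ Z := by omega
  unfold resOf
  rw [hZ]
  rw [Int.add_mul_ediv_right _ _ (by omega), Int.add_mul_emod_self_right]
  rcases lt_or_ge a 0 with h | h
  · right
    have e1 : a / Z = -1 := by
      rw [Int.ediv_eq_iff_of_pos (by omega)]
      constructor <;> linarith
    have e2 : a % Z = a + Z := by rw [Int.emod_def, e1]; ring
    exact ⟨h, by rw [e1]; ring, by rw [e2], by rw [e2]⟩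
  · left
    exact ⟨h, by rw [Int.ediv_eq_zero_of_lt h ha']; ring, by rw [Int.emod_eq_of_lt h ha'],
      by rw [Int.emod_eq_of_lt h ha']⟩

/-- **Halo.** The window of a parent gives its children and a margin of width two on their left
and below them. -/
theorem expand_halo (H : TabOK T M0) (o : Cell) (U : Cell → Tint M0 (n + 1)) (P : Cell) {a b : ℤ}
    (ha : -2 ≤ a) (ha' : a < (side segCount (segLen M0 n) : ℤ)) (hb : -2 ≤ b)
    (hb' : b < (side segCount (segLen M0 n) : ℤ)) :
    expand (side segCount (segLen M0 n)) (drawTile T M0 n) o U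
        (o.1 + (a + P.1 * (side segCount (segLen M0 n) : ℤ)),
          o.2 + (b + P.2 * (side segCount (segLen M0 n) : ℤ))) =
      haloCell T M0 n (quadOf T M0 n (windowAt U (P.1 - 1, P.2 - 1))) a b := by
  have hM := four_le_segLen (n := n) H
  have hside := side_eq segCount (segLen M0 n)
  have h8 : 2 ≤ side segCount (segLen M0 n) := by omega
  rw [expand_apply, haloCell]
  simp only [res, add_sub_cancel_left]
  rcases parent_res ha ha' h8 P.1 with ⟨a0, q1, r1, s1⟩ | ⟨a0, q1, r1, s1⟩ <;>
    rcases parent_res hb hb' h8 P.2 with ⟨b0, q2, r2, s2⟩ | ⟨b0, q2, r2, s2⟩ <;>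
    rw [q1, q2, r1, r2, s1, s2, drawTile] <;> congr 1
  · rw [sigH_eq_hSig, Int.toNat_of_nonneg a0, Int.toNat_of_nonneg b0]
  · rw [sigV_eq_vSig, Int.toNat_of_nonneg a0, Int.toNat_of_nonneg b0]
  · simp only [sigH, hSig]
    split_ifs <;> first | rfl | omega
  · rw [sigV, vSig]
    split_ifs <;> first | omega | with_reducible rfl | skip
    refine rawBandV_congr_self ?_ ?_ _ _
    · simp only [belowQuad, if_true, quadOf_self, quadOf_below, windowAt]
      congr 2
      ext <;> simp
    · simp only [belowQuad, Fin.reduceEq, if_false, quadOf_left, quadOf_belowLeft, windowAt]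
      congr 2
      ext <;> simp
  · rw [sigH, hSig]
    split_ifs <;> first | omega | with_reducible rfl | skip
    refine rawBandH_congr_self ?_ _ _
    simp only [leftQuad, quadOf_self, quadOf_left, windowAt]
    congr 2
    ext <;> simp
  · simp only [sigV, vSig]
    split_ifs <;> first | rfl | omega
  · simp only [sigH, hSig]
    split_ifs <;> first | rfl | omega
  · simp only [sigV, vSig]
    split_ifs <;> first | rfl | omega

/-- A block reads the window of the parent of its upper right cell. -/
theorem expand_block (H : TabOK T M0) (o : Cell) (U : Cell → Tint M0 (n + 1)) (v : Cell)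
    {i j : ℤ} (hi : -2 ≤ i) (hi' : i ≤ 0) (hj : -2 ≤ j) (hj' : j ≤ 0) :
    expand (side segCount (segLen M0 n)) (drawTile T M0 n) o U (v.1 + i, v.2 + j) =
      haloCell T M0 n
        (quadOf T M0 n (windowAt U ((v.1 - o.1) / (side segCount (segLen M0 n) : ℤ) - 1,
          (v.2 - o.2) / (side segCount (segLen M0 n) : ℤ) - 1)))
        ((v.1 - o.1) % (side segCount (segLen M0 n) : ℤ) + i)
        ((v.2 - o.2) % (side segCount (segLen M0 n) : ℤ) + j) := by
  have hZ : (0 : ℤ) < side segCount (segLen M0 n) := by
    have := four_le_segLen (n := n) H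
    rw [side_eq]
    omega
  have m1 := Int.emod_nonneg (v.1 - o.1) hZ.ne'
  have m2 := Int.emod_nonneg (v.2 - o.2) hZ.ne'
  have l1 := Int.emod_lt_of_pos (v.1 - o.1) hZ
  have l2 := Int.emod_lt_of_pos (v.2 - o.2) hZ
  rw [← expand_halo H o U ((v.1 - o.1) / (side segCount (segLen M0 n) : ℤ),
    (v.2 - o.2) / (side segCount (segLen M0 n) : ℤ)) (by omega) (by omega) (by omega) (by omega)]
  congr 1
  have e1 := Int.mul_ediv_add_emod (v.1 - o.1) (side segCount (segLen M0 n) : ℤ)
  have e2 := Int.mul_ediv_add_emod (v.2 - o.2) (side segCount (segLen M0 n) : ℤ)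
  ext <;> simp only <;> linarith

/-! ## From colours to bundles -/

omit [NeZero M0] in
theorem choices_bit_iff (c : Tint M0 (n + 1)) (z : ℕ) :
    (choices T M0 n c).bit z = true ↔
      ∃ l : Lane segCount, z = laneAt n l ∧ colourBits layoutKind T M0 (n + 1) c l = true := by
  simp [choices, laneBit]

omit [NeZero M0] in
/-- Colours with the same bits on the lanes of a role give the same bundle there. -/
theorem choices_bit_congr (hL : ∀ l : Lane segCount, symAt T M0 n (laneAt n l) = l.sym)
    {c c' : Tint M0 (n + 1)} {z : ℕ}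
    (h : ∀ l : Lane segCount, l.sym = symAt T M0 n z →
      colourBits layoutKind T M0 (n + 1) c l = colourBits layoutKind T M0 (n + 1) c' l) :
    (choices T M0 n c).bit z = (choices T M0 n c').bit z := by
  rw [Bool.eq_iff_iff, choices_bit_iff, choices_bit_iff]
  constructor <;> rintro ⟨l, rfl, hl⟩ <;> refine ⟨l, rfl, ?_⟩
  · rwa [← h l (hL l).symm]
  · rwa [h l (hL l).symm]

omit [NeZero M0] in
theorem quadOf_apply (w : Win (Tint M0 (n + 1))) (d : Fin 4) :
    quadOf T M0 n w d = choices T M0 n (w (quadCell d)) := by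
  fin_cases d <;> rfl

omit [NeZero M0] in
/-- Equal addresses give bundles that agree on addresses. -/
theorem eqA_of_addr (hL : ∀ l : Lane segCount, symAt T M0 n (laneAt n l) = l.sym)
    {w w' : Win (Tint M0 (n + 1))} (h : ∀ d, (w d).addr = (w' d).addr) :
    EqA T M0 n (quadOf T M0 n w) (quadOf T M0 n w') := by
  intro d
  rw [quadOf_apply, quadOf_apply]
  refine ⟨by simp [choices, h], by simp [choices, h], fun z hz hz' =>
    choices_bit_congr hL fun l hl => ?_⟩
  cases l with
  | outH a => exact absurd hl.symm hz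
  | outV a => exact absurd hl.symm hz'
  | _ => simp [colourBits, h]

omit [NeZero M0] in
/-- An equal channel of one cell gives an equal slot. -/
theorem eqSlot_of_chan (hL : ∀ l : Lane segCount, symAt T M0 n (laneAt n l) = l.sym)
    {w w' : Win (Tint M0 (n + 1))} {d : Fin 4} {ch : Bool}
    (h : (if ch then (w (quadCell d)).v else (w (quadCell d)).h) =
      (if ch then (w' (quadCell d)).v else (w' (quadCell d)).h)) :
    EqSlot T M0 n d ch (quadOf T M0 n w) (quadOf T M0 n w') := by
  intro z hz
  rw [quadOf_apply, quadOf_apply]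
  refine choices_bit_congr hL fun l hl => ?_
  rw [hz] at hl
  cases ch <;> cases l <;> simp [chanSym, Lane.sym] at hl <;>
    simp_all [colourBits]

omit [NeZero M0] in
/-- Equal channels of all cells. -/
theorem eqR_of_chan (hL : ∀ l : Lane segCount, symAt T M0 n (laneAt n l) = l.sym)
    {w w' : Win (Tint M0 (n + 1))} (hh : ∀ d, (w d).h = (w' d).h)
    (hv : ∀ d, (w d).v = (w' d).v) :
    EqR T M0 n (quadOf T M0 n w) (quadOf T M0 n w') :=
  fun d ch => eqSlot_of_chan hL (by cases ch <;> simp [hh, hv])

omit [NeZero M0] in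
/-- Equal events agree on what the event rows read. -/
theorem eqE_of_event (hL : ∀ l : Lane segCount, symAt T M0 n (laneAt n l) = l.sym)
    {w w' : Win (Tint M0 (n + 1))}
    (h : winEvent layoutKind (locF T M0 (n + 1)) w = winEvent layoutKind (locF T M0 (n + 1)) w') :
    EqE T M0 n (quadOf T M0 n w) (quadOf T M0 n w') := by
  simp only [winEvent, Event.mk.injEq, kindAt_eq] at h
  obtain ⟨hk, hhL, hvB, hh, hv⟩ := h
  intro c z hz
  rw [quadOf_apply, quadOf_apply]
  refine choices_bit_congr hL fun l hl => ?_
  rw [← hl] at hz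
  fin_cases c <;> cases l <;>
    simp [Sym.vis, prGate, Lane.sym] at hz <;>
    simp_all [colourBits, Desc.code, prClass, quadCell] <;> rfl

end

end Vale.Agent.P196.W
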