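import Vale.Agent.P196.W.StepConst

/-!
# P196: what each signal of a tile depends on

The signals of a tile depend on its bundles in three ways. Outside the channel lanes and the
event rows only the addresses matter (`EqA`). A channel lane carries one channel bit of one bundle
(`EqSlot`). An event row reads the event alone (`EqE`).
-/

namespace Vale.Agent.P196.W

noncomputable section

variable (T : Tables) (M0 n : ℕ)

/-- Two quadruples agree on addresses: offsets, parities and all bits off the channel lanes. -/
def EqA (q q' : Quad) : Prop :=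
  ∀ c, (q c).ox = (q' c).ox ∧ (q c).oy = (q' c).oy ∧
    ∀ z, symAt T M0 n z ≠ .srcH → symAt T M0 n z ≠ .srcV → (q c).bit z = (q' c).bit z

/-- The role of one of the two channels. -/
def chanSym (ch : Bool) : Sym := if ch then .srcV else .srcH

/-- Two quadruples agree on one channel of one bundle. -/
def EqSlot (d : Fin 4) (ch : Bool) (q q' : Quad) : Prop :=
  ∀ z, symAt T M0 n z = chanSym ch → (q d).bit z = (q' d).bit z

/-- Two quadruples agree on all channels. -/
def EqR (q q' : Quad) : Prop := ∀ d ch, EqSlot T M0 n d ch q q'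

/-- Two quadruples agree on the event that the event rows read. -/
def EqE (q q' : Quad) : Prop :=
  ∀ c : Fin 3, ∀ z, Sym.vis (prGate c) (symAt T M0 n z) = true →
    (q (prClass c)).bit z = (q' (prClass c)).bit z

/-- A channel lane. -/
def ChanAt (z : ℕ) : Prop := symAt T M0 n z = .srcH ∨ symAt T M0 n z = .srcV

/-- A row that carries a channel. -/
def RowChan (Y : YSeg) (y : ℕ) : Prop := (∃ c, Y = .r c) ∧ ChanAt T M0 n y

/-- A segment of columns that carry bundles. -/
def ColBundle (X : XSeg) : Prop :=
  X = .sh ∨ X = .up ∨ X = .upl ∨ (∃ c, X = .pa c) ∨ ∃ c, X = .pr c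

/-- A column that carries a channel. -/
def ColChan (X : XSeg) (x : ℕ) : Prop := ColBundle X ∧ ChanAt T M0 n x

/-- A cell of an event row where that row is set. -/
def EvRow (X : XSeg) (x : ℕ) (Y : YSeg) (y : ℕ) : Prop :=
  Y = .mr ∧ symAt T M0 n y = .mrow ∧ sinceX (.pr 0) 0 X x ∧
    ¬sinceX (.pr 2) (segLen M0 n - 1) X x

variable {T M0 n}

/-- With the same offsets the derived values are the same. -/
theorem dval_congr {C C' : Choices} (hx : C.ox = C'.ox) (hy : C.oy = C'.oy) (q : Fin 40) :
    dval T M0 n C q = dval T M0 n C' q := by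
  simp only [dval, derX, derY, colLine, hx, hy]

theorem derState_congr {C C' : Choices} (hx : C.ox = C'.ox) (hy : C.oy = C'.oy) (q : Fin 40)
    (X : XSeg) (x : ℕ) : derState T M0 n C q X x = derState T M0 n C' q X x := by
  simp only [derState, dval, derX, derY, colLine, hx, hy]

theorem colLine_congr {C C' : Choices} (hx : C.ox = C'.ox) (hy : C.oy = C'.oy) (x : ℕ) (Y : YSeg)
    (y : ℕ) : colLine T n C x Y y = colLine T n C' x Y y := by
  simp only [colLine, hx, hy]

theorem laneSig_true_congr {C C' : Choices} {z : ℕ} (h : C.bit z = C'.bit z) :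
    laneSig T M0 n C true z = laneSig T M0 n C' true z := by
  unfold laneSig
  split <;> simp [h]

theorem laneSig_false_congr {C C' : Choices} (hx : C.ox = C'.ox) (hy : C.oy = C'.oy) (z : ℕ) :
    laneSig T M0 n C false z = laneSig T M0 n C' false z := by
  unfold laneSig
  split <;> simp [dval_congr hx hy]

theorem EqA.bit {q q' : Quad} (h : EqA T M0 n q q') {z : ℕ} (hz : ¬ ChanAt T M0 n z) (c : Fin 4) :
    (q c).bit z = (q' c).bit z :=
  (h c).2.2 z (fun e => hz (Or.inl e)) fun e => hz (Or.inr e)

theorem EqA.lane {q q' : Quad} (h : EqA T M0 n q q') {z : ℕ} (hz : ¬ ChanAt T M0 n z) (c : Fin 4) :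
    laneSig T M0 n (q c) true z = laneSig T M0 n (q' c) true z :=
  laneSig_true_congr (h.bit hz c)

theorem EqA.derived {q q' : Quad} (h : EqA T M0 n q q') (z : ℕ) (c : Fin 4) :
    laneSig T M0 n (q c) false z = laneSig T M0 n (q' c) false z :=
  laneSig_false_congr (h c).1 (h c).2.1 z

/-- A channel of a bundle is seen at its lanes. -/
theorem EqSlot.lane {q q' : Quad} {d : Fin 4} {ch : Bool} (h : EqSlot T M0 n d ch q q') {z : ℕ}
    (hz : symAt T M0 n z = chanSym ch) :
    laneSig T M0 n (q d) true z = laneSig T M0 n (q' d) true z :=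
  laneSig_true_congr (h z hz)

/-- With all channels equal, a lane that is no other lane is equal. -/
theorem EqR.lane {q q' : Quad} (h : EqR T M0 n q q') {z : ℕ}
    (hz : symAt T M0 n z = .none ∨ ChanAt T M0 n z) (d : Fin 4) :
    laneSig T M0 n (q d) true z = laneSig T M0 n (q' d) true z := by
  rcases hz with hz | hz | hz
  · simp [laneSig, hz, Sym.derived?, Sym.isSrc]
  · exact (h d false).lane hz
  · exact (h d true).lane hz

theorem not_chanAt_of_vis {c : Fin 4} {z : ℕ}
    (h : Sym.vis (paGate c) (symAt T M0 n z) = true) : ¬ ChanAt T M0 n z := by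
  have := c.isLt
  rintro (e | e) <;> simp [e, Sym.vis, paGate] at h <;> have := of_decide_eq_true h <;> omega

theorem maTruth_congr {q q' : Quad} (h : EqA T M0 n q q') (y : ℕ) (X : XSeg) (x : ℕ) :
    maTruth T M0 n q y X x = maTruth T M0 n q' y X x := by
  have e : ∀ c z, Sym.vis (paGate c) (symAt T M0 n z) = true →
      paCol T M0 n q c z = paCol T M0 n q' c z := fun c z hv => by
    simp only [paCol, h.lane (not_chanAt_of_vis hv), h.derived]
  simp +contextual only [maTruth, e]

theorem mrTruth_congr {q q' : Quad} (h : EqE T M0 n q q') (y : ℕ) (X : XSeg) (x : ℕ) :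
    mrTruth T M0 n q y X x = mrTruth T M0 n q' y X x := by
  have e : ∀ c z, Sym.vis (prGate c) (symAt T M0 n z) = true →
      prCol T M0 n q c z = prCol T M0 n q' c z := fun c z hv => by
    simp only [prCol, if_pos hv, laneSig_true_congr (h c z hv)]
  simp +contextual only [mrTruth, e]

/-! ## Rows -/

/-- Off the channel rows and the event rows a row depends on the addresses only. -/
theorem rawH_congr_addr {q q' : Quad} (h : EqA T M0 n q q') {X : XSeg} {x : ℕ} {Y : YSeg}
    {y : ℕ} (hr : ¬ RowChan T M0 n Y y) (he : ¬ EvRow T M0 n X x Y y) :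
    rawH T M0 n q X x Y y = rawH T M0 n q' X x Y y := by
  cases Y with
  | y0 => rfl
  | lx => simp [rawH, seenBy, (h 2).1, (h 0).1]
  | r c => simp [rawH, h.lane fun e => hr ⟨⟨c, rfl⟩, e⟩]
  | my => simp [rawH, rowLine, (h 2).2.1, (h 3).2.1]
  | gap => rfl
  | ta => simp [rawH, taRow, (h 2).1, (h 3).1]
  | rd c => simp [rawH, h.derived, derState_congr (h 2).1 (h 2).2.1]
  | ma => simp [rawH, maTruth_congr h]
  | mr =>
    have hn : ¬(symAt T M0 n y = .mrow ∧ sinceX (.pr 0) 0 X x ∧
        ¬sinceX (.pr 2) (segLen M0 n - 1) X x) := fun e => he ⟨rfl, e⟩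
    simp only [rawH, if_neg hn]
  | pad i => rfl
  | bench t j => rfl
  | kt => rfl

/-- An event row depends on the event only. -/
theorem rawH_congr_event {q q' : Quad} (h : EqE T M0 n q q') (X : XSeg) (x y : ℕ) :
    rawH T M0 n q X x .mr y = rawH T M0 n q' X x .mr y := by
  simp only [rawH, mrTruth_congr h]

/-- With all channels equal, a bundle row off the other lanes is equal. -/
theorem rawH_congr_r {q q' : Quad} (h : EqR T M0 n q q') (c : Fin 4) {y : ℕ}
    (hy : symAt T M0 n y = .none ∨ ChanAt T M0 n y) (X : XSeg) (x : ℕ) :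
    rawH T M0 n q X x (.r c) y = rawH T M0 n q' X x (.r c) y := by
  simp only [rawH, h.lane hy]

/-- A channel row carries one channel of one bundle: in the row of the self bundle the left one
up to its turn and the own one from the sources on. -/
theorem rawH_congr_slot {q q' : Quad} (c : Fin 4) {ch : Bool} {X : XSeg} {x y : ℕ}
    (hy : symAt T M0 n y = chanSym ch)
    (h3 : c = 2 → ¬sinceX .sh y X x → EqSlot T M0 n 3 ch q q')
    (h2 : c = 2 → sinceX .src 0 X x → EqSlot T M0 n 2 ch q q')
    (hc : c ≠ 2 → EqSlot T M0 n c ch q q') :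
    rawH T M0 n q X x (.r c) y = rawH T M0 n q' X x (.r c) y := by
  simp only [rawH]
  fin_cases c
  · have e := (hc (by decide : (0 : Fin 4) ≠ 2)).lane hy
    simp only [Fin.reduceFinMk] at e ⊢
    simp [e]
  · have e := (hc (by decide : (1 : Fin 4) ≠ 2)).lane hy
    simp only [Fin.reduceFinMk] at e ⊢
    simp [e]
  · simp only [Fin.reduceFinMk, if_true]
    by_cases e : sinceX .sh y X x
    · by_cases e' : sinceX .src 0 X x
      · simp [e, e', (h2 rfl e').lane hy]
      · simp [e, e']
    · simp [e, (h3 rfl e).lane hy]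
  · have e := (hc (by decide : (3 : Fin 4) ≠ 2)).lane hy
    simp only [Fin.reduceFinMk] at e ⊢
    simp [e]

/-! ## Columns -/

theorem prCol_congr_addr {q q' : Quad} (h : EqA T M0 n q q') (c : Fin 3) {z : ℕ}
    (hz : ¬ ChanAt T M0 n z) : prCol T M0 n q c z = prCol T M0 n q' c z := by
  simp only [prCol, h.lane hz]

/-- Off the channel columns a column depends on the addresses only. -/
theorem rawV_congr_addr {q q' : Quad} (h : EqA T M0 n q q') {X : XSeg} {x : ℕ}
    (hc : ¬ ColChan T M0 n X x) (Y : YSeg) (y : ℕ) :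
    rawV T M0 n q X x Y y = rawV T M0 n q' X x Y y := by
  have hz : ColBundle X → ¬ ChanAt T M0 n x := fun e e' => hc ⟨e, e'⟩
  cases X with
  | x0 => rfl
  | sh => simp [rawV, h.derived, h.lane (hz (Or.inl rfl))]
  | ly => simp [rawV, seenBy, (h 2).2.1, (h 3).2.1]
  | src => rfl
  | mx => simp [rawV, colLine_congr (h 2).1 (h 2).2.1, colLine_congr (h 0).1 (h 0).2.1]
  | gap => rfl
  | tb => simp [rawV, tbCol, (h 2).2.1, (h 0).2.1]
  | setAbs => rfl
  | up => simp [rawV, h.lane (hz (Or.inr (Or.inl rfl)))]
  | upl => simp [rawV, h.lane (hz (Or.inr (Or.inr (Or.inl rfl))))]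
  | upd => simp [rawV, h.derived]
  | updl => simp [rawV, h.derived]
  | pa c =>
    simp [rawV, paCol, h.derived,
      h.lane (hz (Or.inr (Or.inr (Or.inr (Or.inl ⟨c, rfl⟩)))))]
  | pr c =>
    simp [rawV, prCol_congr_addr h c (hz (Or.inr (Or.inr (Or.inr (Or.inr ⟨c, rfl⟩)))))]
  | bench t i => rfl
  | kr => rfl

/-- A column of the event rows depends on the event only. -/
theorem rawV_congr_event {q q' : Quad} (h : EqE T M0 n q q') (c : Fin 3) (x : ℕ) (Y : YSeg)
    (y : ℕ) : rawV T M0 n q (.pr c) x Y y = rawV T M0 n q' (.pr c) x Y y := by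
  by_cases hv : Sym.vis (prGate c) (symAt T M0 n x) = true
  · simp [rawV, prCol, hv, laneSig_true_congr (h c x hv)]
  · simp [rawV, prCol, hv]

/-- With all channels equal, a bundle column off the other lanes is equal. -/
theorem rawV_congr_r {q q' : Quad} (h : EqR T M0 n q q') {X : XSeg} (hX : ColBundle X) {x : ℕ}
    (hx : symAt T M0 n x = .none ∨ ChanAt T M0 n x) (Y : YSeg) (y : ℕ) :
    rawV T M0 n q X x Y y = rawV T M0 n q' X x Y y := by
  have hd : ∀ C : Choices, laneSig T M0 n C false x = .none := fun C =>
    laneSig_derived_eq_none C x (by rcases hx with e | e | e <;> simp [e, Sym.isDerived])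
  rcases hX with rfl | rfl | rfl | ⟨c, rfl⟩ | ⟨c, rfl⟩
  · simp [rawV, hd, h.lane hx]
  · simp [rawV, h.lane hx]
  · simp [rawV, h.lane hx]
  · simp [rawV, paCol, hd, h.lane hx]
  · simp [rawV, prCol, h.lane hx]

/-- The bundle of a channel column, in the relayed columns up to the first turn and above it. -/
def colSlot : XSeg → Bool → Fin 4
  | .up, hi => if hi then 2 else 0
  | .upl, hi => if hi then 3 else 1
  | .pa c, _ => paClass c
  | .pr c, _ => prClass c
  | _, _ => 3

/-- A channel column carries one channel of one bundle. -/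
theorem rawV_congr_slot {q q' : Quad} {X : XSeg} (hX : ColBundle X) {ch : Bool} {x : ℕ}
    {Y : YSeg} {y : ℕ} (hx : symAt T M0 n x = chanSym ch)
    (hlo : (X = .up → ¬sinceY (.r 0) x Y y) → (X = .upl → ¬sinceY (.r 1) x Y y) →
      EqSlot T M0 n (colSlot X false) ch q q')
    (hhi : (X = .up → sinceY (.r 2) x Y y) → (X = .upl → sinceY (.r 3) x Y y) →
      EqSlot T M0 n (colSlot X true) ch q q') :
    rawV T M0 n q X x Y y = rawV T M0 n q' X x Y y := by
  have hd : ∀ C : Choices, laneSig T M0 n C false x = .none := fun C =>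
    laneSig_derived_eq_none C x (by cases ch <;> simp [hx, chanSym, Sym.isDerived])
  rcases hX with rfl | rfl | rfl | ⟨c, rfl⟩ | ⟨c, rfl⟩
  · have e := (hlo (fun e => nomatch e) (fun e => nomatch e)).lane hx
    simp only [colSlot] at e
    simp [rawV, hd, e]
  · by_cases e : sinceY (.r 0) x Y y
    · by_cases e' : sinceY (.r 2) x Y y
      · have := (hhi (fun _ => e') (fun e => nomatch e)).lane hx
        simp only [colSlot, if_true] at this
        simp [rawV, e, e', this]
      · simp [rawV, e, e']
    · have := (hlo (fun _ => e) (fun e => nomatch e)).lane hx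
      simp only [colSlot, Bool.false_eq_true, if_false] at this
      simp [rawV, e, this]
  · by_cases e : sinceY (.r 1) x Y y
    · by_cases e' : sinceY (.r 3) x Y y
      · have := (hhi (fun e => nomatch e) (fun _ => e')).lane hx
        simp only [colSlot, if_true] at this
        simp [rawV, e, e', this]
      · simp [rawV, e, e']
    · have := (hlo (fun e => nomatch e) (fun _ => e)).lane hx
      simp only [colSlot, Bool.false_eq_true, if_false] at this
      simp [rawV, e, this]
  · have e := (hlo (fun e => nomatch e) (fun e => nomatch e)).lane hx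
    simp only [colSlot] at e
    simp [rawV, paCol, hd, e]
  · have e := (hlo (fun e => nomatch e) (fun e => nomatch e)).lane hx
    simp only [colSlot] at e
    simp [rawV, prCol, e]

end

end Vale.Agent.P196.W
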