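import Vale.Agent.P196.W.StepConst

/-!
# P196: the closed form obeys the relation at every ordinary cell
-/

namespace Vale.Agent.P196.W

noncomputable section

variable {T : Tables} {M0 n : ℕ}

theorem outs_pass (h v : Sig) : Kind.pass.outs h v = [(h, v)] := rfl

theorem outs_passH (h v : Sig) : Kind.passH.outs h v = [(h, .none)] := rfl

theorem outs_passV (h v : Sig) : Kind.passV.outs h v = [(.none, v)] := rfl

/-- What has to be shown at a cell. -/
def StepOK (T : Tables) (M0 n : ℕ) (w : Quad) (X : XSeg) (x : ℕ) (Y : YSeg) (y : ℕ)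
    (k : Kind) : Prop :=
  k.outs (inH T M0 n w X x Y y) (inV T M0 n w X x Y y) =
    [(rawH T M0 n w X x Y y, rawV T M0 n w X x Y y)]

theorem loc_xfirst (x y : ℕ) : (locAt T M0 n x y).x.first = decide (x = 0) := rfl

theorem loc_yfirst (x y : ℕ) : (locAt T M0 n x y).y.first = decide (y = 0) := rfl

theorem loc_xlast (x y : ℕ) :
    (locAt T M0 n x y).x.last = decide (x + 1 = segLen M0 n) := rfl

theorem loc_ylast (x y : ℕ) :
    (locAt T M0 n x y).y.last = decide (y + 1 = segLen M0 n) := rfl

theorem loc_xsym (x y : ℕ) : (locAt T M0 n x y).x.sym = symAt T M0 n x := rfl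

theorem loc_ysym (x y : ℕ) : (locAt T M0 n x y).y.sym = symAt T M0 n y := rfl

theorem loc_eq (x y : ℕ) : (locAt T M0 n x y).cross.eq = decide (x = y) := rfl

theorem loc_gate (x y : ℕ) :
    (locAt T M0 n x y).cross.gate = (T.crossAt n x y).gate := rfl

section Cells

variable (H : TabOK T M0) {w : Quad} (hw : w.InRange (segLen M0 n)) {X : XSeg} {x : ℕ}
  {Y : YSeg} {y : ℕ} (hx : x < segLen M0 n) (hy : y < segLen M0 n)

include H hw hx hy

theorem stepOK_pass (h₁ : ¬ HEvent T M0 n X x Y y) (h₂ : ¬ VEvent T M0 n X x Y y) :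
    StepOK T M0 n w X x Y y .pass := by
  rw [StepOK, outs_pass, rawH_eq_inH H hw hx hy h₁, rawV_eq_inV H hw hx hy h₂]

theorem stepOK_passH (h₁ : ¬ HEvent T M0 n X x Y y) (h₂ : rawV T M0 n w X x Y y = .none) :
    StepOK T M0 n w X x Y y .passH := by
  rw [StepOK, outs_passH, rawH_eq_inH H hw hx hy h₁, h₂]

theorem stepOK_passV (h₁ : rawH T M0 n w X x Y y = .none) (h₂ : ¬ VEvent T M0 n X x Y y) :
    StepOK T M0 n w X x Y y .passV := by
  rw [StepOK, outs_passV, rawV_eq_inV H hw hx hy h₂, h₁]

omit hw hx in
/-- The signal from the left edge is the mark only in row zero. -/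
theorem edgeH_lm_iff : edgeH T M0 n w Y y = .lm ↔ Y = .y0 ∧ y = 0 := by
  have hM := H.len_pos n
  have hk : ∀ A z, z < segLen M0 n → sinceX A z .kr (segLen M0 n - 1) := fun A z hz =>
    sinceX_kr (by omega)
  cases Y with
  | y0 => simp [edgeH, rawBandH, rawH]; omega
  | r c =>
    by_cases hs : (symAt T M0 n y).isSrc = true
    · fin_cases c <;> simp [edgeH, rawBandH, rawH, hk, hy, hM, laneSig] <;> split <;>
        simp [hs]
    · simp [edgeH, rawBandH, rawH, laneSig_src_eq_none _ y hs]
  | my => cases h : (w 3).oy <;> simp [edgeH, rawBandH, rawH, hk, hM, Sig.ofLine, rowLine, h]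
      <;> split_ifs <;> simp
  | ta =>
    simp only [edgeH, rawBandH, rawH, taRow]
    generalize Option.or _ _ = o
    cases o <;> simp [Sig.ofLine]
  | rd c =>
    cases hq : (symAt T M0 n y).derived? with
    | none => simp [edgeH, rawBandH, rawH, hq]
    | some q =>
      fin_cases c <;> simp [edgeH, rawBandH, rawH, hq, hk, hy, hM, laneSig, derState]
  | lx => simp [edgeH, rawBandH, rawH]
  | ma => simp [edgeH, rawBandH, rawH, hk _ _ (show segLen M0 n - 1 < segLen M0 n by omega)]
  | mr => simp [edgeH, rawBandH, rawH, hk _ _ (show segLen M0 n - 1 < segLen M0 n by omega)]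
  | bench t j => simp [edgeH, rawBandH, rawH]
  | _ => simp [edgeH, rawBandH, rawH]

theorem step_x0 : StepOK T M0 n w .x0 x Y y (x0Kind Y (locAt T M0 n x y)) := by
  have hM := H.len_pos n
  simp only [x0Kind, loc_xfirst, loc_yfirst, decide_eq_true_eq]
  split_ifs with h0 h1 h2
  · obtain ⟨rfl, rfl⟩ := h1
    subst h0
    rw [StepOK, inH_first]
    have e : edgeH T M0 n w .y0 0 = .lm := (edgeH_lm_iff H (w := w) hM).2 ⟨rfl, rfl⟩
    simp [e, Kind.outs, rawH, rawV]
  · subst h0
    have e : edgeH T M0 n w Y y ≠ .lm := fun e => h1 ((edgeH_lm_iff H hy).1 e)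
    have hh : ¬ HEvent T M0 n .x0 0 Y y := by
      cases Y <;> simp [HEvent] at h1 ⊢ <;> omega
    rw [StepOK, rawH_eq_inH H hw hx hy hh, inH_first]
    simp [e, Kind.outs, rawV]
  · exact stepOK_passH H hw hx hy (by cases Y <;> simp_all [HEvent]) rfl
  · exact stepOK_pass H hw hx hy (by cases Y <;> simp_all [HEvent]) (by simp [VEvent])

theorem step_kr : StepOK T M0 n w .kr x Y y (krKind Y (locAt T M0 n x y)) := by
  have hM := H.len_pos n
  have hM4 : 4 * 1 ≤ segLen M0 n :=
    le_trans (Nat.mul_le_mul_left 4 (Nat.two_pow_pos n)) (H.eight_le n)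
  simp only [krKind, loc_xfirst, loc_yfirst, loc_xlast, loc_ysym, decide_eq_true_eq]
  split_ifs with h1 h2 h3 h4
  · obtain ⟨hl, rfl, rfl⟩ := h1
    rw [StepOK, rawV_eq_inV H hw hx hy (by simp [VEvent])]
    simp [Kind.outs, rawH, hl]
  · obtain ⟨rfl, rfl, rfl⟩ := h2
    simp [StepOK, Kind.outs, rawH, rawV]
  · obtain ⟨rfl, hk⟩ := h3
    refine stepOK_passV H hw hx hy ?_ (by simp [VEvent])
    cases Y with
    | r c =>
      by_cases hs : (symAt T M0 n y).isSrc = true
      · fin_cases c <;> simp_all [keepsRow, rawH, sinceX_iff, XSeg.index]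
      · simp [rawH, laneSig_src_eq_none _ y hs]
    | rd c =>
      cases hq : (symAt T M0 n y).derived? with
      | none => simp [rawH, hq]
      | some q =>
        fin_cases c <;> simp_all [keepsRow, rawH, Sym.isDerived_eq,
          sinceX_iff, XSeg.index]
    | y0 => simp [rawH]; omega
    | my => simp [keepsRow] at hk
    | ta => simp [keepsRow] at hk
    | ma => simp [rawH, sinceX_iff, XSeg.index]; intros; omega
    | mr => simp [rawH, sinceX_iff, XSeg.index]; intros; omega
    | _ => simp [rawH]
  · exact stepOK_passH H hw hx hy (by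
      obtain ⟨rfl, rfl⟩ := h4; simp [HEvent]) rfl
  · refine stepOK_pass H hw hx hy ?_ (by simp [VEvent])
    cases Y with
    | y0 => simp [HEvent] at h1 ⊢; omega
    | r c =>
      fin_cases c <;> simp_all [HEvent, keepsRow]
    | rd c =>
      fin_cases c <;> simp_all [HEvent, keepsRow]
    | _ => simp [HEvent]

/-- The cell left of a cell that is not the first of its segment. -/
theorem inH_eq_pred (hx0 : x ≠ 0) :
    inH T M0 n w X x Y y = rawH T M0 n w X (x - 1) Y y :=
  inH_eq w Y y (by omega) (Or.inl ⟨rfl, by omega⟩)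

/-- The cell below a cell that is not the first of its segment. -/
theorem inV_eq_pred (hy0 : y ≠ 0) :
    inV T M0 n w X x Y y = rawV T M0 n w X x Y (y - 1) :=
  inV_eq w X x (by omega) (Or.inl ⟨rfl, by omega⟩)

theorem step_kt (hb : ∀ t j, Y ≠ .bench t j) (hY : Y = .kt) (hX : ∀ t i, X ≠ .bench t i)
    (h0 : X ≠ .x0) (h1 : X ≠ .kr) : StepOK T M0 n w X x Y y (ktKind X (locAt T M0 n x y)) := by
  subst hY
  simp only [ktKind, loc_yfirst, loc_xsym, decide_eq_true_eq]
  split_ifs with hk
  · obtain ⟨rfl, hk⟩ := hk
    refine stepOK_passH H hw hx hy (by simp [HEvent]) ?_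
    have hlt : ∀ (A : YSeg) z, A ≠ .kt → sinceY A z .kt 0 := fun A z hA => by
      have h1 := A.index_lt
      have h2 : A.index ≠ YSeg.kt.index := fun e => hA (YSeg.eq_of_index e)
      simp only [segCount] at h1
      rw [sinceY_iff, show YSeg.kt.index = 19 + 2 * benchCard from rfl] at *
      omega
    have hself : sinceY .kt 0 .kt 0 := Or.inr ⟨rfl, le_rfl⟩
    cases X <;> simp_all [keepsCol, rawV]
    all_goals first
      | exact laneSig_src_eq_none _ x (by simp_all)
      | exact laneSig_derived_eq_none _ x (by simp_all)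
  · refine stepOK_pass H hw hx hy (by simp [HEvent]) ?_
    cases X <;> simp_all [keepsCol, VEvent]

theorem step_sh (hb : ∀ t j, Y ≠ .bench t j) (hk : Y ≠ .kt) :
    StepOK T M0 n w .sh x Y y (shKind Y (locAt T M0 n x y)) := by
  have hM := H.len_pos n
  by_cases hev : (Y = .ta ∧ x = 0) ∨
      (x = y ∧ (((Y = .r 2 ∨ Y = .r 3) ∧ (symAt T M0 n y).isSrc = true) ∨
        ((Y = .rd 2 ∨ Y = .rd 3) ∧ (symAt T M0 n y).isDerived = true)))
  · rcases hev with ⟨rfl, rfl⟩ | ⟨rfl, hev⟩
    · have hv := rawV_eq_inV H hw (X := .sh) (Y := .ta) hx hy (by simp [VEvent])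
      obtain ⟨X', x', hx', hp⟩ := exists_xPred hM hx (X := XSeg.sh) (by simp)
      rw [StepOK, inH_eq w _ _ hx' hp, ← hv]
      simp only [shKind, loc_xfirst, decide_true, if_true, rawH, taRow]
      have h2 : ∀ p ∈ (w 2).ox, p.1 < segLen M0 n := (hw 2).1
      have hs := fun A z (hz : z < segLen M0 n) => hp.since A hz
      have hlast : segLen M0 n - 1 < segLen M0 n := by omega
      cases e2 : (w 2).ox with
      | none =>
        cases e3 : (w 3).ox with
        | none => simp [Kind.outs, Sig.ofLine, Sig.line?]
        | some q =>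
          simp [Sig.ofLine, hs _ _ hlast, hs _ _ hM, sinceX_iff, XSeg.index]
          split_ifs <;> simp [Kind.outs, Sig.line?] <;> omega
      | some p =>
        cases e3 : (w 3).ox with
        | none =>
          simp [Sig.ofLine, hs _ _ hy, sinceX_iff, XSeg.index]
          simp [Kind.outs, Sig.line?]
        | some q =>
          simp [Sig.ofLine, hs _ _ (h2 p e2), hs _ _ hM, hs _ _ hy, sinceX_iff, XSeg.index]
          split_ifs <;> simp [Kind.outs, Sig.line?] <;> omega
    · have hne : symAt T M0 n x ≠ .none := by
        intro e; simp [e, Sym.isSrc, Sym.isDerived] at hev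
      obtain ⟨h4, -⟩ := H.sym_inner n hx hne
      rw [StepOK, inH_eq_pred H hw hx hy (by omega), inV_eq_pred H hw hx hy (by omega)]
      rcases hev with ⟨hY, hs⟩ | ⟨hY, hs⟩
      · have hd : (symAt T M0 n x).isDerived ≠ true := by
          cases e : symAt T M0 n x <;> simp_all [Sym.isSrc, Sym.isDerived]
        rcases hY with rfl | rfl <;>
          simp [shKind, turnAt, loc_eq, loc_ysym, hs, Kind.outs, rawH, rawV, sinceX_iff, sinceY_iff,
            XSeg.index, YSeg.index, show ¬ x ≤ x - 1 by omega] <;> intros <;> omega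
      · obtain ⟨q, hq⟩ : ∃ q, (symAt T M0 n x).derived? = some q :=
          Option.isSome_iff_exists.1 (by rwa [← Sym.isDerived_eq])
        have hn := Sym.not_isSrc_of_derived hq
        rcases hY with rfl | rfl <;>
          simp [shKind, turnAt, loc_eq, loc_ysym, hs, hq, Kind.outs, rawH, rawV, sinceX_iff,
            sinceY_iff, XSeg.index, YSeg.index, show ¬ x ≤ x - 1 by omega] <;> intros <;> omega
  · have hk' : shKind Y (locAt T M0 n x y) = .pass := by
      cases Y with
      | r c => fin_cases c <;> simp_all [shKind, turnAt, loc_eq, loc_ysym]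
      | rd c => fin_cases c <;> simp_all [shKind, turnAt, loc_eq, loc_ysym]
      | ta => simp_all [shKind, loc_xfirst]
      | _ => simp [shKind]
    rw [hk']
    refine stepOK_pass H hw hx hy ?_ ?_
    · intro h
      cases Y with
      | r c => fin_cases c <;> simp_all [HEvent]
      | rd c => fin_cases c <;> simp_all [HEvent]
      | _ => simp_all [HEvent]
    · intro h
      cases Y with
      | r c => fin_cases c <;> simp_all [VEvent] <;> aesop
      | rd c => fin_cases c <;> simp_all [VEvent] <;> aesop
      | _ => simp_all [VEvent]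

theorem step_ly (hsp : ¬ Special T M0 n .ly x Y y) :
    StepOK T M0 n w .ly x Y y (lyKind Y (locAt T M0 n x y)) := by
  have h : ¬(Y = .my ∧ x = 0) := fun h => hsp (Or.inr (Or.inl ⟨rfl, h.2, h.1⟩))
  simp only [lyKind, loc_xfirst, decide_eq_true_eq, h, if_false]
  refine stepOK_pass H hw hx hy ?_ ?_
  · cases Y <;> simp_all [HEvent]
  · simp_all [VEvent]; tauto

theorem step_gap : StepOK T M0 n w .gap x Y y .pass :=
  stepOK_pass H hw hx hy (by cases Y <;> simp [HEvent]) (by simp [VEvent])

theorem step_src (hsp : ¬ Special T M0 n .src x Y y) :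
    StepOK T M0 n w .src x Y y (srcKind Y (locAt T M0 n x y)) := by
  have hM := H.len_pos n
  have h : ¬(Y = .r 2 ∧ x = 0 ∧ (symAt T M0 n y).isSrc = true) := fun h =>
    hsp (Or.inr (Or.inr (Or.inl ⟨rfl, h.2.1, h.1, h.2.2⟩)))
  simp only [srcKind, loc_xfirst, loc_ysym, decide_eq_true_eq, h, if_false]
  split_ifs with h2
  · obtain ⟨rfl, rfl, hd⟩ := h2
    have hv := rawV_eq_inV H hw (X := .src) (Y := .rd 2) hx hy (by simp [VEvent])
    rw [StepOK, ← hv]
    obtain ⟨q, hq⟩ : ∃ q, (symAt T M0 n y).derived? = some q :=
      Option.isSome_iff_exists.1 (by rwa [← Sym.isDerived_eq])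
    simp [Kind.outs, rawH, hq, derState, sinceX_iff, XSeg.index]
  · refine stepOK_pass H hw hx hy ?_ (by simp [VEvent])
    cases Y with
    | r c => fin_cases c <;> simp_all [HEvent] <;> aesop
    | rd c => fin_cases c <;> simp_all [HEvent] <;> aesop
    | _ => simp [HEvent]

theorem step_setAbs : StepOK T M0 n w .setAbs x Y y (setAbsKind Y (locAt T M0 n x y)) := by
  have hM := H.len_pos n
  simp only [setAbsKind, loc_xfirst, loc_ysym, decide_eq_true_eq]
  split_ifs with h
  · obtain ⟨rfl, rfl, hd⟩ := h
    obtain ⟨X', x', hx', hp⟩ := exists_xPred hM hx (X := XSeg.setAbs) (by simp)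
    have hv := rawV_eq_inV H hw (X := .setAbs) (Y := .rd 2) hx hy (by simp [VEvent])
    rw [StepOK, ← hv, inH_eq w _ _ hx' hp]
    obtain ⟨q, hq⟩ : ∃ q, (symAt T M0 n y).derived? = some q :=
      Option.isSome_iff_exists.1 (by rwa [← Sym.isDerived_eq])
    have hs := fun A z (hz : z < segLen M0 n) => hp.since A hz
    have e1 : ∀ p ∈ (w 2).ox, p.1 < segLen M0 n := (hw 2).1
    have e2 : ∀ p ∈ (w 2).oy, p.1 < segLen M0 n := (hw 2).2
    have hmx : ∀ z, z < segLen M0 n → sinceX .mx z X' x' := fun z hz => by
      simp [hs _ _ hz, sinceX_iff, XSeg.index]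
    have htb : ∀ z, z < segLen M0 n → sinceX .tb z X' x' := fun z hz => by
      simp [hs _ _ hz, sinceX_iff, XSeg.index]
    have hmx0 : ∀ z, sinceX .mx z .setAbs 0 := fun z => by simp [sinceX_iff, XSeg.index]
    have htb0 : ∀ z, sinceX .tb z .setAbs 0 := fun z => by simp [sinceX_iff, XSeg.index]
    have hsa : sinceX .setAbs 0 .setAbs 0 := Or.inr ⟨rfl, le_rfl⟩
    have hsh : sinceX .sh y .setAbs 0 := by simp [sinceX_iff, XSeg.index]
    have hsr : sinceX .src 0 .setAbs 0 := by simp [sinceX_iff, XSeg.index]
    simp only [rawH, hq, derState, hs _ _ hy, hs _ _ hM, dval]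
    cases q1 : (w 2).ox with
    | none =>
      have a : derX T M0 n (w 2) q = Option.none := by simp [derX, q1]
      cases q2 : (w 2).oy with
      | none =>
        have b : derY T M0 n (w 2) q = Option.none := by simp [derY, q2]
        simp [Kind.outs, hsa, hsh, hsr, a, b]
      | some t =>
        cases hb : derY T M0 n (w 2) q <;>
          simp [Kind.outs, htb _ (e2 t q2), htb0, hsa, hsh, hsr, a, hb]
    | some u =>
      cases q2 : (w 2).oy with
      | none =>
        have b : derY T M0 n (w 2) q = Option.none := by simp [derY, q2]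
        cases ha : derX T M0 n (w 2) q <;>
          simp [Kind.outs, hmx _ (e1 u q1), hmx0, hsa, hsh, hsr, b, ha]
      | some t =>
        cases ha : derX T M0 n (w 2) q <;> cases hb : derY T M0 n (w 2) q <;>
          simp [Kind.outs, hmx _ (e1 u q1), htb _ (e2 t q2), hmx0, htb0, hsa, hsh, hsr, ha, hb]
  · refine stepOK_pass H hw hx hy ?_ (by simp [VEvent])
    cases Y with
    | r c => fin_cases c <;> simp_all [HEvent] <;> aesop
    | rd c => fin_cases c <;> simp_all [HEvent] <;> aesop
    | _ => simp [HEvent]

theorem step_up (hk : Y ≠ .kt) :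
    StepOK T M0 n w .up x Y y (upKind Sym.isSrc (.r 0) (.r 2) Y (locAt T M0 n x y)) := by
  by_cases hev : x = y ∧ (Y = .r 0 ∨ Y = .r 2) ∧ (symAt T M0 n y).isSrc = true
  · obtain ⟨rfl, hY, hs⟩ := hev
    obtain ⟨h4, -⟩ := H.sym_inner n hx (fun e => by simp [e, Sym.isSrc] at hs)
    rw [StepOK, inH_eq_pred H hw hx hy (by omega), inV_eq_pred H hw hx hy (by omega)]
    rcases hY with rfl | rfl <;>
      simp [upKind, turnAt, loc_eq, loc_ysym, hs, Kind.outs, rawH, rawV, sinceX_iff, sinceY_iff,
        XSeg.index, YSeg.index, show ¬ x ≤ x - 1 by omega] <;> intros <;> omega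
  · have hk' : upKind Sym.isSrc (.r 0) (.r 2) Y (locAt T M0 n x y) = .pass := by
      simp only [upKind, turnAt, loc_eq, loc_ysym]
      split_ifs <;> simp_all
    rw [hk']
    refine stepOK_pass H hw hx hy ?_ ?_
    · intro h
      cases Y with
      | r c => fin_cases c <;> simp_all [HEvent]
      | rd c => fin_cases c <;> simp_all [HEvent]
      | _ => simp_all [HEvent]
    · rintro ⟨rfl, hs, hY⟩
      exact hev ⟨rfl, hY, hs⟩

theorem step_upl (hk : Y ≠ .kt) :
    StepOK T M0 n w .upl x Y y (upKind Sym.isSrc (.r 1) (.r 3) Y (locAt T M0 n x y)) := by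
  by_cases hev : x = y ∧ (Y = .r 1 ∨ Y = .r 3) ∧ (symAt T M0 n y).isSrc = true
  · obtain ⟨rfl, hY, hs⟩ := hev
    obtain ⟨h4, -⟩ := H.sym_inner n hx (fun e => by simp [e, Sym.isSrc] at hs)
    rw [StepOK, inH_eq_pred H hw hx hy (by omega), inV_eq_pred H hw hx hy (by omega)]
    rcases hY with rfl | rfl <;>
      simp [upKind, turnAt, loc_eq, loc_ysym, hs, Kind.outs, rawH, rawV, sinceX_iff, sinceY_iff,
        XSeg.index, YSeg.index, show ¬ x ≤ x - 1 by omega] <;> intros <;> omega
  · have hk' : upKind Sym.isSrc (.r 1) (.r 3) Y (locAt T M0 n x y) = .pass := by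
      simp only [upKind, turnAt, loc_eq, loc_ysym]
      split_ifs <;> simp_all
    rw [hk']
    refine stepOK_pass H hw hx hy ?_ ?_
    · intro h
      cases Y with
      | r c => fin_cases c <;> simp_all [HEvent]
      | rd c => fin_cases c <;> simp_all [HEvent]
      | _ => simp_all [HEvent]
    · rintro ⟨rfl, hs, hY⟩
      exact hev ⟨rfl, hY, hs⟩

theorem step_upd (hk : Y ≠ .kt) :
    StepOK T M0 n w .upd x Y y (upKind Sym.isDerived (.rd 0) (.rd 2) Y (locAt T M0 n x y)) := by
  by_cases hev : x = y ∧ (Y = .rd 0 ∨ Y = .rd 2) ∧ (symAt T M0 n y).isDerived = true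
  · obtain ⟨rfl, hY, hs⟩ := hev
    obtain ⟨h4, -⟩ := H.sym_inner n hx (fun e => by simp [e, Sym.isDerived] at hs)
    obtain ⟨q, hq⟩ : ∃ q, (symAt T M0 n x).derived? = some q :=
      Option.isSome_iff_exists.1 (by rwa [← Sym.isDerived_eq])
    have hn := Sym.not_isSrc_of_derived hq
    rw [StepOK, inH_eq_pred H hw hx hy (by omega), inV_eq_pred H hw hx hy (by omega)]
    rcases hY with rfl | rfl <;>
      simp [upKind, turnAt, loc_eq, loc_ysym, hs, hq, derState, laneSig, Kind.outs, rawH, rawV,
        sinceX_iff, sinceY_iff, XSeg.index, YSeg.index, show ¬ x ≤ x - 1 by omega] <;>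
      intros <;> omega
  · have hk' : upKind Sym.isDerived (.rd 0) (.rd 2) Y (locAt T M0 n x y) = .pass := by
      simp only [upKind, turnAt, loc_eq, loc_ysym]
      split_ifs <;> simp_all
    rw [hk']
    refine stepOK_pass H hw hx hy ?_ ?_
    · intro h
      cases Y with
      | r c => fin_cases c <;> simp_all [HEvent]
      | rd c => fin_cases c <;> simp_all [HEvent]
      | _ => simp_all [HEvent]
    · rintro ⟨rfl, hs, hY⟩
      exact hev ⟨rfl, hY, hs⟩

theorem step_updl (hk : Y ≠ .kt) :
    StepOK T M0 n w .updl x Y y (upKind Sym.isDerived (.rd 1) (.rd 3) Y (locAt T M0 n x y)) := by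
  by_cases hev : x = y ∧ (Y = .rd 1 ∨ Y = .rd 3) ∧ (symAt T M0 n y).isDerived = true
  · obtain ⟨rfl, hY, hs⟩ := hev
    obtain ⟨h4, -⟩ := H.sym_inner n hx (fun e => by simp [e, Sym.isDerived] at hs)
    obtain ⟨q, hq⟩ : ∃ q, (symAt T M0 n x).derived? = some q :=
      Option.isSome_iff_exists.1 (by rwa [← Sym.isDerived_eq])
    have hn := Sym.not_isSrc_of_derived hq
    rw [StepOK, inH_eq_pred H hw hx hy (by omega), inV_eq_pred H hw hx hy (by omega)]
    rcases hY with rfl | rfl <;>
      simp [upKind, turnAt, loc_eq, loc_ysym, hs, hq, derState, laneSig, Kind.outs, rawH, rawV,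
        sinceX_iff, sinceY_iff, XSeg.index, YSeg.index, show ¬ x ≤ x - 1 by omega] <;>
      intros <;> omega
  · have hk' : upKind Sym.isDerived (.rd 1) (.rd 3) Y (locAt T M0 n x y) = .pass := by
      simp only [upKind, turnAt, loc_eq, loc_ysym]
      split_ifs <;> simp_all
    rw [hk']
    refine stepOK_pass H hw hx hy ?_ ?_
    · intro h
      cases Y with
      | r c => fin_cases c <;> simp_all [HEvent]
      | rd c => fin_cases c <;> simp_all [HEvent]
      | _ => simp_all [HEvent]
    · rintro ⟨rfl, hs, hY⟩
      exact hev ⟨rfl, hY, hs⟩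

theorem step_mx (hsp : ¬ Special T M0 n .mx x Y y) :
    StepOK T M0 n w .mx x Y y (mxKind Y (locAt T M0 n x y)) := by
  have hM := H.len_pos n
  cases Y with
  | lx =>
    have h0 : y ≠ 0 := fun e => hsp (Or.inl ⟨rfl, rfl, e⟩)
    simp only [mxKind, loc_yfirst, h0, decide_false, Bool.false_eq_true, if_false]
    exact stepOK_pass H hw hx hy (by simp [HEvent, h0]) (by simp [VEvent, h0])
  | ta => exact absurd (Or.inr (Or.inr (Or.inr (Or.inl ⟨rfl, rfl⟩)))) hsp
  | my =>
    have hh := rawH_eq_inH H hw (X := .mx) (Y := .my) hx hy (by simp [HEvent])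
    obtain ⟨Y', y', hy', hp⟩ := exists_yPred hM hy (Y := YSeg.my) (by simp)
    have hs := fun A z (hz : z < segLen M0 n) => hp.since A hz
    have hlx : sinceY .lx 0 .my y := by simp [sinceY_iff, YSeg.index]
    have hlx' : sinceY .lx 0 Y' y' := by simp [hs _ _ hM, sinceY_iff, YSeg.index]
    have hly : sinceX .ly 0 .mx x := by simp [sinceX_iff, XSeg.index]
    rw [StepOK, ← hh, inV_eq w _ _ hy' hp]
    simp only [mxKind, rawH, rawV, hlx, hlx', hly, if_true]
    cases q2 : (w 2).oy with
    | none =>
      cases q1 : (w 2).ox with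
      | none => simp [colLine, rowLine, q1, q2, Kind.outs, Sig.ofLine, Sig.line?]
      | some p =>
        simp [colLine, rowLine, q1, q2, Kind.outs, Sig.ofLine]
        split_ifs <;> simp [Sig.line?]
    | some r =>
      have hr := (hw 2).2 r q2
      cases q1 : (w 2).ox with
      | none =>
        simp [colLine, rowLine, q1, q2, Kind.outs, Sig.ofLine]
        split_ifs <;> simp [Sig.line?]
      | some p =>
        simp only [colLine, rowLine, q1, q2, Option.bind_some, hs _ _ hr]
        by_cases e : p.1 = x <;> by_cases e' : r.1 = y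
        · subst e'
          have h1 : sinceY .my r.1 .my r.1 := Or.inr ⟨rfl, le_rfl⟩
          subst e
          simp [h1, Kind.outs, Sig.ofLine, Sig.line?, locAt, Tables.loc]
        · have e'' : ¬ y = r.1 := fun h => e' h.symm
          by_cases h1 : sinceY .my r.1 .my y <;>
            simp [e, e', e'', h1, Kind.outs, Sig.ofLine, Sig.line?]
        · simp [e, e', Kind.outs, Sig.ofLine, Sig.line?]
        · simp [e, e', Kind.outs, Sig.ofLine, Sig.line?]
  | rd c =>
    by_cases hc : c = 2
    · subst hc
      cases hq : (symAt T M0 n y).derived? with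
      | none =>
        simp only [mxKind, loc_ysym, hq]
        exact stepOK_pass H hw hx hy (by simp [HEvent, Sym.isDerived_eq, hq]) (by simp [VEvent])
      | some q =>
        have hv := rawV_eq_inV H hw (X := .mx) (Y := .rd 2) hx hy (by simp [VEvent])
        obtain ⟨X', x', hx', hp⟩ := exists_xPred hM hx (X := XSeg.mx) (by simp)
        have hs := fun A z (hz : z < segLen M0 n) => hp.since A hz
        have hsa : ¬ sinceX .setAbs 0 .mx x := by simp [sinceX_iff, XSeg.index]
        have hsh : sinceX .sh y .mx x := by simp [sinceX_iff, XSeg.index]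
        have hsr : sinceX .src 0 .mx x := by simp [sinceX_iff, XSeg.index]
        have htb : ∀ z, ¬ sinceX .tb z .mx x := fun z => by simp [sinceX_iff, XSeg.index]
        have hlx : sinceY .lx 0 (.rd 2) y := by simp [sinceY_iff, YSeg.index]
        have hmy : ∀ z, sinceY .my z (.rd 2) y := fun z => by simp [sinceY_iff, YSeg.index]
        have hkt : ∀ z, sinceY .my z .kt 0 := fun z => by
          simp [sinceY_iff, YSeg.index]; omega
        have e1 : ∀ p ∈ (w 2).ox, p.1 < segLen M0 n := (hw 2).1
        have e2 : ∀ p ∈ (w 2).oy, p.1 < segLen M0 n := (hw 2).2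
        rw [StepOK, ← hv, inH_eq w _ _ hx' hp]
        simp only [mxKind, loc_ysym, hq, if_true, rawH, rawV, hlx, hsh, hsr, derState, hs _ _ hy,
          hs _ _ hM, hsa]
        have hb : ((w 2).oy.bind fun p =>
            if sinceX .tb p.1 X' x' then derY T M0 n (w 2) q else Option.none) = Option.none := by
          cases q2 : (w 2).oy with
          | none => rfl
          | some t => simp [hs _ _ (e2 t q2), htb]
        have hb' : ((w 2).oy.bind fun p =>
            if sinceX .tb p.1 .mx x then derY T M0 n (w 2) q else Option.none) = Option.none := by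
          cases (w 2).oy <;> simp [htb]
        rw [hb, hb']
        have hcol : colLine T n (w 2) x (.rd 2) y = colLine T n (w 2) x .kt 0 := by
          simp [colLine, hmy, hkt]
        rw [hcol]
        have hside : (locAt T M0 n x y).x = T.side M0 n x := rfl
        cases q1 : (w 2).ox with
        | none => simp [colLine, q1, Kind.outs, Sig.ofLine, Sig.line?]
        | some u =>
          have hu := hs .mx u.1 (e1 u q1)
          by_cases e : u.1 = x
          · subst e
            have hself : sinceX .mx u.1 .mx u.1 := Or.inr ⟨rfl, le_rfl⟩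
            obtain ⟨l, hl⟩ : ∃ l, colLine T n (w 2) u.1 .kt 0 = some l := by
              simp [colLine, q1]
            have hd : derX T M0 n (w 2) q = predX q (T.side M0 n u.1) l := by
              simp [derX, q1, hl]
            cases hv' : predX q (T.side M0 n u.1) l <;>
              simp [Kind.outs, Sig.ofLine, Sig.line?, hl, hu, hself, hd, hv', hside]
          · have hnone : colLine T n (w 2) x .kt 0 = Option.none := by simp [colLine, q1, e]
            have e' : ¬ x = u.1 := fun h => e h.symm
            simp [Kind.outs, Sig.ofLine, Sig.line?, hnone, hu, e']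
    · have hk : mxKind (.rd c) (locAt T M0 n x y) = .pass := by
        simp only [mxKind, hc, if_false]; split <;> rfl
      rw [hk]
      exact stepOK_pass H hw hx hy (by simp [HEvent, hc]) (by simp [VEvent])
  | _ =>
    simp only [mxKind]
    exact stepOK_pass H hw hx hy (by simp [HEvent]) (by simp [VEvent])

theorem step_tb (hsp : ¬ Special T M0 n .tb x Y y) :
    StepOK T M0 n w .tb x Y y (tbKind Y (locAt T M0 n x y)) := by
  have hM := H.len_pos n
  cases Y with
  | lx =>
    simp only [tbKind, loc_yfirst, decide_eq_true_eq]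
    split_ifs with h0
    · subst h0
      have hh := rawH_eq_inH H hw (X := .tb) (Y := .lx) hx hy (by simp [HEvent])
      obtain ⟨Y', y', hy', hp⟩ := exists_yPred hM hy (Y := YSeg.lx) (by simp)
      have hs := fun A z (hz : z < segLen M0 n) => hp.since A hz
      have hlast : segLen M0 n - 1 < segLen M0 n := by omega
      have hlx : sinceY .lx 0 .lx 0 := Or.inr ⟨rfl, le_rfl⟩
      have hmy : ∀ z, ¬ sinceY .my z .lx 0 := fun z => by simp [sinceY_iff, YSeg.index]
      have e2 : ∀ p ∈ (w 2).oy, p.1 < segLen M0 n := (hw 2).2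
      rw [StepOK, ← hh, inV_eq w _ _ hy' hp]
      simp only [rawV, tbCol]
      cases q2 : (w 2).oy with
      | none =>
        cases q3 : (w 0).oy with
        | none => simp [Kind.outs, Sig.ofLine, Sig.line?]
        | some r =>
          simp [hs _ _ hlast, hs _ _ hM, hlx, hmy, Sig.ofLine]
          split_ifs <;> simp [Kind.outs, Sig.line?]
      | some p =>
        cases q3 : (w 0).oy with
        | none => simp [hs _ _ hx, hlx, hmy, Kind.outs, Sig.ofLine, Sig.line?]
        | some r =>
          simp [hs _ _ hx, hs _ _ (e2 p q2), hs _ _ hM, hlx, hmy, Sig.ofLine]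
          split_ifs <;> simp [Kind.outs, Sig.line?]
    · exact stepOK_pass H hw hx hy (by simp [HEvent]) (by simp [VEvent, h0])
  | my => exact absurd (Or.inr (Or.inr (Or.inr (Or.inr (Or.inl ⟨rfl, rfl⟩))))) hsp
  | rd c =>
    by_cases hc : c = 2
    · subst hc
      cases hq : (symAt T M0 n y).derived? with
      | none =>
        simp only [tbKind, loc_ysym, hq]
        exact stepOK_pass H hw hx hy (by simp [HEvent, Sym.isDerived_eq, hq]) (by simp [VEvent])
      | some q =>
        have hv := rawV_eq_inV H hw (X := .tb) (Y := .rd 2) hx hy (by simp [VEvent])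
        obtain ⟨X', x', hx', hp⟩ := exists_xPred hM hx (X := XSeg.tb) (by simp)
        have hs := fun A z (hz : z < segLen M0 n) => hp.since A hz
        have hsa : ¬ sinceX .setAbs 0 .tb x := by simp [sinceX_iff, XSeg.index]
        have hsh : sinceX .sh y .tb x := by simp [sinceX_iff, XSeg.index]
        have hsr : sinceX .src 0 .tb x := by simp [sinceX_iff, XSeg.index]
        have hmx : ∀ z, sinceX .mx z .tb x := fun z => by simp [sinceX_iff, XSeg.index]
        have hmy : ∀ z, sinceY .my z (.rd 2) y := fun z => by simp [sinceY_iff, YSeg.index]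
        have e1 : ∀ p ∈ (w 2).ox, p.1 < segLen M0 n := (hw 2).1
        have e2 : ∀ p ∈ (w 2).oy, p.1 < segLen M0 n := (hw 2).2
        rw [StepOK, ← hv, inH_eq w _ _ hx' hp]
        simp only [tbKind, loc_ysym, hq, if_true, rawH, rawV, hsh, hsr, derState, hs _ _ hy,
          hs _ _ hM, hsa, tbCol, hmy]
        have ha : ((w 2).ox.bind fun p =>
            if sinceX .mx p.1 X' x' then derX T M0 n (w 2) q else Option.none) =
            derX T M0 n (w 2) q := by
          cases q1 : (w 2).ox with
          | none => simp [derX, q1]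
          | some t => simp [hs _ _ (e1 t q1), hmx]
        have ha' : ((w 2).ox.bind fun p =>
            if sinceX .mx p.1 .tb x then derX T M0 n (w 2) q else Option.none) =
            derX T M0 n (w 2) q := by
          cases q1 : (w 2).ox with
          | none => simp [derX, q1]
          | some t => simp [hmx]
        rw [ha, ha']
        have hside : (locAt T M0 n x y).x = T.side M0 n x := rfl
        cases q2 : (w 2).oy with
        | none =>
          cases derX T M0 n (w 2) q <;> cases q3 : (w 0).oy <;>
            simp [Kind.outs, Sig.ofLine, Sig.line?]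
        | some u =>
          have hu := hs .tb u.1 (e2 u q2)
          by_cases e : u.1 = x
          · subst e
            have hself : sinceX .tb u.1 .tb u.1 := Or.inr ⟨rfl, le_rfl⟩
            have hd : derY T M0 n (w 2) q =
                predY q (T.side M0 n u.1) { u := u.2, own := true } := by
              simp [derY, q2]
            cases hv' : predY q (T.side M0 n u.1) { u := u.2, own := true } with
            | none =>
              cases ha2 : derX T M0 n (w 2) q <;>
                simp [Kind.outs, Sig.ofLine, Sig.line?, hu, hself, hd, hv', hside]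
            | some b =>
              have hx0 : derX T M0 n (w 2) q = Option.none := by
                by_contra hne
                obtain ⟨a, ha2⟩ := Option.ne_none_iff_exists'.1 hne
                rw [derY_eq_none_of_derX T M0 n (w 2) q ha2] at hd
                rw [hv'] at hd; cases hd
              simp [Kind.outs, Sig.ofLine, Sig.line?, hu, hself, hd, hv', hside, hx0]
          · have e' : ¬ x = u.1 := fun h => e h.symm
            cases derX T M0 n (w 2) q <;> cases q3 : (w 0).oy <;>
              simp [Kind.outs, Sig.ofLine, Sig.line?, hu, e, e']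
    · have hk : tbKind (.rd c) (locAt T M0 n x y) = .pass := by
        simp only [tbKind, hc, if_false]; split <;> rfl
      rw [hk]
      exact stepOK_pass H hw hx hy (by simp [HEvent, hc]) (by simp [VEvent])
  | _ =>
    simp only [tbKind]
    exact stepOK_pass H hw hx hy (by simp [HEvent]) (by simp [VEvent])

/-- A bundle row in the columns of the match rows. -/
theorem rawH_bundle {c : Fin 4} (hX : 12 ≤ X.index) (hX' : X.index < 19)
    (hl : (symAt T M0 n y).isSrc = true) :
    rawH T M0 n w X x (.r c) y = laneSig T M0 n (w c) true y := by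
  have e : ∀ A z, A.index < 12 → sinceX A z X x := fun A z h =>
    sinceX_iff.2 (Or.inl (by omega))
  have hk : ¬ sinceX .kr 0 X x := by
    rw [sinceX_iff, show XSeg.kr.index = 19 + 2 * benchCard from rfl]; omega
  fin_cases c <;> simp [rawH, hk, e .sh y (by simp [XSeg.index]), e .src 0 (by simp [XSeg.index]), e .up y (by simp [XSeg.index]), e .upl y (by simp [XSeg.index])]

/-- A derived row in the columns of the match rows. -/
theorem rawH_bundle_derived {c : Fin 4} (hX : 12 ≤ X.index) (hX' : X.index < 19)
    {q : Fin 40} (hq : (symAt T M0 n y).derived? = some q) :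
    rawH T M0 n w X x (.rd c) y = laneSig T M0 n (w c) false y := by
  have e : ∀ A z, A.index < 12 → sinceX A z X x := fun A z h =>
    sinceX_iff.2 (Or.inl (by omega))
  have hk : ¬ sinceX .kr 0 X x := by
    rw [sinceX_iff, show XSeg.kr.index = 19 + 2 * benchCard from rfl]; omega
  fin_cases c <;> simp [rawH, hk, hq, derState, laneSig, e .sh y (by simp [XSeg.index]), e .src 0 (by simp [XSeg.index]), e .upd y (by simp [XSeg.index]), e .updl y (by simp [XSeg.index]), e .setAbs 0 (by simp [XSeg.index])]

theorem step_pa {c : Fin 4} (hsp : ¬ Special T M0 n (.pa c) x Y y) (hk : Y ≠ .kt) :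
    StepOK T M0 n w (.pa c) x Y y (paKind c Y (locAt T M0 n x y)) := by
  have hM := H.len_pos n
  cases Y with
  | r d =>
    by_cases hev : d = paClass c ∧ x = y ∧ (symAt T M0 n y).isSrc = true
    · obtain ⟨rfl, rfl, hs⟩ := hev
      have hh := rawH_eq_inH H hw (X := .pa c) (Y := .r (paClass c)) hx hy (by simp [HEvent])
      have hval := rawH_bundle H hw hx hy (X := XSeg.pa c) (y := x) (c := paClass c)
        (by simp [XSeg.index]; try omega) (by simp [XSeg.index]; omega) hs
      rw [StepOK, ← hh, hval]
      simp [paKind, turnAt, loc_eq, loc_ysym, hs, Kind.outs, rawV, paCol, sinceY_iff, YSeg.index]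
      intros; omega
    · have hk' : paKind c (.r d) (locAt T M0 n x y) = .pass := by
        simp only [paKind, turnAt, loc_eq, loc_ysym]
        split_ifs <;> simp_all
      rw [hk']
      refine stepOK_pass H hw hx hy (by simp [HEvent]) ?_
      simp only [VEvent, not_or]
      refine ⟨?_, by simp⟩
      rintro ⟨rfl, ⟨hs, hY⟩ | ⟨-, hY⟩⟩
      · exact hev ⟨YSeg.r.inj hY, rfl, hs⟩
      · exact absurd hY (by simp)
  | rd d =>
    by_cases hev : d = paClass c ∧ x = y ∧ (symAt T M0 n y).isDerived = true
    · obtain ⟨rfl, rfl, hs⟩ := hev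
      obtain ⟨q, hq⟩ : ∃ q, (symAt T M0 n x).derived? = some q :=
        Option.isSome_iff_exists.1 (by rwa [← Sym.isDerived_eq])
      have hn := Sym.not_isSrc_of_derived hq
      have hh := rawH_eq_inH H hw (X := .pa c) (Y := .rd (paClass c)) hx hy (by simp [HEvent])
      have hval := rawH_bundle_derived H hw hx hy (X := XSeg.pa c) (y := x) (c := paClass c)
        (by simp [XSeg.index]) (by simp [XSeg.index]; omega) hq
      rw [StepOK, ← hh, hval]
      simp [paKind, turnAt, loc_eq, loc_ysym, hs, hn, Kind.outs, rawV, paCol, sinceY_iff,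
        YSeg.index]
      intros; omega
    · have hk' : paKind c (.rd d) (locAt T M0 n x y) = .pass := by
        simp only [paKind, turnAt, loc_eq, loc_ysym]
        split_ifs <;> simp_all
      rw [hk']
      refine stepOK_pass H hw hx hy (by simp [HEvent]) ?_
      simp only [VEvent, not_or]
      refine ⟨?_, by simp⟩
      rintro ⟨rfl, ⟨-, hY⟩ | ⟨hs, hY⟩⟩
      · exact absurd hY (by simp)
      · exact hev ⟨YSeg.rd.inj hY, rfl, hs⟩
  | kt => exact absurd rfl hk
  | ma =>
    by_cases hm : symAt T M0 n y = .mrow
    · have hv := rawV_eq_inV H hw (X := .pa c) (Y := .ma) hx hy (by simp [VEvent])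
      obtain ⟨X', x', hx', hp⟩ := exists_xPred hM hx (X := XSeg.pa c) (by simp)
      have hs := fun A z (hz : z < segLen M0 n) => hp.since A hz
      have hlast : segLen M0 n - 1 < segLen M0 n := by omega
      have hnotend : ¬ sinceX (.pa 3) (segLen M0 n - 1) (.pa c) x := by
        rintro (h | ⟨h, h'⟩)
        · simp [XSeg.index] at h; omega
        · exact hsp (Or.inr (Or.inr (Or.inr (Or.inr (Or.inr (Or.inl
            ⟨h, by omega, rfl, hm⟩))))))
      have hst : sinceX (.pa 0) 0 (.pa c) x := by
        simp [sinceX_iff, XSeg.index]; omega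
      have hnend' : ¬(c = 3 ∧ x + 1 = segLen M0 n) := fun h => hsp
        (Or.inr (Or.inr (Or.inr (Or.inr (Or.inr (Or.inl ⟨by rw [h.1], h.2, rfl, hm⟩))))))
      rw [StepOK, ← hv, inH_eq w _ _ hx' hp]
      by_cases h0 : c = 0 ∧ x = 0
      · obtain ⟨rfl, rfl⟩ := h0
        have hz : symAt T M0 n 0 = .none := by
          by_contra hne; have := (H.sym_inner n hx hne).1; omega
        have htruth : maTruth T M0 n w y (.pa 0) 0 = true := by
          simp only [maTruth, decide_eq_true_eq]
          intro c' z hz' hsin hvis
          rcases hsin with h | ⟨h, h'⟩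
          · simp [XSeg.index] at h
          · obtain rfl : c' = 0 := (XSeg.pa.inj h).symm
            obtain rfl : z = 0 := by omega
            simp [hz, Sym.vis] at hvis
        simp [paKind, loc_ysym, hm, loc_xfirst, Kind.outs, rawH, hst, hnotend, htruth]
      · have hst' : sinceX (.pa 0) 0 X' x' := (hs _ _ hM).2 ⟨hst, fun h => h0
          ⟨XSeg.pa.inj h.1, h.2⟩⟩
        have hend' : ¬ sinceX (.pa 3) (segLen M0 n - 1) X' x' := fun h =>
          hnotend ((hs _ _ hlast).1 h).1
        by_cases hvis : Sym.vis (paGate c) (symAt T M0 n x) = true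
        · have hcol : rawV T M0 n w (.pa c) x .ma y = paCol T M0 n w c x := by
            simp only [rawV]
            rw [if_pos]
            refine ⟨?_, ?_⟩
            · split <;> simp [sinceY_iff, YSeg.index] <;> omega
            · simp [sinceY_iff, YSeg.index]; omega
          have hrec : maTruth T M0 n w y (.pa c) x = (maTruth T M0 n w y X' x' &&
              litOk ((T.crossAt n x y).gate (paGate c)) (paCol T M0 n w c x)) := by
            rw [Bool.eq_iff_iff]
            simp only [maTruth, decide_eq_true_eq, Bool.and_eq_true]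
            constructor
            · intro h
              exact ⟨fun c' z hz hsin => h c' z hz ((hs _ _ hz).1 hsin).1,
                h c x hx (Or.inr ⟨rfl, le_rfl⟩) hvis⟩
            · rintro ⟨h, hl⟩ c' z hz hsin hv'
              by_cases e : XSeg.pa c = XSeg.pa c' ∧ x = z
              · obtain ⟨e1, rfl⟩ := e
                obtain rfl := XSeg.pa.inj e1
                exact hl
              · exact h c' z hz ((hs _ _ hz).2 ⟨hsin, e⟩) hv'
          rw [hcol]
          simp [paKind, loc_ysym, loc_xfirst, loc_xlast, loc_xsym, hm, h0, hnend', hvis,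
            Kind.outs, rawH, hst, hnotend, hst', hend', hrec, Sig.truth, litOk, loc_gate,
            Bool.and_assoc]
        · have hsame : maTruth T M0 n w y (.pa c) x = maTruth T M0 n w y X' x' := by
            rw [Bool.eq_iff_iff]
            simp only [maTruth, decide_eq_true_eq]
            constructor
            · exact fun h c' z hz hsin => h c' z hz ((hs _ _ hz).1 hsin).1
            · intro h c' z hz hsin hv'
              by_cases e : XSeg.pa c = XSeg.pa c' ∧ x = z
              · obtain ⟨e1, rfl⟩ := e
                obtain rfl := XSeg.pa.inj e1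
                exact absurd hv' hvis
              · exact h c' z hz ((hs _ _ hz).2 ⟨hsin, e⟩) hv'
          simp [paKind, loc_ysym, loc_xfirst, loc_xlast, loc_xsym, hm, h0, hnend', hvis,
            Kind.outs, rawH, hst, hnotend, hst', hend', hsame]
    · have hk' : paKind c .ma (locAt T M0 n x y) = .pass := by simp [paKind, loc_ysym, hm]
      rw [hk']
      exact stepOK_pass H hw hx hy (by simp [HEvent, hm]) (by simp [VEvent])
  | _ =>
    simp only [paKind]
    exact stepOK_pass H hw hx hy (by simp [HEvent]) (by simp [VEvent])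

theorem step_pr {c : Fin 3} (hsp : ¬ Special T M0 n (.pr c) x Y y) (hk : Y ≠ .kt) :
    StepOK T M0 n w (.pr c) x Y y (prKind c Y (locAt T M0 n x y)) := by
  have hM := H.len_pos n
  cases Y with
  | r d =>
    by_cases hev : d = prClass c ∧ x = y ∧ Sym.vis (prGate c) (symAt T M0 n y) = true
    · obtain ⟨rfl, rfl, hvis⟩ := hev
      have hs := Sym.isSrc_of_vis_event hvis
      have hh := rawH_eq_inH H hw (X := .pr c) (Y := .r (prClass c)) hx hy (by simp [HEvent])
      have hval := rawH_bundle H hw hx hy (X := XSeg.pr c) (y := x) (c := prClass c)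
        (by simp [XSeg.index]; try omega) (by simp [XSeg.index]; omega) hs
      rw [StepOK, ← hh, hval]
      simp [prKind, turnAt, loc_eq, loc_ysym, hvis, Kind.outs, rawV, prCol, sinceY_iff, YSeg.index]
      intros; omega
    · have hk' : prKind c (.r d) (locAt T M0 n x y) = .pass := by
        simp only [prKind, turnAt, loc_eq, loc_ysym]
        split_ifs <;> simp_all
      rw [hk']
      refine stepOK_pass H hw hx hy (by simp [HEvent]) ?_
      simp only [VEvent, not_or]
      refine ⟨?_, by simp⟩
      rintro ⟨rfl, hs, hY⟩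
      exact hev ⟨YSeg.r.inj hY, rfl, hs⟩
  | kt => exact absurd rfl hk
  | mr =>
    by_cases hm : symAt T M0 n y = .mrow
    · have hv := rawV_eq_inV H hw (X := .pr c) (Y := .mr) hx hy (by simp [VEvent])
      obtain ⟨X', x', hx', hp⟩ := exists_xPred hM hx (X := XSeg.pr c) (by simp)
      have hs := fun A z (hz : z < segLen M0 n) => hp.since A hz
      have hlast : segLen M0 n - 1 < segLen M0 n := by omega
      have hnotend : ¬ sinceX (.pr 2) (segLen M0 n - 1) (.pr c) x := by
        rintro (h | ⟨h, h'⟩)
        · simp [XSeg.index] at h; omega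
        · exact hsp (Or.inr (Or.inr (Or.inr (Or.inr (Or.inr (Or.inr (Or.inl
            ⟨h, by omega, rfl, hm⟩)))))))
      have hst : sinceX (.pr 0) 0 (.pr c) x := by
        simp [sinceX_iff, XSeg.index]; omega
      have hnend' : ¬(c = 2 ∧ x + 1 = segLen M0 n) := fun h => hsp
        (Or.inr (Or.inr (Or.inr (Or.inr (Or.inr (Or.inr (Or.inl
          ⟨by rw [h.1], h.2, rfl, hm⟩)))))))
      rw [StepOK, ← hv, inH_eq w _ _ hx' hp]
      by_cases h0 : c = 0 ∧ x = 0
      · obtain ⟨rfl, rfl⟩ := h0
        have hz : symAt T M0 n 0 = .none := by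
          by_contra hne; have := (H.sym_inner n hx hne).1; omega
        have htruth : mrTruth T M0 n w y (.pr 0) 0 = true := by
          simp only [mrTruth, decide_eq_true_eq]
          intro c' z hz' hsin hvis
          rcases hsin with h | ⟨h, h'⟩
          · simp [XSeg.index] at h
          · obtain rfl : c' = 0 := (XSeg.pr.inj h).symm
            obtain rfl : z = 0 := by omega
            simp [hz, Sym.vis] at hvis
        simp [prKind, loc_ysym, hm, loc_xfirst, Kind.outs, rawH, hst, hnotend, htruth]
      · have hst' : sinceX (.pr 0) 0 X' x' := (hs _ _ hM).2 ⟨hst, fun h => h0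
          ⟨XSeg.pr.inj h.1, h.2⟩⟩
        have hend' : ¬ sinceX (.pr 2) (segLen M0 n - 1) X' x' := fun h =>
          hnotend ((hs _ _ hlast).1 h).1
        by_cases hvis : Sym.vis (prGate c) (symAt T M0 n x) = true
        · have hcol : rawV T M0 n w (.pr c) x .mr y = prCol T M0 n w c x := by
            simp only [rawV]
            rw [if_pos]
            exact ⟨by simp [sinceY_iff, YSeg.index]; omega,
              by simp [sinceY_iff, YSeg.index]; omega⟩
          have hrec : mrTruth T M0 n w y (.pr c) x = (mrTruth T M0 n w y X' x' &&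
              litOk ((T.crossAt n x y).gate (prGate c)) (prCol T M0 n w c x)) := by
            rw [Bool.eq_iff_iff]
            simp only [mrTruth, decide_eq_true_eq, Bool.and_eq_true]
            constructor
            · intro h
              exact ⟨fun c' z hz hsin => h c' z hz ((hs _ _ hz).1 hsin).1,
                h c x hx (Or.inr ⟨rfl, le_rfl⟩) hvis⟩
            · rintro ⟨h, hl⟩ c' z hz hsin hv'
              by_cases e : XSeg.pr c = XSeg.pr c' ∧ x = z
              · obtain ⟨e1, rfl⟩ := e
                obtain rfl := XSeg.pr.inj e1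
                exact hl
              · exact h c' z hz ((hs _ _ hz).2 ⟨hsin, e⟩) hv'
          rw [hcol]
          simp [prKind, loc_ysym, loc_xfirst, loc_xlast, loc_xsym, hm, h0, hnend', hvis,
            Kind.outs, rawH, hst, hnotend, hst', hend', hrec, Sig.truth, litOk, loc_gate,
            Bool.and_assoc]
        · have hsame : mrTruth T M0 n w y (.pr c) x = mrTruth T M0 n w y X' x' := by
            rw [Bool.eq_iff_iff]
            simp only [mrTruth, decide_eq_true_eq]
            constructor
            · exact fun h c' z hz hsin => h c' z hz ((hs _ _ hz).1 hsin).1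
            · intro h c' z hz hsin hv'
              by_cases e : XSeg.pr c = XSeg.pr c' ∧ x = z
              · obtain ⟨e1, rfl⟩ := e
                obtain rfl := XSeg.pr.inj e1
                exact absurd hv' hvis
              · exact h c' z hz ((hs _ _ hz).2 ⟨hsin, e⟩) hv'
          simp [prKind, loc_ysym, loc_xfirst, loc_xlast, loc_xsym, hm, h0, hnend', hvis,
            Kind.outs, rawH, hst, hnotend, hst', hend', hsame]
    · have hk' : prKind c .mr (locAt T M0 n x y) = .pass := by simp [prKind, loc_ysym, hm]
      rw [hk']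
      exact stepOK_pass H hw hx hy (by simp [HEvent, hm]) (by simp [VEvent])
  | _ =>
    simp only [prKind]
    exact stepOK_pass H hw hx hy (by simp [HEvent]) (by simp [VEvent])

theorem step_bench_col {t : Fin benchCard} {i : Fin 2} (hY : ∀ t' j, Y ≠ .bench t' j) :
    StepOK T M0 n w (.bench t i) x Y y .passH := by
  refine stepOK_passH H hw hx hy ?_ ?_
  · cases Y <;> simp_all [HEvent]
  · cases Y <;> simp_all [rawV]

theorem step_bench_row {t : Fin benchCard} {j : Fin 2} (hX : ∀ t' i, X ≠ .bench t' i)
    (h0 : X ≠ .x0) (h1 : X ≠ .kr) : StepOK T M0 n w X x (.bench t j) y .passV := by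
  refine stepOK_passV H hw hx hy ?_ ?_
  · cases X <;> simp_all [rawH]
  · cases X <;> simp_all [VEvent]

theorem step_bench_other {t t' : Fin benchCard} {i j : Fin 2} (ht : t ≠ t') :
    StepOK T M0 n w (.bench t i) x (.bench t' j) y .blank := by
  simp [StepOK, Kind.outs, rawH, rawV, ht, ht.symm]

/-- The closed form obeys the relation at every cell without a choice or a constraint. -/
theorem step_plain (hsp : ¬ Special T M0 n X x Y y) :
    StepOK T M0 n w X x Y y (kindOn X Y (locAt T M0 n x y)) := by
  by_cases hYb : ∃ t j, Y = .bench t j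
  · obtain ⟨t, j, rfl⟩ := hYb
    cases X with
    | x0 => exact step_x0 H hw hx hy
    | kr => exact step_kr H hw hx hy
    | bench t' i =>
      by_cases e : t' = t
      · subst e
        exact absurd (Or.inr (Or.inr (Or.inr (Or.inr (Or.inr (Or.inr (Or.inr
          ⟨t', i, j, rfl, rfl⟩))))))) hsp
      · simp only [kindOn, if_neg e]
        exact step_bench_other H hw hx hy e
    | _ => exact step_bench_row H hw hx hy (by simp) (by simp) (by simp)
  · have hYb' : ∀ t j, Y ≠ .bench t j := fun t j e => hYb ⟨t, j, e⟩
    by_cases hk : Y = .kt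
    · cases X with
      | x0 => exact step_x0 H hw hx hy
      | kr => exact step_kr H hw hx hy
      | bench t i =>
        subst hk
        exact step_bench_col H hw hx hy hYb'
      | _ =>
        subst hk
        exact step_kt H hw hx hy hYb' rfl (by simp) (by simp) (by simp)
    · cases X with
      | x0 => exact step_x0 H hw hx hy
      | kr => exact step_kr H hw hx hy
      | bench t i =>
        cases Y with
        | bench t' j => exact absurd rfl (hYb' t' j)
        | _ => exact step_bench_col H hw hx hy hYb'
      | sh => cases Y <;> first | exact absurd rfl hk | exact absurd rfl (hYb' _ _) |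
          exact step_sh H hw hx hy hYb' hk
      | ly => cases Y <;> first | exact absurd rfl hk | exact absurd rfl (hYb' _ _) |
          exact step_ly H hw hx hy hsp
      | src => cases Y <;> first | exact absurd rfl hk | exact absurd rfl (hYb' _ _) |
          exact step_src H hw hx hy hsp
      | mx => cases Y <;> first | exact absurd rfl hk | exact absurd rfl (hYb' _ _) |
          exact step_mx H hw hx hy hsp
      | gap => cases Y <;> first | exact absurd rfl hk | exact absurd rfl (hYb' _ _) |
          exact step_gap H hw hx hy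
      | tb => cases Y <;> first | exact absurd rfl hk | exact absurd rfl (hYb' _ _) |
          exact step_tb H hw hx hy hsp
      | setAbs => cases Y <;> first | exact absurd rfl hk | exact absurd rfl (hYb' _ _) |
          exact step_setAbs H hw hx hy
      | up => cases Y <;> first | exact absurd rfl hk | exact absurd rfl (hYb' _ _) |
          exact step_up H hw hx hy hk
      | upl => cases Y <;> first | exact absurd rfl hk | exact absurd rfl (hYb' _ _) |
          exact step_upl H hw hx hy hk
      | upd => cases Y <;> first | exact absurd rfl hk | exact absurd rfl (hYb' _ _) |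
          exact step_upd H hw hx hy hk
      | updl => cases Y <;> first | exact absurd rfl hk | exact absurd rfl (hYb' _ _) |
          exact step_updl H hw hx hy hk
      | pa c => cases Y <;> first | exact absurd rfl hk | exact absurd rfl (hYb' _ _) |
          exact step_pa H hw hx hy hsp hk
      | pr c => cases Y <;> first | exact absurd rfl hk | exact absurd rfl (hYb' _ _) |
          exact step_pr H hw hx hy hsp hk

end Cells

end

end Vale.Agent.P196.W
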