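import Vale.Agent.P196.W.BlockExpand
import Vale.Agent.P196.W.StepPlain
import Vale.Agent.P196.W.Conditions

/-!
# P196: a drawn tile obeys the relation

The closed form obeys the relation at every cell of a tile whose window of parents obeys the rules,
the signals at its edges being those that the neighbouring tiles send.
-/

namespace Vale.Agent.P196.W

open Sft

noncomputable section

section Step

variable {T : Tables} {M0 n : ℕ}

/-- The rows of a tile all end false. -/
def RowsEnd (T : Tables) (M0 n : ℕ) (q : Quad) : Prop :=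
  ∀ y < segLen M0 n, symAt T M0 n y = .mrow →
    maTruth T M0 n q y (.pa 3) (segLen M0 n - 1) = false ∧
      mrTruth T M0 n q y (.pr 2) (segLen M0 n - 1) = false

/-- With compatible lines and rows ending false the closed form obeys the relation everywhere. -/
theorem step_all (H : TabOK T M0) {w : Quad} (hR : w.InRange (segLen M0 n))
    (hl : LinesOk (segLen M0 n) w) (hr : RowsEnd T M0 n w) {X : XSeg} {x : ℕ} {Y : YSeg} {y : ℕ}
    (hx : x < segLen M0 n) (hy : y < segLen M0 n) :
    (rawH T M0 n w X x Y y, rawV T M0 n w X x Y y) ∈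
      (kindOn X Y (T.loc M0 n x y)).outs (inH T M0 n w X x Y y) (inV T M0 n w X x Y y) := by
  by_cases hsp : Special T M0 n X x Y y
  · rcases hsp with ⟨rfl, rfl, rfl⟩ | ⟨rfl, rfl, rfl⟩ | ⟨rfl, rfl, rfl, hs⟩ | ⟨rfl, rfl⟩ |
      ⟨rfl, rfl⟩ | ⟨rfl, hlast, rfl, hs⟩ | ⟨rfl, hlast, rfl, hs⟩ | ⟨t, i, j, rfl, rfl⟩
    · exact (pickX_mem_iff H hx).2 (hl.1 x hx)
    · exact (pickY_mem_iff H hy).2 (hl.2.1 y hy)
    · exact srcBit_mem H hy hs
    · rw [(cmpA_outs H hR hx hy).1 (hl.2.2.1 x hx y hy)]
      exact List.mem_singleton_self _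
    · rw [(cmpB_outs H hR hx hy).1 (hl.2.2.2 y hy x hx)]
      exact List.mem_singleton_self _
    · rw [maEnd_outs H hR hlast hy hs, show x = segLen M0 n - 1 by omega, (hr y hy hs).1]
      simp
    · rw [mrEnd_outs H hR hlast hy hs, show x = segLen M0 n - 1 by omega, (hr y hy hs).2]
      simp
    · exact bench_mem H hx hy
  · have h := step_plain H hR hx hy hsp
    simp only [StepOK, locAt] at h
    rw [h]
    exact List.mem_singleton_self _

end Step

section Tile

variable {T : Tables} {M0 n : ℕ} [NeZero M0]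

theorem named_coord (H : TabOK T M0) {x y : ℕ} (hx : x < segCount * segLen M0 n)
    (hy : y < segCount * segLen M0 n) :
    kindAt layoutKind (locF T M0 n) (addrAt x y) =
      kindOn (xsegAt M0 n x) (ysegAt M0 n y)
        (T.loc M0 n (x % segLen M0 n) (y % segLen M0 n)) := by
  have _ := H
  have hM := segLen_pos (M0 := M0) n
  have ex : pos (xSegEquiv (xsegAt M0 n x)) (⟨x % segLen M0 n, Nat.mod_lt _ hM⟩ : Fin _) = x := by
    rw [pos_xSegEquiv]; exact xlin_xsegAt hx
  have ey : pos (ySegEquiv (ysegAt M0 n y)) (⟨y % segLen M0 n, Nat.mod_lt _ hM⟩ : Fin _) = y := by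
    rw [pos_ySegEquiv]; exact ylin_ysegAt hy
  have := kindAt_named T M0 n (xsegAt M0 n x) ⟨x % segLen M0 n, Nat.mod_lt _ hM⟩ (ysegAt M0 n y)
    ⟨y % segLen M0 n, Nat.mod_lt _ hM⟩
  rwa [ex, ey] at this

theorem sigH_named (q : Quad) {x y : ℕ} (hx : x < segCount * segLen M0 n)
    (hy : y < segCount * segLen M0 n) :
    sigH T M0 n q x y = rawH T M0 n q (xsegAt M0 n x) (x % segLen M0 n) (ysegAt M0 n y)
      (y % segLen M0 n) := by
  rw [sigH, if_neg (not_le.2 hy), if_neg (not_le.2 hx)]

theorem sigV_named (q : Quad) {x y : ℕ} (hx : x < segCount * segLen M0 n)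
    (hy : y < segCount * segLen M0 n) :
    sigV T M0 n q x y = rawV T M0 n q (xsegAt M0 n x) (x % segLen M0 n) (ysegAt M0 n y)
      (y % segLen M0 n) := by
  rw [sigV, if_neg (not_le.2 hx), if_neg (not_le.2 hy)]

/-- The signal entering a cell from the left, in coordinates. -/
theorem inH_coord (H : TabOK T M0) (q q' : Quad) (hq : q' 2 = q 3) {x y : ℕ}
    (hx : x < segCount * segLen M0 n) (hy : y < segCount * segLen M0 n) :
    inH T M0 n q (xsegAt M0 n x) (x % segLen M0 n) (ysegAt M0 n y) (y % segLen M0 n) =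
      if x = 0 then sigH T M0 n q' (side segCount (segLen M0 n) - 1) y
      else sigH T M0 n q (x - 1) y := by
  have hM := segLen_pos (M0 := M0) n
  have h4 := four_le_segLen (n := n) H
  split_ifs with h0
  · subst h0
    have e : xsegAt M0 n 0 = .x0 :=
      XSeg.eq_of_index (by rw [xsegAt_index hx, Nat.zero_div]; rfl)
    rw [e, Nat.zero_mod, inH_first, edgeH, sigH, if_neg (not_le.2 hy),
      if_pos (by rw [side_eq]; omega)]
    exact (rawBandH_congr_self (by exact hq.symm) _ _)
  · obtain ⟨X', x', hx', hp⟩ := exists_xPred (X := xsegAt M0 n x) hM (Nat.mod_lt x hM) fun e => by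
      have := xlin_xsegAt (M0 := M0) hx
      rw [e.1, e.2] at this
      simp [xlin, XSeg.index] at this
      omega
    have hl := hp.xlin_succ
    rw [xlin_xsegAt hx] at hl
    have h1 : x - 1 < segCount * segLen M0 n := by omega
    obtain ⟨eX, ex⟩ := xlin_inj hx' (Nat.mod_lt (x - 1) hM)
      (show xlin _ X' x' = xlin _ (xsegAt M0 n (x - 1)) ((x - 1) % segLen M0 n) by
        rw [xlin_xsegAt h1]; omega)
    rw [inH_eq q _ _ hx' hp, eX, ex, sigH_named q h1 hy]

/-- The signal entering a cell from below, in coordinates. -/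
theorem inV_coord (H : TabOK T M0) (q q' : Quad) (hq : q' 2 = q 0) (hq' : q' 3 = q 1) {x y : ℕ}
    (hx : x < segCount * segLen M0 n) (hy : y < segCount * segLen M0 n) :
    inV T M0 n q (xsegAt M0 n x) (x % segLen M0 n) (ysegAt M0 n y) (y % segLen M0 n) =
      if y = 0 then sigV T M0 n q' x (side segCount (segLen M0 n) - 1)
      else sigV T M0 n q x (y - 1) := by
  have hM := segLen_pos (M0 := M0) n
  have h4 := four_le_segLen (n := n) H
  split_ifs with h0
  · subst h0
    have e : ysegAt M0 n 0 = .y0 :=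
      YSeg.eq_of_index (by rw [ysegAt_index hy, Nat.zero_div]; rfl)
    rw [e, Nat.zero_mod, inV_first, edgeV, sigV, if_neg (not_le.2 hx),
      if_pos (by rw [side_eq]; omega)]
    exact rawBandV_congr_self (by simp [hq]) (by simp [hq']) _ _
  · obtain ⟨Y', y', hy', hp⟩ := exists_yPred (Y := ysegAt M0 n y) hM (Nat.mod_lt y hM) fun e => by
      have := ylin_ysegAt (M0 := M0) hy
      rw [e.1, e.2] at this
      simp [ylin, YSeg.index] at this
      omega
    have hl := hp.ylin_succ
    rw [ylin_ysegAt hy] at hl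
    have h1 : y - 1 < segCount * segLen M0 n := by omega
    obtain ⟨eY, ey⟩ := ylin_inj hy' (Nat.mod_lt (y - 1) hM)
      (show ylin _ Y' y' = ylin _ (ysegAt M0 n (y - 1)) ((y - 1) % segLen M0 n) by
        rw [ylin_ysegAt h1]; omega)
    rw [inV_eq q _ _ hy' hp, eY, ey, sigV_named q hx h1]

/-- **A tile obeys the relation** as soon as every rule window of parents has compatible lines and
rows ending false. -/
theorem drawOk_of_rules (H : TabOK T M0)
    (hW : ∀ w ∈ rules T M0 (n + 1),
      LinesOk (segLen M0 n) (quadOf T M0 n w) ∧ RowsEnd T M0 n (quadOf T M0 n w)) :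
    DrawOk layoutKind (locF T M0 n) (rules T M0 (n + 1)) (drawTile T M0 n) := by
  intro U P h _ _ x y hx hy
  dsimp only
  set w := windowAt U (P.1 - 1, P.2 - 1) with hw
  set q := quadOf T M0 n w with hq
  obtain ⟨hl, hr⟩ := hW w h
  have hqL : quadOf T M0 n (windowAt U (P.1 - 2, P.2 - 1)) 2 = q 3 := by
    rw [hq, quadOf_self, quadOf_left, hw]
    simp only [windowAt]
    congr 2
    ext <;> simp <;> ring
  have hqB : quadOf T M0 n (windowAt U (P.1 - 1, P.2 - 2)) 2 = q 0 := by
    rw [hq, quadOf_self, quadOf_below, hw]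
    simp only [windowAt]
    congr 2
    ext <;> simp <;> ring
  have hqD : quadOf T M0 n (windowAt U (P.1 - 1, P.2 - 2)) 3 = q 1 := by
    rw [hq, quadOf_left, quadOf_belowLeft, hw]
    simp only [windowAt]
    congr 2
    ext <;> simp <;> ring
  generalize windowAt U (P.1 - 2, P.2 - 1) = wL at hqL ⊢
  generalize windowAt U (P.1 - 1, P.2 - 2) = wB at hqB hqD ⊢
  have eL : (if x = 0 then drawTile T M0 n wL (side segCount (segLen M0 n) - 1) y
      else drawTile T M0 n w (x - 1) y).h =
        if x = 0 then sigH T M0 n (quadOf T M0 n wL) (side segCount (segLen M0 n) - 1) y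
        else sigH T M0 n q (x - 1) y := by
    split_ifs <;> rfl
  have eB : (if y = 0 then drawTile T M0 n wB x (side segCount (segLen M0 n) - 1)
      else drawTile T M0 n w x (y - 1)).v =
        if y = 0 then sigV T M0 n (quadOf T M0 n wB) x (side segCount (segLen M0 n) - 1)
        else sigV T M0 n q x (y - 1) := by
    split_ifs <;> rfl
  rw [eL, eB]
  simp only [drawTile, ← hq]
  have hM := segLen_pos (M0 := M0) n
  have hG : 0 < segCount * segLen M0 n := Nat.mul_pos (NeZero.pos segCount) hM
  rw [side_eq] at hx hy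
  rcases Nat.lt_or_ge x (segCount * segLen M0 n) with hx1 | hx1
  · rcases Nat.lt_or_ge y (segCount * segLen M0 n) with hy1 | hy1
    · rw [← inH_coord H q _ hqL hx1 hy1, ← inV_coord H q _ hqB hqD hx1 hy1,
        sigH_named q hx1 hy1, sigV_named q hx1 hy1, named_coord H hx1 hy1]
      exact step_all H (quadOf_inRange w) hl hr (Nat.mod_lt _ hM) (Nat.mod_lt _ hM)
    · rw [addrAt, if_neg (not_le.2 hx1), if_pos hy1, kindAt, if_neg (show y ≠ 0 by omega)]
      have e1 : (if x = 0 then sigH T M0 n (quadOf T M0 n wL) (side segCount (segLen M0 n) - 1) y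
          else sigH T M0 n q (x - 1) y) = .none := by
        simp [sigH, hy1]
      have e2 : sigV T M0 n q x (y - 1) = sigV T M0 n q x y := by
        rcases Nat.lt_or_ge (y - 1) (segCount * segLen M0 n) with h1 | h1
        · have e : ysegAt M0 n (y - 1) = .kt ∧ (y - 1) % segLen M0 n = segLen M0 n - 1 := by
            refine ylin_inj (Nat.mod_lt _ hM) (by omega) ?_
            rw [ylin_ysegAt h1, kt_last]; omega
          rw [sigV_named q hx1 h1, e.1, e.2, sigV, if_neg (not_le.2 hx1), if_pos hy1, rawBandV]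
        · simp [sigV, hy1, h1, not_le.2 hx1]
      rw [e1, e2, show sigH T M0 n q x y = .none by simp [sigH, hy1]]
      simp [Kind.outs]
  · rw [addrAt, if_pos hx1, kindAt, if_neg (show x ≠ 0 by omega)]
    have e1 : sigH T M0 n q (x - 1) y = sigH T M0 n q x y := by
      rcases Nat.lt_or_ge y (segCount * segLen M0 n) with hy1 | hy1
      · rcases Nat.lt_or_ge (x - 1) (segCount * segLen M0 n) with h1 | h1
        · have e : xsegAt M0 n (x - 1) = .kr ∧ (x - 1) % segLen M0 n = segLen M0 n - 1 := by
            refine xlin_inj (Nat.mod_lt _ hM) (by omega) ?_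
            rw [xlin_xsegAt h1, kr_last]; omega
          rw [sigH_named q h1 hy1, e.1, e.2, sigH, if_neg (not_le.2 hy1), if_pos hx1, rawBandH]
        · simp [sigH, hx1, h1, not_le.2 hy1]
      · simp [sigH, hy1]
    rw [e1, show sigV T M0 n q x y = .none by simp [sigV, hx1]]
    simp [Kind.outs]

end Tile

section Layout

variable {n : ℕ}

/-- A tile of the layout obeys the relation. -/
theorem drawOk_layout :
    DrawOk layoutKind (locF (tables layoutKind) (m0 segCount) n)
      (rules (tables layoutKind) (m0 segCount) (n + 1))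
      (drawTile (tables layoutKind) (m0 segCount) n) :=
  drawOk_of_rules (tabOK_tablesOf (g := segCount) (allowOf layoutKind)) fun _ h =>
    linesOk_of_mem_rules h

end Layout

end

end Vale.Agent.P196.W
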