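import Vale.Agent.P196.W.Cells

/-!
# P196: what a tile of a legal tiling sends out

The choices of a tile are read off its choosing cells.  The signals leaving it to the right then
depend only on its own choices, those leaving it upwards also on those of its left neighbour,
whatever enters it.
-/

namespace Vale.Agent.P196.W

open Sft

noncomputable section

theorem xlin_le_iff {M : ℕ} {A X : XSeg} {z x : ℕ} (hz : z < M) (hx : x < M) :
    xlin M A z ≤ xlin M X x ↔ sinceX A z X x := by
  rw [sinceX_iff]
  constructor
  · intro h
    rcases index_eq_or_lt hz hx h with ⟨a, b⟩ | a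
    · exact Or.inr ⟨a.symm, b⟩
    · exact Or.inl a
  · rintro (h | ⟨h, h'⟩)
    · have : (A.index + 1) * M ≤ X.index * M := Nat.mul_le_mul_right M h
      rw [Nat.succ_mul] at this; simp only [xlin]; omega
    · simp only [xlin, h]; omega

theorem ylin_le_iff {M : ℕ} {A Y : YSeg} {z y : ℕ} (hz : z < M) (hy : y < M) :
    ylin M A z ≤ ylin M Y y ↔ sinceY A z Y y := by
  rw [sinceY_iff]
  constructor
  · intro h
    rcases index_eq_or_lt hz hy h with ⟨a, b⟩ | a
    · exact Or.inr ⟨a.symm, b⟩
    · exact Or.inl a
  · rintro (h | ⟨h, h'⟩)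
    · have : (A.index + 1) * M ≤ Y.index * M := Nat.mul_le_mul_right M h
      rw [Nat.succ_mul] at this; simp only [ylin]; omega
    · simp only [ylin, h]; omega

theorem xlin_lt_iff {M : ℕ} {A X : XSeg} {z x : ℕ} (hz : z < M) (hx : x < M) :
    xlin M A z < xlin M X x ↔ ¬sinceX X x A z := by
  rw [← xlin_le_iff hx hz]; omega

theorem ylin_lt_iff {M : ℕ} {A Y : YSeg} {z y : ℕ} (hz : z < M) (hy : y < M) :
    ylin M A z < ylin M Y y ↔ ¬sinceY Y y A z := by
  rw [← ylin_le_iff hy hz]; omega

/-- An own line with the given parity. -/
def ownLine (u : Bool) : Line := { u := u, own := true }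

theorem pickY_spec {last : Bool} {h v : Sig} {p : Sig × Sig}
    (hp : p ∈ (Kind.pickY last).outs h v) :
    (p.1 = .none ∨ ∃ u, p.1 = .line (ownLine u)) ∧
    (∀ b, v = .seen true b → p.1 = .none) ∧
    (last = false → ((∃ b, v = .seen true b) ∨ p.1 ≠ .none) → ∃ b, p.2 = .seen true b) := by
  simp only [Kind.outs] at hp
  cases hv : v.seen? with
  | none => simp [hv] at hp
  | some st =>
    simp only [hv, List.mem_map, List.mem_filterMap, List.mem_cons, List.not_mem_nil,
      or_false] at hp
    obtain ⟨a, ⟨new, hnew, hpick⟩, rfl⟩ := hp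
    simp only [pick] at hpick
    rw [Option.ite_none_right_eq_some, Option.some.injEq] at hpick
    obtain ⟨hok, rfl⟩ := hpick
    rcases hnew with rfl | rfl | rfl
    · refine ⟨Or.inl rfl, fun _ _ => rfl, ?_⟩
      rintro rfl (⟨b, rfl⟩ | h')
      · simp [Sig.seen?] at hv; subst hv; simp
      · exact absurd rfl h'
    all_goals
      refine ⟨Or.inr ⟨_, rfl⟩, ?_, ?_⟩
      · rintro b rfl
        simp [Sig.seen?] at hv; subst hv
        cases hl : h.line? <;> simp [hl] at hok
      · rintro rfl -
        simp

theorem pickX_spec {last : Bool} {h v : Sig} {p : Sig × Sig}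
    (hp : p ∈ (Kind.pickX last).outs h v) :
    (p.2 = .none ∨ ∃ u, p.2 = .line (ownLine u)) ∧
    (∀ b, h = .seen true b → p.2 = .none) ∧
    (last = false → ((∃ b, h = .seen true b) ∨ p.2 ≠ .none) → ∃ b, p.1 = .seen true b) := by
  simp only [Kind.outs] at hp
  cases hv : h.seen? with
  | none => simp [hv] at hp
  | some st =>
    simp only [hv, List.mem_filterMap, List.mem_cons, List.not_mem_nil, or_false] at hp
    obtain ⟨new, hnew, hpick⟩ := hp
    simp only [pick] at hpick
    rw [Option.ite_none_right_eq_some, Option.some.injEq] at hpick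
    obtain ⟨hok, rfl⟩ := hpick
    rcases hnew with rfl | rfl | rfl
    · refine ⟨Or.inl rfl, fun _ _ => rfl, ?_⟩
      rintro rfl (⟨b, rfl⟩ | h')
      · simp [Sig.seen?] at hv; subst hv; simp
      · exact absurd rfl h'
    all_goals
      refine ⟨Or.inr ⟨_, rfl⟩, ?_, ?_⟩
      · rintro b rfl
        simp [Sig.seen?] at hv; subst hv
        cases hl : v.line? <;> simp [hl] at hok
      · rintro rfl -
        simp

variable {T : Tables} {M0 n : ℕ} [NeZero M0] {t : Cell → Tint M0 n}

open Classical in
/-- The choices read off the choosing cells of a tile. -/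
def tileChoices (T : Tables) (t : Cell → Tint M0 n) (P : Cell) : Choices where
  ox :=
    if h : ∃ x u, x < segLen M0 n ∧ gV t P .mx x .lx 0 = .line (ownLine u) then
      some (h.choose, h.choose_spec.choose) else Option.none
  oy :=
    if h : ∃ y u, y < segLen M0 n ∧ gH t P .ly 0 .my y = .line (ownLine u) then
      some (h.choose, h.choose_spec.choose) else Option.none
  bit z := (symAt T M0 n z).isSrc && decide (gH t P .src 0 (.r 2) z = .bit true)

omit [NeZero M0] in
theorem ox_lt {P : Cell} {p : ℕ × Bool} (h : (tileChoices T t P).ox = some p) :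
    p.1 < segLen M0 n := by
  simp only [tileChoices] at h
  split_ifs at h with hh
  simp only [Option.some.injEq] at h
  subst h; exact hh.choose_spec.choose_spec.1

omit [NeZero M0] in
theorem oy_lt {P : Cell} {p : ℕ × Bool} (h : (tileChoices T t P).oy = some p) :
    p.1 < segLen M0 n := by
  simp only [tileChoices] at h
  split_ifs at h with hh
  simp only [Option.some.injEq] at h
  subst h; exact hh.choose_spec.choose_spec.1

variable (ht : Legal (rules T M0 n) t) (ha : Aligned M0 n t) (P : Cell)
include ht ha

omit [NeZero M0] ht ha in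
theorem loc_x_first (x y : ℕ) : (T.loc M0 n x y).x.first = decide (x = 0) := rfl

theorem pickY_cell {y : ℕ} (hy : y < segLen M0 n) :
    (gH t P .ly 0 .my y, gV t P .ly 0 .my y) ∈
      (Kind.pickY (decide (y + 1 = segLen M0 n))).outs (gInH t P .ly 0 .my y)
        (gInV t P .ly 0 .my y) := by
  have := event_named ht ha P .ly (segLen_pos n) .my hy
  simpa [kindOn, lyKind, Tables.loc, Tables.side] using this

theorem oy_at {y : ℕ} (hy : y < segLen M0 n) :
    gH t P .ly 0 .my y = Sig.ofLine (rowLine (tileChoices T t P) y) := by
  have after : ∀ a, a < segLen M0 n → gH t P .ly 0 .my a ≠ .none →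
      ∀ b, a < b → b < segLen M0 n →
        gH t P .ly 0 .my b = .none ∧ (b + 1 < segLen M0 n → ∃ c, gV t P .ly 0 .my b = .seen true c) := by
    intro a ha' hne b hab
    induction b with
    | zero => omega
    | succ b ih =>
      intro hb
      have hin : gInV t P .ly 0 .my (b + 1) = gV t P .ly 0 .my b :=
        gInV_pred _ _ (Or.inl ⟨rfl, rfl⟩)
      have hs : ∃ c, gV t P .ly 0 .my b = .seen true c := by
        rcases Nat.lt_or_ge a b with h | h
        · exact (ih h (by omega)).2 hb
        · obtain rfl : a = b := by omega
          exact (pickY_spec (pickY_cell ht ha P ha')).2.2 (decide_eq_false (by omega)) (Or.inr hne)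
      obtain ⟨c, hc⟩ := hs
      obtain ⟨-, h2, h3⟩ := pickY_spec (pickY_cell ht ha P hb)
      exact ⟨h2 c (hin.trans hc),
        fun h => h3 (decide_eq_false (by omega)) (Or.inl ⟨c, hin.trans hc⟩)⟩
  have key : ∀ a u, a < segLen M0 n → gH t P .ly 0 .my a = .line (ownLine u) →
      (tileChoices T t P).oy = some (a, u) := by
    intro a u hl hs
    have hh : ∃ y u, y < segLen M0 n ∧ gH t P .ly 0 .my y = .line (ownLine u) := ⟨a, u, hl, hs⟩
    simp only [tileChoices, dif_pos hh, Option.some.injEq]
    generalize hgen : (hh.choose, hh.choose_spec.choose) = p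
    have hp : p.1 < segLen M0 n ∧ gH t P .ly 0 .my p.1 = .line (ownLine p.2) := by
      subst hgen; exact hh.choose_spec.choose_spec
    obtain ⟨a', u'⟩ := p
    rcases lt_trichotomy a' a with hc | hc | hc
    · have := (after _ hp.1 (by simp [hp.2]) a hc hl).1; simp [hs] at this
    · subst hc; have := hp.2; rw [hs] at this; simp [ownLine] at this; rw [this]
    · have := (after _ hl (by simp [hs]) a' hc hp.1).1; simp [hp.2] at this
  rcases (pickY_spec (pickY_cell ht ha P hy)).1 with h | ⟨u, h⟩ <;> simp only at h
  · rw [h]
    cases hoy : (tileChoices T t P).oy with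
    | none => simp [rowLine, hoy, Sig.ofLine]
    | some p =>
      have hp : p.1 < segLen M0 n ∧ gH t P .ly 0 .my p.1 = .line (ownLine p.2) := by
        simp only [tileChoices] at hoy
        split_ifs at hoy with hh
        simp only [Option.some.injEq] at hoy
        subst hoy; exact hh.choose_spec.choose_spec
      have : p.1 ≠ y := fun e => by rw [e] at hp; simp [h] at hp
      simp [rowLine, hoy, this, Sig.ofLine]
  · rw [h]; simp [rowLine, key y u hy h, Sig.ofLine, ownLine]

theorem pickX_cell {x : ℕ} (hx : x < segLen M0 n) :
    (gH t P .mx x .lx 0, gV t P .mx x .lx 0) ∈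
      (Kind.pickX (decide (x + 1 = segLen M0 n))).outs (gInH t P .mx x .lx 0)
        (gInV t P .mx x .lx 0) := by
  have := event_named ht ha P .mx hx .lx (segLen_pos n)
  simpa [kindOn, mxKind, Tables.loc, Tables.side] using this

theorem ox_at {x : ℕ} (hx : x < segLen M0 n) :
    gV t P .mx x .lx 0 = Sig.ofLine (colLine T n (tileChoices T t P) x .lx 0) := by
  have after : ∀ a, a < segLen M0 n → gV t P .mx a .lx 0 ≠ .none →
      ∀ b, a < b → b < segLen M0 n →
        gV t P .mx b .lx 0 = .none ∧ (b + 1 < segLen M0 n → ∃ c, gH t P .mx b .lx 0 = .seen true c) := by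
    intro a ha' hne b hab
    induction b with
    | zero => omega
    | succ b ih =>
      intro hb
      have hin : gInH t P .mx (b + 1) .lx 0 = gH t P .mx b .lx 0 :=
        gInH_pred (Or.inl ⟨rfl, rfl⟩) _ _
      have hs : ∃ c, gH t P .mx b .lx 0 = .seen true c := by
        rcases Nat.lt_or_ge a b with h | h
        · exact (ih h (by omega)).2 hb
        · obtain rfl : a = b := by omega
          exact (pickX_spec (pickX_cell ht ha P ha')).2.2 (decide_eq_false (by omega)) (Or.inr hne)
      obtain ⟨c, hc⟩ := hs
      obtain ⟨-, h2, h3⟩ := pickX_spec (pickX_cell ht ha P hb)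
      exact ⟨h2 c (hin.trans hc),
        fun h => h3 (decide_eq_false (by omega)) (Or.inl ⟨c, hin.trans hc⟩)⟩
  have hcopy : ∀ r : ℕ × Bool, ¬sinceY .my r.1 .lx 0 := by
    intro r; rw [sinceY_iff]; simp [YSeg.index]
  have key : ∀ a u, a < segLen M0 n → gV t P .mx a .lx 0 = .line (ownLine u) →
      (tileChoices T t P).ox = some (a, u) := by
    intro a u hl hs
    have hh : ∃ x u, x < segLen M0 n ∧ gV t P .mx x .lx 0 = .line (ownLine u) := ⟨a, u, hl, hs⟩
    simp only [tileChoices, dif_pos hh, Option.some.injEq]
    generalize hgen : (hh.choose, hh.choose_spec.choose) = p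
    have hp : p.1 < segLen M0 n ∧ gV t P .mx p.1 .lx 0 = .line (ownLine p.2) := by
      subst hgen; exact hh.choose_spec.choose_spec
    obtain ⟨a', u'⟩ := p
    rcases lt_trichotomy a' a with hc | hc | hc
    · have := (after _ hp.1 (by simp [hp.2]) a hc hl).1; simp [hs] at this
    · subst hc; have := hp.2; rw [hs] at this; simp [ownLine] at this; rw [this]
    · have := (after _ hl (by simp [hs]) a' hc hp.1).1; simp [hp.2] at this
  rcases (pickX_spec (pickX_cell ht ha P hx)).1 with h | ⟨u, h⟩ <;> simp only at h
  · rw [h]
    cases hox : (tileChoices T t P).ox with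
    | none => simp [colLine, hox, Sig.ofLine]
    | some p =>
      have hp : p.1 < segLen M0 n ∧ gV t P .mx p.1 .lx 0 = .line (ownLine p.2) := by
        simp only [tileChoices] at hox
        split_ifs at hox with hh
        simp only [Option.some.injEq] at hox
        subst hox; exact hh.choose_spec.choose_spec
      have : p.1 ≠ x := fun e => by rw [e] at hp; simp [h] at hp
      simp [colLine, hox, this, Sig.ofLine]
  · rw [h, colLine, key x u hx h]
    cases hoy : (tileChoices T t P).oy <;> simp [hcopy, Sig.ofLine, ownLine]

/-- The row of the own second offset. -/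
theorem my_row {X : XSeg} {x y : ℕ} (hx : x < segLen M0 n) (hy : y < segLen M0 n)
    (h : sinceX .ly 0 X x) :
    gH t P X x .my y = Sig.ofLine (rowLine (tileChoices T t P) y) := by
  rw [← oy_at ht ha P hy]
  refine row_keep ht ha P .my hy (segLen_pos n) hx ((xlin_le_iff (segLen_pos n) hx).2 h) ?_
  intro X' x' hx' h1 _
  rw [xlin_lt_iff (segLen_pos n) hx', sinceX_iff] at h1
  cases X' <;> simp [XSeg.index] at h1 <;>
    simp only [kindOn, lyKind, srcKind, mxKind, tbKind, setAbsKind, upKind, paKind, prKind, krKind,
      keepsRow, reduceCtorEq, false_and, and_false, if_false, Tables.loc, Tables.side,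
      Bool.true_eq_false, true_and] <;>
    first
      | exact keepsH_pass | exact keepsH_passH | exact keepsH_cross _ | exact keepsH_cmpB _ _
      | (rw [if_neg (by simp; omega)]; exact keepsH_pass)

/-- The column of the own first offset. -/
theorem mx_col {x : ℕ} {Y : YSeg} {y : ℕ} (hx : x < segLen M0 n) (hy : y < segLen M0 n)
    (h : sinceY .lx 0 Y y) :
    gV t P .mx x Y y = Sig.ofLine (colLine T n (tileChoices T t P) x Y y) := by
  induction hm : ylin (segLen M0 n) Y y using Nat.strong_induction_on generalizing Y y with
  | _ m ih =>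
    subst hm
    by_cases h0 : Y = .lx ∧ y = 0
    · obtain ⟨rfl, rfl⟩ := h0; exact ox_at ht ha P hx
    have hne : ¬(Y = .y0 ∧ y = 0) := by
      rintro ⟨rfl, rfl⟩; rw [sinceY_iff] at h; simp [YSeg.index] at h
    obtain ⟨Y', y', hy', hp⟩ := exists_yPred (segLen_pos n) hy hne
    have hs := hp.ylin_succ
    have h' : sinceY .lx 0 Y' y' := (hp.since .lx (segLen_pos n)).2 ⟨h, h0⟩
    have hv := ih _ (by omega) hy' h' rfl
    have ev := event_named ht ha P .mx hx Y hy
    rw [gInV_pred _ _ hp, hv] at ev
    by_cases hY : Y = .my
    · subst hY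
      have hrow : gInH t P .mx x .my y = Sig.ofLine (rowLine (tileChoices T t P) y) := by
        obtain ⟨X', x', hx', hpx⟩ := exists_xPred (X := .mx) (segLen_pos n) hx (by simp)
        rw [gInH_pred hpx]
        exact my_row ht ha P hx' hy
          ((hpx.since .ly (segLen_pos n)).2 ⟨by rw [sinceX_iff]; simp [XSeg.index], by simp⟩)
      rw [hrow] at ev
      simp only [kindOn, mxKind, Tables.loc, Kind.outs] at ev
      simp only [colLine, rowLine] at ev ⊢
      cases hox : (tileChoices T t P).ox with
      | none =>
        simp only [hox, Option.bind_none, Sig.ofLine] at ev ⊢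
        split at ev
        · rename_i a b e₁ e₂; simp [Sig.line?] at e₂
        · simp at ev; exact ev.2
      | some p =>
        simp only [hox, Option.bind_some] at ev ⊢
        by_cases hpx : p.1 = x
        · simp only [hpx, if_true] at ev ⊢
          cases hoy : (tileChoices T t P).oy with
          | none =>
            simp [hoy, Sig.ofLine, Sig.line?] at ev ⊢
            exact ev.2
          | some r =>
            have hsince := hp.since .my (oy_lt hoy)
            simp only [hoy, Option.bind_some] at ev ⊢
            by_cases hr : r.1 = y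
            · subst hr
              have hn : ¬sinceY .my r.1 Y' y' := fun hh => (hsince.1 hh).2 ⟨rfl, rfl⟩
              simp [hn, Sig.ofLine, Sig.line?] at ev
              rw [if_pos (show sinceY .my r.1 .my r.1 from Or.inr ⟨rfl, le_rfl⟩)]
              simp [Sig.ofLine, ev]
            · have : sinceY .my r.1 Y' y' ↔ sinceY .my r.1 .my y := by
                rw [hsince]; simp [Ne.symm hr]
              simp only [this, hr, if_false] at ev
              simp [Sig.ofLine, Sig.line?] at ev ⊢
              exact ev.2
        · simp only [hpx, if_false, Sig.ofLine] at ev ⊢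
          split at ev
          · rename_i a b e₁ e₂; simp [Sig.line?] at e₂
          · simp at ev; exact ev.2
    · have hkeep : KeepsV (kindOn .mx Y (T.loc M0 n x y)) := by
        cases Y <;> simp [YSeg.index, sinceY_iff] at h h0 hY ⊢ <;>
          simp only [kindOn, mxKind, ktKind, keepsCol, Tables.loc, Tables.side] <;>
          first
            | exact keepsV_pass | exact keepsV_passV | exact keepsV_cmpA _ _
            | (simp [h0]; exact keepsV_pass)
            | (simp; exact keepsV_pass)
            | (repeat' split
               all_goals first | exact keepsV_exX _ _ | exact keepsV_pass)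
      have e := hkeep _ _ _ ev
      simp only at e
      rw [e]
      simp only [colLine]
      congr 2
      funext p
      split_ifs with hpx
      · congr 2
        cases hoy : (tileChoices T t P).oy with
        | none => rfl
        | some r =>
          simp only [Option.bind_some]
          rw [if_congr (show sinceY .my r.1 Y' y' ↔ sinceY .my r.1 Y y by
            rw [hp.since .my (oy_lt hoy)]; simp [hY]) rfl rfl]
      · rfl

end

end Vale.Agent.P196.W
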