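import Vale.Agent.P196.W.Exit

/-!
# P196: the two compared lines leave a tile only as own lines
-/

namespace Vale.Agent.P196.W

open Sft

noncomputable section

@[simp] theorem Sig.line?_ofLine (o : Option Line) : (Sig.ofLine o).line? = o := by
  cases o <;> rfl

theorem Sig.ofLine_inj {o o' : Option Line} (h : Sig.ofLine o = Sig.ofLine o') : o = o' := by
  rw [← Sig.line?_ofLine o, h, Sig.line?_ofLine]

/-- A line of a neighbour. -/
def foreignLine (u : Bool) : Line := { u := u, own := false }

theorem resetH_out {h v : Sig} {p : Sig × Sig} (hp : p ∈ Kind.resetH.outs h v) :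
    ∃ o : Option Bool, p.1 = Sig.ofLine (o.map foreignLine) := by
  simp only [Kind.outs] at hp
  split at hp <;> simp at hp
  · rename_i a ha; exact ⟨some a.u, by simp [hp, foreignLine, Sig.ofLine]⟩
  · exact ⟨Option.none, by simp [hp, Sig.ofLine]⟩

theorem resetV_out {h v : Sig} {p : Sig × Sig} (hp : p ∈ Kind.resetV.outs h v) :
    ∃ o : Option Bool, p.2 = Sig.ofLine (o.map foreignLine) := by
  simp only [Kind.outs] at hp
  split at hp <;> simp at hp
  · rename_i a ha; exact ⟨some a.u, by simp [hp, foreignLine, Sig.ofLine]⟩
  · exact ⟨Option.none, by simp [hp, Sig.ofLine]⟩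

/-- The own line as it leaves at offset `z`. -/
def ownAt (o : Option (ℕ × Bool)) (z : ℕ) : Option Line :=
  o.bind fun p => if p.1 = z then some (ownLine p.2) else Option.none

/-- The state of a compared line after `k` of the `S` comparisons. -/
def cmpState (S : ℕ) (o : Option (ℕ × Bool)) (f : Option Bool) (z k : ℕ) : Option Line :=
  if (o.any fun p => decide (p.1 < k)) then ownAt o z
  else if k = S then Option.none else f.map foreignLine

theorem cmpState_step {S z x : ℕ} {o : Option (ℕ × Bool)} {f : Option Bool} {b : Option Line}
    {r : Cmp} {out : Option Line} (hx : x < S)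
    (hb : b.map Line.u = (o.bind fun p => if p.1 = x then some p.2 else Option.none))
    (hr : r = if x = z then .same else
      if x = z + 1 ∨ (x = 0 ∧ z + 1 = S) then .next else .apart)
    (hout : match (generalizing := false) cmpState S o f z x, b with
      | some a, some b =>
        match (generalizing := false) r with
        | .same => (!a.own && !a.u && b.u) = true ∧ out = some (ownLine b.u)
        | .next => (!a.own && a.u && !b.u) = true ∧ out = Option.none
        | .apart => False
      | Option.none, some b => out = if r = .same then some (ownLine b.u) else Option.none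
      | some a, Option.none =>
        out = if decide (x + 1 = S) && !a.own then Option.none else some a
      | Option.none, Option.none => out = Option.none) :
    out = cmpState S o f z (x + 1) := by
  cases o with
  | none =>
    cases b with
    | some b => simp at hb
    | none =>
      simp only [cmpState, Option.any_none, Bool.false_eq_true, if_false, show x ≠ S by omega]
        at hout ⊢
      cases f with
      | none => simpa using hout
      | some u =>
        simp only [Option.map_some, foreignLine, Bool.not_false, Bool.and_true,
          decide_eq_true_eq] at hout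
        rw [hout]; rfl
  | some p =>
    simp only [cmpState, Option.any_some, decide_eq_true_eq, show x ≠ S by omega, if_false,
      ownAt, Option.bind_some] at hout hb ⊢
    rcases lt_trichotomy p.1 x with hc | hc | hc
    · rw [if_pos hc] at hout
      rw [if_neg (by omega)] at hb
      rw [if_pos (by omega)]
      cases b with
      | some b => simp at hb
      | none =>
        by_cases hz' : p.1 = z <;> simp [hz', ownLine] at hout ⊢ <;> exact hout
    · rw [if_neg (by omega)] at hout
      rw [if_pos hc] at hb
      rw [if_pos (by omega)]
      cases b with
      | none => simp at hb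
      | some b =>
        simp only [Option.map_some, Option.some.injEq] at hb
        cases f with
        | none =>
          simp only [Option.map_none] at hout
          rw [hout, hr]
          by_cases hxz : x = z
          · simp [hxz, hc, hb]
          · simp only [hxz, if_false, hc]
            split_ifs <;> simp_all
        | some u =>
          simp only [Option.map_some, hr] at hout
          by_cases hxz : x = z
          · rw [if_pos hxz] at hout
            simp only at hout
            simp [hout.2, hxz, hc, hb]
          · rw [if_neg hxz] at hout
            by_cases hn : x = z + 1 ∨ (x = 0 ∧ z + 1 = S)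
            · rw [if_pos hn] at hout
              simp only at hout
              simp [hout.2, hc, hxz]
            · rw [if_neg hn] at hout; exact hout.elim
    · rw [if_neg (by omega)] at hout
      rw [if_neg (by omega)] at hb
      cases b with
      | some b => simp at hb
      | none =>
        rw [if_neg (by omega)]
        cases f with
        | none => simpa using hout
        | some u =>
          simp only [Option.map_some, foreignLine, Bool.not_false, Bool.and_true,
            decide_eq_true_eq] at hout
          rw [hout]; rfl

theorem cmpState_zero {S z : ℕ} (hS : 0 < S) (o : Option (ℕ × Bool)) (f : Option Bool) :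
    cmpState S o f z 0 = f.map foreignLine := by
  simp only [cmpState, show 0 ≠ S by omega, if_false]
  cases o <;> simp

theorem cmpState_end {S z : ℕ} (o : Option (ℕ × Bool)) (f : Option Bool)
    (ho : ∀ p ∈ o, p.1 < S) : cmpState S o f z S = ownAt o z := by
  cases o with
  | none => simp [cmpState, ownAt]
  | some p => simp [cmpState, ho p rfl]

theorem ofLine_none : (Sig.none : Sig) = Sig.ofLine Option.none := rfl

theorem cmpA_out {r : Cmp} {last : Bool} {a b : Option Line} {p : Sig × Sig}
    (hp : p ∈ (Kind.cmpA r last).outs (Sig.ofLine a) (Sig.ofLine b)) :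
    ∃ out : Option Line, p.1 = Sig.ofLine out ∧ p.2 = Sig.ofLine b ∧
      match (generalizing := false) a, b with
      | some a, some b =>
        match (generalizing := false) r with
        | .same => (!a.own && !a.u && b.u) = true ∧ out = some (ownLine b.u)
        | .next => (!a.own && a.u && !b.u) = true ∧ out = Option.none
        | .apart => False
      | Option.none, some b => out = if r = .same then some (ownLine b.u) else Option.none
      | some a, Option.none => out = if last && !a.own then Option.none else some a
      | Option.none, Option.none => out = Option.none := by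
  simp only [Kind.outs, Sig.line?_ofLine] at hp
  cases a with
  | none =>
    cases b with
    | none => simp at hp; exact ⟨Option.none, by simp [hp]⟩
    | some b =>
      simp only at hp ⊢
      split_ifs at hp with h <;> simp at hp
      · exact ⟨some (ownLine b.u), by simp [hp, h, Sig.ofLine, ownLine]⟩
      · exact ⟨Option.none, by simp [hp, h]⟩
  | some a =>
    cases b with
    | none =>
      simp only at hp ⊢
      split_ifs at hp with h <;> simp at hp
      · exact ⟨Option.none, by simp [hp, h, Sig.ofLine]⟩
      · exact ⟨some a, by simp [hp, h]⟩
    | some b =>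
      simp only at hp ⊢
      cases r <;> simp only at hp ⊢
      · split_ifs at hp with h <;> simp at hp
        exact ⟨some (ownLine b.u), by simp [hp, Sig.ofLine, ownLine], by simp [hp], h, rfl⟩
      · split_ifs at hp with h <;> simp at hp
        exact ⟨Option.none, by simp [hp, Sig.ofLine], by simp [hp], h, rfl⟩
      · simp at hp

theorem cmpB_out {r : Cmp} {last : Bool} {a b : Option Line} {p : Sig × Sig}
    (hp : p ∈ (Kind.cmpB r last).outs (Sig.ofLine b) (Sig.ofLine a)) :
    ∃ out : Option Line, p.2 = Sig.ofLine out ∧ p.1 = Sig.ofLine b ∧
      match (generalizing := false) a, b with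
      | some a, some b =>
        match (generalizing := false) r with
        | .same => (!a.own && !a.u && b.u) = true ∧ out = some (ownLine b.u)
        | .next => (!a.own && a.u && !b.u) = true ∧ out = Option.none
        | .apart => False
      | Option.none, some b => out = if r = .same then some (ownLine b.u) else Option.none
      | some a, Option.none => out = if last && !a.own then Option.none else some a
      | Option.none, Option.none => out = Option.none := by
  simp only [Kind.outs, Sig.line?_ofLine] at hp
  cases a with
  | none =>
    cases b with
    | none => simp at hp; exact ⟨Option.none, by simp [hp]⟩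
    | some b =>
      simp only at hp ⊢
      split_ifs at hp with h <;> simp at hp
      · exact ⟨some (ownLine b.u), by simp [hp, h, Sig.ofLine, ownLine]⟩
      · exact ⟨Option.none, by simp [hp, h]⟩
  | some a =>
    cases b with
    | none =>
      simp only at hp ⊢
      split_ifs at hp with h <;> simp at hp
      · exact ⟨Option.none, by simp [hp, h, Sig.ofLine]⟩
      · exact ⟨some a, by simp [hp, h]⟩
    | some b =>
      simp only at hp ⊢
      cases r <;> simp only at hp ⊢
      · split_ifs at hp with h <;> simp at hp
        exact ⟨some (ownLine b.u), by simp [hp, Sig.ofLine, ownLine], by simp [hp], h, rfl⟩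
      · split_ifs at hp with h <;> simp at hp
        exact ⟨Option.none, by simp [hp, Sig.ofLine], by simp [hp], h, rfl⟩
      · simp at hp

theorem cmpARel_loc (T : Tables) (M0 n x y : ℕ) :
    cmpARel (T.loc M0 n x y) = if x = y then .same else
      if x = y + 1 ∨ (x = 0 ∧ y + 1 = segLen M0 n) then .next else .apart := by
  simp [cmpARel, Tables.loc, Tables.side, Tables.crossAt]

theorem cmpBRel_loc (T : Tables) (M0 n x y : ℕ) :
    cmpBRel (T.loc M0 n x y) = if y = x then .same else
      if y = x + 1 ∨ (y = 0 ∧ x + 1 = segLen M0 n) then .next else .apart := by
  simp [cmpBRel, Tables.loc, Tables.side, Tables.crossAt, eq_comm (a := y), and_comm]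

variable {T : Tables} {M0 n : ℕ} [NeZero M0] {t : Cell → Tint M0 n}
variable (ht : Legal (rules T M0 n) t) (ha : Aligned M0 n t) (P : Cell)
include ht ha

theorem ta_left {y : ℕ} (hy : y < segLen M0 n) :
    ∃ f : Option Bool, gInH t P .mx 0 .ta y = Sig.ofLine (f.map foreignLine) := by
  have hS := segLen_pos (M0 := M0) n
  have e := event_named ht ha P .sh (segLen_pos n) .ta hy
  simp only [kindOn, shKind, Tables.loc, Tables.side, decide_true, if_true] at e
  obtain ⟨f, hf⟩ := resetH_out e
  refine ⟨f, ?_⟩
  rw [gInH_pred (X' := .src) (x' := segLen M0 n - 1) (Or.inr ⟨rfl, rfl, by omega⟩), ← hf]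
  refine row_keep ht ha P .ta hy hS (show segLen M0 n - 1 < segLen M0 n by omega)
    ((xlin_le_iff hS (by omega)).2 (by rw [sinceX_iff]; simp [XSeg.index])) ?_
  intro X' x' hx' h1 h2
  rw [xlin_lt_iff hS hx', sinceX_iff] at h1
  rw [xlin_le_iff hx' (by omega), sinceX_iff] at h2
  cases X' <;> simp [XSeg.index] at h1 h2 <;>
    first
      | omega
      | (simp [kindOn, shKind, lyKind, srcKind, Tables.loc, Tables.side, h1]; exact keepsH_pass)

/-- A row of the first offset leaves as the own line. -/
theorem ta_exit {y : ℕ} (hy : y < segLen M0 n) :
    gH t P .kr (segLen M0 n - 1) .ta y =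
      Sig.ofLine (ownAt (tileChoices T t P).ox y) := by
  have hS := segLen_pos (M0 := M0) n
  obtain ⟨f, hf⟩ := ta_left ht ha P hy
  have main : ∀ k, k < segLen M0 n → gH t P .mx k .ta y =
      Sig.ofLine (cmpState (segLen M0 n) (tileChoices T t P).ox f y (k + 1)) := by
    intro k
    induction k using Nat.strong_induction_on with
    | _ k ih =>
      intro hk
      have hin : gInH t P .mx k .ta y =
          Sig.ofLine (cmpState (segLen M0 n) (tileChoices T t P).ox f y k) := by
        rcases k with _ | k
        · rw [hf, cmpState_zero hS]
        · rw [gInH_pred (Or.inl ⟨rfl, rfl⟩)]; exact ih k (by omega) (by omega)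
      obtain ⟨Y', y', hy', hp⟩ := exists_yPred (Y := .ta) (segLen_pos n) hy (by simp)
      have e := event_named ht ha P .mx hk .ta hy
      rw [hin, gInV_pred _ _ hp, mx_col ht ha P hk hy'
        ((hp.since .lx hS).2 ⟨by rw [sinceY_iff]; simp [YSeg.index], by simp⟩)] at e
      simp only [kindOn, mxKind] at e
      obtain ⟨out, h1, -, h3⟩ := cmpA_out e
      simp only at h1
      rw [h1]
      congr 1
      refine cmpState_step hk ?_ (cmpARel_loc T M0 n k y) h3
      simp only [colLine]
      cases (tileChoices T t P).ox with
      | none => rfl
      | some p => by_cases hp : p.1 = k <;> simp [hp]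
  have hlast := main (segLen M0 n - 1) (by omega)
  rw [Nat.sub_add_cancel hS, cmpState_end _ _ fun p hp => ox_lt hp] at hlast
  rw [← hlast]
  refine row_keep ht ha P .ta hy (by omega) (by omega)
    ((xlin_le_iff (by omega) (by omega)).2 (by rw [sinceX_iff]; simp [XSeg.index]; omega)) ?_
  intro X' x' hx' h1 _
  rw [xlin_lt_iff (by omega) hx', sinceX_iff] at h1
  cases X' <;> simp [XSeg.index] at h1 <;>
    first
      | omega
      | (simp [kindOn, tbKind, setAbsKind, upKind, paKind, prKind, krKind, keepsRow, Tables.loc,
          Tables.side]
         first | exact keepsH_pass | exact keepsH_passH)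

theorem tb_below {x : ℕ} (hx : x < segLen M0 n) :
    ∃ f : Option Bool, gInV t P .tb x .my 0 = Sig.ofLine (f.map foreignLine) := by
  have hS := segLen_pos (M0 := M0) n
  have e := event_named ht ha P .tb hx .lx (segLen_pos n)
  simp only [kindOn, tbKind, Tables.loc, Tables.side, decide_true, if_true] at e
  obtain ⟨f, hf⟩ := resetV_out e
  refine ⟨f, ?_⟩
  rw [gInV_pred (Y' := .r 3) (y' := segLen M0 n - 1) _ _ (Or.inr ⟨rfl, rfl, by omega⟩), ← hf]
  refine col_keep ht ha P .tb hx hS (show segLen M0 n - 1 < segLen M0 n by omega)
    ((ylin_le_iff hS (by omega)).2 (by rw [sinceY_iff]; simp [YSeg.index])) ?_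
  intro Y' y' hy' h1 h2
  rw [ylin_lt_iff hS hy', sinceY_iff] at h1
  rw [ylin_le_iff hy' (by omega), sinceY_iff] at h2
  cases Y' <;> simp [YSeg.index] at h1 h2 <;>
    first
      | omega
      | (simp [kindOn, tbKind, Tables.loc, Tables.side, h1]; exact keepsV_pass)

/-- A column of the second offset continues as the own line above the comparisons. -/
theorem tb_col {x : ℕ} {Y : YSeg} {y : ℕ} (hx : x < segLen M0 n)
    (hy : y < segLen M0 n) (h : sinceY .gap 0 Y y) :
    gV t P .tb x Y y = Sig.ofLine (ownAt (tileChoices T t P).oy x) := by
  have hS := segLen_pos (M0 := M0) n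
  obtain ⟨f, hf⟩ := tb_below ht ha P hx
  have main : ∀ k, k < segLen M0 n → gV t P .tb x .my k =
      Sig.ofLine (cmpState (segLen M0 n) (tileChoices T t P).oy f x (k + 1)) := by
    intro k
    induction k using Nat.strong_induction_on with
    | _ k ih =>
      intro hk
      have hin : gInV t P .tb x .my k =
          Sig.ofLine (cmpState (segLen M0 n) (tileChoices T t P).oy f x k) := by
        rcases k with _ | k
        · rw [hf, cmpState_zero hS]
        · rw [gInV_pred _ _ (Or.inl ⟨rfl, rfl⟩)]; exact ih k (by omega) (by omega)
      obtain ⟨X', x', hx', hp⟩ := exists_xPred (X := .tb) (segLen_pos n) hx (by simp)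
      have e := event_named ht ha P .tb hx .my hk
      rw [hin, gInH_pred hp, my_row ht ha P hx' hk
        ((hp.since .ly hS).2 ⟨by rw [sinceX_iff]; simp [XSeg.index], by simp⟩)] at e
      simp only [kindOn, tbKind] at e
      obtain ⟨out, h1, -, h3⟩ := cmpB_out e
      simp only at h1
      rw [h1]
      congr 1
      refine cmpState_step hk ?_ (cmpBRel_loc T M0 n x k) h3
      simp only [rowLine]
      cases (tileChoices T t P).oy with
      | none => rfl
      | some p => by_cases hp : p.1 = k <;> simp [hp]
  have hlast := main (segLen M0 n - 1) (by omega)
  rw [Nat.sub_add_cancel hS, cmpState_end _ _ fun p hp => oy_lt hp] at hlast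
  rw [← hlast]
  have h' := sinceY_iff.1 h
  refine col_keep ht ha P .tb hx (by omega) hy
    ((ylin_le_iff (by omega) hy).2 (by
      rw [sinceY_iff]; simp [YSeg.index] at h' ⊢; omega)) ?_
  intro Y' y' hy' h1 _
  rw [ylin_lt_iff (by omega) hy', sinceY_iff] at h1
  cases Y' <;> simp [YSeg.index] at h1 <;>
    first
      | omega
      | (simp [kindOn, tbKind, ktKind, keepsCol]
         first | exact keepsV_pass | exact keepsV_passV)
      | (simp only [kindOn, tbKind]
         repeat' split
         all_goals first | exact keepsV_exY _ _ | exact keepsV_pass)

end

end Vale.Agent.P196.W
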