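import Vale.Agent.P196.W.Exit2

/-!
# P196: everything that leaves a tile, in the closed form of `Raw`
-/

namespace Vale.Agent.P196.W

open Sft

noncomputable section

theorem Sym.derived?_none {s : Sym} (h : s.isSrc = true) : s.derived? = Option.none := by
  cases s <;> first | rfl | simp [Sym.isSrc] at h

theorem Sym.derived?_some {s : Sym} {q : Fin 40} (h : s.derived? = some q) :
    s.isDerived = true ∧ s.isSrc = false := by
  cases s <;> simp [Sym.derived?] at h; exact ⟨rfl, rfl⟩

theorem Sym.not_derived {s : Sym} (h : s.derived? = Option.none) : s.isDerived = false := by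
  cases s <;> simp [Sym.derived?] at h <;> rfl

variable {T : Tables} {M0 n : ℕ} [NeZero M0] {t : Cell → Tint M0 n}
variable (ht : Legal (rules T M0 n) t) (ha : Aligned M0 n t) (P : Cell)
include ht ha

/-- The signal entering a later cell of a row, when the cells between pass it on. -/
theorem row_in (Y : YSeg) {y : ℕ} (hy : y < segLen M0 n) {X₀ X : XSeg} {x₀ x : ℕ}
    (hx₀ : x₀ < segLen M0 n) (hx : x < segLen M0 n)
    (hlt : xlin (segLen M0 n) X₀ x₀ < xlin (segLen M0 n) X x)
    (hk : ∀ X' x', x' < segLen M0 n →
      xlin (segLen M0 n) X₀ x₀ < xlin (segLen M0 n) X' x' →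
      xlin (segLen M0 n) X' x' < xlin (segLen M0 n) X x →
      KeepsH (kindOn X' Y (T.loc M0 n x' y))) :
    gInH t P X x Y y = gH t P X₀ x₀ Y y := by
  have hne : ¬(X = .x0 ∧ x = 0) := by
    rintro ⟨rfl, rfl⟩; simp [xlin, XSeg.index] at hlt
  obtain ⟨X', x', hx', hp⟩ := exists_xPred (segLen_pos n) hx hne
  have hs := hp.xlin_succ
  rw [gInH_pred hp]
  exact row_keep ht ha P Y hy hx₀ hx' (by omega) fun A a h1 h2 h3 => hk A a h1 h2 (by omega)

/-- The signal entering a higher cell of a column, when the cells between pass it on. -/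
theorem col_in (X : XSeg) {x : ℕ} (hx : x < segLen M0 n) {Y₀ Y : YSeg} {y₀ y : ℕ}
    (hy₀ : y₀ < segLen M0 n) (hy : y < segLen M0 n)
    (hlt : ylin (segLen M0 n) Y₀ y₀ < ylin (segLen M0 n) Y y)
    (hk : ∀ Y' y', y' < segLen M0 n →
      ylin (segLen M0 n) Y₀ y₀ < ylin (segLen M0 n) Y' y' →
      ylin (segLen M0 n) Y' y' < ylin (segLen M0 n) Y y →
      KeepsV (kindOn X Y' (T.loc M0 n x y'))) :
    gInV t P X x Y y = gV t P X x Y₀ y₀ := by
  have hne : ¬(Y = .y0 ∧ y = 0) := by
    rintro ⟨rfl, rfl⟩; simp [ylin, YSeg.index] at hlt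
  obtain ⟨Y', y', hy', hp⟩ := exists_yPred (segLen_pos n) hy hne
  have hs := hp.ylin_succ
  rw [gInV_pred _ _ hp]
  exact col_keep ht ha P X hx hy₀ hy' (by omega) fun A a h1 h2 h3 => hk A a h1 h2 (by omega)

/-- A row of free bits of the own tile. -/
theorem src_row {X : XSeg} {x y : ℕ} (hx : x < segLen M0 n) (hy : y < segLen M0 n)
    (hs : (symAt T M0 n y).isSrc = true) (h : sinceX .src 0 X x) :
    gH t P X x (.r 2) y = laneSig T M0 n (tileChoices T t P) true y := by
  have hS := segLen_pos (M0 := M0) n
  have hsym : (T.loc M0 n x y).y.sym.isSrc = true := hs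
  have hbase : gH t P .src 0 (.r 2) y = laneSig T M0 n (tileChoices T t P) true y := by
    have e := event_named ht ha P .src hS (.r 2) hy
    have hs0 : (T.loc M0 n 0 y).y.sym.isSrc = true := hs
    simp [kindOn, srcKind, hs0, loc_x_first, Kind.outs] at e
    simp only [laneSig, Sym.derived?_none hs, hs, Bool.and_self, if_true, tileChoices,
      Bool.true_and]
    rcases e with ⟨e, -⟩ | ⟨e, -⟩ <;> simp [e]
  rw [← hbase]
  refine row_keep ht ha P (.r 2) hy hS hx ((xlin_le_iff hS hx).2 h) ?_
  intro X' x' hx' h1 _
  have hs' : (T.loc M0 n x' y).y.sym.isSrc = true := hs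
  rw [xlin_lt_iff hS hx', sinceX_iff] at h1
  cases X' <;> simp [XSeg.index] at h1 <;>
    simp [kindOn, srcKind, mxKind, tbKind, setAbsKind, upKind, paKind, prKind, krKind, keepsRow,
      hs', loc_x_first, Ne.symm] <;>
    (repeat' split) <;>
    first
      | exact keepsH_pass | exact keepsH_passH
      | (rcases turnAt_cases _ Kind.fanUp _ with e | e <;> rw [e] <;>
          first | exact keepsH_fanUp | exact keepsH_pass)
      | (exfalso; simp_all)

/-- A row of a derived lane of the own tile. -/
theorem der_row {X : XSeg} {x y : ℕ} {q : Fin 40} (hx : x < segLen M0 n) (hy : y < segLen M0 n)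
    (hq : (symAt T M0 n y).derived? = some q) (h : sinceX .src 0 X x) :
    gH t P X x (.rd 2) y = derState T M0 n (tileChoices T t P) q X x := by
  have hS := segLen_pos (M0 := M0) n
  have hdq : ∀ a, (T.loc M0 n a y).y.sym.derived? = some q := fun _ => hq
  have hd : ∀ a, (T.loc M0 n a y).y.sym.isDerived = true := fun _ => (Sym.derived?_some hq).1
  set C := tileChoices T t P with hC
  induction hm : xlin (segLen M0 n) X x using Nat.strong_induction_on generalizing X x with
  | _ m ih =>
    subst hm
    by_cases h0 : X = .src ∧ x = 0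
    · obtain ⟨rfl, rfl⟩ := h0
      have e := event_named ht ha P .src hS (.rd 2) hy
      simp [kindOn, srcKind, hd, loc_x_first, Kind.outs] at e
      rw [e.1]
      cases hox : C.ox <;> cases hoy : C.oy <;>
        simp [derState, hox, hoy, sinceX_iff, XSeg.index]
    have hne : ¬(X = .x0 ∧ x = 0) := by
      rintro ⟨rfl, rfl⟩; rw [sinceX_iff] at h; simp [XSeg.index] at h
    obtain ⟨X', x', hx', hp⟩ := exists_xPred hS hx hne
    have hs := hp.xlin_succ
    have hprev := ih _ (by omega) hx' ((hp.since .src hS).2 ⟨h, h0⟩) rfl
    have ev := event_named ht ha P X hx (.rd 2) hy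
    rw [gInH_pred hp, hprev] at ev
    have same : X ≠ .mx → X ≠ .tb → ¬(X = .setAbs ∧ x = 0) →
        derState T M0 n C q X' x' = derState T M0 n C q X x := by
      intro n1 n2 n3
      have e3 : sinceX .setAbs 0 X' x' ↔ sinceX .setAbs 0 X x := by
        rw [hp.since .setAbs hS]; simp only [and_iff_left_iff_imp]; exact fun _ => n3
      have e1 : ∀ p ∈ C.ox, (sinceX .mx p.1 X' x' ↔ sinceX .mx p.1 X x) := fun p hp' => by
        rw [hp.since .mx (ox_lt hp')]; simp [n1]
      have e2 : ∀ p ∈ C.oy, (sinceX .tb p.1 X' x' ↔ sinceX .tb p.1 X x) := fun p hp' => by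
        rw [hp.since .tb (oy_lt hp')]; simp [n2]
      cases hox : C.ox with
      | none =>
        cases hoy : C.oy with
        | none => simp [derState, hox, hoy, e3]
        | some r => simp [derState, hox, hoy, e3, e2 r hoy]
      | some p =>
        cases hoy : C.oy with
        | none => simp [derState, hox, hoy, e3, e1 p hox]
        | some r => simp [derState, hox, hoy, e3, e1 p hox, e2 r hoy]
    by_cases hmx : X = .mx
    · subst hmx
      obtain ⟨Y', y', hy', hpy⟩ := exists_yPred (Y := .rd 2) hS hy (by simp)
      have hY' : sinceY .lx 0 Y' y' :=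
        (hpy.since .lx hS).2 ⟨by rw [sinceY_iff]; simp [YSeg.index], by simp⟩
      rw [gInV_pred _ _ hpy, mx_col ht ha P hx hy' hY'] at ev
      have hcol : colLine T n C x Y' y' = colLine T n C x .kt 0 := by
        simp only [colLine]
        congr 1; funext p
        split_ifs with hpx
        · congr 2
          cases hoy : C.oy with
          | none => rfl
          | some r =>
            have h1 : sinceY .my r.1 Y' y' :=
              (hpy.since .my (oy_lt hoy)).2 ⟨by rw [sinceY_iff]; simp [YSeg.index], by simp⟩
            have h2 : sinceY .my r.1 .kt 0 := by rw [sinceY_iff]; simp [YSeg.index]; omega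
            simp [h1, h2]
        · rfl
      have nset : ¬sinceX .setAbs 0 .mx x := by rw [sinceX_iff]; simp [XSeg.index]
      have nset' : ¬sinceX .setAbs 0 X' x' := fun hh => nset ((hp.since .setAbs hS).1 hh).1
      have ntb : ∀ z, ¬sinceX .tb z .mx x := by intro z; rw [sinceX_iff]; simp [XSeg.index]
      have ntb' : ∀ p ∈ C.oy, ¬sinceX .tb p.1 X' x' :=
        fun p hp' hh => ntb p.1 ((hp.since .tb (oy_lt hp')).1 hh).1
      simp only [kindOn, mxKind, hdq, if_true, Kind.outs, hcol, ← hC, Sig.line?_ofLine] at ev
      have hb : ∀ X₁ x₁, (∀ p ∈ C.oy, ¬sinceX .tb p.1 X₁ x₁) → ¬sinceX .setAbs 0 X₁ x₁ →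
          derState T M0 n C q X₁ x₁ = match (C.ox.bind fun p =>
            if sinceX .mx p.1 X₁ x₁ then derX T M0 n C q else Option.none) with
          | some v => Sig.bit v
          | Option.none => Sig.unset := by
        intro X₁ x₁ h1 h2
        cases hox : C.ox with
        | none =>
          cases hoy : C.oy with
          | none => simp [derState, hox, hoy, h2]
          | some r => simp [derState, hox, hoy, h2, h1 r hoy]
        | some p =>
          cases hoy : C.oy with
          | none => simp [derState, hox, hoy, h2]; rfl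
          | some r => simp [derState, hox, hoy, h2, h1 r hoy]; rfl
      rw [hb _ _ (fun p _ => ntb p.1) nset]
      rw [hb _ _ ntb' nset'] at ev
      cases hox : C.ox with
      | none =>
        simp [hox, colLine] at ev ⊢
        exact ev.1
      | some p =>
        have hlx : p.1 < segLen M0 n := ox_lt hox
        by_cases hpx : p.1 = x
        · subst hpx
          have n1 : ¬sinceX .mx p.1 X' x' := fun hh => ((hp.since .mx hlx).1 hh).2 ⟨rfl, rfl⟩
          have n2 : sinceX .mx p.1 .mx p.1 := Or.inr ⟨rfl, le_rfl⟩
          have hx : ∀ s, (colLine T n C p.1 .kt 0).bind (predX q s) = none ∨ True := fun _ =>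
            Or.inr trivial
          simp only [hox, Option.bind_some, n1, n2, if_true, if_false] at ev ⊢
          have hder : derX T M0 n C q =
              (colLine T n C p.1 .kt 0).bind (predX q (T.side M0 n p.1)) := by
            simp [derX, hox]
          simp only [Tables.loc, ← hder] at ev
          cases hv : derX T M0 n C q <;> simp [hv] at ev ⊢ <;> exact ev.1
        · have hc : colLine T n C x .kt 0 = Option.none := by simp [colLine, hox, hpx]
          have e1 : sinceX .mx p.1 X' x' ↔ sinceX .mx p.1 .mx x := by
            rw [hp.since .mx hlx]; simp [Ne.symm hpx]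
          simp only [hc, hox, Option.bind_none, Option.bind_some, e1] at ev ⊢
          simp at ev; exact ev.1
    by_cases htb : X = .tb
    · subst htb
      obtain ⟨Y', y', hy', hpy⟩ := exists_yPred (Y := .rd 2) hS hy (by simp)
      have hY' : sinceY .gap 0 Y' y' :=
        (hpy.since .gap hS).2 ⟨by rw [sinceY_iff]; simp [YSeg.index], by simp⟩
      rw [gInV_pred _ _ hpy, tb_col ht ha P hx hy' hY'] at ev
      have nset : ¬sinceX .setAbs 0 .tb x := by rw [sinceX_iff]; simp [XSeg.index]
      have nset' : ¬sinceX .setAbs 0 X' x' := fun hh => nset ((hp.since .setAbs hS).1 hh).1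
      have ymx : ∀ z, sinceX .mx z .tb x := by intro z; rw [sinceX_iff]; simp [XSeg.index]
      have ymx' : ∀ p ∈ C.ox, sinceX .mx p.1 X' x' := fun p hp' =>
        (hp.since .mx (ox_lt hp')).2 ⟨ymx _, by simp⟩
      simp only [kindOn, tbKind, hdq, if_true, Kind.outs, ← hC, Sig.line?_ofLine] at ev
      have hb : ∀ X₁ x₁, (∀ p ∈ C.ox, sinceX .mx p.1 X₁ x₁) → ¬sinceX .setAbs 0 X₁ x₁ →
          derState T M0 n C q X₁ x₁ = match (derX T M0 n C q).or (C.oy.bind fun p =>
            if sinceX .tb p.1 X₁ x₁ then derY T M0 n C q else Option.none) with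
          | some v => Sig.bit v
          | Option.none => Sig.unset := by
        intro X₁ x₁ h1 h2
        cases hox : C.ox with
        | none =>
          cases hoy : C.oy with
          | none => simp [derState, derX, hox, hoy, h2]
          | some r => simp [derState, derX, hox, hoy, h2]; rfl
        | some p =>
          cases hoy : C.oy with
          | none => simp [derState, hox, hoy, h2, h1 p hox]; rfl
          | some r => simp [derState, hox, hoy, h2, h1 p hox]; rfl
      rw [hb _ _ (fun p _ => ymx p.1) nset]
      rw [hb _ _ ymx' nset'] at ev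
      cases hoy : C.oy with
      | none =>
        simp [hoy, ownAt] at ev ⊢
        exact ev.1
      | some p =>
        have hly : p.1 < segLen M0 n := oy_lt hoy
        by_cases hpx : p.1 = x
        · subst hpx
          have n1 : ¬sinceX .tb p.1 X' x' := fun hh => ((hp.since .tb hly).1 hh).2 ⟨rfl, rfl⟩
          have n2 : sinceX .tb p.1 .tb p.1 := Or.inr ⟨rfl, le_rfl⟩
          have hder : derY T M0 n C q = predY q (T.side M0 n p.1) (ownLine p.2) := by
            simp [derY, hoy, ownLine]
          simp only [hoy, ownAt, Option.bind_some, if_true, n1, n2, if_false, Tables.loc,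
            ← hder] at ev ⊢
          cases hu : derX T M0 n C q <;> cases hv : derY T M0 n C q <;>
            simp [hu, hv] at ev ⊢ <;> exact ev.1
        · have e1 : sinceX .tb p.1 X' x' ↔ sinceX .tb p.1 .tb x := by
            rw [hp.since .tb hly]; simp [Ne.symm hpx]
          simp only [hoy, ownAt, hpx, if_false, Option.bind_some, Option.bind_none, e1] at ev ⊢
          simp at ev; exact ev.1
    by_cases hset : X = .setAbs ∧ x = 0
    · obtain ⟨rfl, rfl⟩ := hset
      have n1 : sinceX .setAbs 0 .setAbs 0 := Or.inr ⟨rfl, le_rfl⟩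
      have n0 : ¬sinceX .setAbs 0 X' x' := fun hh => ((hp.since .setAbs hS).1 hh).2 ⟨rfl, rfl⟩
      have y1 : ∀ p ∈ C.ox, sinceX .mx p.1 X' x' := fun p hp' =>
        (hp.since .mx (ox_lt hp')).2 ⟨by rw [sinceX_iff]; simp [XSeg.index], by simp⟩
      have y2 : ∀ p ∈ C.oy, sinceX .tb p.1 X' x' := fun p hp' =>
        (hp.since .tb (oy_lt hp')).2 ⟨by rw [sinceX_iff]; simp [XSeg.index], by simp⟩
      have hb : derState T M0 n C q X' x' =
          match (derX T M0 n C q).or (derY T M0 n C q) with
          | some v => Sig.bit v
          | Option.none => Sig.unset := by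
        cases hox : C.ox with
        | none =>
          cases hoy : C.oy with
          | none => simp [derState, derX, derY, hox, hoy, n0]
          | some r => simp [derState, derX, hox, hoy, n0, y2 r hoy]; rfl
        | some p =>
          cases hoy : C.oy with
          | none => simp [derState, derY, hox, hoy, n0, y1 p hox]; rfl
          | some r => simp [derState, hox, hoy, n0, y1 p hox, y2 r hoy]; rfl
      simp [kindOn, setAbsKind, hd, loc_x_first, Kind.outs, hb] at ev
      rw [ev.1]
      simp only [derState, n1, if_true, dval]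
      cases (derX T M0 n C q).or (derY T M0 n C q) <;> simp
    rw [← same hmx htb hset]
    have hk : KeepsH (kindOn X (.rd 2) (T.loc M0 n x y)) := by
      rw [sinceX_iff] at h
      cases X <;> simp [XSeg.index] at h h0 hmx htb hset ⊢ <;>
        simp [kindOn, srcKind, setAbsKind, upKind, paKind, prKind, krKind, keepsRow, hd,
          loc_x_first, h0, hset] <;>
        (repeat' split) <;>
        first
          | exact keepsH_pass | exact keepsH_passH
          | (rcases turnAt_cases _ Kind.fanUp _ with e | e <;> rw [e] <;>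
              first | exact keepsH_fanUp | exact keepsH_pass)
    exact hk _ _ _ ev

end

end Vale.Agent.P196.W
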