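import Vale.Agent.P196.W.StepBase

/-!
# P196: where the signals of a tile change
-/

namespace Vale.Agent.P196.W

noncomputable section

variable {T : Tables} {M0 n : ℕ}

/-- The only cells where a signal to the right changes. -/
def HEvent (T : Tables) (M0 n : ℕ) (X : XSeg) (x : ℕ) : YSeg → ℕ → Prop
  | .y0, y => y = 0 ∧ ((X = .x0 ∧ x = 0) ∨ (X = .kr ∧ x + 1 = segLen M0 n))
  | .lx, y => y = 0 ∧ X = .mx
  | .r c, y => (symAt T M0 n y).isSrc = true ∧
      ((c = 2 ∧ ((X = .sh ∧ x = y) ∨ (X = .src ∧ x = 0))) ∨
      (c ≠ 2 ∧ X = .kr ∧ x = 0) ∨ (c = 3 ∧ X = .sh ∧ x = y) ∨ (c = 0 ∧ X = .up ∧ x = y) ∨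
      (c = 1 ∧ X = .upl ∧ x = y))
  | .my, _ => X = .ly ∧ x = 0
  | .ta, _ => X = .mx ∨ (X = .sh ∧ x = 0)
  | .rd c, y => (symAt T M0 n y).isDerived = true ∧
      ((c = 2 ∧ ((X = .sh ∧ x = y) ∨ (X = .src ∧ x = 0) ∨ X = .mx ∨ X = .tb ∨
          (X = .setAbs ∧ x = 0))) ∨
      (c ≠ 2 ∧ X = .kr ∧ x = 0) ∨ (c = 3 ∧ X = .sh ∧ x = y) ∨ (c = 0 ∧ X = .upd ∧ x = y) ∨
      (c = 1 ∧ X = .updl ∧ x = y))
  | .ma, y => symAt T M0 n y = .mrow ∧ ∃ c, X = .pa c
  | .mr, y => symAt T M0 n y = .mrow ∧ ∃ c, X = .pr c
  | .bench _ _, _ => ∃ t i, X = .bench t i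
  | _, _ => False

theorem Bench.out_last (b : Bench) (j : Fin 2) (l : Loc) (h : l.x.first = false) :
    (b.out 1 j l).1 = .none := by
  cases b <;> simp [Bench.out, h]

theorem sinceX_first {A : XSeg} {z : ℕ} : sinceX A z .x0 0 ↔ A = .x0 ∧ z = 0 := by
  rw [sinceX_iff]
  constructor
  · rintro (h | ⟨h, hz⟩)
    · simp [XSeg.index] at h
    · exact ⟨XSeg.eq_of_index h.symm, by omega⟩
  · rintro ⟨rfl, rfl⟩
    exact Or.inr ⟨rfl, le_rfl⟩

theorem sinceX_kr {A : XSeg} {z x : ℕ} (h : z ≤ x) : sinceX A z .kr x := by
  rw [sinceX_iff]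
  have h1 := A.index_lt
  simp only [segCount] at h1
  rw [show XSeg.kr.index = 19 + 2 * benchCard from rfl]
  omega

theorem Sym.isDerived_eq (s : Sym) : s.isDerived = s.derived?.isSome := by cases s <;> rfl

theorem Sym.not_isSrc_of_derived {s : Sym} {q : Fin 40} (h : s.derived? = some q) :
    s.isSrc = false := by
  cases s <;> simp_all [Sym.derived?, Sym.isSrc]

theorem laneSig_src_eq_none (C : Choices) (z : ℕ) (h : (symAt T M0 n z).isSrc ≠ true) :
    laneSig T M0 n C true z = .none := by
  unfold laneSig
  split <;> simp [h]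

/-- Away from those cells a signal to the right is passed on. -/
theorem rawH_eq_inH (H : TabOK T M0) {w : Quad} (hw : w.InRange (segLen M0 n)) {X : XSeg} {x : ℕ}
    {Y : YSeg} {y : ℕ} (hx : x < segLen M0 n) (hy : y < segLen M0 n)
    (h : ¬ HEvent T M0 n X x Y y) : rawH T M0 n w X x Y y = inH T M0 n w X x Y y := by
  by_cases hX : X = .x0 ∧ x = 0
  · obtain ⟨rfl, rfl⟩ := hX
    rw [inH_first]
    have hM := H.len_pos n
    have hk : ∀ A z, z < segLen M0 n → sinceX A z .kr (segLen M0 n - 1) := fun A z hz =>
      sinceX_kr (by omega)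
    cases Y with
    | y0 =>
      have hy0 : y ≠ 0 := fun e => h ⟨e, Or.inl ⟨rfl, rfl⟩⟩
      simp [rawH, edgeH, rawBandH, hy0]
    | lx => simp [rawH, edgeH, rawBandH]
    | r c =>
      by_cases hs : (symAt T M0 n y).isSrc = true
      · fin_cases c <;> simp [rawH, edgeH, rawBandH, sinceX_first, hk, hy, hM]
      · simp [rawH, edgeH, rawBandH, laneSig_src_eq_none _ y hs]
    | my => simp [rawH, edgeH, rawBandH, sinceX_first, hk, hM]
    | gap => rfl
    | ta =>
      have h2 := (hw 2).1
      have h3 := (hw 3).1
      cases e2 : (w 2).ox <;> cases e3 : (w 3).ox <;>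
        simp_all [rawH, edgeH, rawBandH, taRow, sinceX_first, hk, Sig.ofLine]
    | rd c =>
      cases hq : (symAt T M0 n y).derived? with
      | none => simp [rawH, edgeH, rawBandH, hq]
      | some q =>
        fin_cases c <;>
          simp [rawH, edgeH, rawBandH, hq, sinceX_first, hk, hy, hM, derState, laneSig]
    | ma => simp [rawH, edgeH, rawBandH, sinceX_first, hk, hM]
    | mr => simp [rawH, edgeH, rawBandH, sinceX_first, hk, hM]
    | pad i => rfl
    | bench t j => simp [rawH, edgeH, rawBandH]
    | kt => rfl
  · obtain ⟨X', x', hx', hp⟩ := exists_xPred (H.len_pos n) hx hX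
    rw [inH_eq w Y y hx' hp]
    have hs := fun A z (hz : z < segLen M0 n) => hp.since A hz
    cases Y with
    | y0 =>
      simp only [rawH]
      simp only [HEvent] at h
      rcases hp with ⟨rfl, rfl⟩ | ⟨h1, rfl, h3⟩
      · split_ifs <;> first | rfl | omega | simp_all
      · have : X' ≠ .kr := fun e => by
          subst e; have := X.index_lt; simp [XSeg.index, segCount] at h1 this; omega
        split_ifs <;> simp_all
    | lx =>
      simp only [HEvent] at h
      simp only [rawH]
      rcases hp with ⟨rfl, rfl⟩ | ⟨h1, rfl, h3⟩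
      · split_ifs <;> simp_all
      · split_ifs <;> simp_all
    | r c =>
      by_cases hl : (symAt T M0 n y).isSrc = true
      · simp only [HEvent, hl, true_and, not_or] at h
        fin_cases c <;> simp_all [rawH, H.len_pos n]
      · simp [rawH, laneSig_src_eq_none _ y hl]
    | my =>
      simp only [HEvent] at h
      simp only [rawH, hs _ 0 (H.len_pos n), h, not_false_eq_true, and_true]
    | gap => rfl
    | ta =>
      simp only [HEvent, not_or] at h
      have e2 : ∀ p ∈ (w 2).ox, p.1 < segLen M0 n := (hw 2).1
      have hM := H.len_pos n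
      simp only [rawH, taRow]
      cases q2 : (w 2).ox with
      | none =>
        simp [hs _ _ hM, hs _ _ (show segLen M0 n - 1 < segLen M0 n by omega), h.1, h.2]
      | some p => simp [hs _ _ hy, hs _ _ hM, hs _ _ (e2 p q2), h.1, h.2]
    | rd c =>
      cases hq : (symAt T M0 n y).derived? with
      | none => simp [rawH, hq]
      | some q =>
        simp only [HEvent, Sym.isDerived_eq, hq, Option.isSome_some, true_and, not_or] at h
        have e1 : ∀ p ∈ (w 2).ox, p.1 < segLen M0 n := (hw 2).1
        have e2 : ∀ p ∈ (w 2).oy, p.1 < segLen M0 n := (hw 2).2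
        have hM := H.len_pos n
        cases q1 : (w 2).ox with
        | none =>
          cases q2 : (w 2).oy with
          | none => fin_cases c <;> simp_all [rawH, derState]
          | some b =>
            have eb := hs .tb _ (e2 b q2)
            fin_cases c <;> simp_all [rawH, derState]
        | some a =>
          have ea := hs .mx _ (e1 a q1)
          cases q2 : (w 2).oy with
          | none => fin_cases c <;> simp_all [rawH, derState]
          | some b =>
            have eb := hs .tb _ (e2 b q2)
            fin_cases c <;> simp_all [rawH, derState]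
    | ma =>
      by_cases hm : symAt T M0 n y = .mrow
      · simp only [HEvent, hm, true_and, not_exists] at h
        simp only [rawH, hm, true_and, maTruth]
        have hM := H.len_pos n
        have hne : ∀ c z, z < segLen M0 n → (sinceX (.pa c) z X' x' ↔ sinceX (.pa c) z X x) :=
          fun c z hz => by rw [hs _ _ hz]; simp [h c]
        simp +contextual only [hne _ _ hM, hne _ _ (show segLen M0 n - 1 < segLen M0 n by omega),
          hne]
      · simp [rawH, hm]
    | mr =>
      by_cases hm : symAt T M0 n y = .mrow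
      · simp only [HEvent, hm, true_and, not_exists] at h
        simp only [rawH, hm, true_and, mrTruth]
        have hM := H.len_pos n
        have hne : ∀ c z, z < segLen M0 n → (sinceX (.pr c) z X' x' ↔ sinceX (.pr c) z X x) :=
          fun c z hz => by rw [hs _ _ hz]; simp [h c]
        simp +contextual only [hne _ _ hM, hne _ _ (show segLen M0 n - 1 < segLen M0 n by omega),
          hne]
      · simp [rawH, hm]
    | pad i => rfl
    | bench t j =>
      simp only [HEvent, not_exists] at h
      simp only [rawH]
      cases X <;> first | exact absurd rfl (h _ _) | skip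
      all_goals
        cases X' <;> try rfl
        rename_i t' i'
        rcases hp with ⟨e, -⟩ | ⟨e, rfl, e3⟩
        · cases e
        · have hi : i' = 1 := Fin.ext (by
            have := t'.isLt
            simp only [XSeg.index] at e
            omega)
          subst hi
          change Sig.none = if t' = t then _ else Sig.none
          split_ifs
          · exact (Bench.out_last _ _ _ (by
              have := H.eight_le n
              have : 0 < 2 ^ n := Nat.two_pow_pos n
              simp [locAt, Tables.loc, Tables.side]; omega)).symm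
          · rfl
    | kt => rfl

/-- The only cells where a signal upwards changes. -/
def VEvent (T : Tables) (M0 n : ℕ) : XSeg → ℕ → YSeg → ℕ → Prop
  | .sh, x, Y, y => y = x ∧
      (((symAt T M0 n x).isSrc = true ∧ (Y = .r 2 ∨ Y = .r 3)) ∨
      ((symAt T M0 n x).isDerived = true ∧ (Y = .rd 2 ∨ Y = .rd 3)))
  | .ly, x, Y, _ => x = 0 ∧ Y = .my
  | .mx, _, Y, y => (Y = .lx ∧ y = 0) ∨ Y = .my
  | .tb, _, Y, y => (Y = .lx ∧ y = 0) ∨ Y = .my
  | .up, x, Y, y => y = x ∧ (symAt T M0 n x).isSrc = true ∧ (Y = .r 0 ∨ Y = .r 2)
  | .upl, x, Y, y => y = x ∧ (symAt T M0 n x).isSrc = true ∧ (Y = .r 1 ∨ Y = .r 3)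
  | .upd, x, Y, y => y = x ∧ (symAt T M0 n x).isDerived = true ∧ (Y = .rd 0 ∨ Y = .rd 2)
  | .updl, x, Y, y => y = x ∧ (symAt T M0 n x).isDerived = true ∧ (Y = .rd 1 ∨ Y = .rd 3)
  | .pa c, x, Y, y =>
      (y = x ∧ (((symAt T M0 n x).isSrc = true ∧ Y = .r (paClass c)) ∨
        ((symAt T M0 n x).isDerived = true ∧ Y = .rd (paClass c)))) ∨ (Y = .kt ∧ y = 0)
  | .pr c, x, Y, y =>
      (y = x ∧ Sym.vis (prGate c) (symAt T M0 n x) = true ∧ Y = .r (prClass c)) ∨
      (Y = .kt ∧ y = 0)
  | .bench _ _, _, Y, _ => ∃ t j, Y = .bench t j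
  | _, _, _, _ => False

theorem sinceY_first {A : YSeg} {z : ℕ} : sinceY A z .y0 0 ↔ A = .y0 ∧ z = 0 := by
  rw [sinceY_iff]
  constructor
  · rintro (h | ⟨h, hz⟩)
    · simp [YSeg.index] at h
    · exact ⟨YSeg.eq_of_index h.symm, by omega⟩
  · rintro ⟨rfl, rfl⟩
    exact Or.inr ⟨rfl, le_rfl⟩

theorem sinceY_kt {A : YSeg} {z y : ℕ} (h : z ≤ y) : sinceY A z .kt y := by
  rw [sinceY_iff]
  have h1 := A.index_lt
  simp only [segCount] at h1
  rw [show YSeg.kt.index = 19 + 2 * benchCard from rfl]
  omega

theorem Bench.out_last_v (b : Bench) (i : Fin 2) (l : Loc) (h : l.y.first = false) :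
    (b.out i 1 l).2 = .none := by
  cases b <;> simp [Bench.out, h]

theorem laneSig_derived_eq_none (C : Choices) (z : ℕ)
    (h : (symAt T M0 n z).isDerived ≠ true) : laneSig T M0 n C false z = .none := by
  unfold laneSig
  rw [Sym.isDerived_eq] at h
  split <;> simp_all

/-- The value in a column of the match rows is absent off the lanes. -/
theorem paCol_eq_none (w : Quad) (c : Fin 4) (z : ℕ) (h₁ : (symAt T M0 n z).isSrc ≠ true)
    (h₂ : (symAt T M0 n z).isDerived ≠ true) : paCol T M0 n w c z = .none := by
  unfold paCol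
  rw [if_neg h₁]
  exact laneSig_derived_eq_none _ z h₂

theorem Sym.isSrc_of_vis_event {c : Fin 3} {s : Sym} (h : Sym.vis (prGate c) s = true) :
    s.isSrc = true := by
  cases s <;> simp_all [Sym.vis, Sym.isSrc, prGate]

/-- Away from those cells a signal upwards is passed on. -/
theorem rawV_eq_inV (H : TabOK T M0) {w : Quad} (hw : w.InRange (segLen M0 n)) {X : XSeg} {x : ℕ}
    {Y : YSeg} {y : ℕ} (hx : x < segLen M0 n) (hy : y < segLen M0 n)
    (h : ¬ VEvent T M0 n X x Y y) : rawV T M0 n w X x Y y = inV T M0 n w X x Y y := by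
  have hM := H.len_pos n
  by_cases hY : Y = .y0 ∧ y = 0
  · obtain ⟨rfl, rfl⟩ := hY
    rw [inV_first]
    have hk : ∀ A z, z < segLen M0 n → sinceY A z .kt (segLen M0 n - 1) := fun A z hz =>
      sinceY_kt (by omega)
    cases X with
    | sh => simp [rawV, edgeV, rawBandV, sinceY_first, hk, hx]
    | mx =>
      cases e : (w 0).ox with
      | none => simp [rawV, edgeV, rawBandV, sinceY_first, hk, hM, colLine, e]
      | some p =>
        cases e' : (w 0).oy with
        | none => simp [rawV, edgeV, rawBandV, sinceY_first, hk, hM, colLine, e, e']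
        | some r =>
          have hr := (hw 0).2 r e'
          have h1 : sinceY .my r.1 .kt 0 := Or.inl (by simp [YSeg.index]; omega)
          simp [rawV, edgeV, rawBandV, sinceY_first, hk, hM, colLine, e, e', hr, h1]
    | tb =>
      have h2 := (hw 2).2
      have h3 := (hw 0).2
      cases e2 : (w 2).oy <;> cases e3 : (w 0).oy <;>
        simp_all [rawV, edgeV, rawBandV, tbCol, sinceY_first, Sig.ofLine]
    | pa c =>
      simp [rawV, edgeV, rawBandV, sinceY_first, hk, hM]
      split_ifs <;> simp_all [sinceY_first]
    | _ => simp [rawV, edgeV, rawBandV, sinceY_first, hk, hx, hM]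
  · obtain ⟨Y', y', hy', hp⟩ := exists_yPred hM hy hY
    rw [inV_eq w X x hy' hp]
    have hs := fun A z (hz : z < segLen M0 n) => hp.since A hz
    cases X with
    | x0 => rfl
    | src => rfl
    | gap => rfl
    | setAbs => rfl
    | kr => rfl
    | sh =>
      by_cases h1 : (symAt T M0 n x).isSrc = true
      · by_cases h2 : (symAt T M0 n x).isDerived = true
        · cases hq : symAt T M0 n x <;> simp_all [Sym.isSrc, Sym.isDerived]
        · simp only [VEvent, h1, h2, true_and, false_and, or_false, not_and, not_or] at h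
          by_cases hyx : y = x <;> simp_all [rawV, laneSig_derived_eq_none _ x h2]
      · by_cases h2 : (symAt T M0 n x).isDerived = true
        · have hord : sinceY (.rd 2) x Y y → sinceY (.r 3) x Y y := by
            simp [sinceY_iff, YSeg.index]; omega
          have hno : ¬sinceY (.rd 2) x (.r 2) y ∧ ¬sinceY (.rd 2) x (.r 3) y := by
            simp [sinceY_iff, YSeg.index]
          simp only [VEvent, h1, h2, true_and, false_and, false_or, not_and, not_or] at h
          by_cases hyx : y = x <;> by_cases e2 : Y = .r 2 <;> by_cases e3 : Y = .r 3 <;>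
            simp_all [rawV, laneSig_src_eq_none _ x h1]
        · simp [rawV, laneSig_src_eq_none _ x h1, laneSig_derived_eq_none _ x h2]
    | ly =>
      simp only [VEvent] at h
      simp only [rawV]
      rcases hp with ⟨rfl, rfl⟩ | ⟨h1, rfl, h3⟩
      · split_ifs <;> simp_all
      · split_ifs <;> simp_all
    | mx =>
      simp only [VEvent, not_or] at h
      simp only [rawV]
      have e : colLine T n (w 2) x Y y = colLine T n (w 2) x Y' y' := by
        cases e1 : (w 2).ox with
        | none => simp [colLine, e1]
        | some p =>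
          cases e2 : (w 2).oy with
          | none => simp [colLine, e1, e2]
          | some r => simp [colLine, e1, e2, hs .my _ ((hw 2).2 r e2), h.2]
      simp [hs .lx 0 hM, h.1, e]
    | tb =>
      simp only [VEvent, not_or] at h
      have e2 : ∀ p ∈ (w 2).oy, p.1 < segLen M0 n := (hw 2).2
      simp only [rawV, tbCol]
      cases q2 : (w 2).oy with
      | none =>
        simp [hs _ _ hM, hs _ _ (show segLen M0 n - 1 < segLen M0 n by omega), h.1, h.2]
      | some p => simp [hs _ _ hx, hs _ _ hM, hs _ _ (e2 p q2), h.1, h.2]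
    | pa c =>
      by_cases h1 : (symAt T M0 n x).isSrc = true
      · simp only [VEvent, h1, not_or] at h
        by_cases hyx : y = x <;> simp_all [rawV]
      · by_cases h2 : (symAt T M0 n x).isDerived = true
        · simp only [VEvent, h1, h2, not_or] at h
          by_cases hyx : y = x <;> simp_all [rawV]
        · simp [rawV, paCol_eq_none _ c x h1 h2]
    | pr c =>
      by_cases h1 : Sym.vis (prGate c) (symAt T M0 n x) = true
      · simp only [VEvent, h1, not_or] at h
        by_cases hyx : y = x <;> simp_all [rawV]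
      · simp [rawV, prCol, h1]
    | bench t i =>
      simp only [VEvent, not_exists] at h
      simp only [rawV]
      cases Y <;> first | exact absurd rfl (h _ _) | skip
      all_goals
        cases Y' <;> try rfl
        rename_i t' j'
        rcases hp with ⟨e, -⟩ | ⟨e, rfl, e3⟩
        · cases e
        · have hj : j' = 1 := Fin.ext (by
            have := t'.isLt
            simp only [YSeg.index] at e
            omega)
          subst hj
          change Sig.none = if t' = t then _ else Sig.none
          split_ifs
          · exact (Bench.out_last_v _ _ _ (by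
              have := H.eight_le n
              have : 0 < 2 ^ n := Nat.two_pow_pos n
              simp [locAt, Tables.loc, Tables.side]; omega)).symm
          · rfl
    | up =>
      by_cases h1 : (symAt T M0 n x).isSrc = true
      · simp only [VEvent, h1, true_and, not_and, not_or] at h
        by_cases hyx : y = x <;> simp_all [rawV]
      · simp [rawV, laneSig_src_eq_none _ x h1]
    | upl =>
      by_cases h1 : (symAt T M0 n x).isSrc = true
      · simp only [VEvent, h1, true_and, not_and, not_or] at h
        by_cases hyx : y = x <;> simp_all [rawV]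
      · simp [rawV, laneSig_src_eq_none _ x h1]
    | upd =>
      by_cases h1 : (symAt T M0 n x).isDerived = true
      · simp only [VEvent, h1, true_and, not_and, not_or] at h
        by_cases hyx : y = x <;> simp_all [rawV]
      · simp [rawV, laneSig_derived_eq_none _ x h1]
    | updl =>
      by_cases h1 : (symAt T M0 n x).isDerived = true
      · simp only [VEvent, h1, true_and, not_and, not_or] at h
        by_cases hyx : y = x <;> simp_all [rawV]
      · simp [rawV, laneSig_derived_eq_none _ x h1]

end

end Vale.Agent.P196.W
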