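import Vale.Agent.P196.W.Exit3
import Vale.Agent.P196.W.StepConst

/-!
# P196: the signals that leave a tile
-/

namespace Vale.Agent.P196.W

open Sft

noncomputable section

theorem Sym.exists_derived {s : Sym} (h : s.isDerived = true) :
    ∃ q, s.derived? = some q ∧ s.isSrc = false := by
  cases s <;> first | exact ⟨_, rfl, rfl⟩ | simp [Sym.isDerived] at h

variable {T : Tables} {M0 n : ℕ} [NeZero M0] {t : Cell → Tint M0 n}
variable (ht : Legal (rules T M0 n) t) (ha : Aligned M0 n t) (P : Cell)
include ht ha

omit [NeZero M0] ht ha in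
theorem loc_sym (x y : ℕ) :
    (T.loc M0 n x y).y.sym = symAt T M0 n y ∧ (T.loc M0 n x y).x.sym = symAt T M0 n x :=
  ⟨rfl, rfl⟩

omit [NeZero M0] ht ha in
theorem loc_facts (x y : ℕ) :
    (T.loc M0 n x y).cross.eq = decide (x = y) ∧
      (T.loc M0 n x y).x.last = decide (x + 1 = segLen M0 n) ∧
      (T.loc M0 n x y).y.first = decide (y = 0) :=
  ⟨rfl, rfl, rfl⟩

/-- A row that is not kept is empty when it leaves. -/
theorem dead_row {Y : YSeg} {y : ℕ} (hy : y < segLen M0 n)
    (hk : keepsRow Y (symAt T M0 n y) = false) (hne : ¬(Y = .y0 ∧ y = 0)) :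
    gH t P .kr (segLen M0 n - 1) Y y = .none := by
  have hS := segLen_pos (M0 := M0) n
  have e := event_named ht ha P .kr hS Y hy
  have hz : gH t P .kr 0 Y y = .none := by
    have h1 : ¬(0 + 1 = segLen M0 n ∧ Y = .y0 ∧ y = 0) := fun h => hne h.2
    simp only [kindOn, krKind, loc_facts, loc_x_first, loc_sym, decide_eq_true_eq] at e
    rw [if_neg h1] at e
    split_ifs at e <;> simp_all [Kind.outs]
  rw [← hz]
  refine row_keep ht ha P Y hy hS (by omega)
    ((xlin_le_iff hS (by omega)).2 (Or.inr ⟨rfl, Nat.zero_le _⟩)) ?_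
  intro X' x' hx' h1 h2
  rw [xlin_lt_iff hS hx', sinceX_iff] at h1
  rw [xlin_le_iff hx' (by omega), sinceX_iff] at h2
  obtain rfl : X' = .kr := XSeg.eq_of_index (by
    have := X'.index_lt; simp only [XSeg.index, segCount] at h1 this ⊢; omega)
  simp only [true_and, lt_irrefl, false_or] at h1
  simp only [kindOn, krKind, loc_facts, loc_x_first, decide_eq_true_eq]
  rw [if_neg (fun h => hne h.2), if_neg (by omega), if_neg (by omega)]
  split_ifs <;> first | exact keepsH_passH | exact keepsH_pass

/-- The marked row leaves as the mark. -/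
theorem lm_row : gH t P .kr (segLen M0 n - 1) .y0 0 = .lm := by
  have hS := segLen_pos (M0 := M0) n
  have e := event_named ht ha P .kr (show segLen M0 n - 1 < segLen M0 n by omega) .y0 hS
  have h : segLen M0 n - 1 + 1 = segLen M0 n := by omega
  simp [kindOn, krKind, loc_facts, h, Kind.outs] at e
  simp [e]

/-- What leaves a tile to the right. -/
theorem exit_h {Y : YSeg} {y : ℕ} (hy : y < segLen M0 n) :
    gH t P .kr (segLen M0 n - 1) Y y =
      rawBandH T M0 n (fun _ => tileChoices T t P) Y y := by
  have hS := segLen_pos (M0 := M0) n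
  have hl : segLen M0 n - 1 < segLen M0 n := by omega
  have hk : ∀ A z, z < segLen M0 n → sinceX A z .kr (segLen M0 n - 1) := fun A z hz =>
    sinceX_kr (by omega)
  simp only [rawBandH]
  cases Y with
  | y0 =>
    by_cases h : y = 0
    · subst h
      rw [lm_row ht ha P]
      simp [rawH, show segLen M0 n - 1 + 1 = segLen M0 n by omega]
    · rw [dead_row ht ha P hy rfl (by simp [h])]; simp [rawH, h]
  | lx => rw [dead_row ht ha P hy rfl (by simp)]; simp [rawH]
  | r c =>
    by_cases hc : c = 2
    · subst hc
      by_cases hs : (symAt T M0 n y).isSrc = true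
      · rw [src_row ht ha P hl hy hs (hk _ _ hS)]
        simp [rawH, hk _ _ hy, hk _ _ hS]
      · rw [dead_row ht ha P hy (by simp [keepsRow, hs]) (by simp)]
        simp [rawH, hk _ _ hy, hk _ _ hS, laneSig]
        split <;> simp [hs]
    · rw [dead_row ht ha P hy (by simp [keepsRow, hc]) (by simp)]
      simp [rawH, hc, hk _ _ hS]
  | my =>
    rw [my_row ht ha P hl hy (hk _ _ hS)]
    simp [rawH, hk _ _ hS]
  | gap => rw [dead_row ht ha P hy rfl (by simp)]; simp [rawH]
  | ta =>
    rw [ta_exit ht ha P hy]
    simp only [rawH, taRow, ownAt]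
    congr 1
    cases ho : (tileChoices T t P).ox with
    | none => simp [hk _ _ hl]
    | some p => simp [hk _ _ hy, hk _ _ (ox_lt ho), ownLine]
  | rd c =>
    cases hq : (symAt T M0 n y).derived? with
    | none =>
      rw [dead_row ht ha P hy (by simp [keepsRow, Sym.not_derived hq]) (by simp)]
      simp [rawH, hq]
    | some q =>
      by_cases hc : c = 2
      · subst hc
        rw [der_row ht ha P hl hy hq (hk _ _ hS)]
        simp [rawH, hq, hk _ _ hy, hk _ _ hS]
      · rw [dead_row ht ha P hy (by simp [keepsRow, hc]) (by simp)]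
        simp [rawH, hq, hc, hk _ _ hS]
  | ma => rw [dead_row ht ha P hy rfl (by simp)]; simp [rawH, hk _ _ hl]
  | mr => rw [dead_row ht ha P hy rfl (by simp)]; simp [rawH, hk _ _ hl]
  | pad i => rw [dead_row ht ha P hy rfl (by simp)]; simp [rawH]
  | bench b j => rw [dead_row ht ha P hy rfl (by simp)]; simp [rawH]
  | kt => rw [dead_row ht ha P hy rfl (by simp)]; simp [rawH]

/-- A lane of the left tile on the column where it is relayed. -/
theorem relay_col (b : Bool) {x : ℕ} (hx : x < segLen M0 n)
    (hs : (if b then (symAt T M0 n x).isSrc else (symAt T M0 n x).isDerived) = true)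
    {Y : YSeg} {y : ℕ} (hy : y < segLen M0 n) (h : sinceY (if b then .r 3 else .rd 3) x Y y) :
    gV t P (if b then .upl else .updl) x Y y =
      laneSig T M0 n (tileChoices T t (P.1 - 1, P.2)) b x := by
  have hS := segLen_pos (M0 := M0) n
  set A : YSeg := if b then .r 2 else .rd 2 with hA
  set B : YSeg := if b then .r 3 else .rd 3 with hB
  set U : XSeg := if b then .upl else .updl with hU
  set L := laneSig T M0 n (tileChoices T t (P.1 - 1, P.2)) b x with hL
  have hkA : kindOn .sh A (T.loc M0 n x x) = .turnUp := by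
    cases b <;> simp_all [kindOn, shKind, turnAt, loc_facts, loc_sym]
  have hkB : kindOn .sh B (T.loc M0 n x x) = .turnRight := by
    cases b <;> simp_all [kindOn, shKind, turnAt, loc_facts, loc_sym]
  have hkU : kindOn U B (T.loc M0 n x x) = .fanUp := by
    cases b <;> simp_all [kindOn, upKind, turnAt, loc_facts, loc_sym]
  have e0 : gInH t P .sh x A x = L := by
    have e1 : gInH t P .x0 0 A x = L := by
      rw [gInH_first ht ha P A hx, exit_h ht ha _ hx, hA, hL]
      have hk : ∀ z, z < segLen M0 n → ∀ X, sinceX X z .kr (segLen M0 n - 1) := fun z hz X =>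
        sinceX_kr (by omega)
      cases b
      · obtain ⟨q, hq, -⟩ := Sym.exists_derived (by simpa using hs)
        simp [rawBandH, rawH, hq, hk _ hx, hk _ hS, derState, laneSig]
      · simp [rawBandH, rawH, hk _ hx, hk _ hS]
    have e2 : gH t P .x0 0 A x = L := by
      rw [← e1]
      refine keepsH_col0 (gInH t P .x0 0 A x) (gInV t P .x0 0 A x)
        (gH t P .x0 0 A x, gV t P .x0 0 A x) ?_
      have := event_named ht ha P .x0 hS A hx
      cases b <;> simpa [hA, kindOn, x0Kind, loc_facts, loc_x_first] using this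
    rw [← e2]
    refine row_in ht ha P A hx hS hx ((xlin_lt_iff hS hx).2 (by simp [sinceX, XSeg.index])) ?_
    intro X' x' hx' h1 h2
    rw [xlin_lt_iff hS hx', sinceX_iff] at h1
    rw [xlin_lt_iff hx' hx, sinceX_iff] at h2
    cases X' <;> simp [XSeg.index] at h1 h2 <;> cases b <;>
      simp [hA, kindOn, x0Kind, shKind, loc_facts, loc_x_first, turnAt] <;>
      (repeat' split) <;> first | exact keepsH_pass | exact keepsH_col0 | omega
  have e3 : gV t P .sh x A x = L := by
    have e := event_named ht ha P .sh hx A hx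
    rw [hkA, e0] at e
    simp [Kind.outs] at e
    exact e.2
  have e4 : gInV t P .sh x B x = L := by
    rw [← e3]
    refine col_in ht ha P .sh hx hx hx
      ((ylin_lt_iff hx hx).2 (by cases b <;> simp [hA, hB, sinceY, YSeg.index])) ?_
    intro Y' y' hy' h1 h2
    rw [ylin_lt_iff hx hy', sinceY_iff] at h1
    rw [ylin_lt_iff hy' hx, sinceY_iff] at h2
    cases b <;> simp [hA, hB, YSeg.index] at h1 h2 <;>
      cases Y' <;> simp at h1 h2 <;>
      simp [kindOn, shKind, turnAt, loc_facts] <;>
      (repeat' split) <;> first | exact keepsV_pass | omega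
  have e5 : gH t P .sh x B x = L := by
    have e := event_named ht ha P .sh hx B hx
    rw [hkB, e4] at e
    simp [Kind.outs] at e
    exact e.1
  have e6 : gInH t P U x B x = L := by
    rw [← e5]
    refine row_in ht ha P B hx hx hx
      ((xlin_lt_iff hx hx).2 (by cases b <;> simp [hU, sinceX, XSeg.index])) ?_
    intro X' x' hx' h1 h2
    rw [xlin_lt_iff hx hx', sinceX_iff] at h1
    rw [xlin_lt_iff hx' hx, sinceX_iff] at h2
    cases b <;> simp [hU, XSeg.index] at h1 h2 <;>
      cases X' <;> simp at h1 h2 <;>
      simp [hB, kindOn, shKind, lyKind, srcKind, mxKind, tbKind, setAbsKind, upKind, turnAt,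
        loc_facts, loc_x_first] <;>
      (repeat' split) <;> first | exact keepsH_pass | omega
  have e7 : gV t P U x B x = L := by
    have e := event_named ht ha P U hx B hx
    rw [hkU, e6] at e
    simp [Kind.outs] at e
    exact e.2
  rw [← e7]
  refine col_keep ht ha P U hx hx hy ((ylin_le_iff hx hy).2 h) ?_
  intro Y' y' hy' h1 _
  rw [ylin_lt_iff hx hy', sinceY_iff] at h1
  cases b <;> simp [hB, YSeg.index] at h1 <;>
    cases Y' <;> simp at h1 <;>
    simp [hU, kindOn, upKind, ktKind, keepsCol, turnAt, loc_facts, loc_sym] at hs ⊢ <;>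
    (repeat' split) <;>
    first | exact keepsV_pass | exact keepsV_passV | (exfalso; simp_all)

/-- A lane of the own tile on the column where it is relayed. -/
theorem own_col (b : Bool) {x : ℕ} (hx : x < segLen M0 n)
    (hs : (if b then (symAt T M0 n x).isSrc else (symAt T M0 n x).isDerived) = true)
    {Y : YSeg} {y : ℕ} (hy : y < segLen M0 n) (h : sinceY (if b then .r 2 else .rd 2) x Y y) :
    gV t P (if b then .up else .upd) x Y y = laneSig T M0 n (tileChoices T t P) b x := by
  have hS := segLen_pos (M0 := M0) n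
  set A : YSeg := if b then .r 2 else .rd 2 with hA
  set U : XSeg := if b then .up else .upd with hU
  have hkU : kindOn U A (T.loc M0 n x x) = .fanUp := by
    cases b <;> simp_all [kindOn, upKind, turnAt, loc_facts, loc_sym]
  have e6 : gH t P U x A x = laneSig T M0 n (tileChoices T t P) b x := by
    cases b
    · obtain ⟨q, hq, -⟩ := Sym.exists_derived (by simpa using hs)
      simp only [hA, hU, Bool.false_eq_true, if_false]
      rw [der_row ht ha P hx hx hq (by simp [sinceX, XSeg.index])]
      simp [derState, laneSig, hq, sinceX, XSeg.index]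
    · simp only [hA, hU, if_true]
      exact src_row ht ha P hx hx (by simpa using hs) (by simp [sinceX, XSeg.index])
  have e7 : gV t P U x A x = gH t P U x A x := by
    have e := event_named ht ha P U hx A hx
    rw [hkU] at e
    simp [Kind.outs] at e
    rw [e.1, e.2]
  rw [← e6, ← e7]
  refine col_keep ht ha P U hx hx hy ((ylin_le_iff hx hy).2 h) ?_
  intro Y' y' hy' h1 _
  rw [ylin_lt_iff hx hy', sinceY_iff] at h1
  cases b <;> simp [hA, YSeg.index] at h1 <;>
    cases Y' <;> simp at h1 <;>
    simp [hU, kindOn, upKind, ktKind, keepsCol, turnAt, loc_facts, loc_sym] at hs ⊢ <;>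
    (repeat' split) <;>
    first | exact keepsV_pass | exact keepsV_passV | (exfalso; simp_all)

/-- A column that is not kept is empty when it leaves. -/
theorem dead_col {X : XSeg} {x : ℕ} (hx : x < segLen M0 n)
    (hk : keepsCol X (symAt T M0 n x) = false) :
    gV t P X x .kt (segLen M0 n - 1) = .none := by
  have hS := segLen_pos (M0 := M0) n
  by_cases hb : (∃ b i, X = .bench b i) ∨ (X = .x0 ∧ x = 0)
  · have e := event_named ht ha P X hx .kt (show segLen M0 n - 1 < segLen M0 n by omega)
    rcases hb with ⟨b, i, rfl⟩ | ⟨rfl, rfl⟩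
    · simp [kindOn, Kind.outs] at e; exact e.2
    · simp [kindOn, x0Kind, loc_x_first, Kind.outs] at e; exact e.2.2
  have e := event_named ht ha P X hx .kt hS
  have hz : gV t P X x .kt 0 = .none := by
    revert e hk hb
    cases X <;> intro hk hb e <;>
      simp [kindOn, x0Kind, krKind, ktKind, keepsCol, keepsRow, loc_facts, loc_x_first, loc_sym]
        at e hk hb <;>
      (repeat' split at e) <;> simp_all [Kind.outs]
  rw [← hz]
  refine col_keep ht ha P X hx hS (by omega)
    ((ylin_le_iff hS (by omega)).2 (Or.inr ⟨rfl, Nat.zero_le _⟩)) ?_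
  intro Y' y' hy' h1 h2
  rw [ylin_lt_iff hS hy', sinceY_iff] at h1
  rw [ylin_le_iff hy' (by omega), sinceY_iff] at h2
  obtain rfl : Y' = .kt := YSeg.eq_of_index (by
    have := Y'.index_lt; simp only [YSeg.index, segCount] at h1 this ⊢; omega)
  have hy0 : y' ≠ 0 := by simp at h1; omega
  cases X <;> simp at hb <;>
    simp [kindOn, x0Kind, krKind, ktKind, keepsRow, loc_facts, loc_x_first, hy0] <;>
    (repeat' split) <;> first | exact keepsV_pass | exact keepsV_passV | (exfalso; simp_all)

/-- What leaves a tile upwards. -/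
theorem exit_v {X : XSeg} {x : ℕ} (hx : x < segLen M0 n) :
    gV t P X x .kt (segLen M0 n - 1) =
      rawBandV T M0 n
        (fun c => if c = 2 then tileChoices T t P else tileChoices T t (P.1 - 1, P.2)) X x := by
  have hS := segLen_pos (M0 := M0) n
  have hl : segLen M0 n - 1 < segLen M0 n := by omega
  have hk : ∀ A z, z < segLen M0 n → sinceY A z .kt (segLen M0 n - 1) := fun A z hz =>
    sinceY_kt (by omega)
  simp only [rawBandV]
  cases X with
  | x0 => rw [dead_col ht ha P hx rfl]; simp [rawV]
  | sh => rw [dead_col ht ha P hx rfl]; simp [rawV, hk _ _ hx]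
  | ly => rw [dead_col ht ha P hx rfl]; simp [rawV]
  | src => rw [dead_col ht ha P hx rfl]; simp [rawV]
  | mx => rw [mx_col ht ha P hx hl (hk _ _ hS)]; simp [rawV, hk _ _ hS]
  | gap => rw [dead_col ht ha P hx rfl]; simp [rawV]
  | tb =>
    rw [tb_col ht ha P hx hl (hk _ _ hS)]
    simp only [rawV, tbCol, ownAt]
    congr 1
    cases ho : (tileChoices T t P).oy with
    | none => simp [ho, hk _ _ hl]
    | some p => simp [ho, hk _ _ hx, hk _ _ (oy_lt ho), ownLine]
  | setAbs => rw [dead_col ht ha P hx rfl]; simp [rawV]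
  | up =>
    by_cases hs : (symAt T M0 n x).isSrc = true
    · refine (own_col ht ha P true hx hs hl (hk _ _ hx)).trans ?_
      simp [rawV, hk _ _ hx]
    · rw [dead_col ht ha P hx (by simpa [keepsCol] using hs)]
      simp [rawV, hk _ _ hx, laneSig]
      split <;> simp [hs]
  | upl =>
    by_cases hs : (symAt T M0 n x).isSrc = true
    · refine (relay_col ht ha P true hx hs hl (hk _ _ hx)).trans ?_
      simp [rawV, hk _ _ hx]
    · rw [dead_col ht ha P hx (by simpa [keepsCol] using hs)]
      simp [rawV, hk _ _ hx, laneSig]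
      split <;> simp [hs]
  | upd =>
    cases hq : (symAt T M0 n x).derived? with
    | none =>
      rw [dead_col ht ha P hx (by simpa [keepsCol] using Sym.not_derived hq)]
      simp [rawV, hk _ _ hx, laneSig, hq]
    | some q =>
      refine (own_col ht ha P false hx (Sym.derived?_some hq).1 hl (hk _ _ hx)).trans ?_
      simp [rawV, hk _ _ hx]
  | updl =>
    cases hq : (symAt T M0 n x).derived? with
    | none =>
      rw [dead_col ht ha P hx (by simpa [keepsCol] using Sym.not_derived hq)]
      simp [rawV, hk _ _ hx, laneSig, hq]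
    | some q =>
      refine (relay_col ht ha P false hx (Sym.derived?_some hq).1 hl (hk _ _ hx)).trans ?_
      simp [rawV, hk _ _ hx]
  | pa c => rw [dead_col ht ha P hx rfl]; simp [rawV, hk _ _ hS]
  | pr c => rw [dead_col ht ha P hx rfl]; simp [rawV, hk _ _ hS]
  | bench b i => rw [dead_col ht ha P hx rfl]; simp [rawV]
  | kr => rw [dead_col ht ha P hx rfl]; simp [rawV]

end

end Vale.Agent.P196.W
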