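import Vale.Agent.P196.W.Draw
import Vale.Agent.P196.W.Compact

/-!
# P196: at every level a small box obeys the rules

Eight by eight cells inside the pair of blank segments, without signals.
-/

namespace Vale.Agent.P196.W

open Sft

noncomputable section

/-- Clamp `z + 3` into a segment. -/
def boxOff {M : ℕ} (hM : 8 ≤ M) (z : ℤ) : Fin M :=
  ⟨min (z + 3).toNat (M - 1), by omega⟩

/-- The box. -/
def boxCell {M : ℕ} (hM : 8 ≤ M) (c : Cell) : Colour segCount M :=
  ⟨.full (xSegEquiv .gap) (boxOff hM c.1) (ySegEquiv .gap) (boxOff hM c.2), .none, .none⟩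

theorem pos_boxOff_succ {M : ℕ} (hM : 8 ≤ M) (s : Fin segCount) {z : ℤ} (h1 : -3 ≤ z)
    (h2 : z ≤ 3) : pos s (boxOff hM (z + 1)) = pos s (boxOff hM z) + 1 := by
  simp only [pos, boxOff]
  omega

/-- At every level some box of radius `3` obeys the rules. -/
theorem smallBox (T : Tables) {M0 : ℕ} (hM0 : 8 ≤ M0) :
    SmallBox (C := fun n => Tint M0 n) (fun n => rules T M0 n) := by
  intro n
  have hM : 8 ≤ segLen M0 n := le_trans hM0 (Nat.le_mul_of_pos_left _ (Nat.two_pow_pos n))
  refine ⟨boxCell hM, fun v h1 h2 => ?_⟩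
  rw [abs_le] at h1 h2
  refine ⟨fun j => ?_, fun i => ?_, ?_⟩
  · simp only [windowAt, boxCell, HStep, Fin.val_zero, Fin.val_one, Nat.cast_zero, Nat.cast_one,
      add_zero]
    exact ⟨pos_boxOff_succ hM _ h1.1 h1.2, trivial, trivial⟩
  · simp only [windowAt, boxCell, VStep, Fin.val_zero, Fin.val_one, Nat.cast_zero, Nat.cast_one,
      add_zero]
    exact ⟨pos_boxOff_succ hM _ h2.1 h2.2, trivial, trivial⟩
  · simp [winEvent, windowAt, boxCell, Event.Ok, kindAt, layoutKind_fin, kindOn, Kind.outs]

theorem eight_le_m0 (g : ℕ) : 8 ≤ m0 g := by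
  unfold m0; omega

/-- The small boxes of the concrete system. -/
theorem smallBox_layout :
    SmallBox (C := fun n => Tint (m0 segCount) n)
      (fun n => rules (tables layoutKind) (m0 segCount) n) :=
  smallBox _ (eight_le_m0 _)

end

end Vale.Agent.P196.W
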