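import Vale.Agent.P196.W.DrawOk
import Vale.Agent.P196.W.SmallBox
import Vale.Agent.P196.W.Mixes
import Vale.Agent.P196.W.Band

/-!
# P196: the fields of the macro-tile system of the layout

Everything except desubstitution.
-/

namespace Vale.Agent.P196.W

open Sft

noncomputable section

/-- The side of a tile is at least `8`. -/
theorem eight_le_side {T : Tables} {M0 : ℕ} (H : TabOK T M0) (n : ℕ) :
    8 ≤ side segCount (segLen M0 n) := by
  have h4 := four_le_segLen (n := n) H
  have : 2 ≤ segCount + 1 := by simp [segCount]
  rw [side]
  nlinarith


/-- A drawn window of the layout obeys the rules as soon as the parents do near it. -/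
theorem localExpand_layout :
    LocalExpand (fun n => rules (tables layoutKind) (m0 segCount) n)
      (fun n => side segCount (segLen (m0 segCount) n))
      (fun n => drawTile (tables layoutKind) (m0 segCount) n) :=
  fun n o U v hU => windowAt_expand_mem (drawAddr_drawTile _ _ n) drawOk_layout o U v hU

/-- Legal tilings exist at every level. -/
theorem legal_layout (n : ℕ) : ∃ t, Legal (rules (tables layoutKind) (m0 segCount) n) t :=
  legal_nonempty_of_local _ _ _ (eight_le_side (tabOK_tablesOf (allowOf layoutKind)))
    localExpand_layout (smallBox _ (eight_le_m0 _)) n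

/-- Drawing a legal tiling gives a legal tiling. -/
theorem expand_legal_layout (n : ℕ) (o : Cell) (U : Cell → Tint (m0 segCount) (n + 1))
    (hU : Legal (rules (tables layoutKind) (m0 segCount) (n + 1)) U) :
    Legal (rules (tables layoutKind) (m0 segCount) n)
      (expand (side segCount (segLen (m0 segCount) n))
        (drawTile (tables layoutKind) (m0 segCount) n) o U) :=
  expand_legal_of_local _ _ _ localExpand_layout n o U hU

/-- Desubstitution of the layout: exactly one parent grid and one tiling by parents. -/
def Desub : Prop :=
  ∀ n t, Legal (rules (tables layoutKind) (m0 segCount) n) t →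
    ∃! p : (Fin (side segCount (segLen (m0 segCount) n)) ×
        Fin (side segCount (segLen (m0 segCount) n))) × (Cell → Tint (m0 segCount) (n + 1)),
      Legal (rules (tables layoutKind) (m0 segCount) (n + 1)) p.2 ∧
        t = expand (side segCount (segLen (m0 segCount) n))
          (drawTile (tables layoutKind) (m0 segCount) n) ((p.1.1.val : ℤ), (p.1.2.val : ℤ)) p.2

/-- Blocks recur, from the existence half of desubstitution. -/
theorem mixes_of_desub (hD : Desub) (n : ℕ) (U t : Cell → Tint (m0 segCount) n)
    (hU : Legal (rules (tables layoutKind) (m0 segCount) n) U)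
    (ht : Legal (rules (tables layoutKind) (m0 segCount) n) t) :
    ∃ u : Cell, ∀ c : Cell, -2 ≤ c.1 → c.1 ≤ 0 → -2 ≤ c.2 → c.2 ≤ 0 → t (u + c) = U c :=
  mixes_layout (T := tables layoutKind) (tabOK_tablesOf (allowOf layoutKind))
    (lanesOK_tablesOf (allowOf layoutKind))
    (fun n t ht => by
      obtain ⟨p, ⟨hp, e⟩, -⟩ := hD n t ht
      exact ⟨_, p.2, hp, e⟩) n U t hU ht

/-- The macro-tile system of the layout. -/
abbrev layoutSystem (hD : Desub) : MacroSystem :=
  systemWith (tables layoutKind) (m0 segCount) legal_layout expand_legal_layout hD
    (mixes_of_desub hD) (eight_le_side (tabOK_tablesOf (allowOf layoutKind)))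

/-- The system of the layout has bands. -/
def layoutBands (hD : Desub) : (layoutSystem hD).HasBands :=
  hasBands (tabOK_tablesOf (allowOf layoutKind)).sym_zero
    (tabOK_tablesOf (g := segCount) (allowOf layoutKind)).four_dvd _ _ _ _ _

end

end Vale.Agent.P196.W
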