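import Vale.Agent.P196.W.Alpha

/-!
# P196: a legal tiling by addressed cells has exactly one grid of parents

The coordinate of a cell in its parent is `pos` in the ordinary segments and `g * M + a` in the
band.  The steps of addresses alone fix the horizontal coordinate of every column; the marked row
carries the vertical one across the band of columns.
-/

namespace Vale.Agent.P196.W

open Vale.Agent.P196.Sft

variable {g M : ℕ}

/-- The side of a parent: `g` segments and the band, `M` offsets each. -/
def side (g M : ℕ) : ℕ := (g + 1) * M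

theorem side_eq (g M : ℕ) : side g M = g * M + M := by rw [side, Nat.succ_mul]

theorem pos_lt (s : Fin g) (o : Fin M) : pos s o < g * M := by
  have h := s.2
  have h' : (s.val + 1) * M ≤ g * M := Nat.mul_le_mul_right M h
  rw [Nat.succ_mul] at h'
  have := o.2
  simp only [pos]; omega

theorem pos_inj {s s' : Fin g} {o o' : Fin M} (h : pos s o = pos s' o') : s = s' ∧ o = o' := by
  have ho := o.2
  have ho' := o'.2
  rcases lt_trichotomy s.val s'.val with hs | hs | hs
  · have : (s.val + 1) * M ≤ s'.val * M := Nat.mul_le_mul_right M hs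
    rw [Nat.succ_mul] at this; simp only [pos] at h; omega
  · simp only [pos, hs] at h; exact ⟨Fin.ext hs, Fin.ext (by omega)⟩
  · have : (s'.val + 1) * M ≤ s.val * M := Nat.mul_le_mul_right M hs
    rw [Nat.succ_mul] at this; simp only [pos] at h; omega

/-- Is the address in the band of columns? -/
def Addr.IsBand : Addr g M → Prop
  | .band _ => True
  | _ => False

/-- The horizontal coordinate, unknown in the band of rows. -/
def Addr.xres : Addr g M → Option ℕ
  | .band a => some (g * M + a.val)
  | .bandP _ => Option.none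
  | .full sA oA _ _ => some (pos sA oA)

/-- The vertical coordinate, unknown in the band of columns. -/
def Addr.yres : Addr g M → Option ℕ
  | .band _ => Option.none
  | .bandP b => some (g * M + b.val)
  | .full _ _ sB oB => some (pos sB oB)

theorem Addr.xres_lt {A : Addr g M} {r : ℕ} (h : A.xres = some r) : r < side g M := by
  rw [side_eq]
  cases A with
  | band a => have := a.2; simp [Addr.xres] at h; omega
  | bandP b => simp [Addr.xres] at h
  | full sA oA sB oB => have := pos_lt sA oA; simp [Addr.xres] at h; omega

theorem Addr.yres_lt {A : Addr g M} {r : ℕ} (h : A.yres = some r) : r < side g M := by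
  rw [side_eq]
  cases A with
  | band a => simp [Addr.yres] at h
  | bandP b => have := b.2; simp [Addr.yres] at h; omega
  | full sA oA sB oB => have := pos_lt sB oB; simp [Addr.yres] at h; omega

theorem Addr.isBand_iff_xres {A : Addr g M} {r : ℕ} (h : A.xres = some r) :
    A.IsBand ↔ g * M ≤ r := by
  cases A with
  | band a => simp [Addr.xres] at h; simp [Addr.IsBand]; omega
  | bandP b => simp [Addr.xres] at h
  | full sA oA sB oB => have := pos_lt sA oA; simp [Addr.xres] at h; simp [Addr.IsBand]; omega

theorem Addr.exists_yres {A : Addr g M} (h : ¬A.IsBand) : ∃ r, A.yres = some r := by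
  cases A with
  | band a => exact absurd trivial h
  | bandP b => exact ⟨_, rfl⟩
  | full sA oA sB oB => exact ⟨_, rfl⟩

/-- An address is the pair of its coordinates. -/
theorem Addr.ext_res {A B : Addr g M} (hx : A.xres = B.xres) (hy : A.yres = B.yres) : A = B := by
  cases A <;> cases B <;> simp [Addr.xres, Addr.yres] at hx hy ⊢
  · exact Fin.ext hx
  · exact Fin.ext hy
  · exact ⟨(pos_inj hx).1, (pos_inj hx).2, (pos_inj hy).1, (pos_inj hy).2⟩

/-! ## The address at a pair of coordinates -/

section addrAt

variable [NeZero g] [NeZero M]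

/-- The address of the cell with coordinates `x`, `y` in its parent. -/
def addrAt (x y : ℕ) : Addr g M :=
  if g * M ≤ x then .band ⟨(x - g * M) % M, Nat.mod_lt _ (NeZero.pos M)⟩
  else if g * M ≤ y then .bandP ⟨(y - g * M) % M, Nat.mod_lt _ (NeZero.pos M)⟩
  else .full (segOf x) (offOf x) (segOf y) (offOf y)
where
  /-- The segment of a coordinate. -/
  segOf (z : ℕ) : Fin g := ⟨z / M % g, Nat.mod_lt _ (NeZero.pos g)⟩
  /-- The offset of a coordinate. -/
  offOf (z : ℕ) : Fin M := ⟨z % M, Nat.mod_lt _ (NeZero.pos M)⟩

theorem pos_ofNat {x : ℕ} (h : x < g * M) :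
    pos (addrAt.segOf (g := g) (M := M) x) (addrAt.offOf (M := M) x) = x := by
  have hd : x / M < g := (Nat.div_lt_iff_lt_mul (NeZero.pos M)).2 h
  simp only [pos, addrAt.segOf, addrAt.offOf, Nat.mod_eq_of_lt hd]
  exact Nat.div_add_mod' x M

theorem xres_addrAt {x : ℕ} (hx : x < side g M) (y : ℕ) :
    (addrAt x y : Addr g M).xres = if g * M ≤ x ∨ y < g * M then some x else Option.none := by
  rw [side_eq] at hx
  unfold addrAt
  by_cases h : g * M ≤ x
  · simp [h, Addr.xres, Nat.mod_eq_of_lt (show x - g * M < M by omega)]
  · by_cases h' : g * M ≤ y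
    · simp [h, h', Addr.xres, not_lt.2 h']
    · simp [h, h', Addr.xres, not_le.1 h', pos_ofNat (g := g) (M := M) (not_le.1 h)]

theorem yres_addrAt (x : ℕ) {y : ℕ} (hy : y < side g M) :
    (addrAt x y : Addr g M).yres = if g * M ≤ x then Option.none else some y := by
  rw [side_eq] at hy
  unfold addrAt
  by_cases h : g * M ≤ x
  · simp [h, Addr.yres]
  · by_cases h' : g * M ≤ y
    · simp [h, h', Addr.yres, Nat.mod_eq_of_lt (show y - g * M < M by omega)]
    · simp [h, h', Addr.yres, pos_ofNat (g := g) (M := M) (not_le.1 h')]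

theorem isBand_addrAt (x y : ℕ) : (addrAt x y : Addr g M).IsBand ↔ g * M ≤ x := by
  unfold addrAt
  by_cases h : g * M ≤ x <;> by_cases h' : g * M ≤ y <;> simp [h, h', Addr.IsBand]

/-- Only the corner has the address of the corner. -/
theorem addrAt_eq_zero_zero {x y : ℕ} (hx : x < side g M) (hy : y < side g M)
    (h : (addrAt x y : Addr g M) = addrAt 0 0) : x = 0 ∧ y = 0 := by
  have hp : 0 < g * M := Nat.mul_pos (NeZero.pos g) (NeZero.pos M)
  have h0 : 0 < side g M := by rw [side_eq]; omega
  have e1 := congrArg Addr.xres h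
  have e2 := congrArg Addr.yres h
  rw [xres_addrAt hx, xres_addrAt h0] at e1
  rw [yres_addrAt _ hy, yres_addrAt _ h0] at e2
  have c1 : ¬g * M ≤ 0 := by omega
  simp only [hp, c1, or_true, if_true, if_false] at e1 e2
  constructor
  · split_ifs at e1; simpa using e1
  · split_ifs at e2; simpa using e2

end addrAt

/-! ## One step -/

theorem HStep.xres_succ {A B : Addr g M} (h : HStep A B) {r r' : ℕ} (hA : A.xres = some r)
    (hB : B.xres = some r') : r' = (r + 1) % side g M := by
  rw [side_eq]
  cases A <;> cases B <;> simp only [Addr.xres, Option.some.injEq, reduceCtorEq] at hA hB <;>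
    simp only [HStep] at h
  case band.band a a' =>
    have := a'.2; subst hA; subst hB
    rw [Nat.mod_eq_of_lt (by omega)]; omega
  case band.full a sA oA sB oB =>
    obtain ⟨h1, h2⟩ := h; subst hA; subst hB
    rw [h2, show g * M + a.val + 1 = g * M + M by omega, Nat.mod_self]
  case full.band sA oA sB oB a =>
    obtain ⟨h1, h2⟩ := h; have := a.2; subst hA; subst hB
    rw [h1, h2, Nat.mod_eq_of_lt (by omega)]; rfl
  case full.full sA oA sB oB sA' oA' sB' oB' =>
    obtain ⟨h1, -, -⟩ := h
    have := pos_lt sA' oA'; subst hA; subst hB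
    rw [Nat.mod_eq_of_lt (by omega)]; exact h1

theorem HStep.yres_eq {A B : Addr g M} (h : HStep A B) (hA : ¬A.IsBand) (hB : ¬B.IsBand) :
    B.yres = A.yres := by
  cases A <;> cases B <;> simp [Addr.IsBand] at hA hB <;> simp only [HStep] at h
  · simp [Addr.yres, h]
  · obtain ⟨-, h2, h3⟩ := h; simp [Addr.yres, h2, h3]

theorem VStep.isBand_iff {A B : Addr g M} (h : VStep A B) : A.IsBand ↔ B.IsBand := by
  cases A <;> cases B <;> simp only [VStep] at h <;> simp [Addr.IsBand]

theorem VStep.xres_band {A B : Addr g M} (h : VStep A B) (hA : A.IsBand) : B.xres = A.xres := by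
  cases A <;> cases B <;> simp [Addr.IsBand] at hA <;> simp only [VStep] at h
  · simp [Addr.xres, h]

theorem VStep.yres_succ {A B : Addr g M} (h : VStep A B) {r r' : ℕ} (hA : A.yres = some r)
    (hB : B.yres = some r') : r' = (r + 1) % side g M := by
  rw [side_eq]
  cases A <;> cases B <;> simp only [Addr.yres, Option.some.injEq, reduceCtorEq] at hA hB <;>
    simp only [VStep] at h
  case bandP.bandP a a' =>
    have := a'.2; subst hA; subst hB
    rw [Nat.mod_eq_of_lt (by omega)]; omega
  case bandP.full a sA oA sB oB =>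
    obtain ⟨h1, h2⟩ := h; subst hA; subst hB
    rw [h2, show g * M + a.val + 1 = g * M + M by omega, Nat.mod_self]
  case full.bandP sA oA sB oB a =>
    obtain ⟨h1, h2⟩ := h; have := a.2; subst hA; subst hB
    rw [h1, h2, Nat.mod_eq_of_lt (by omega)]; rfl
  case full.full sA oA sB oB sA' oA' sB' oB' =>
    obtain ⟨h1, -, -⟩ := h
    have := pos_lt sB' oB'; subst hA; subst hB
    rw [Nat.mod_eq_of_lt (by omega)]; exact h1

section steps

variable [NeZero g] [NeZero M]

theorem hStep_addrAt {x : ℕ} (hx : x < side g M) (y : ℕ) :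
    HStep (addrAt x y : Addr g M) (addrAt ((x + 1) % side g M) y) := by
  have hp : 0 < g * M := Nat.mul_pos (NeZero.pos g) (NeZero.pos M)
  have hM := NeZero.pos M
  rw [side_eq] at hx ⊢
  unfold addrAt
  by_cases h1 : x + 1 = g * M + M
  · rw [h1, Nat.mod_self]
    have hb : g * M ≤ x := by omega
    by_cases h' : g * M ≤ y
    · simp [hb, show ¬g * M ≤ 0 by omega, h', HStep,
        Nat.mod_eq_of_lt (show x - g * M < M by omega)]
      omega
    · simp [hb, show ¬g * M ≤ 0 by omega, h', HStep,
        Nat.mod_eq_of_lt (show x - g * M < M by omega), pos_ofNat (g := g) (M := M) hp]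
      omega
  · rw [Nat.mod_eq_of_lt (show x + 1 < g * M + M by omega)]
    by_cases hb : g * M ≤ x
    · simp [hb, show g * M ≤ x + 1 by omega, HStep,
        Nat.mod_eq_of_lt (show x - g * M < M by omega),
        Nat.mod_eq_of_lt (show x + 1 - g * M < M by omega)]
      omega
    · by_cases hb' : g * M ≤ x + 1
      · by_cases h' : g * M ≤ y
        · simp [hb, hb', h', HStep, show x + 1 - g * M = 0 by omega]
        · simp [hb, hb', h', HStep, show x + 1 - g * M = 0 by omega,
            pos_ofNat (g := g) (M := M) (not_le.1 hb)]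
          omega
      · by_cases h' : g * M ≤ y
        · simp [hb, hb', h', HStep]
        · simp [hb, hb', h', HStep, pos_ofNat (g := g) (M := M) (not_le.1 hb),
            pos_ofNat (g := g) (M := M) (not_le.1 hb')]

theorem vStep_addrAt {x y : ℕ} (hy : y < side g M) :
    VStep (addrAt x y : Addr g M) (addrAt x ((y + 1) % side g M)) := by
  have hp : 0 < g * M := Nat.mul_pos (NeZero.pos g) (NeZero.pos M)
  have hM := NeZero.pos M
  rw [side_eq] at hy ⊢
  unfold addrAt
  by_cases hx : g * M ≤ x
  · simp [hx, VStep]
  by_cases h1 : y + 1 = g * M + M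
  · rw [h1, Nat.mod_self]
    simp [hx, show g * M ≤ y by omega, show ¬g * M ≤ 0 by omega, VStep,
      Nat.mod_eq_of_lt (show y - g * M < M by omega), pos_ofNat (g := g) (M := M) hp]
    omega
  · rw [Nat.mod_eq_of_lt (show y + 1 < g * M + M by omega)]
    by_cases hb : g * M ≤ y
    · simp [hx, hb, show g * M ≤ y + 1 by omega, VStep,
        Nat.mod_eq_of_lt (show y - g * M < M by omega),
        Nat.mod_eq_of_lt (show y + 1 - g * M < M by omega)]
      omega
    · by_cases hb' : g * M ≤ y + 1
      · simp [hx, hb, hb', VStep, show y + 1 - g * M = 0 by omega,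
          pos_ofNat (g := g) (M := M) (not_le.1 hb)]
        omega
      · simp [hx, hb, hb', VStep, pos_ofNat (g := g) (M := M) (not_le.1 hb),
          pos_ofNat (g := g) (M := M) (not_le.1 hb')]

end steps

/-! ## Legal tilings -/

/-- All that the grid needs from a kind table: the last ordinary column sends the mark out of row
`0`, and the first column refuses it in every other row. -/
structure GridRule (K : Fin g → Fin g → Loc → Kind) (loc : Fin M → Fin M → Loc) : Prop where
  lm_out : ∀ sA oA sB oB h v, pos sA oA + 1 = g * M → pos sB oB = 0 →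
    ∀ p ∈ (kindAt K loc (.full sA oA sB oB)).outs h v, p.1 = Sig.lm
  lm_in : ∀ sA oA sB oB v, pos sA oA = 0 → pos sB oB ≠ 0 →
    (kindAt K loc (.full sA oA sB oB)).outs Sig.lm v = []

variable {K : Fin g → Fin g → Loc → Kind} {loc : Fin M → Fin M → Loc} {t : Cell → Colour g M}

/-- The residue of `c` on the grid that starts at `o`. -/
def res (g M : ℕ) (o c : ℤ) : ℕ := ((c - o) % (side g M : ℤ)).toNat

theorem res_lt [NeZero M] (o c : ℤ) : res g M o c < side g M := by
  have hp : 0 < side g M := Nat.mul_pos g.succ_pos (NeZero.pos M)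
  have h1 := Int.emod_lt_of_pos (c - o) (b := (side g M : ℤ)) (by exact_mod_cast hp)
  have h2 := Int.emod_nonneg (c - o) (b := (side g M : ℤ)) (by omega)
  simp only [res]; omega

theorem res_cast [NeZero M] (o c : ℤ) : (res g M o c : ℤ) = (c - o) % (side g M : ℤ) := by
  have hp : 0 < side g M := Nat.mul_pos g.succ_pos (NeZero.pos M)
  exact Int.toNat_of_nonneg (Int.emod_nonneg _ (by omega))

theorem res_succ [NeZero M] (o c : ℤ) : res g M o (c + 1) = (res g M o c + 1) % side g M := by
  apply Int.ofNat.inj
  change ((res g M o (c + 1) : ℕ) : ℤ) = (((res g M o c + 1) % side g M : ℕ) : ℤ)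
  push_cast
  rw [res_cast, res_cast, Int.emod_add_emod]
  congr 1; ring

/-- A cyclic successor function is the residue of some grid. -/
theorem eq_res_of_succ [NeZero M] {f : ℤ → ℕ} (hlt : ∀ z, f z < side g M)
    (hs : ∀ z, f (z + 1) = (f z + 1) % side g M) (z : ℤ) : f z = res g M (-(f 0 : ℤ)) z := by
  induction z using Int.induction_on with
  | zero =>
    apply Int.ofNat.inj
    change (f 0 : ℤ) = (res g M _ 0 : ℤ)
    rw [res_cast, sub_neg_eq_add, zero_add,
      Int.emod_eq_of_lt (by omega) (by exact_mod_cast hlt 0)]
  | succ i ih => rw [hs, res_succ, ih]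
  | pred i ih =>
    have h1 := hs (-(i : ℤ) - 1)
    have h2 := res_succ (g := g) (M := M) (-(f 0 : ℤ)) (-(i : ℤ) - 1)
    rw [sub_add_cancel, ih] at h1
    rw [sub_add_cancel] at h2
    rw [h2] at h1
    have a1 := hlt (-(i : ℤ) - 1)
    have a2 := res_lt (g := g) (M := M) (-(f 0 : ℤ)) (-(i : ℤ) - 1)
    generalize res g M (-(f 0 : ℤ)) (-(i : ℤ) - 1) = u at h1 a2 ⊢
    generalize f (-(i : ℤ) - 1) = v at h1 a1 ⊢
    by_cases c1 : u + 1 = side g M <;> by_cases c2 : v + 1 = side g M
    · omega
    · rw [c1, Nat.mod_self, Nat.mod_eq_of_lt (show v + 1 < side g M by omega)] at h1; omega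
    · rw [c2, Nat.mod_self, Nat.mod_eq_of_lt (show u + 1 < side g M by omega)] at h1; omega
    · rw [Nat.mod_eq_of_lt (show v + 1 < side g M by omega),
        Nat.mod_eq_of_lt (show u + 1 < side g M by omega)] at h1
      omega

/-- Two grids with one common residue have all residues in common. -/
theorem res_congr [NeZero M] {o o' z : ℤ} (h : res g M o z = res g M o' z) (w : ℤ) :
    res g M o w = res g M o' w := by
  have h' : (z - o) % (side g M : ℤ) = (z - o') % (side g M : ℤ) := by
    rw [← res_cast, ← res_cast, h]
  apply Int.ofNat.inj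
  change (res g M o w : ℤ) = (res g M o' w : ℤ)
  rw [res_cast, res_cast, show w - o = (w - z) + (z - o) by ring,
    show w - o' = (w - z) + (z - o') by ring, Int.add_emod, h', ← Int.add_emod]

theorem res_add [NeZero M] (o : ℤ) (q : ℤ) {r : ℕ} (hr : r < side g M) :
    res g M o (o + q * (side g M : ℤ) + r) = r := by
  apply Int.ofNat.inj
  change (res g M o _ : ℤ) = (r : ℤ)
  rw [res_cast, show o + q * (side g M : ℤ) + r - o = (r : ℤ) + q * (side g M : ℤ) by ring,
    Int.add_mul_emod_self_right, Int.emod_eq_of_lt (by omega) (by exact_mod_cast hr)]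

theorem legal_hStep (hl : Legal (windows K loc) t) (x y : ℤ) :
    HStep (t (x, y)).addr (t (x + 1, y)).addr := by
  simpa [windowAt] using (hl (x, y)).1 0

theorem legal_vStep (hl : Legal (windows K loc) t) (x y : ℤ) :
    VStep (t (x, y)).addr (t (x, y + 1)).addr := by
  simpa [windowAt] using (hl (x, y)).2.1 0

theorem legal_event (hl : Legal (windows K loc) t) (x y : ℤ) :
    ((t (x, y)).h, (t (x, y)).v) ∈
      (kindAt K loc (t (x, y)).addr).outs (t (x - 1, y)).h (t (x, y - 1)).v := by
  have := (hl (x - 1, y - 1)).2.2
  simpa [Event.Ok, winEvent, windowAt] using this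

theorem isBand_col (hl : Legal (windows K loc) t) (x y y' : ℤ) :
    (t (x, y)).addr.IsBand ↔ (t (x, y')).addr.IsBand := by
  have h : ∀ z, (t (x, z)).addr.IsBand ↔ (t (x, 0)).addr.IsBand := by
    intro z
    induction z using Int.induction_on with
    | zero => rfl
    | succ i ih => exact (legal_vStep hl x i).isBand_iff.symm.trans ih
    | pred i ih =>
      have := legal_vStep hl x (-(i : ℤ) - 1)
      rw [sub_add_cancel] at this
      exact this.isBand_iff.trans ih
  exact (h y).trans (h y').symm

theorem xres_band_col (hl : Legal (windows K loc) t) {x y : ℤ} (hb : (t (x, y)).addr.IsBand)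
    (y' : ℤ) : (t (x, y')).addr.xres = (t (x, y)).addr.xres := by
  have h : ∀ z, (t (x, z)).addr.xres = (t (x, 0)).addr.xres := by
    intro z
    induction z using Int.induction_on with
    | zero => rfl
    | succ i ih =>
      exact ((legal_vStep hl x i).xres_band ((isBand_col hl x _ _).1 hb)).trans ih
    | pred i ih =>
      have := legal_vStep hl x (-(i : ℤ) - 1)
      rw [sub_add_cancel] at this
      exact ((this.xres_band ((isBand_col hl x _ _).1 hb)).symm).trans ih
  exact (h y').trans (h y).symm

/-- Every column meets a cell that knows its horizontal coordinate. -/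
theorem exists_xres (hl : Legal (windows K loc) t) (x y : ℤ) :
    ∃ y' r, (t (x, y')).addr.xres = some r := by
  by_contra! hc
  have hP : ∀ z, ∃ b, (t (x, z)).addr = .bandP b := by
    intro z
    rcases e : (t (x, z)).addr with a | b | ⟨sA, oA, sB, oB⟩
    · exact absurd (by rw [e]; rfl) (hc z (g * M + a.val))
    · exact ⟨b, rfl⟩
    · exact absurd (by rw [e]; rfl) (hc z (pos sA oA))
  choose b hb using hP
  have step : ∀ k : ℕ, k ≤ (b (y + k)).val := by
    intro k
    induction k with
    | zero => exact Nat.zero_le _
    | succ k ih =>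
      have h := legal_vStep hl x (y + k)
      rw [hb, hb] at h
      simp only [VStep] at h
      push_cast
      rw [← add_assoc]; omega
  have := (b (y + M)).2
  have := step M
  omega

/-- In a column the horizontal coordinate is unique. -/
theorem xres_unique (hl : Legal (windows K loc) t) {x y y' : ℤ} {r r' : ℕ}
    (h : (t (x, y)).addr.xres = some r) (h' : (t (x, y')).addr.xres = some r') : r = r' := by
  obtain hb | hb := em (t (x, y)).addr.IsBand
  · rw [xres_band_col hl hb y', h] at h'; exact Option.some.inj h'
  have hlt := not_le.1 fun hh => hb (((t (x, y)).addr.isBand_iff_xres h).2 hh)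
  generalize hk : g * M - r = k
  induction k generalizing x r r' with
  | zero => omega
  | succ k ih =>
    have hlt' : r' < g * M := not_le.1 fun hh =>
      hb ((isBand_col hl x y' y).1 (((t (x, y')).addr.isBand_iff_xres h').2 hh))
    have hside := side_eq g M
    -- the neighbour on the right knows its coordinate
    have hsome : ∀ z s, s < g * M → (t (x, z)).addr.xres = some s →
        (t (x + 1, z)).addr.xres = some (s + 1) := by
      intro z s hs e
      have st := legal_hStep hl x z
      rcases e1 : (t (x, z)).addr with a | b | ⟨sA, oA, sB, oB⟩ <;> rw [e1] at e st <;>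
        simp [Addr.xres] at e
      · omega
      rcases e2 : (t (x + 1, z)).addr with a | b | ⟨sA', oA', sB', oB'⟩ <;> rw [e2] at st <;>
        simp only [HStep] at st
      · simp [Addr.xres]; omega
      · simp [Addr.xres]; omega
    have e := hsome y r hlt h
    have e' := hsome y' r' hlt' h'
    by_cases hB : (t (x + 1, y)).addr.IsBand
    · rw [xres_band_col hl hB y', e] at e'; simpa using e'
    · have : r + 1 = r' + 1 :=
        ih e e' hB (not_le.1 fun hh => hB (((t (x + 1, y)).addr.isBand_iff_xres e).2 hh)) (by omega)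
      omega

/-- The horizontal grid. -/
theorem exists_xgrid [NeZero M] (hl : Legal (windows K loc) t) :
    ∃ o : ℤ, ∀ x y r, (t (x, y)).addr.xres = some r → r = res g M o x := by
  have hex : ∀ x, ∃ r, ∃ y, (t (x, y)).addr.xres = some r := fun x => by
    obtain ⟨y, r, h⟩ := exists_xres hl x 0; exact ⟨r, y, h⟩
  choose R hR using hex
  have hlt : ∀ x, R x < side g M := fun x => (hR x).choose_spec |> Addr.xres_lt
  have hstep : ∀ x, R (x + 1) = (R x + 1) % side g M := by
    intro x
    obtain ⟨y, hy⟩ := hR x
    obtain ⟨y1, hy1⟩ := hR (x + 1)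
    rcases e : (t (x + 1, y)).addr.xres with - | r'
    · -- the neighbour on the right is in the band of rows, so this cell is band
      have st := legal_hStep hl x y
      have hb : (t (x, y)).addr.IsBand := by
        rcases e1 : (t (x, y)).addr with a | b | ⟨sA, oA, sB, oB⟩
        · trivial
        · rw [e1] at hy; simp [Addr.xres] at hy
        · rcases e2 : (t (x + 1, y)).addr with a | b | ⟨sA', oA', sB', oB'⟩ <;>
            rw [e2] at e st <;> simp [Addr.xres] at e
          rw [e1] at st; exact st.elim
      have hy' := hy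
      rw [← xres_band_col hl hb y1] at hy'
      exact (legal_hStep hl x y1).xres_succ hy' hy1
    · rw [xres_unique hl hy1 e]
      exact (legal_hStep hl x y).xres_succ hy e
  refine ⟨-(R 0 : ℤ), fun x y r h => ?_⟩
  obtain ⟨y0, hy0⟩ := hR x
  rw [xres_unique hl h hy0]
  exact eq_res_of_succ hlt hstep x

/-- In the band the signal to the right is passed on. -/
theorem band_h (hl : Legal (windows K loc) t) {x y : ℤ} (hb : (t (x, y)).addr.IsBand) :
    (t (x, y)).h = (t (x - 1, y)).h := by
  have h := legal_event hl x y
  rcases e : (t (x, y)).addr with a | b | ⟨sA, oA, sB, oB⟩ <;> rw [e] at hb <;>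
    first | exact hb.elim | skip
  rw [e] at h
  simp [kindAt, Kind.outs] at h
  exact h.1

section offset

variable [NeZero g] [NeZero M]

omit [NeZero g] [NeZero M] in
/-- The bands of columns are exactly the residues past the ordinary segments. -/
theorem isBand_iff_res (hl : Legal (windows K loc) t) {o : ℤ}
    (ho : ∀ x y r, (t (x, y)).addr.xres = some r → r = res g M o x) (x y : ℤ) :
    (t (x, y)).addr.IsBand ↔ g * M ≤ res g M o x := by
  obtain ⟨y', r, h⟩ := exists_xres hl x y
  rw [isBand_col hl x y y', (t (x, y')).addr.isBand_iff_xres h, ho x y' r h]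

/-- The vertical grid is the same in every column outside the bands. -/
theorem exists_ygrid (hK : GridRule K loc) (hl : Legal (windows K loc) t) {o : ℤ}
    (ho : ∀ x y r, (t (x, y)).addr.xres = some r → r = res g M o x) :
    ∃ p : ℤ, ∀ x y r, (t (x, y)).addr.yres = some r → r = res g M p y := by
  have hp : 0 < g * M := Nat.mul_pos (NeZero.pos g) (NeZero.pos M)
  have hM := NeZero.pos M
  have hside := side_eq g M
  -- every column outside the bands has its own grid
  have hcol : ∀ x, ∃ p : ℤ, ∀ y r, (t (x, y)).addr.yres = some r → r = res g M p y := by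
    intro x
    by_cases hb : (t (x, 0)).addr.IsBand
    · refine ⟨0, fun y r h => ?_⟩
      have := (isBand_col hl x 0 y).1 hb
      rcases e : (t (x, y)).addr with a | b | ⟨sA, oA, sB, oB⟩ <;> rw [e] at h this
      · simp [Addr.yres] at h
      all_goals exact this.elim
    · choose f hf using fun y => Addr.exists_yres (A := (t (x, y)).addr)
        (fun h => hb ((isBand_col hl x y 0).1 h))
      refine ⟨-(f 0 : ℤ), fun y r h => ?_⟩
      rw [hf y] at h
      rw [← Option.some.inj h]
      exact eq_res_of_succ (fun z => Addr.yres_lt (hf z))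
        (fun z => (legal_vStep hl x z).yres_succ (hf z) (hf (z + 1))) y
  choose P hP using hcol
  have notBand : ∀ q : ℤ, ∀ r : ℕ, r < g * M → ∀ y,
      ¬(t (o + q * (side g M : ℤ) + r, y)).addr.IsBand := by
    intro q r hr y
    rw [isBand_iff_res hl ho, res_add o q (by omega)]; omega
  let S (x : ℤ) : ℕ := res g M (P x) 0
  have agree : ∀ x x' y r, (t (x, y)).addr.yres = some r → (t (x', y)).addr.yres = some r →
      S x = S x' := by
    intro x x' y r h h'
    exact res_congr ((hP x y r h).symm.trans (hP x' y r h')) 0
  -- along the ordinary columns of one parent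
  have inner : ∀ q : ℤ, ∀ r : ℕ, r < g * M →
      S (o + q * (side g M : ℤ) + r) = S (o + q * (side g M : ℤ)) := by
    intro q r hr
    induction r with
    | zero => simp
    | succ r ih =>
      rw [← ih (by omega)]
      have h1 := notBand q r (by omega) 0
      have h2 := notBand q (r + 1) hr 0
      push_cast at h2 ⊢
      rw [← add_assoc] at h2 ⊢
      obtain ⟨v, hv⟩ := Addr.exists_yres h1
      exact agree _ _ 0 v (((legal_hStep hl _ 0).yres_eq h1 h2).trans hv) hv
  -- across a band
  have across : ∀ q : ℤ,
      S (o + (q + 1) * (side g M : ℤ)) = S (o + q * (side g M : ℤ)) := by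
    intro q
    rw [← inner q (g * M - 1) (by omega)]
    have hx0 := fun y => notBand q (g * M - 1) (by omega) y
    have hxr : res g M o (o + q * (side g M : ℤ) + (g * M - 1 : ℕ)) = g * M - 1 :=
      res_add o q (by omega)
    have hx1 : o + (q + 1) * (side g M : ℤ) =
        o + q * (side g M : ℤ) + (g * M - 1 : ℕ) + (M + 1 : ℕ) := by
      have : (side g M : ℤ) = (g * M - 1 : ℕ) + (M + 1 : ℕ) := by
        rw [hside]; push_cast [Nat.cast_sub (show 1 ≤ g * M from hp)]; ring
      rw [add_mul, one_mul, this]; ring
    have hb1 := fun y => notBand (q + 1) 0 hp y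
    have hb1r : res g M o (o + (q + 1) * (side g M : ℤ)) = 0 := by
      simpa using res_add (g := g) (M := M) o (q + 1) (r := 0) (by omega)
    simp only [Nat.cast_zero, add_zero] at hb1
    generalize hx : o + q * (side g M : ℤ) + (g * M - 1 : ℕ) = x0 at hx0 hxr hx1 ⊢
    -- the marked row
    obtain ⟨v, hv⟩ := Addr.exists_yres (hx0 0)
    have hy0 : (t (x0, -(v : ℤ))).addr.yres = some 0 := by
      obtain ⟨w, hw⟩ := Addr.exists_yres (hx0 (-(v : ℤ)))
      rw [hw]
      have h1 := hP x0 0 v hv
      have h2 := hP x0 (-(v : ℤ)) w hw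
      have h3 : ((0 - P x0) % (side g M : ℤ)) = (v : ℤ) := by rw [← res_cast, ← h1]
      have h4 : (w : ℤ) = 0 := by
        rw [h2, res_cast, show -(v : ℤ) - P x0 = -(v : ℤ) + (0 - P x0) by ring,
          ← Int.add_emod_emod, h3]
        simp
      exact congrArg some (by omega)
    generalize -(v : ℤ) = y0 at hy0
    have hlm : (t (x0, y0)).h = Sig.lm := by
      have ev := legal_event hl x0 y0
      rcases e : (t (x0, y0)).addr with a | b | ⟨sA, oA, sB, oB⟩ <;> rw [e] at ev hy0
      · simp [Addr.yres] at hy0
      · simp only [Addr.yres, Option.some.injEq] at hy0; omega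
      · refine hK.lm_out sA oA sB oB _ _ ?_ (by simpa [Addr.yres] using hy0) _ ev
        have := ho x0 y0 (pos sA oA) (by rw [e]; rfl)
        omega
    have pass : ∀ k : ℕ, k ≤ M → (t (x0 + k, y0)).h = Sig.lm := by
      intro k
      induction k with
      | zero => intro; simpa using hlm
      | succ k ih =>
        intro hk
        have hb : (t (x0 + (k + 1 : ℕ), y0)).addr.IsBand := by
          rw [isBand_iff_res hl ho, ← hx, show o + q * (side g M : ℤ) + (g * M - 1 : ℕ) +
              (k + 1 : ℕ) = o + q * (side g M : ℤ) + (g * M + k : ℕ) by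
            push_cast [Nat.cast_sub (show 1 ≤ g * M from hp)]; ring, res_add o q (by omega)]
          omega
        rw [band_h hl hb, ← ih (by omega)]
        push_cast
        rw [← add_assoc, add_sub_cancel_right]
    have hin : (t (o + (q + 1) * (side g M : ℤ), y0)).addr.yres = some 0 := by
      have ev := legal_event hl (o + (q + 1) * (side g M : ℤ)) y0
      have hL : (t (o + (q + 1) * (side g M : ℤ) - 1, y0)).h = Sig.lm := by
        rw [hx1, ← pass M le_rfl]
        push_cast
        rw [← add_assoc, add_sub_cancel_right]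
      rw [hL] at ev
      rcases e : (t (o + (q + 1) * (side g M : ℤ), y0)).addr with a | b | ⟨sA, oA, sB, oB⟩ <;>
        rw [e] at ev
      · exact absurd (by rw [e]; trivial) (hb1 y0)
      · simp [kindAt, Kind.outs] at ev
      · by_contra hne
        have h0 : pos sA oA = 0 :=
          (ho _ y0 (pos sA oA) (by rw [e]; rfl)).trans hb1r
        rw [hK.lm_in sA oA sB oB _ h0 (by simpa [Addr.yres] using hne)] at ev
        simp at ev
    exact agree _ _ y0 0 hin hy0
  have all : ∀ q : ℤ, S (o + q * (side g M : ℤ)) = S o := by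
    intro q
    induction q using Int.induction_on with
    | zero => simp
    | succ i ih => rw [across, ih]
    | pred i ih =>
      rw [← ih]
      have := across (-(i : ℤ) - 1)
      rw [sub_add_cancel] at this
      exact this.symm
  refine ⟨P o, fun x y r h => ?_⟩
  have hb : ¬g * M ≤ res g M o x := by
    rw [← isBand_iff_res hl ho x y]
    intro hb
    rcases e : (t (x, y)).addr with a | b | ⟨sA, oA, sB, oB⟩ <;> rw [e] at h hb
    · simp [Addr.yres] at h
    all_goals exact hb.elim
  have hxe : x = o + (x - o) / (side g M : ℤ) * (side g M : ℤ) + (res g M o x : ℤ) := by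
    rw [res_cast]; linarith [Int.emod_def (x - o) (side g M : ℤ)]
  have hS : S x = S o := by
    rw [hxe, inner _ _ (by omega), all]
  rw [hP x y r h]
  exact res_congr hS y

/-- A legal tiling has a grid: the address of every cell is that of its residue. -/
theorem exists_offset (hK : GridRule K loc) (hl : Legal (windows K loc) t) :
    ∃ o : Fin (side g M) × Fin (side g M), ∀ v : Cell,
      (t v).addr = addrAt (res g M o.1.val v.1) (res g M o.2.val v.2) := by
  obtain ⟨o, ho⟩ := exists_xgrid hl
  obtain ⟨p, hp⟩ := exists_ygrid hK hl ho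
  have hN : 0 < side g M := by
    rw [side_eq]; have := NeZero.pos M; omega
  have norm : ∀ o : ℤ, ∃ o' : Fin (side g M), ∀ c, res g M o c = res g M o'.val c := by
    intro o
    have h1 := Int.emod_nonneg o (b := (side g M : ℤ)) (by omega)
    have h2 := Int.emod_lt_of_pos o (b := (side g M : ℤ)) (by omega)
    refine ⟨⟨(o % (side g M : ℤ)).toNat, by omega⟩, fun c => ?_⟩
    simp only [res, Int.toNat_of_nonneg h1, Int.sub_emod_emod]
  obtain ⟨o', ho'⟩ := norm o
  obtain ⟨p', hp'⟩ := norm p
  refine ⟨(o', p'), fun v => ?_⟩
  obtain ⟨x, y⟩ := v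
  dsimp only
  rw [← ho', ← hp']
  have hband := isBand_iff_res hl ho x y
  apply Addr.ext_res
  · rw [xres_addrAt (res_lt o x)]
    rcases e : (t (x, y)).addr.xres with - | r
    · rcases e' : (t (x, y)).addr with a | b | ⟨sA, oA, sB, oB⟩ <;> rw [e'] at e hband <;>
        simp [Addr.xres] at e
      have h2 := hp x y (g * M + b.val) (by rw [e']; rfl)
      simp only [Addr.IsBand, false_iff] at hband
      rw [if_neg (by omega)]
    · have h1 := ho x y r e
      rw [if_pos, h1]
      rcases e' : (t (x, y)).addr with a | b | ⟨sA, oA, sB, oB⟩ <;> rw [e'] at e hband <;>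
        simp [Addr.xres] at e
      · exact Or.inl (hband.1 trivial)
      · have h2 := hp x y (pos sB oB) (by rw [e']; rfl)
        have := pos_lt sB oB
        exact Or.inr (by omega)
  · rw [yres_addrAt _ (res_lt p y)]
    rcases e : (t (x, y)).addr.yres with - | r
    · rcases e' : (t (x, y)).addr with a | b | ⟨sA, oA, sB, oB⟩ <;> rw [e'] at e hband <;>
        simp [Addr.yres] at e
      rw [if_pos (hband.1 trivial)]
    · rw [if_neg, hp x y r e]
      intro hh
      have hb := hband.2 hh
      rcases e' : (t (x, y)).addr with a | b | ⟨sA, oA, sB, oB⟩ <;> rw [e'] at e hb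
      · simp [Addr.yres] at e
      all_goals exact hb.elim

/-- The addresses of a grid step correctly to the right. -/
theorem hStep_res (o p : ℤ) (x y : ℤ) :
    HStep (addrAt (res g M o x) (res g M p y) : Addr g M)
      (addrAt (res g M o (x + 1)) (res g M p y)) := by
  rw [res_succ]; exact hStep_addrAt (res_lt o x) _

/-- The addresses of a grid step correctly upwards. -/
theorem vStep_res (o p : ℤ) (x y : ℤ) :
    VStep (addrAt (res g M o x) (res g M p y) : Addr g M)
      (addrAt (res g M o x) (res g M p (y + 1))) := by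
  rw [res_succ]; exact vStep_addrAt (res_lt p y)

/-- The grid of a tiling is unique. -/
theorem offset_unique {o o' : Fin (side g M) × Fin (side g M)}
    (h : ∀ v : Cell, (addrAt (res g M o.1.val v.1) (res g M o.2.val v.2) : Addr g M) =
      addrAt (res g M o'.1.val v.1) (res g M o'.2.val v.2)) : o = o' := by
  have h0 := h ((o.1.val : ℤ), (o.2.val : ℤ))
  have r0 : ∀ a : ℤ, res g M a a = 0 := fun a => by simp [res]
  rw [r0, r0] at h0
  obtain ⟨h1, h2⟩ := addrAt_eq_zero_zero (res_lt _ _) (res_lt _ _) h0.symm
  have key : ∀ a b : Fin (side g M), res g M (b.val : ℤ) (a.val : ℤ) = 0 → a = b := by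
    intro a b hab
    have hd : ((a.val : ℤ) - b.val) % (side g M : ℤ) = 0 := by
      rw [← res_cast, hab]; rfl
    obtain ⟨c, hc⟩ := Int.dvd_of_emod_eq_zero hd
    have ha := a.2
    have hb := b.2
    have : c = 0 := by
      rcases lt_trichotomy c 0 with hc' | hc' | hc'
      · have : (side g M : ℤ) * c ≤ -(side g M : ℤ) := by nlinarith
        omega
      · exact hc'
      · have : (side g M : ℤ) ≤ (side g M : ℤ) * c := by nlinarith
        omega
    exact Fin.ext (by rw [this, mul_zero] at hc; omega)
  exact Prod.ext (key _ _ h1) (key _ _ h2)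

end offset

end Vale.Agent.P196.W
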