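import Vale.Agent.P196.Fp.AllCom

/-!
# P196: forced propagation of local events

`Imp E a b` is the transitive order of an event algebra. `Forced L z p P` says that below the event
`z` the colour of the cell `p` satisfies `P`. One window rule passes such facts to the next cell
(`forced_step`), so a chain of local deductions from a single event becomes an inequality, and two
events forcing disjoint sets at one cell commute.
-/

namespace Vale.Agent.P196.W

open Vale.Agent.P196.Fp Vale.Agent.P196.Sft EventAlgebra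

/-! ## The order -/

/-- `a` commutes with `b` and lies below it. -/
def Imp (E : EventAlgebra) (a b : E.B) : Prop := E.com a b ∧ E.inf a b = a

variable {E : EventAlgebra.{0}}

theorem Imp.refl (a : E.B) : Imp E a a := ⟨E.com_refl a, E.inf_idem a⟩

theorem Imp.trans {a b c : E.B} (h : Imp E a b) (h' : Imp E b c) : Imp E a c :=
  E.com_trans a b c h.1 h'.1 h.2 h'.2

theorem imp_top (a : E.B) : Imp E a E.top := ⟨E.com_top a, E.inf_top a⟩

theorem bot_imp (a : E.B) : Imp E E.bot a := ⟨bot_com a, bot_inf a⟩

theorem Imp.eq {a b : E.B} (h : Imp E a b) (h' : Imp E b a) : a = b := by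
  rw [← h.2, E.inf_comm _ _ h.1, h'.2]

theorem eq_bot_of_imp {a : E.B} (h : Imp E a E.bot) : a = E.bot := by rw [← h.2, E.inf_bot]

theorem Imp.inf {z x y : E.B} (hx : Imp E z x) (hy : Imp E z y) (hxy : E.com x y) :
    Imp E z (E.inf x y) :=
  ⟨E.com_inf z x y hx.1 hy.1 hxy, by rw [← E.inf_assoc z x y hx.1 hy.1 hxy, hx.2, hy.2]⟩

/-- The block of one event and one other that commutes with it. -/
def pairBlock (a b : E.B) (h : E.com a b) : E.Block :=
  ⟨{a, b}, by
    rintro p (rfl | rfl) q (rfl | rfl)
    exacts [E.com_refl _, h, E.com_symm _ _ h, E.com_refl _]⟩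

theorem Imp.compl {a b : E.B} (h : Imp E a b) : Imp E (E.compl b) (E.compl a) := by
  let S := pairBlock a b h.1
  let A : S.Elem := S.mem (x := a) (Or.inl rfl)
  let B : S.Elem := S.mem (x := b) (Or.inr rfl)
  have hab : A ≤ B := Subtype.ext h.2
  exact ⟨Bᶜ.com Aᶜ, (Block.Elem.le_iff _ _).1 (compl_le_compl hab)⟩

theorem imp_compl_of_inf {x y : E.B} (h : E.com x y) (h0 : E.inf x y = E.bot) :
    Imp E x (E.compl y) := by
  let S := pairBlock x y h
  let A : S.Elem := S.mem (x := x) (Or.inl rfl)
  let B : S.Elem := S.mem (x := y) (Or.inr rfl)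
  have hab : A ≤ Bᶜ := Block.Elem.le_compl_of_inf (Subtype.ext h0)
  exact ⟨A.com Bᶜ, (Block.Elem.le_iff _ _).1 hab⟩

/-- Events below two disjoint ones commute and are disjoint. -/
theorem com_of_imp_disjoint {z z' x y : E.B} (h : Imp E z x) (h' : Imp E z' y) (hc : E.com x y)
    (h0 : E.inf x y = E.bot) : E.com z z' ∧ E.inf z z' = E.bot := by
  have t : Imp E z (E.compl z') := (h.trans (imp_compl_of_inf hc h0)).trans h'.compl
  have hz : E.com z z' := by
    have := E.com_compl _ _ t.1
    rwa [E.compl_compl] at this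
  refine ⟨hz, ?_⟩
  rw [← t.2, E.inf_assoc _ _ _ t.1 hz (E.com_symm _ _ (E.com_compl _ _ (E.com_refl z'))),
    E.inf_comm _ _ (E.com_symm _ _ (E.com_compl _ _ (E.com_refl z'))), E.inf_compl, E.inf_bot]

theorem com_inf' {a b c : E.B} (h : E.com a b) (h' : E.com a c) (h'' : E.com b c) :
    E.com (E.inf b c) a :=
  E.com_symm _ _ (E.com_inf a b c h h' h'')

theorem inf_imp_left {a b : E.B} (h : E.com a b) : Imp E (E.inf a b) a := by
  let S := pairBlock a b h
  let A : S.Elem := S.mem (x := a) (Or.inl rfl)
  let B : S.Elem := S.mem (x := b) (Or.inr rfl)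
  exact ⟨(A ⊓ B).com A, (Block.Elem.le_iff (A ⊓ B) A).1 inf_le_left⟩

theorem inf_imp_right {a b : E.B} (h : E.com a b) : Imp E (E.inf a b) b := by
  let S := pairBlock a b h
  let A : S.Elem := S.mem (x := a) (Or.inl rfl)
  let B : S.Elem := S.mem (x := b) (Or.inr rfl)
  exact ⟨(A ⊓ B).com B, (Block.Elem.le_iff (A ⊓ B) B).1 inf_le_right⟩

/-! ## The event of a set of colours at a cell -/

variable {α : Type} [Fintype α] {W : Set (Win α)} (L : LocalEvents E W)

/-- The events of the four cells of a window. -/
def winBlock (a : Cell) : E.Block where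
  set := {x | ∃ (d : Fin 2 × Fin 2) (c : α), L.ev (corner a d) c = x}
  com := by
    rintro _ ⟨d, c, rfl⟩ _ ⟨d', c', rfl⟩
    refine L.near _ _ c c' ?_ ?_ <;> simp only [corner] <;> rw [abs_le] <;>
      have := d.1.isLt <;> have := d.2.isLt <;> have := d'.1.isLt <;> have := d'.2.isLt <;> omega

/-- The events of one cell. -/
def cellBlock (p : Cell) : E.Block where
  set := Set.range (L.ev p)
  com := by
    rintro _ ⟨c, rfl⟩ _ ⟨d, rfl⟩
    exact L.near p p c d (by simp) (by simp)

/-- A colour event in the block of its cell. -/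
def cellEl (p : Cell) (c : α) : (cellBlock L p).Elem := Block.mem _ (x := L.ev p c) ⟨c, rfl⟩

/-- A colour event in the block of a window. -/
def winEl (a : Cell) (d : Fin 2 × Fin 2) (c : α) : (winBlock L a).Elem :=
  Block.mem _ (x := L.ev (corner a d) c) ⟨d, c, rfl⟩

open Classical in
/-- The colour of `p` satisfies `P`, in the block of `p`. -/
noncomputable def cellSup (p : Cell) (P : α → Prop) : (cellBlock L p).Elem :=
  (Finset.univ.filter P).sup (cellEl L p)

/-- The colour of `p` satisfies `P`. -/
noncomputable def evP (p : Cell) (P : α → Prop) : E.B := (cellSup L p P).1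

variable {L}

theorem cellEl_le_cellSup {p : Cell} {P : α → Prop} {c : α} (h : P c) :
    cellEl L p c ≤ cellSup L p P := by
  classical
  exact Finset.le_sup (f := cellEl L p) (Finset.mem_filter.2 ⟨Finset.mem_univ c, h⟩)

theorem cellSup_le {p : Cell} {P : α → Prop} {u : (cellBlock L p).Elem}
    (h : ∀ c, P c → cellEl L p c ≤ u) : cellSup L p P ≤ u := by
  classical
  exact Finset.sup_le fun c hc => h c (Finset.mem_filter.1 hc).2

theorem cellSup_mono {p : Cell} {P Q : α → Prop} (h : ∀ c, P c → Q c) :
    cellSup L p P ≤ cellSup L p Q :=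
  cellSup_le fun c hc => cellEl_le_cellSup (h c hc)

theorem cellSup_and (p : Cell) (P Q : α → Prop) :
    cellSup L p P ⊓ cellSup L p Q = cellSup L p fun c => P c ∧ Q c := by
  classical
  refine _root_.le_antisymm ?_ (_root_.le_inf (cellSup_mono fun c h => h.1)
    (cellSup_mono fun c h => h.2))
  simp only [cellSup, Finset.sup_inf_distrib_right, Finset.sup_inf_distrib_left,
    Finset.sup_le_iff, Finset.mem_filter, Finset.mem_univ, true_and]
  intro d hd c hc
  rcases eq_or_ne c d with rfl | hne
  · exact inf_le_left.trans (cellEl_le_cellSup (L := L) (P := fun c => P c ∧ Q c) ⟨hc, hd⟩)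
  · rw [show cellEl L p c ⊓ cellEl L p d = ⊥ from Subtype.ext (L.exclusive p c d hne)]
    exact _root_.bot_le

open Classical in
theorem evP_eq_sup (a : Cell) (d : Fin 2 × Fin 2) (P : α → Prop) :
    evP L (corner a d) P = ((Finset.univ.filter P).sup (winEl L a d)).1 :=
  sup_val_congr _ _ _ fun _ _ => rfl

theorem com_evP {z : E.B} {p : Cell} {P : α → Prop} (h : ∀ c, P c → E.com z (L.ev p c)) :
    E.com z (evP L p P) := by
  classical
  exact com_of_sup _ _ _ fun c hc => h c (Finset.mem_filter.1 hc).2

theorem evP_near {p q : Cell} (h1 : |p.1 - q.1| ≤ 1) (h2 : |p.2 - q.2| ≤ 1) (P Q : α → Prop) :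
    E.com (evP L p P) (evP L q Q) :=
  com_evP fun c _ => E.com_symm _ _ (com_evP fun d _ => E.com_symm _ _ (L.near p q d c h1 h2))

theorem evP_com (p : Cell) (P Q : α → Prop) : E.com (evP L p P) (evP L p Q) :=
  evP_near (by simp) (by simp) P Q

theorem sup_cellEl (p : Cell) : Finset.univ.sup (cellEl L p) = ⊤ :=
  sup_eq_top _ (L.ev p) (fun _ => rfl) (L.total p)

theorem evP_univ (p : Cell) : evP L p (fun _ => True) = E.top := by
  refine congrArg Subtype.val (_root_.le_antisymm _root_.le_top ?_ : cellSup L p _ = ⊤)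
  rw [← sup_cellEl p]
  exact Finset.sup_le fun c _ => cellEl_le_cellSup trivial

theorem evP_mono (p : Cell) {P Q : α → Prop} (h : ∀ c, P c → Q c) :
    Imp E (evP L p P) (evP L p Q) :=
  ⟨evP_com p P Q, (Block.Elem.le_iff _ _).1 (cellSup_mono h)⟩

theorem evP_and (p : Cell) (P Q : α → Prop) :
    E.inf (evP L p P) (evP L p Q) = evP L p fun c => P c ∧ Q c :=
  congrArg Subtype.val (cellSup_and p P Q)

theorem evP_false (p : Cell) : evP L p (fun _ => False) = E.bot :=
  congrArg Subtype.val
    (_root_.le_antisymm (cellSup_le fun _ => False.elim) _root_.bot_le : cellSup L p _ = ⊥)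

theorem evP_single (p : Cell) (c : α) : evP L p (· = c) = L.ev p c :=
  congrArg Subtype.val (_root_.le_antisymm (cellSup_le fun d hd => by subst hd; exact le_rfl)
    (cellEl_le_cellSup rfl) : cellSup L p (fun x => x = c) = cellEl L p c)

theorem evP_disjoint (p : Cell) {P Q : α → Prop} (h : ∀ c, P c → Q c → False) :
    E.inf (evP L p P) (evP L p Q) = E.bot := by
  rw [evP_and, show (fun c => P c ∧ Q c) = fun _ => False from
    funext fun c => propext ⟨fun hc => h c hc.1 hc.2, False.elim⟩, evP_false]

/-! ## Propagation -/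

/-- Below `z` the colour of `p` satisfies `P`. -/
def Forced (L : LocalEvents E W) (z : E.B) (p : Cell) (P : α → Prop) : Prop :=
  Imp E z (evP L p P)

theorem Forced.self (p : Cell) (P : α → Prop) : Forced L (evP L p P) p P := Imp.refl _

theorem Forced.ev (p : Cell) (c : α) : Forced L (L.ev p c) p (· = c) := by
  show Imp E _ _
  rw [evP_single]
  exact Imp.refl _

theorem Forced.univ (z : E.B) (p : Cell) : Forced L z p fun _ => True := by
  show Imp E z _
  rw [evP_univ]
  exact imp_top z

theorem Forced.mono {z : E.B} {p : Cell} {P Q : α → Prop} (hz : Forced L z p P)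
    (h : ∀ c, P c → Q c) : Forced L z p Q :=
  Imp.trans hz (evP_mono p h)

theorem Forced.and {z : E.B} {p : Cell} {P Q : α → Prop} (hP : Forced L z p P)
    (hQ : Forced L z p Q) : Forced L z p fun c => P c ∧ Q c := by
  show Imp E z _
  rw [← evP_and]
  exact Imp.inf hP hQ (evP_com p P Q)

theorem Forced.of_imp {z z' : E.B} {p : Cell} {P : α → Prop} (hz : Forced L z p P)
    (h : Imp E z' z) : Forced L z' p P :=
  h.trans hz

theorem Forced.disjoint {z z' : E.B} {p : Cell} {P Q : α → Prop} (hz : Forced L z p P)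
    (hz' : Forced L z' p Q) (h : ∀ c, P c → Q c → False) :
    E.com z z' ∧ E.inf z z' = E.bot :=
  com_of_imp_disjoint hz hz' (evP_com p P Q) (evP_disjoint p h)

theorem Forced.eq_bot {z : E.B} {p : Cell} (hz : Forced L z p fun _ => False) : z = E.bot := by
  have h : Imp E z (evP L p fun _ => False) := hz
  rw [evP_false] at h
  exact eq_bot_of_imp h

/-- Whatever every legal window meeting the four conditions shows is forced. -/
theorem Forced.step {z : E.B} (a : Cell) (P : Fin 2 × Fin 2 → α → Prop)
    (hz : ∀ d, Forced L z (corner a d) (P d)) {r : Fin 2 × Fin 2} {Q : α → Prop}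
    (h : ∀ w ∈ W, (∀ d, P d (w d)) → Q (w r)) : Forced L z (corner a r) Q := by
  classical
  let S := winBlock L a
  let At : (Fin 2 × Fin 2) → (α → Prop) → S.Elem := fun d P =>
    (Finset.univ.filter P).sup (winEl L a d)
  have hval : ∀ d P, (At d P).1 = evP L (corner a d) P := fun d P => (evP_eq_sup a d P).symm
  have g : ∀ d, Imp E z (At d (P d)).1 := fun d => by rw [hval]; exact hz d
  let T : S.Elem := At (0, 0) (P (0, 0)) ⊓ At (1, 0) (P (1, 0)) ⊓
    (At (0, 1) (P (0, 1)) ⊓ At (1, 1) (P (1, 1)))
  have hzT : Imp E z T.1 := Imp.inf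
    ((g _).inf (g _) ((At (0, 0) (P (0, 0))).com _))
    ((g _).inf (g _) ((At (0, 1) (P (0, 1))).com _))
    ((At (0, 0) (P (0, 0)) ⊓ At (1, 0) (P (1, 0))).com _)
  have hT : T ≤ At r Q := by
    simp only [T, At, Finset.sup_inf_distrib_right, Finset.sup_inf_distrib_left, Finset.sup_le_iff,
      Finset.mem_filter, Finset.mem_univ, true_and]
    intro c11 h11 c01 h01 c10 h10 c00 h00
    let w : Win α := fun d => if d = (0, 0) then c00 else if d = (1, 0) then c10
      else if d = (0, 1) then c01 else c11
    have e00 : w (0, 0) = c00 := rfl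
    have e10 : w (1, 0) = c10 := rfl
    have e01 : w (0, 1) = c01 := rfl
    have e11 : w (1, 1) = c11 := rfl
    by_cases hw : w ∈ W
    · have hQ : Q (w r) := h w hw fun d => by
        rcases d with ⟨i, j⟩
        fin_cases i <;> fin_cases j <;> assumption
      refine _root_.le_trans ?_ (Finset.le_sup (f := winEl L a r) (b := w r)
        (Finset.mem_filter.2 ⟨Finset.mem_univ _, hQ⟩))
      rcases r with ⟨i, j⟩
      fin_cases i <;> fin_cases j
      exacts [inf_le_left.trans inf_le_left, inf_le_right.trans inf_le_left,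
        inf_le_left.trans inf_le_right, inf_le_right.trans inf_le_right]
    · have hbot : winEl L a (0, 0) c00 ⊓ winEl L a (1, 0) c10 ⊓
          (winEl L a (0, 1) c01 ⊓ winEl L a (1, 1) c11) = ⊥ := by
        refine Subtype.ext ?_
        have h0 := L.illegal a w hw
        simp only [Sft.winEvent, e00, e10, e01, e11] at h0
        show E.inf (E.inf (L.ev (corner a (0, 0)) c00) (L.ev (corner a (1, 0)) c10))
          (E.inf (L.ev (corner a (0, 1)) c01) (L.ev (corner a (1, 1)) c11)) = E.bot
        simpa [corner] using h0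
      rw [hbot]
      exact _root_.bot_le
  have hle : Imp E T.1 (evP L (corner a r) Q) := by
    rw [← hval]
    exact ⟨T.com _, (Block.Elem.le_iff _ _).1 hT⟩
  exact hzT.trans hle

/-- One step from the cell `p` to its neighbour `q` in the window at `a`. -/
theorem Forced.step₁ {z : E.B} (a : Cell) (i r : Fin 2 × Fin 2) {p q : Cell}
    (hp : corner a i = p) (hq : corner a r = q) {P Q : α → Prop} (hz : Forced L z p P)
    (h : ∀ w ∈ W, P (w i) → Q (w r)) : Forced L z q Q := by
  subst hp hq
  refine Forced.step a (fun d c => d = i → P c) (fun d => ?_) fun w hw hd => h w hw (hd i rfl)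
  by_cases hd : d = i
  · subst hd; exact hz.mono fun c hc _ => hc
  · exact (Forced.univ z _).mono fun c _ hc => absurd hc hd

/-- One step from two cells of the window at `a` to a third. -/
theorem Forced.step₂ {z : E.B} (a : Cell) (i j r : Fin 2 × Fin 2) {p p' q : Cell}
    (hp : corner a i = p) (hp' : corner a j = p') (hq : corner a r = q) {P P' Q : α → Prop}
    (hz : Forced L z p P) (hz' : Forced L z p' P')
    (h : ∀ w ∈ W, P (w i) → P' (w j) → Q (w r)) : Forced L z q Q := by
  subst hp hp' hq
  refine Forced.step a (fun d c => (d = i → P c) ∧ (d = j → P' c)) (fun d => ?_)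
    fun w hw hd => h w hw ((hd i).1 rfl) ((hd j).2 rfl)
  refine Forced.and ?_ ?_
  · by_cases hd : d = i
    · subst hd; exact hz.mono fun c hc _ => hc
    · exact (Forced.univ z _).mono fun c _ hc => absurd hc hd
  · by_cases hd : d = j
    · subst hd; exact hz'.mono fun c hc _ => hc
    · exact (Forced.univ z _).mono fun c _ hc => absurd hc hd

/-- An event commutes with `y` if all its pieces along the colours of one cell do. -/
theorem com_of_pieces {x y : E.B} (q : Cell) (hx : ∀ c, E.com x (L.ev q c))
    (h : ∀ c, E.com y (E.inf x (L.ev q c))) : E.com y x := by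
  let S : E.Block := ⟨insert x (Set.range (L.ev q)), by
    rintro _ (rfl | ⟨c, rfl⟩) _ (rfl | ⟨d, rfl⟩)
    exacts [E.com_refl _, hx _, E.com_symm _ _ (hx _), L.near q q c d (by simp) (by simp)]⟩
  let X : S.Elem := S.mem (x := x) (Or.inl rfl)
  let C : α → S.Elem := fun c => S.mem (Or.inr ⟨c, rfl⟩)
  show E.com y X.1
  rw [← inf_top_eq X, ← sup_eq_top C (L.ev q) (fun _ => rfl) (L.total q),
    Finset.sup_inf_distrib_left]
  exact com_of_sup _ _ _ fun c _ => h c

end Vale.Agent.P196.W
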