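import Vale.Agent.P196.Fp.AllCom

/-!
# P196: joint events of commuting families and relabelled local events

Finitely many total exclusive families of pairwise commuting events have a total exclusive joint
family. Local events on values transport to local events on labels when every value without a
label has the zero event.
-/

namespace Vale.Agent.P196.W

open Vale.Agent.P196.Fp Vale.Agent.P196.Sft EventAlgebra

variable {E : EventAlgebra.{0}}

/-- The complements of a family whose supremum is everything meet in zero. -/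
theorem foldr_compl_of_sup {S : E.Block} {ι : Type} [Fintype ι] (f : ι → S.Elem) (e : ι → E.B)
    (he : ∀ j, (f j).1 = e j) (h : Finset.univ.sup f = ⊤) :
    (Finset.univ.toList.map fun j => E.compl (e j)).foldr E.inf E.top = E.bot := by
  have key : ∀ l : List ι, ∃ z : S.Elem,
      z.1 = (l.map fun j => E.compl (e j)).foldr E.inf E.top ∧ ∀ j ∈ l, z ≤ (f j)ᶜ := by
    intro l
    induction l with
    | nil => exact ⟨⊤, rfl, fun _ hj => absurd hj List.not_mem_nil⟩
    | cons i l ih =>
      obtain ⟨z, hz, hle⟩ := ih
      refine ⟨(f i)ᶜ ⊓ z, ?_, fun j hj => ?_⟩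
      · rw [List.map_cons, List.foldr_cons, ← hz, ← he]
        rfl
      · rcases List.mem_cons.1 hj with rfl | hj
        · exact inf_le_left
        · exact inf_le_right.trans (hle j hj)
  obtain ⟨z, hz, hle⟩ := key Finset.univ.toList
  have h0 : z ≤ (Finset.univ.sup f)ᶜ :=
    le_compl_comm.1 (Finset.sup_le fun i _ => le_compl_comm.1 (hle i (by simp)))
  rw [h, _root_.compl_top] at h0
  rw [← hz, show z = ⊥ from le_bot_iff.1 h0]
  rfl

/-- An event commutes with a meet if it commutes with all its members. -/
theorem com_of_inf {S : E.Block} {ι : Type} (s : Finset ι) (f : ι → S.Elem) (z : E.B)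
    (h : ∀ j ∈ s, E.com z (f j).1) : E.com z (s.inf f).1 := by
  classical
  induction s using Finset.induction_on with
  | empty => exact E.com_top z
  | insert j s _ ih =>
    rw [Finset.inf_insert]
    exact E.com_inf z _ _ (h j (Finset.mem_insert_self j s))
      (ih fun k hk => h k (Finset.mem_insert_of_mem hk)) ((f j).com (s.inf f))

/-! ## The joint family -/

section Joint

variable {ι : Type} [Fintype ι] {κ : ι → Type}
  (e : ∀ i, κ i → E.B)

/-- Pairwise commutation of all members of all families. -/
def FamCom : Prop := ∀ i j a b, E.com (e i a) (e j b)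

variable (hc : FamCom e)

/-- The block of all members of the families. -/
def famBlock : E.Block where
  set := {x | ∃ i a, e i a = x}
  com := by
    rintro _ ⟨i, a, rfl⟩ _ ⟨j, b, rfl⟩
    exact hc i j a b

/-- A member inside the block. -/
def famEl (i : ι) (a : κ i) : (famBlock e hc).Elem := Block.mem _ (x := e i a) ⟨i, a, rfl⟩

/-- The meet of one member of each family, in the block. -/
noncomputable def jointEl (v : ∀ i, κ i) : (famBlock e hc).Elem :=
  Finset.univ.inf fun i => famEl e hc i (v i)

/-- The meet of one member of each family. -/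
noncomputable def joint (v : ∀ i, κ i) : E.B := (jointEl e hc v).1

theorem com_joint {z : E.B} (v : ∀ i, κ i) (h : ∀ i, E.com z (e i (v i))) :
    E.com z (joint e hc v) :=
  com_of_inf _ _ z fun i _ => h i

theorem joint_le (v : ∀ i, κ i) (i : ι) :
    E.com (joint e hc v) (e i (v i)) ∧ E.inf (joint e hc v) (e i (v i)) = joint e hc v :=
  ⟨(jointEl e hc v).com (famEl e hc i (v i)),
    (Block.Elem.le_iff (jointEl e hc v) (famEl e hc i (v i))).1
      (Finset.inf_le (f := fun j => famEl e hc j (v j)) (Finset.mem_univ i))⟩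

theorem joint_exclusive (hex : ∀ i a b, a ≠ b → E.inf (e i a) (e i b) = E.bot) (v v' : ∀ i, κ i)
    (h : v ≠ v') : E.inf (joint e hc v) (joint e hc v') = E.bot := by
  obtain ⟨i, hi⟩ := Function.ne_iff.1 h
  have h0 : famEl e hc i (v i) ⊓ famEl e hc i (v' i) = ⊥ := Subtype.ext (hex i _ _ hi)
  have : jointEl e hc v ⊓ jointEl e hc v' = ⊥ := le_bot_iff.1 <| h0 ▸ _root_.le_inf
    (inf_le_left.trans (Finset.inf_le (f := fun j => famEl e hc j (v j)) (Finset.mem_univ i)))
    (inf_le_right.trans (Finset.inf_le (f := fun j => famEl e hc j (v' j)) (Finset.mem_univ i)))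
  exact congrArg Subtype.val this

theorem joint_total [DecidableEq ι] [∀ i, Fintype (κ i)]
    (htot : ∀ i, (Finset.univ.toList.map fun a => E.compl (e i a)).foldr E.inf E.top = E.bot) :
    (Finset.univ.toList.map fun v => E.compl (joint e hc v)).foldr E.inf E.top = E.bot := by
  refine foldr_compl_of_sup (jointEl e hc) _ (fun _ => rfl) (_root_.eq_top_iff.2 ?_)
  have h1 : (⊤ : (famBlock e hc).Elem) ≤
      Finset.univ.inf fun i => Finset.univ.sup (famEl e hc i) :=
    Finset.le_inf fun i _ => le_of_eq (sup_eq_top _ (e i) (fun _ => rfl) (htot i)).symm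
  refine h1.trans ?_
  rw [Finset.inf_sup]
  refine Finset.sup_le fun g _ => ?_
  refine le_trans ?_ (Finset.le_sup (f := jointEl e hc)
    (Finset.mem_univ fun i => g i (Finset.mem_univ i)))
  exact Finset.le_inf fun i _ =>
    (Finset.inf_le (f := fun j => famEl e hc j.1 (g j.1 j.2))
      (Finset.mem_attach Finset.univ ⟨i, Finset.mem_univ i⟩)).trans le_rfl

end Joint

/-! ## Relabelling -/

/-- The block of one window. -/
def windowBlock {α : Type} [Fintype α] {W : Set (Win α)} (L : LocalEvents E W) (a : Cell) :
    E.Block where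
  set := {x | ∃ (d : Fin 2 × Fin 2) (c : α), L.ev (corner a d) c = x}
  com := by
    rintro _ ⟨d, c, rfl⟩ _ ⟨d', c', rfl⟩
    refine L.near _ _ c c' ?_ ?_ <;> simp only [corner] <;> rw [abs_le] <;>
      have := d.1.isLt <;> have := d.2.isLt <;> have := d'.1.isLt <;> have := d'.2.isLt <;> omega

/-- A value that is the upper right corner of no window has the zero event. -/
theorem ev_eq_bot_of_no_window {α : Type} [Fintype α] {W : Set (Win α)} (L : LocalEvents E W)
    (p : Cell) (v : α) (h : ∀ w ∈ W, w (1, 1) ≠ v) : L.ev p v = E.bot := by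
  classical
  let a : Cell := (p.1 - 1, p.2 - 1)
  let A : Fin 2 × Fin 2 → α → (windowBlock L a).Elem := fun d c =>
    Block.mem _ (x := L.ev (corner a d) c) ⟨d, c, rfl⟩
  have hp : corner a (1, 1) = p := by simp [corner, a]
  suffices h0 : A (1, 1) v = ⊥ by
    have := congrArg Subtype.val h0
    simp only [A, Block.mem, hp] at this
    exact this
  refine eq_bot_of_patterns Finset.univ A _ (fun _ => v)
    (fun d _ => by rw [sup_eq_top (A d) (L.ev _) (fun _ => rfl) (L.total _)]; exact _root_.le_top)
    fun g => ?_
  rw [← le_bot_iff]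
  by_cases hg : g (1, 1) = v
  · have hw : g ∉ W := fun hw => h g hw hg
    have h4 : A (0, 0) (g (0, 0)) ⊓ A (1, 0) (g (1, 0)) ⊓
        (A (0, 1) (g (0, 1)) ⊓ A (1, 1) (g (1, 1))) = ⊥ := by
      refine Subtype.ext ?_
      have := L.illegal a g hw
      simp only [winEvent] at this
      simp [A, corner] at this ⊢
      exact this
    rw [← h4]
    refine inf_le_right.trans (_root_.le_inf (_root_.le_inf ?_ ?_) (_root_.le_inf ?_ ?_)) <;>
      exact Finset.inf_le (Finset.mem_univ _)
  · have h2 : A (1, 1) v ⊓ A (1, 1) (g (1, 1)) = ⊥ :=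
      Subtype.ext (L.exclusive _ _ _ fun e => hg e.symm)
    rw [← h2]
    exact _root_.le_inf inf_le_left (inf_le_right.trans (Finset.inf_le (Finset.mem_univ _)))

/-- Local events on values as local events on labels. -/
noncomputable def relabel {α β : Type} [Fintype α] [Fintype β] {W : Set (Win α)}
    (L : LocalEvents E W) (f : β → α) (hf : Function.Injective f) (W' : Set (Win β))
    (hW : ∀ w : Win β, f ∘ w ∈ W → w ∈ W') (hsurj : ∀ w ∈ W, w (1, 1) ∈ Set.range f) :
    LocalEvents E W' where
  ev p b := L.ev p (f b)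
  near p q b b' h1 h2 := L.near p q _ _ h1 h2
  exclusive p b b' h := L.exclusive p _ _ fun e => h (hf e)
  total p := by
    classical
    let S : E.Block := ⟨Set.range (L.ev p), by
      rintro _ ⟨c, rfl⟩ _ ⟨d, rfl⟩; exact L.near p p c d (by simp) (by simp)⟩
    let A : α → S.Elem := fun c => S.mem (x := L.ev p c) ⟨c, rfl⟩
    refine foldr_compl_of_sup (fun b => A (f b)) _ (fun _ => rfl) (_root_.eq_top_iff.2 ?_)
    rw [← sup_eq_top A (L.ev p) (fun _ => rfl) (L.total p)]
    refine Finset.sup_le fun c _ => ?_
    by_cases hc : c ∈ Set.range f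
    · obtain ⟨b, rfl⟩ := hc
      exact Finset.le_sup (f := fun b => A (f b)) (Finset.mem_univ b)
    · have h0 : A c = ⊥ := Subtype.ext
        (ev_eq_bot_of_no_window L p c fun w hw e => hc (e ▸ hsurj w hw))
      rw [h0]
      exact _root_.bot_le
  illegal p w hw := L.illegal p (f ∘ w) fun h => hw (hW w h)

end Vale.Agent.P196.W
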