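import Vale.Agent.P196.W.Geometry

/-!
# P196: lanes, match rows and the tables of a layout

A layout supplies the number `g` of ordinary segments and the table of kinds `K`. A parent is
shown to the match rows one-hot: one lane for every derived predicate, segment, kind and channel
value. There is one match row for every assignment of bits to the lanes; it can only be true when
it shows a forbidden assignment, so nothing here has to be evaluated.
-/

namespace Vale.Agent.P196.W

/-- The lanes of one parent. -/
inductive Lane (g : ℕ)
  | derived (q : Fin 40)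
  | segA (s : Fin g)
  | segB (s : Fin g)
  | kind (k : Kind)
  | outH (a : Sig)
  | outV (a : Sig)
  deriving DecidableEq, Fintype

variable {g : ℕ}

/-- The role of a lane. -/
def Lane.sym : Lane g → Sym
  | .derived q => .derived q
  | .segA _ | .segB _ => .srcA
  | .kind _ => .srcK
  | .outH _ => .srcH
  | .outV _ => .srcV

/-- Whether column segment `c` carries the lane. -/
def Lane.vis (c : Fin 7) (l : Lane g) : Bool := l.sym.vis c

/-- Bits on the lanes of the seven column segments. -/
abbrev Assign (g : ℕ) : Type := Fin 7 → Lane g → Bool

/-- The four segments of addresses, or the three of the event. -/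
def inA (c : Fin 7) : Bool := decide (c.val < 4)

/-- The assignment on the lanes that a family of segments carries, `false` elsewhere. -/
def Assign.mask (f : Assign g) (A : Bool) : Assign g :=
  fun c l => (inA c == A) && l.vis c && f c l

/-- Two assignments agree on everything a family of segments carries. -/
def Assign.Agree (f b : Assign g) (A : Bool) : Prop :=
  ∀ c l, inA c = A → l.vis c = true → f c l = b c l

theorem Assign.mask_eq_iff (f b : Assign g) (A : Bool) : f.mask A = b.mask A ↔ f.Agree b A := by
  constructor
  · intro h c l hc hv
    have := congrFun (congrFun h c) l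
    simpa [Assign.mask, hc, hv] using this
  · intro h
    funext c l
    unfold Assign.mask
    by_cases hc : inA c = A
    · by_cases hv : l.vis c = true
      · rw [h c l hc hv]
      · simp [Bool.not_eq_true _ |>.mp hv]
    · have : (inA c == A) = false := by simpa using hc
      simp [this]

/-! ## Rows and tables -/

/-- What a forbidden set of assignments makes a row ask at a lane: a forbidden row asks for its
own bit, the others are falsified by any bit. -/
noncomputable def rowOp (allow : Bool → Assign g → Prop) (f : Assign g) (c : Fin 7)
    (l : Lane g) : Bool × Bool := by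
  classical
  exact if l.vis c then
    (if allow (inA c) (f.mask (inA c)) then (true, true) else (f c l, !f c l))
  else (false, false)

/-- Bits `b` falsify the operation `op` on their lane. -/
def Falsifies (op : Bool × Bool) (b : Bool) : Prop :=
  (op.1 = true ∧ b = false) ∨ (op.2 = true ∧ b = true)

/-- Row `f` stays true on the bits `b` in one family of segments. -/
def Fires (allow : Bool → Assign g → Prop) (f b : Assign g) (A : Bool) : Prop :=
  ∀ c l, inA c = A → ¬ Falsifies (rowOp allow f c l) (b c l)

/-- Some lane is visible in each family. -/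
theorem exists_vis (A : Bool) : ∃ (c : Fin 7) (l : Lane g), inA c = A ∧ l.vis c = true := by
  cases A
  · exact ⟨4, .kind .blank, by decide, rfl⟩
  · exact ⟨0, .kind .blank, by decide, rfl⟩

/-- A row fires exactly when it shows a forbidden assignment equal to the bits. -/
theorem fires_iff (allow : Bool → Assign g → Prop) (f b : Assign g) (A : Bool) :
    Fires allow f b A ↔ ¬ allow A (b.mask A) ∧ f.Agree b A := by
  constructor
  · intro h
    have hna : ¬ allow A (f.mask A) := by
      intro ha
      obtain ⟨c, l, hc, hv⟩ := exists_vis (g := g) A
      have := h c l hc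
      subst hc
      cases hb : b c l <;> simp [rowOp, Falsifies, hv, ha, hb] at this
    have hag : f.Agree b A := by
      intro c l hc hv
      have := h c l hc
      subst hc
      cases hb : b c l <;> cases hf : f c l <;>
        simp [rowOp, Falsifies, hv, hna, hb, hf] at this <;> rfl
    exact ⟨(Assign.mask_eq_iff f b A).2 hag ▸ hna, hag⟩
  · rintro ⟨hna, hag⟩ c l hc
    have hna' : ¬ allow A (f.mask A) := (Assign.mask_eq_iff f b A).2 hag ▸ hna
    subst hc
    by_cases hv : l.vis c = true
    · have := hag c l rfl hv
      cases hb : b c l <;> simp [rowOp, Falsifies, hv, hna', this, hb]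
    · simp [rowOp, Falsifies, hv]

/-- No row fires exactly when the bits are allowed. -/
theorem forall_not_fires_iff (allow : Bool → Assign g → Prop) (b : Assign g) (A : Bool) :
    (∀ f, ¬ Fires allow f b A) ↔ allow A (b.mask A) := by
  simp only [fires_iff, not_and]
  exact ⟨fun h => by_contra fun hn => h b hn (fun _ _ _ _ => rfl), fun h f hn => absurd h hn⟩

/-- Number of lanes. -/
noncomputable def laneCount (g : ℕ) : ℕ := Nat.card (Lane g)

/-- Number of match rows. -/
noncomputable def rowCount (g : ℕ) : ℕ := Nat.card (Assign g)

/-- Grid index of a lane; grid index `0` is unused. -/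
noncomputable def laneIdx (l : Lane g) : ℕ := (Finite.equivFin (Lane g) l).val + 1

/-- Grid index of a row, after all lanes. -/
noncomputable def rowIdx (f : Assign g) : ℕ :=
  laneCount g + (Finite.equivFin (Assign g) f).val + 1

/-- The factor of the segment length: four times more than all grid indices in use. -/
noncomputable def m0 (g : ℕ) : ℕ := 4 * (laneCount g + rowCount g + 2)

theorem laneIdx_injective : Function.Injective (laneIdx (g := g)) := fun a b h => by
  unfold laneIdx at h
  exact (Finite.equivFin _).injective (Fin.ext (by omega))

theorem rowIdx_injective : Function.Injective (rowIdx (g := g)) := fun a b h => by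
  unfold rowIdx at h
  exact (Finite.equivFin _).injective (Fin.ext (by omega))

theorem laneIdx_ne_rowIdx (l : Lane g) (f : Assign g) : laneIdx l ≠ rowIdx f := by
  have := (Finite.equivFin (Lane g) l).isLt
  unfold laneIdx rowIdx laneCount
  omega

theorem laneIdx_pos (l : Lane g) : 0 < laneIdx l := Nat.succ_pos _

theorem rowIdx_pos (f : Assign g) : 0 < rowIdx f := Nat.succ_pos _

/-- The lane at a grid index. -/
noncomputable def laneOf (g j : ℕ) : Option (Lane g) :=
  @dite _ (∃ l : Lane g, laneIdx l = j) (Classical.propDecidable _) (fun h => some h.choose)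
    fun _ => none

/-- The row at a grid index. -/
noncomputable def rowOf (g j : ℕ) : Option (Assign g) :=
  @dite _ (∃ f : Assign g, rowIdx f = j) (Classical.propDecidable _) (fun h => some h.choose)
    fun _ => none

theorem laneOf_eq_some {j : ℕ} {l : Lane g} : laneOf g j = some l ↔ j = laneIdx l := by
  unfold laneOf
  split
  · rename_i h
    rw [Option.some.injEq]
    exact ⟨fun e => e ▸ h.choose_spec.symm, fun e => laneIdx_injective (h.choose_spec.trans e)⟩
  · rename_i h
    simp only [reduceCtorEq, false_iff]
    exact fun e => h ⟨l, e.symm⟩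

theorem rowOf_eq_some {j : ℕ} {f : Assign g} : rowOf g j = some f ↔ j = rowIdx f := by
  unfold rowOf
  split
  · rename_i h
    rw [Option.some.injEq]
    exact ⟨fun e => e ▸ h.choose_spec.symm, fun e => rowIdx_injective (h.choose_spec.trans e)⟩
  · rename_i h
    simp only [reduceCtorEq, false_iff]
    exact fun e => h ⟨f, e.symm⟩

/-- The tables: roles of grid indices and operations of rows at lanes, for the rules `allow`. -/
noncomputable def tablesOf (allow : Bool → Assign g → Prop) : Tables where
  sym j :=
    match laneOf g j with
    | some l => l.sym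
    | none => if (rowOf g j).isSome then .mrow else .none
  gate i j :=
    match laneOf g i, rowOf g j with
    | some l, some f => fun c => rowOp allow f c l
    | _, _ => Gate.off

theorem tablesOf_sym_lane (allow : Bool → Assign g → Prop) (l : Lane g) :
    (tablesOf allow).sym (laneIdx l) = l.sym := by
  simp [tablesOf, laneOf_eq_some.2 rfl]

theorem tablesOf_sym_row (allow : Bool → Assign g → Prop) (f : Assign g) :
    (tablesOf allow).sym (rowIdx f) = .mrow := by
  have h : laneOf g (rowIdx f) = none := by
    refine Option.eq_none_iff_forall_ne_some.2 fun l hl => ?_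
    exact laneIdx_ne_rowIdx l f (laneOf_eq_some.1 hl).symm
  simp [tablesOf, h, rowOf_eq_some.2 rfl]

theorem tablesOf_gate (allow : Bool → Assign g → Prop) (l : Lane g) (f : Assign g) (c : Fin 7) :
    (tablesOf allow).gate (laneIdx l) (rowIdx f) c = rowOp allow f c l := by
  simp [tablesOf, laneOf_eq_some.2 rfl, rowOf_eq_some.2 rfl]

/-! ## Offsets -/

/-- Offset of a lane at level `n`. -/
noncomputable def laneAt (n : ℕ) (l : Lane g) : ℕ := gap n * laneIdx l

/-- Offset of a row at level `n`. -/
noncomputable def rowAt (n : ℕ) (f : Assign g) : ℕ := gap n * rowIdx f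

theorem gap_pos (n : ℕ) : 0 < gap n := by unfold gap; positivity

theorem segLen_m0 (g n : ℕ) : segLen (m0 g) n = gap n * (laneCount g + rowCount g + 2) := by
  unfold segLen m0 gap; ring

theorem laneAt_add_gap_lt (n : ℕ) (l : Lane g) : laneAt n l + gap n < segLen (m0 g) n := by
  rw [segLen_m0, laneAt, ← Nat.mul_succ]
  refine Nat.mul_lt_mul_of_pos_left ?_ (gap_pos n)
  have := (Finite.equivFin (Lane g) l).isLt
  simp only [laneIdx, laneCount]
  omega

theorem rowAt_add_gap_le (n : ℕ) (f : Assign g) : rowAt n f + gap n ≤ segLen (m0 g) n := by
  rw [segLen_m0, rowAt, ← Nat.mul_succ]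
  refine Nat.mul_le_mul_left _ ?_
  have := (Finite.equivFin (Assign g) f).isLt
  simp only [rowIdx, rowCount]
  omega

theorem gap_le_laneAt (n : ℕ) (l : Lane g) : gap n ≤ laneAt n l :=
  Nat.le_mul_of_pos_right _ (laneIdx_pos l)

theorem gap_le_rowAt (n : ℕ) (f : Assign g) : gap n ≤ rowAt n f :=
  Nat.le_mul_of_pos_right _ (rowIdx_pos f)

theorem laneAt_injective (n : ℕ) : Function.Injective (laneAt (g := g) n) := fun _ _ h =>
  laneIdx_injective (Nat.eq_of_mul_eq_mul_left (gap_pos n) h)

theorem rowAt_injective (n : ℕ) : Function.Injective (rowAt (g := g) n) := fun _ _ h =>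
  rowIdx_injective (Nat.eq_of_mul_eq_mul_left (gap_pos n) h)

theorem laneAt_ne_rowAt (n : ℕ) (l : Lane g) (f : Assign g) : laneAt n l ≠ rowAt n f := fun h =>
  laneIdx_ne_rowIdx l f (Nat.eq_of_mul_eq_mul_left (gap_pos n) h)

theorem side_sym_laneAt (allow : Bool → Assign g → Prop) (n : ℕ) (l : Lane g) :
    ((tablesOf allow).side (m0 g) n (laneAt n l)).sym = l.sym := by
  simp [Tables.side, laneAt, Nat.mul_div_cancel_left _ (gap_pos n), tablesOf_sym_lane]

theorem side_laneAt (allow : Bool → Assign g → Prop) (n : ℕ) (l : Lane g) :
    (tablesOf allow).side (m0 g) n (laneAt n l) = { sym := l.sym } := by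
  have h4 : 4 ≤ gap n := Nat.le_mul_of_pos_right _ (by positivity)
  have h1 := gap_le_laneAt n l
  have h2 := laneAt_add_gap_lt n l
  have h3 := side_sym_laneAt allow n l
  refine Eq.trans (b := Side.mk false false false l.sym) ?_ rfl
  simp only [Tables.side, Side.mk.injEq, decide_eq_false_iff_not] at h3 ⊢
  exact ⟨by omega, by omega, by omega, h3⟩

theorem side_sym_rowAt (allow : Bool → Assign g → Prop) (n : ℕ) (f : Assign g) :
    ((tablesOf allow).side (m0 g) n (rowAt n f)).sym = .mrow := by
  simp [Tables.side, rowAt, Nat.mul_div_cancel_left _ (gap_pos n), tablesOf_sym_row]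

/-- A role of a bit lane occurs only at the offset of such a lane. -/
theorem exists_lane_of_side_sym (allow : Bool → Assign g → Prop) (n z : ℕ)
    (h : ((tablesOf allow).side (m0 g) n z).sym ≠ .none)
    (h' : ((tablesOf allow).side (m0 g) n z).sym ≠ .mrow) :
    ∃ l : Lane g, z = laneAt n l := by
  simp only [Tables.side] at h h'
  by_cases hz : gap n ∣ z
  · rw [if_pos hz] at h h'
    obtain ⟨j, rfl⟩ := hz
    rw [Nat.mul_div_cancel_left _ (gap_pos n)] at h h'
    cases hl : laneOf g j with
    | some l => exact ⟨l, by rw [laneAt, laneOf_eq_some.1 hl]⟩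
    | none =>
      simp only [tablesOf, hl] at h h'
      split at h <;> simp_all
  · rw [if_neg hz] at h
    exact absurd rfl h

/-- The role of a match row occurs only at the offset of a match row. -/
theorem exists_row_of_side_sym (allow : Bool → Assign g → Prop) (n z : ℕ)
    (h : ((tablesOf allow).side (m0 g) n z).sym = .mrow) :
    ∃ f : Assign g, z = rowAt n f := by
  simp only [Tables.side] at h
  by_cases hz : gap n ∣ z
  · rw [if_pos hz] at h
    obtain ⟨j, rfl⟩ := hz
    rw [Nat.mul_div_cancel_left _ (gap_pos n)] at h
    cases hl : laneOf g j with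
    | some l => simp only [tablesOf, hl] at h; cases l <;> simp [Lane.sym] at h
    | none =>
      cases hr : rowOf g j with
      | some f => exact ⟨f, by rw [rowAt, rowOf_eq_some.1 hr]⟩
      | none => simp [tablesOf, hl, hr] at h
  · rw [if_neg hz] at h
    cases h

theorem gate_laneAt_rowAt (allow : Bool → Assign g → Prop) (n : ℕ) (l : Lane g) (f : Assign g)
    (c : Fin 7) :
    ((tablesOf allow).crossAt n (laneAt n l) (rowAt n f)).gate c = rowOp allow f c l := by
  simp [Tables.crossAt, laneAt, rowAt, Nat.mul_div_cancel_left _ (gap_pos n), tablesOf_gate]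

end Vale.Agent.P196.W
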