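import Vale.Agent.P196.W.BlockSignal

/-!
# P196: the closed form sees the choices only up to the lanes of free bits
-/

namespace Vale.Agent.P196.W

noncomputable section

variable {T : Tables} {M0 n : ℕ}

/-- Two choices agree on the offsets and on every lane of a free bit. -/
def AgreeC (T : Tables) (M0 n : ℕ) (C C' : Choices) : Prop :=
  C.ox = C'.ox ∧ C.oy = C'.oy ∧
    ∀ z, (symAt T M0 n z).isSrc = true → C.bit z = C'.bit z

theorem laneSig_agree {C C' : Choices} (h : AgreeC T M0 n C C') (src : Bool) (z : ℕ) :
    laneSig T M0 n C src z = laneSig T M0 n C' src z := by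
  cases src
  · exact laneSig_false_congr h.1 h.2.1 z
  · by_cases hs : (symAt T M0 n z).isSrc = true
    · exact laneSig_true_congr (h.2.2 z hs)
    · rw [laneSig_src_eq_none _ _ hs, laneSig_src_eq_none _ _ hs]

/-- Bundles that agree give the same signals to the right. -/
theorem rawH_agree {q q' : Quad} (h : ∀ c, AgreeC T M0 n (q c) (q' c)) (X : XSeg) (x : ℕ)
    (Y : YSeg) (y : ℕ) : rawH T M0 n q X x Y y = rawH T M0 n q' X x Y y := by
  have hl : ∀ c, laneSig T M0 n (q c) = laneSig T M0 n (q' c) := fun c =>
    funext fun b => funext fun z => laneSig_agree (h c) b z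
  have hd : ∀ k X x, derState T M0 n (q 2) k X x = derState T M0 n (q' 2) k X x :=
    fun k X x => derState_congr (h 2).1 (h 2).2.1 k X x
  have hma : maTruth T M0 n q = maTruth T M0 n q' := by
    funext y X x
    simp only [maTruth, paCol, hl]
    exact decide_eq_decide.2 Iff.rfl
  have hmr : mrTruth T M0 n q = mrTruth T M0 n q' := by
    funext y X x
    simp only [mrTruth, prCol, hl]
    exact decide_eq_decide.2 Iff.rfl
  cases Y <;> simp only [rawH, seenBy, rowLine, taRow, hma, hmr, hl, hd,
    (h 0).1, (h 2).1, (h 3).1, (h 2).2.1, (h 3).2.1]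

/-- Bundles that agree give the same signals upwards. -/
theorem rawV_agree {q q' : Quad} (h : ∀ c, AgreeC T M0 n (q c) (q' c)) (X : XSeg) (x : ℕ)
    (Y : YSeg) (y : ℕ) : rawV T M0 n q X x Y y = rawV T M0 n q' X x Y y := by
  have hl : ∀ c, laneSig T M0 n (q c) = laneSig T M0 n (q' c) := fun c =>
    funext fun b => funext fun z => laneSig_agree (h c) b z
  cases X <;> simp only [rawV, seenBy, colLine, tbCol, paCol, prCol, hl,
    (h 0).1, (h 2).1, (h 0).2.1, (h 2).2.1, (h 3).2.1]

end

end Vale.Agent.P196.W
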