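import Vale.Agent.P196.W.Conditions
import Vale.Agent.P196.W.RawSame

/-!
# P196: choices of all tiles whose special cells are satisfied are one tiling of parents

The colour-extraction half of desubstitution: from the choices of every tile to the unique legal
tiling of parents drawn with them.
-/

namespace Vale.Agent.P196.W

open Sft

noncomputable section

variable {n : ℕ}

/-- The bundles of the tile at `P` from the choices of all tiles. -/
def quadAt (C : Cell → Choices) (P : Cell) : Quad :=
  ![C (P.1, P.2 - 1), C (P.1 - 1, P.2 - 1), C P, C (P.1 - 1, P.2)]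

theorem quadAt_two (C : Cell → Choices) (P : Cell) : quadAt C P 2 = C P := rfl

theorem windowAt_sub_one {α : Type} (T : Cell → α) (P : Cell) :
    windowAt T (P.1 - 1, P.2 - 1) =
      fun d => T (P.1 - 1 + d.1.val, P.2 - 1 + d.2.val) := rfl

/-- The bundles of a window of a tiling. -/
theorem quadOf_windowAt (T : Tables) (M0 : ℕ) (U : Cell → Tint M0 (n + 1)) (P : Cell) :
    quadOf T M0 n (windowAt U (P.1 - 1, P.2 - 1)) =
      quadAt (fun R => choices T M0 n (U R)) P := by
  funext c
  fin_cases c <;> simp [quadOf, quadAt, windowAt]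

theorem agree_of_same {C C' : Choices} (h : C.Same n C') :
    AgreeC (tables layoutKind) (m0 segCount) n C C' := h

theorem bitsQ_agree {q q' : Quad}
    (h : ∀ c, AgreeC (tables layoutKind) (m0 segCount) n (q c) (q' c)) :
    bitsQ (tables layoutKind) (m0 segCount) n q = bitsQ (tables layoutKind) (m0 segCount) n q' := by
  funext c l
  obtain ⟨h1, h2, h3⟩ := h (classOf c)
  have hb : l.sym.isSrc = true → (q (classOf c)).bit (laneAt n l) =
      (q' (classOf c)).bit (laneAt n l) := fun hs =>
    h3 _ (by simp only [symAt, tables, side_sym_laneAt]; exact hs)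
  simp only [bitsQ]
  cases l with
  | derived k => exact dval_congr h1 h2 k
  | segA s => exact hb rfl
  | segB s => exact hb rfl
  | kind k => exact hb rfl
  | outH a => exact hb rfl
  | outV a => exact hb rfl

theorem rowsOk_agree {q q' : Quad}
    (h : ∀ c, AgreeC (tables layoutKind) (m0 segCount) n (q c) (q' c)) (hq : RowsOk n q') :
    RowsOk n q := by
  rw [rowsOk_iff] at hq ⊢
  rwa [bitsQ_agree h]

theorem linesOk_agree {M : ℕ} {q q' : Quad}
    (h : ∀ c, AgreeC (tables layoutKind) (m0 segCount) n (q c) (q' c)) (hq : LinesOk M q') :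
    LinesOk M q := by
  unfold LinesOk at hq ⊢
  rwa [(h 0).1, (h 2).1, (h 3).1, (h 0).2.1, (h 2).2.1, (h 3).2.1]

/-- **The parents.** If at every tile the choices satisfy the lines and the rows, exactly one
legal tiling of parents has these choices. -/
theorem existsUnique_parents (C : Cell → Choices)
    (hR : ∀ P, (quadAt C P).InRange (segLen (m0 segCount) n))
    (hL : ∀ P, LinesOk (segLen (m0 segCount) n) (quadAt C P))
    (hW : ∀ P, RowsOk n (quadAt C P)) :
    ∃! U : Cell → Tint (m0 segCount) (n + 1),
      Legal (rules (tables layoutKind) (m0 segCount) (n + 1)) U ∧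
        ∀ P, (choices (tables layoutKind) (m0 segCount) n (U P)).Same n (C P) := by
  choose U hU using fun P => exists_colour (hR P) (hW P)
  have hU' : ∀ P, (choices (tables layoutKind) (m0 segCount) n (U P)).Same n (C P) := hU
  have hq : ∀ P c, AgreeC (tables layoutKind) (m0 segCount) n
      (quadOf (tables layoutKind) (m0 segCount) n (windowAt U (P.1 - 1, P.2 - 1)) c)
      (quadAt C P c) := fun P c => by
    rw [quadOf_windowAt]
    fin_cases c <;> exact agree_of_same (hU' _)
  have step : ∀ P : Cell,
      HLine (U (P.1 - 1, P.2)).addr (U P).addr ∧ VLine (U (P.1, P.2 - 1)).addr (U P).addr := by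
    intro P
    have h := (linesOk_quadOf_iff _).1 (linesOk_agree (hq P) (hL P))
    simpa [windowAt] using h
  refine ⟨U, ⟨fun v => ?_, hU'⟩, fun U' hU'' => funext fun P => ?_⟩
  · have e : v = ((v.1 + 1) - 1, (v.2 + 1) - 1) := by simp
    rw [e]
    refine (mem_rules_succ_iff _).2
      ⟨rowsOk_agree (hq (v.1 + 1, v.2 + 1)) (hW _), fun j => ?_, fun i => ?_⟩
    · have h := (step (v.1 + 1, v.2 + j.val)).1
      simpa [windowAt] using h
    · have h := (step (v.1 + i.val, v.2 + 1)).2
      simpa [windowAt] using h
  · obtain ⟨h1, h2, h3⟩ := hU''.2 P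
    obtain ⟨g1, g2, g3⟩ := hU' P
    exact eq_of_same_choices
      ⟨h1.trans g1.symm, h2.trans g2.symm, fun z hz => (h3 z hz).trans (g3 z hz).symm⟩

/-- The drawing from parents with these choices is the closed form of these choices. -/
theorem drawTile_of_same (C : Cell → Choices) (U : Cell → Tint (m0 segCount) (n + 1))
    (hU : ∀ P, (choices (tables layoutKind) (m0 segCount) n (U P)).Same n (C P)) (P : Cell)
    (x y : ℕ) :
    drawTile (tables layoutKind) (m0 segCount) n (windowAt U (P.1 - 1, P.2 - 1)) x y =
      ⟨addrAt x y, sigH (tables layoutKind) (m0 segCount) n (quadAt C P) x y,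
        sigV (tables layoutKind) (m0 segCount) n (quadAt C P) x y⟩ := by
  have hq : ∀ c, AgreeC (tables layoutKind) (m0 segCount) n
      (quadOf (tables layoutKind) (m0 segCount) n (windowAt U (P.1 - 1, P.2 - 1)) c)
      (quadAt C P c) := fun c => by
    rw [quadOf_windowAt]
    fin_cases c <;> exact agree_of_same (hU _)
  simp only [drawTile, sigH, sigV, rawBandH, rawBandV, rawH_agree hq, rawV_agree hq]

end

end Vale.Agent.P196.W
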