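import Vale.Agent.P196.W.Conditions
import Vale.Agent.P196.W.Joint
import Vale.Agent.P196.W.Infer

/-!
# P196: the events of the parts of the parents

A parent shows its two offsets and one bit on each lane. The tile of the parent `corner a (1, 1)`
sees the bits of the four parents of the window at `a` and the two offsets of its own parent:
these events commute, the match rows kill what is not allowed, the crossings compute the derived
bits and the compared lines kill wrong steps.
-/

namespace Vale.Agent.P196.W

open Vale.Agent.P196.Fp Vale.Agent.P196.Sft EventAlgebra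

noncomputable section

/-- An offset of a parent, if it is known. -/
abbrev Off (n : ℕ) : Type := Option (Fin (segLen (m0 segCount) (n + 1)))

/-- The bits of the four parents of a window. -/
abbrev WinBits : Type := Fin 2 × Fin 2 → Lane segCount → Bool

/-- Bits of a window that neither family of match rows forbids. -/
def AllowedBits (φ : WinBits) : Prop :=
  ∀ A, allowOf layoutKind A (Assign.mask (fun c => φ (cellOf c)) A)

/-- The derived bit `q` of a parent with offsets `x` and `y`. -/
def derBit (n : ℕ) (x y : Off n) (q : Fin 40) : Bool :=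
  dval (tables layoutKind) (m0 segCount) n ⟨x.map halve, y.map halve, fun _ => false⟩ q

/-- The first offsets step to the right, the second ones upwards. -/
def StepOff {n : ℕ} (x x' : Off n) : Prop :=
  ∀ a ∈ x, ∀ a' ∈ x', a'.val = nextOff (segLen (m0 segCount) (n + 1)) a.val

/-- The first offsets agree upwards, the second ones to the right. -/
def SameOff {n : ℕ} (x x' : Off n) : Prop := ∀ a ∈ x, ∀ a' ∈ x', a' = a

/-- Two events commute and are disjoint. -/
def Excl (E : EventAlgebra) (z u : E.B) : Prop := E.com z u ∧ E.inf z u = E.bot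

variable {E : EventAlgebra.{0}}

/-- The events that the tile of the parent `corner a (1, 1)` shows. -/
def tileSet {n : ℕ} (xo yo : Cell → Off n → E.B) (bit : Cell → Lane segCount → Bool → E.B)
    (a : Cell) : Set E.B :=
  {u | (∃ d l b, bit (corner a d) l b = u) ∨ (∃ x, xo (corner a (1, 1)) x = u) ∨
    ∃ y, yo (corner a (1, 1)) y = u}

/-- The events of the parts of the parents, with what the tiles show about them. -/
structure Parts (E : EventAlgebra.{0}) (n : ℕ) where
  xo : Cell → Off n → E.B
  yo : Cell → Off n → E.B
  bit : Cell → Lane segCount → Bool → E.B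
  xo_excl : ∀ p x x', x ≠ x' → E.inf (xo p x) (xo p x') = E.bot
  yo_excl : ∀ p y y', y ≠ y' → E.inf (yo p y) (yo p y') = E.bot
  bit_compl : ∀ p l, bit p l false = E.compl (bit p l true)
  xo_total : ∀ p,
    (Finset.univ.toList.map fun x => E.compl (xo p x)).foldr E.inf E.top = E.bot
  yo_total : ∀ p,
    (Finset.univ.toList.map fun y => E.compl (yo p y)).foldr E.inf E.top = E.bot
  tile_com : ∀ a, ∀ u ∈ tileSet xo yo bit a, ∀ v ∈ tileSet xo yo bit a, E.com u v
  /-- the crossings compute the derived bits -/
  derived : ∀ p x y q,
    E.inf (E.inf (xo p x) (yo p y)) (bit p (.derived q) (!derBit n x y q)) = E.bot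
  /-- the match rows -/
  rows : ∀ a (φ : WinBits) (h : ∀ u ∈ tileSet xo yo bit a, ∀ v ∈ tileSet xo yo bit a, E.com u v),
    ¬ AllowedBits φ →
      (Finset.univ.inf fun dl : (Fin 2 × Fin 2) × Lane segCount =>
        (Block.mem ⟨tileSet xo yo bit a, h⟩ (x := bit (corner a dl.1) dl.2 (φ dl.1 dl.2))
          (Or.inl ⟨dl.1, dl.2, _, rfl⟩) :
          (⟨tileSet xo yo bit a, h⟩ : E.Block).Elem)).1 = E.bot
  /-- the compared lines, to the right -/
  right_xo : ∀ p x x', ¬ StepOff x x' → Excl E (xo p x) (xo (p.1 + 1, p.2) x')
  right_yo : ∀ p y y', ¬ SameOff y y' → Excl E (yo p y) (yo (p.1 + 1, p.2) y')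
  /-- the chosen second offset shows the one passed from the left -/
  right_yo_com : ∀ p b, E.com (yo p (some b)) (yo (p.1 + 1, p.2) (some b))
  /-- the compared lines, upwards -/
  up_xo : ∀ p x x', ¬ SameOff x x' → Excl E (xo p x) (xo (p.1, p.2 + 1) x')
  up_yo : ∀ p y y', ¬ StepOff y y' → Excl E (yo p y) (yo (p.1, p.2 + 1) y')
  /-- the chosen first offset shows the one passed from below -/
  up_xo_com : ∀ p a, E.com (xo p (some a)) (xo (p.1, p.2 + 1) (some a))

end

end Vale.Agent.P196.W
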