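import Vale.Agent.P196.W.Infer
import Vale.Agent.P196.W.Parts

/-!
# P196: events that settle a family of events
-/

namespace Vale.Agent.P196.W

open Vale.Agent.P196.Fp Vale.Agent.P196.Sft EventAlgebra

variable {E : EventAlgebra.{0}}

theorem Excl.symm {z u : E.B} (h : Excl E z u) : Excl E u z :=
  ⟨E.com_symm _ _ h.1, by rw [E.inf_comm _ _ (E.com_symm _ _ h.1), h.2]⟩

theorem Excl.of_imp {z u w : E.B} (h : Imp E z u) (h' : Excl E u w) : Excl E z w :=
  com_of_imp_disjoint h (Imp.refl w) h'.1 h'.2

theorem Excl.of_imp₂ {z u z' u' : E.B} (h : Imp E z u) (h' : Imp E z' u') (he : Excl E u u') :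
    Excl E z z' :=
  com_of_imp_disjoint h h' he.1 he.2

theorem eq_bot_of_imp_excl {z u : E.B} (h : Imp E z u) (h' : Excl E z u) : z = E.bot := by
  rw [← h.2, h'.2]

/-- An event excluded by a complement lies below the complemented one. -/
theorem Imp.of_excl_compl {z u : E.B} (h : Excl E z (E.compl u)) : Imp E z u := by
  have := imp_compl_of_inf h.1 h.2
  rwa [E.compl_compl] at this

variable {ι : Type} [Fintype ι] (F : ι → E.B)

/-- The event decides every member of the family. -/
def Settled (z : E.B) : Prop :=
  ∀ v, E.com z (F v) ∧ (Imp E z (F v) ∨ E.inf z (F v) = E.bot)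

/-- Total exclusive pairwise commuting members. -/
structure IsPartition : Prop where
  com : ∀ v w, E.com (F v) (F w)
  excl : ∀ v w, v ≠ w → E.inf (F v) (F w) = E.bot
  total : (Finset.univ.toList.map fun v => E.compl (F v)).foldr E.inf E.top = E.bot

variable {F}

/-- The block of the members of a partition. -/
def IsPartition.block (hF : IsPartition F) : E.Block :=
  ⟨Set.range F, by rintro _ ⟨v, rfl⟩ _ ⟨w, rfl⟩; exact hF.com v w⟩

/-- A member inside the block. -/
def IsPartition.el (hF : IsPartition F) (v : ι) : hF.block.Elem :=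
  Block.mem _ (x := F v) ⟨v, rfl⟩

theorem IsPartition.excl' (hF : IsPartition F) {v w : ι} (h : v ≠ w) : Excl E (F v) (F w) :=
  ⟨hF.com v w, hF.excl v w h⟩

theorem IsPartition.com_one (hF : IsPartition F) {z : E.B} {v : ι}
    (h : ∀ w, w ≠ v → E.com z (F w)) : E.com z (F v) := by
  classical
  have hs : (Finset.univ.filter (· ≠ v)).sup hF.el = (hF.el v)ᶜ := by
    refine _root_.le_antisymm (Finset.sup_le fun w hw => ?_) ?_
    · exact Block.Elem.le_compl_of_inf
        (Subtype.ext (hF.excl w v (Finset.mem_filter.1 hw).2))
    · have ht := sup_eq_top hF.el F (fun _ => rfl) hF.total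
      calc (hF.el v)ᶜ = (hF.el v)ᶜ ⊓ Finset.univ.sup hF.el := by rw [ht, inf_top_eq]
        _ ≤ _ := by
          rw [Finset.sup_inf_distrib_left]
          refine Finset.sup_le fun w _ => ?_
          by_cases hw : w = v
          · subst hw; rw [_root_.compl_inf_eq_bot]; exact _root_.bot_le
          · exact inf_le_right.trans (Finset.le_sup (f := hF.el) (by simp [hw]))
  have hc : E.com z (E.compl (F v)) := by
    have := com_of_sup (Finset.univ.filter (· ≠ v)) hF.el z fun w hw =>
      h w (Finset.mem_filter.1 hw).2
    rwa [hs] at this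
  have := E.com_compl _ _ hc
  rwa [E.compl_compl] at this

/-- An event is settled when all values but one are excluded. -/
theorem IsPartition.settled (hF : IsPartition F) {z : E.B} (R : ι → Prop)
    (hu : ∀ v w, R v → R w → v = w) (hex : ∀ v, ¬R v → Excl E z (F v)) : Settled F z := by
  classical
  intro v
  by_cases hv : R v
  · have others : ∀ w, w ≠ v → Excl E z (F w) := fun w hw => hex w fun hr => hw (hu w v hr hv)
    have hc : E.com z (F v) := hF.com_one fun w hw => (others w hw).1
    let S : E.Block := ⟨insert z (Set.range F), by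
      rintro _ (rfl | ⟨a, rfl⟩) _ (rfl | ⟨b, rfl⟩)
      · exact E.com_refl _
      · by_cases hb : b = v
        · subst hb; exact hc
        · exact (others b hb).1
      · by_cases ha : a = v
        · subst ha; exact E.com_symm _ _ hc
        · exact (others a ha).symm.1
      · exact hF.com a b⟩
    let Z : S.Elem := S.mem (x := z) (Or.inl rfl)
    let e : ι → S.Elem := fun w => S.mem (Or.inr ⟨w, rfl⟩)
    refine ⟨hc, Or.inl ⟨hc, (Block.Elem.le_iff Z (e v)).1 ?_⟩⟩
    calc Z = Z ⊓ Finset.univ.sup e := by
          rw [sup_eq_top e F (fun _ => rfl) hF.total, inf_top_eq]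
      _ ≤ e v := by
        rw [Finset.sup_inf_distrib_left]
        refine Finset.sup_le fun w _ => ?_
        by_cases hw : w = v
        · subst hw; exact inf_le_right
        · rw [show Z ⊓ e w = ⊥ from Subtype.ext (others w hw).2]; exact _root_.bot_le
  · exact ⟨(hex v hv).1, Or.inr (hex v hv).2⟩

/-- A nonzero settled event lies below one member. -/
theorem Settled.exists_imp (hF : IsPartition F) {z : E.B} (hs : Settled F z) (hz : z ≠ E.bot) :
    ∃ v, Imp E z (F v) := by
  by_contra hno
  push Not at hno
  let S : E.Block := ⟨insert z (Set.range F), by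
    rintro _ (rfl | ⟨a, rfl⟩) _ (rfl | ⟨b, rfl⟩)
    exacts [E.com_refl _, (hs _).1, E.com_symm _ _ (hs _).1, hF.com a b]⟩
  let Z : S.Elem := S.mem (x := z) (Or.inl rfl)
  let e : ι → S.Elem := fun w => S.mem (Or.inr ⟨w, rfl⟩)
  have : Z = ⊥ := by
    refine le_bot_iff.1 ?_
    calc Z = Z ⊓ Finset.univ.sup e := by
          rw [sup_eq_top e F (fun _ => rfl) hF.total, inf_top_eq]
      _ ≤ ⊥ := by
        rw [Finset.sup_inf_distrib_left]
        refine Finset.sup_le fun w _ => le_of_eq (Subtype.ext ?_)
        exact ((hs w).2.resolve_left (hno w))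
  exact hz (congrArg Subtype.val this)

theorem Settled.of_imp {z f : E.B} {v : ι} (hF : IsPartition F) (h : Imp E z f) (hf : f = F v) :
    Settled F z := by
  subst hf
  exact hF.settled (fun w => w = v) (fun a b ha hb => ha.trans hb.symm)
    fun w hw => Excl.of_imp h (hF.excl' (Ne.symm hw))

/-- Two partitions commute if all their members other than one distinguished in each do. -/
theorem com_of_somes {κ : Type} [Fintype κ] {F : Option κ → E.B} {G : Option κ → E.B}
    (hF : IsPartition F) (hG : IsPartition G)
    (h : ∀ a b, E.com (F (some a)) (G (some b))) (v w : Option κ) : E.com (F v) (G w) := by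
  have h1 : ∀ b v, E.com (F v) (G (some b)) := by
    intro b v
    cases v with
    | some a => exact h a b
    | none =>
      refine E.com_symm _ _ (hF.com_one fun u hu => ?_)
      cases u with
      | none => exact absurd rfl hu
      | some a => exact E.com_symm _ _ (h a b)
  cases w with
  | some b => exact h1 b v
  | none =>
    refine hG.com_one fun u hu => ?_
    cases u with
    | none => exact absurd rfl hu
    | some b => exact h1 b v

end Vale.Agent.P196.W
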