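import Vale.Agent.P196.W.AllowedFree
import Vale.Agent.P196.W.Settled

/-!
# P196: the atoms of a tile of parts

An atom of a tile gives both offsets of its parent and the bits of the four parents of its
window. A live atom has allowed bits that agree with its offsets, and settles most offsets of the
other three parents.
-/

namespace Vale.Agent.P196.W

open Vale.Agent.P196.Fp Vale.Agent.P196.Sft EventAlgebra

noncomputable section

variable {E : EventAlgebra.{0}} {n : ℕ}

/-- Below a meet of finitely many events above it. -/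
theorem Imp.finsetInf {S : E.Block} {ι : Type} (s : Finset ι) (f : ι → S.Elem) {z : E.B}
    (h : ∀ i ∈ s, Imp E z (f i).1) : Imp E z (s.inf f).1 := by
  classical
  induction s using Finset.induction_on with
  | empty => exact imp_top z
  | insert j s _ ih =>
    rw [Finset.inf_insert]
    exact Imp.inf (h j (Finset.mem_insert_self j s))
      (ih fun k hk => h k (Finset.mem_insert_of_mem hk)) ((f j).com (s.inf f))

/-- The lower left corner of the window whose upper right cell is `p`. -/
def anchorAt (p : Cell) : Cell := (p.1 - 1, p.2 - 1)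

theorem corner_anchorAt (p : Cell) : corner (anchorAt p) (1, 1) = p := by
  simp [corner, anchorAt]

/-- The values of the events of one tile. -/
abbrev AtomIx (n : ℕ) : Type := Off n × Off n × WinBits

/-- Everything lies below the choices of one member from each of finitely many total families. -/
theorem top_le_sup_choices {B ι κ : Type} [BooleanAlgebra B] [Fintype ι] [DecidableEq ι] [Fintype κ]
    (f : ι → κ → B) (h : ∀ i, Finset.univ.sup (f i) = ⊤) :
    ⊤ ≤ Finset.univ.sup fun g : ι → κ => Finset.univ.inf fun i => f i (g i) := by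
  have h1 : (⊤ : B) ≤ Finset.univ.inf fun i => Finset.univ.sup (f i) :=
    Finset.le_inf fun i _ => le_of_eq (h i).symm
  refine h1.trans ?_
  rw [Finset.inf_sup]
  refine Finset.sup_le fun g _ => ?_
  refine le_trans ?_ (Finset.le_sup (f := fun g : ι → κ => Finset.univ.inf fun i => f i (g i))
    (Finset.mem_univ fun i => g i (Finset.mem_univ i)))
  exact Finset.le_inf fun i _ =>
    Finset.inf_le (f := fun j : {x // x ∈ (Finset.univ : Finset ι)} => f j.1 (g j.1 j.2))
      (Finset.mem_attach Finset.univ ⟨i, Finset.mem_univ i⟩)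

/-- The same with the families indexed by pairs. -/
theorem top_le_sup_choices₂ {B ι ι' κ : Type} [BooleanAlgebra B] [Fintype ι] [DecidableEq ι]
    [Fintype ι'] [DecidableEq ι'] [Fintype κ] (f : ι → ι' → κ → B)
    (h : ∀ i j, Finset.univ.sup (f i j) = ⊤) :
    ⊤ ≤ Finset.univ.sup fun g : ι → ι' → κ =>
      Finset.univ.inf fun p : ι × ι' => f p.1 p.2 (g p.1 p.2) := by
  refine (top_le_sup_choices (fun (p : ι × ι') b => f p.1 p.2 b) fun p => h p.1 p.2).trans
    (Finset.sup_le fun g _ => ?_)
  exact Finset.le_sup (f := fun g : ι → ι' → κ =>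
    Finset.univ.inf fun p : ι × ι' => f p.1 p.2 (g p.1 p.2))
    (Finset.mem_univ fun i j => g (i, j))

/-- The order of a block as the order of events. -/
theorem imp_of_le' {S : E.Block} {u v : S.Elem} (h : u ≤ v) : Imp E u.1 v.1 :=
  ⟨u.com v, (Block.Elem.le_iff u v).1 h⟩

namespace Parts

variable (X : Parts E n) (a : Cell)

/-- The block of one tile. -/
def tile : E.Block := ⟨tileSet X.xo X.yo X.bit a, X.tile_com a⟩

/-- A bit inside the block of a tile. -/
def bitEl (d : Fin 2 × Fin 2) (l : Lane segCount) (b : Bool) : (X.tile a).Elem :=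
  Block.mem (X.tile a) (x := X.bit (corner a d) l b) (Or.inl ⟨d, l, b, rfl⟩)

/-- A first offset inside the block of its tile. -/
def xEl (x : Off n) : (X.tile a).Elem :=
  Block.mem (X.tile a) (x := X.xo (corner a (1, 1)) x) (Or.inr (Or.inl ⟨x, rfl⟩))

/-- A second offset inside the block of its tile. -/
def yEl (y : Off n) : (X.tile a).Elem :=
  Block.mem (X.tile a) (x := X.yo (corner a (1, 1)) y) (Or.inr (Or.inr ⟨y, rfl⟩))

/-- All bits of a window. -/
def bitsEl (φ : WinBits) : (X.tile a).Elem :=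
  Finset.univ.inf fun dl : (Fin 2 × Fin 2) × Lane segCount => X.bitEl a dl.1 dl.2 (φ dl.1 dl.2)

/-- An atom of a tile. -/
def atom (k : AtomIx n) : (X.tile a).Elem := X.xEl a k.1 ⊓ X.yEl a k.2.1 ⊓ X.bitsEl a k.2.2

/-- The atom is nonzero. -/
def Live (k : AtomIx n) : Prop := X.atom a k ≠ ⊥

theorem xo_part (p : Cell) : IsPartition (X.xo p) := by
  refine ⟨fun v w => ?_, X.xo_excl p, X.xo_total p⟩
  rw [← corner_anchorAt p]
  exact X.tile_com (anchorAt p) _ (Or.inr (Or.inl ⟨v, rfl⟩)) _ (Or.inr (Or.inl ⟨w, rfl⟩))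

theorem yo_part (p : Cell) : IsPartition (X.yo p) := by
  refine ⟨fun v w => ?_, X.yo_excl p, X.yo_total p⟩
  rw [← corner_anchorAt p]
  exact X.tile_com (anchorAt p) _ (Or.inr (Or.inr ⟨v, rfl⟩)) _ (Or.inr (Or.inr ⟨w, rfl⟩))

theorem bit_excl (p : Cell) (l : Lane segCount) {b c : Bool} (h : b ≠ c) :
    Excl E (X.bit p l b) (X.bit p l c) := by
  have hc : Excl E (X.bit p l true) (E.compl (X.bit p l true)) :=
    ⟨E.com_compl _ _ (E.com_refl _), E.inf_compl _⟩
  cases b <;> cases c
  · exact absurd rfl h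
  · rw [X.bit_compl]; exact hc.symm
  · rw [X.bit_compl]; exact hc
  · exact absurd rfl h

variable {X a}

theorem sup_bitEl (d : Fin 2 × Fin 2) (l : Lane segCount) :
    Finset.univ.sup (X.bitEl a d l) = ⊤ := by
  have e : X.bitEl a d l false = (X.bitEl a d l true)ᶜ := Subtype.ext (X.bit_compl _ _)
  refine _root_.eq_top_iff.2 ?_
  rw [← _root_.sup_compl_eq_top (x := X.bitEl a d l true), ← e]
  exact sup_le (Finset.le_sup (Finset.mem_univ _)) (Finset.le_sup (Finset.mem_univ _))

theorem sup_bitsEl : Finset.univ.sup (X.bitsEl a) = ⊤ :=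
  _root_.eq_top_iff.2 (top_le_sup_choices₂ (X.bitEl a) (fun d l => sup_bitEl d l))

theorem sup_atom : Finset.univ.sup (X.atom a) = ⊤ := by
  classical
  refine _root_.eq_top_iff.2 ?_
  have h : (⊤ : (X.tile a).Elem) = Finset.univ.sup (X.xEl a) ⊓ Finset.univ.sup (X.yEl a) ⊓
      Finset.univ.sup (X.bitsEl a) := by
    rw [sup_eq_top (X.xEl a) (X.xo _) (fun _ => rfl) (X.xo_total _),
      sup_eq_top (X.yEl a) (X.yo _) (fun _ => rfl) (X.yo_total _), sup_bitsEl]
    simp
  rw [h, Finset.sup_inf_sup, Finset.sup_inf_sup]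
  refine Finset.sup_le fun i _ => ?_
  exact Finset.le_sup (f := X.atom a) (Finset.mem_univ (i.1.1, i.1.2, i.2))

/-- An element of a tile that misses all live atoms is zero. -/
theorem eq_bot_of_atoms (u : (X.tile a).Elem) (h : ∀ k, X.Live a k → u ⊓ X.atom a k = ⊥) :
    u = ⊥ := by
  classical
  refine le_bot_iff.1 ?_
  calc u = u ⊓ Finset.univ.sup (X.atom a) := by rw [sup_atom, inf_top_eq]
    _ ≤ ⊥ := by
      rw [Finset.sup_inf_distrib_left]
      refine Finset.sup_le fun k _ => ?_
      by_cases hk : X.Live a k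
      · exact le_of_eq (h k hk)
      · rw [not_not.1 hk, inf_bot_eq]

theorem imp_of_le {u v : (X.tile a).Elem} (h : u ≤ v) : Imp E u.1 v.1 :=
  ⟨u.com v, (Block.Elem.le_iff u v).1 h⟩

theorem atom_le_bit (k : AtomIx n) (d : Fin 2 × Fin 2) (l : Lane segCount) :
    X.atom a k ≤ X.bitEl a d l (k.2.2 d l) :=
  inf_le_right.trans (Finset.inf_le (f := fun dl : (Fin 2 × Fin 2) × Lane segCount =>
    X.bitEl a dl.1 dl.2 (k.2.2 dl.1 dl.2)) (Finset.mem_univ (d, l)))

theorem imp_atom_bit (k : AtomIx n) (d : Fin 2 × Fin 2) (l : Lane segCount) :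
    Imp E (X.atom a k).1 (X.bit (corner a d) l (k.2.2 d l)) :=
  imp_of_le (atom_le_bit k d l)

theorem imp_atom_x (k : AtomIx n) : Imp E (X.atom a k).1 (X.xo (corner a (1, 1)) k.1) :=
  imp_of_le (u := X.atom a k) (v := X.xEl a k.1) (inf_le_left.trans inf_le_left)

theorem imp_atom_y (k : AtomIx n) : Imp E (X.atom a k).1 (X.yo (corner a (1, 1)) k.2.1) :=
  imp_of_le (u := X.atom a k) (v := X.yEl a k.2.1) (inf_le_left.trans inf_le_right)

theorem Live.val_ne {k : AtomIx n} (h : X.Live a k) : (X.atom a k).1 ≠ E.bot :=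
  fun e => h (Subtype.ext e)

theorem Live.allowed {k : AtomIx n} (h : X.Live a k) : AllowedBits k.2.2 := by
  by_contra hno
  refine h (le_bot_iff.1 (le_trans inf_le_right (le_of_eq (Subtype.ext ?_))))
  exact X.rows a k.2.2 (X.tile_com a) hno

theorem Live.self {k : AtomIx n} (h : X.Live a k) (q : Fin 40) :
    k.2.2 (1, 1) (.derived q) = derBit n k.1 k.2.1 q := by
  by_contra hne
  refine h (le_bot_iff.1 ?_)
  have e : k.2.2 (1, 1) (.derived q) = !derBit n k.1 k.2.1 q :=
    Bool.eq_not_iff.2 hne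
  calc X.atom a k ≤ X.xEl a k.1 ⊓ X.yEl a k.2.1 ⊓ X.bitEl a (1, 1) (.derived q)
        (k.2.2 (1, 1) (.derived q)) := le_inf inf_le_left (atom_le_bit k _ _)
    _ = ⊥ := by rw [e]; exact Subtype.ext (X.derived _ _ _ q)

/-! ## Derived bits of one offset -/

theorem xo_bit (p : Cell) (v : Off n) (q : Fin 40) (h : q.val < 10 ∨ q.val = 37) :
    Imp E (X.xo p v) (X.bit p (.derived q) (derBit n v none q)) := by
  classical
  rw [← corner_anchorAt p]
  refine imp_of_le (u := X.xEl (anchorAt p) v)
    (v := X.bitEl (anchorAt p) (1, 1) (.derived q) (derBit n v none q)) ?_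
  set b := derBit n v none q
  have h0 : X.xEl (anchorAt p) v ⊓ X.bitEl (anchorAt p) (1, 1) (.derived q) (!b) = ⊥ := by
    refine le_bot_iff.1 ?_
    calc _ = X.xEl (anchorAt p) v ⊓ X.bitEl (anchorAt p) (1, 1) (.derived q) (!b) ⊓
          Finset.univ.sup (X.yEl (anchorAt p)) := by
            rw [sup_eq_top (X.yEl (anchorAt p)) (X.yo _) (fun _ => rfl) (X.yo_total _), inf_top_eq]
      _ ≤ ⊥ := by
        rw [Finset.sup_inf_distrib_left]
        refine Finset.sup_le fun y _ => le_of_eq ?_
        rw [inf_right_comm, show (!b) = !derBit n v y q by rw [derBit_x_only v y q h]]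
        exact Subtype.ext (X.derived _ _ _ q)
  calc X.xEl (anchorAt p) v
      = X.xEl (anchorAt p) v ⊓ Finset.univ.sup (X.bitEl (anchorAt p) (1, 1) (.derived q)) := by
        rw [sup_bitEl, inf_top_eq]
    _ ≤ _ := by
      rw [Finset.sup_inf_distrib_left]
      refine Finset.sup_le fun c _ => ?_
      by_cases hc : c = b
      · subst hc; exact inf_le_right
      · rw [Bool.eq_not_iff.2 hc, h0]; exact _root_.bot_le

theorem yo_bit (p : Cell) (v : Off n) (q : Fin 40)
    (h : (10 ≤ q.val ∧ q.val < 20) ∨ q.val = 38) :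
    Imp E (X.yo p v) (X.bit p (.derived q) (derBit n none v q)) := by
  classical
  rw [← corner_anchorAt p]
  refine imp_of_le (u := X.yEl (anchorAt p) v)
    (v := X.bitEl (anchorAt p) (1, 1) (.derived q) (derBit n none v q)) ?_
  set b := derBit n none v q
  have h0 : X.yEl (anchorAt p) v ⊓ X.bitEl (anchorAt p) (1, 1) (.derived q) (!b) = ⊥ := by
    refine le_bot_iff.1 ?_
    calc _ = X.yEl (anchorAt p) v ⊓ X.bitEl (anchorAt p) (1, 1) (.derived q) (!b) ⊓
          Finset.univ.sup (X.xEl (anchorAt p)) := by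
            rw [sup_eq_top (X.xEl (anchorAt p)) (X.xo _) (fun _ => rfl) (X.xo_total _), inf_top_eq]
      _ ≤ ⊥ := by
        rw [Finset.sup_inf_distrib_left]
        refine Finset.sup_le fun x _ => le_of_eq ?_
        rw [inf_right_comm, _root_.inf_comm (X.yEl _ v),
          show (!b) = !derBit n x v q by rw [derBit_y_only x v q h]]
        exact Subtype.ext (X.derived _ _ _ q)
  calc X.yEl (anchorAt p) v
      = X.yEl (anchorAt p) v ⊓ Finset.univ.sup (X.bitEl (anchorAt p) (1, 1) (.derived q)) := by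
        rw [sup_bitEl, inf_top_eq]
    _ ≤ _ := by
      rw [Finset.sup_inf_distrib_left]
      refine Finset.sup_le fun c _ => ?_
      by_cases hc : c = b
      · subst hc; exact inf_le_right
      · rw [Bool.eq_not_iff.2 hc, h0]; exact _root_.bot_le

theorem xo_bit_isSome (p : Cell) (v : Off n) :
    Imp E (X.xo p v) (X.bit p (.derived 37) v.isSome) := by
  have := X.xo_bit p v 37 (Or.inr rfl)
  rwa [derBit_x_isSome] at this

theorem yo_bit_isSome (p : Cell) (v : Off n) :
    Imp E (X.yo p v) (X.bit p (.derived 38) v.isSome) := by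
  have := X.yo_bit p v 38 (Or.inr rfl)
  rwa [derBit_y_isSome] at this

/-- A nonzero event below two bits of one lane shows one value. -/
theorem bit_eq {z u : E.B} {p : Cell} {l : Lane segCount} {b c : Bool} (hz : z ≠ E.bot)
    (h : Imp E z (X.bit p l b)) (hu : Imp E z u) (h' : Imp E u (X.bit p l c)) : b = c := by
  by_contra hne
  exact hz (eq_bot_of_imp_excl h (Excl.of_imp (hu.trans h') (X.bit_excl p l (Ne.symm hne))))

end Parts

end

end Vale.Agent.P196.W
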