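import Vale.Agent.P196.W.PartsFree

/-!
# P196: all parts of the parents of one window commute
-/

namespace Vale.Agent.P196.W

open Vale.Agent.P196.Fp Vale.Agent.P196.Sft EventAlgebra

noncomputable section

variable {E : EventAlgebra.{0}} {n : ℕ}

/-- An event commuting with every member of a partition commutes with an event cut in pieces. -/
theorem com_of_members {ι : Type} [Fintype ι] {S : E.Block} (e : ι → S.Elem)
    (h : Finset.univ.sup e = ⊤) {w : E.B} (u : S.Elem)
    (hc : ∀ i, E.com w (e i).1) (hd : ∀ i, e i ≤ u ∨ u ⊓ e i = ⊥) : E.com w u.1 := by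
  rw [← inf_top_eq u, ← h, Finset.sup_inf_distrib_left]
  refine com_of_sup _ _ _ fun i _ => ?_
  rcases hd i with hi | hi
  · rw [inf_eq_right.2 hi]; exact hc i
  · rw [hi]; exact E.com_bot w

namespace Parts

variable {X : Parts E n} {a : Cell}

/-- The four atoms' comparisons with an event of the tile. -/
theorem atom_decides (u : (X.tile a).Elem) (hu : u.1 ∈ tileSet X.xo X.yo X.bit a)
    (k : AtomIx n) : X.atom a k ≤ u ∨ u ⊓ X.atom a k = ⊥ := by
  obtain ⟨d, l, b, hb⟩ | ⟨x, hx⟩ | ⟨y, hy⟩ := hu
  · rw [show u = X.bitEl a d l b from Subtype.ext hb.symm]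
    by_cases h : b = k.2.2 d l
    · subst h; exact Or.inl (atom_le_bit k d l)
    · refine Or.inr (le_bot_iff.1 ((inf_le_inf_left _ (atom_le_bit k d l)).trans
        (le_of_eq (Subtype.ext (X.bit_excl _ _ h).2))))
  · rw [show u = X.xEl a x from Subtype.ext hx.symm]
    by_cases h : x = k.1
    · subst h; exact Or.inl (inf_le_left.trans inf_le_left)
    · refine Or.inr (le_bot_iff.1 ((inf_le_inf_left _ (inf_le_left.trans inf_le_left)).trans
        (le_of_eq (Subtype.ext (X.xo_excl _ _ _ h)))))
  · rw [show u = X.yEl a y from Subtype.ext hy.symm]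
    by_cases h : y = k.2.1
    · subst h; exact Or.inl (inf_le_left.trans inf_le_right)
    · refine Or.inr (le_bot_iff.1 ((inf_le_inf_left _ (inf_le_left.trans inf_le_right)).trans
        (le_of_eq (Subtype.ext (X.yo_excl _ _ _ h)))))

/-- An event commuting with all atoms commutes with the tile. -/
theorem com_tile_of_atoms {w : E.B} (h : ∀ k, E.com w (X.atom a k).1) {u : E.B}
    (hu : u ∈ tileSet X.xo X.yo X.bit a) : E.com w u :=
  com_of_members (X.atom a) sup_atom (Block.mem (X.tile a) hu) h
    fun k => atom_decides _ hu k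

theorem com_atom_x (k : AtomIx n) (d : Fin 2 × Fin 2) (v : Off n) :
    E.com (X.xo (corner a d) v) (X.atom a k).1 := by
  by_cases h : X.Live a k
  · refine E.com_symm _ _ ?_
    obtain ⟨i, j⟩ := d
    fin_cases i <;> fin_cases j
    exacts [h.com_corner_x v, (h.left_x v).1, h.com_below_x v, (Live.self_x k v).1]
  · rw [not_not.1 h]; exact E.com_bot _

theorem com_atom_y (k : AtomIx n) (d : Fin 2 × Fin 2) (v : Off n) :
    E.com (X.yo (corner a d) v) (X.atom a k).1 := by
  by_cases h : X.Live a k
  · refine E.com_symm _ _ ?_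
    obtain ⟨i, j⟩ := d
    fin_cases i <;> fin_cases j
    exacts [h.com_corner_y v, h.com_left_y v, (h.below_y v).1, (Live.self_y k v).1]
  · rw [not_not.1 h]; exact E.com_bot _

/-- Two events commute if in every atom one of them is decided. -/
theorem com_of_decided {u w : E.B} (hu : ∀ k, E.com u (X.atom a k).1)
    (hw : ∀ k, E.com w (X.atom a k).1)
    (hd : ∀ k, X.Live a k →
      (Imp E (X.atom a k).1 u ∨ E.inf (X.atom a k).1 u = E.bot) ∨
        (Imp E (X.atom a k).1 w ∨ E.inf (X.atom a k).1 w = E.bot)) : E.com w u := by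
  let S : E.Block := ⟨insert u (tileSet X.xo X.yo X.bit a), by
    rintro x (rfl | hx) y (rfl | hy)
    exacts [E.com_refl _, com_tile_of_atoms hu hy, E.com_symm _ _ (com_tile_of_atoms hu hx),
      X.tile_com a x hx y hy]⟩
  let A : AtomIx n → S.Elem := fun k => ⟨(X.atom a k).1, fun y hy =>
    (X.atom a k).2 y fun s hs => hy s (Or.inr hs)⟩
  let U : S.Elem := S.mem (x := u) (Or.inl rfl)
  have ht : Finset.univ.sup A = ⊤ := Subtype.ext
    ((sup_val_congr Finset.univ A (X.atom a) fun _ _ => rfl).trans
      (congrArg Subtype.val (sup_atom (X := X) (a := a))))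
  show E.com w U.1
  rw [← inf_top_eq U, ← ht, Finset.sup_inf_distrib_left]
  refine com_of_sup _ _ _ fun k _ => ?_
  by_cases hk : X.Live a k
  swap
  · rw [show U ⊓ A k = ⊥ from le_bot_iff.1 (inf_le_right.trans
      (le_of_eq (Subtype.ext (show (X.atom a k).1 = E.bot by rw [not_not.1 hk]; rfl))))]
    exact E.com_bot w
  rcases hd k hk with (h | h) | (h | h)
  · rw [show U ⊓ A k = A k from inf_eq_right.2 ((Block.Elem.le_iff _ _).2 h.2)]
    exact hw k
  · rw [show U ⊓ A k = ⊥ from Subtype.ext (by
      show E.inf u (X.atom a k).1 = E.bot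
      rw [E.inf_comm _ _ (hu k), h])]
    exact E.com_bot w
  · exact E.com_symm _ _ ((imp_of_le' (inf_le_right : U ⊓ A k ≤ A k)).trans h).1
  · exact E.com_symm _ _ (com_of_imp_disjoint (imp_of_le' (inf_le_right : U ⊓ A k ≤ A k))
      (Imp.refl w) (E.com_symm _ _ (hw k)) h).1

/-- A first and a second offset of one window commute. -/
theorem com_xo_yo (d d' : Fin 2 × Fin 2) (v w : Off n) :
    E.com (X.xo (corner a d) v) (X.yo (corner a d') w) := by
  refine E.com_symm _ _ (com_of_decided (fun k => com_atom_x k d v) (fun k => com_atom_y k d' w)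
    fun k hk => ?_)
  rcases hk.some_offset with h | h
  · exact Or.inl (hk.all_x h d v).2
  · exact Or.inr (hk.all_y h d' w).2

/-- The first offsets of one window commute. -/
theorem com_xo_xo (d d' : Fin 2 × Fin 2) (v w : Off n) :
    E.com (X.xo (corner a d) v) (X.xo (corner a d') w) := by
  by_cases he : d = d'
  · subst he; exact (X.xo_part _).com v w
  have base : ∀ (c : Cell) (e : Fin 2 × Fin 2) (v w : Off n),
      E.com (X.xo (corner c (1, 1)) v) (X.xo (corner c e) w) := fun c e v w =>
    E.com_symm _ _ (com_tile_of_atoms (fun k => com_atom_x k e w) (Or.inr (Or.inl ⟨v, rfl⟩)))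
  have left : ∀ (e : Fin 2 × Fin 2) (v w : Off n),
      E.com (X.xo (corner a e) w) (X.xo (corner a (0, 1)) v) := fun e v w =>
    com_of_decided (fun k => com_atom_x k (0, 1) v) (fun k => com_atom_x k e w)
      fun k hk => Or.inl (hk.left_x v).2
  have low : ∀ v w : Off n, E.com (X.xo (corner a (1, 0)) v) (X.xo (corner a (0, 0)) w) := by
    intro v w
    have := base (a.1, a.2 - 1) (0, 1) v w
    simpa [corner] using this
  obtain ⟨i, j⟩ := d
  obtain ⟨i', j'⟩ := d'
  fin_cases i <;> fin_cases j <;> fin_cases i' <;> fin_cases j' <;>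
    first
      | exact absurd rfl he
      | exact base a _ v w
      | exact E.com_symm _ _ (base a _ w v)
      | exact left _ w v
      | exact E.com_symm _ _ (left _ v w)
      | exact low v w
      | exact E.com_symm _ _ (low w v)

/-- The second offsets of one window commute. -/
theorem com_yo_yo (d d' : Fin 2 × Fin 2) (v w : Off n) :
    E.com (X.yo (corner a d) v) (X.yo (corner a d') w) := by
  by_cases he : d = d'
  · subst he; exact (X.yo_part _).com v w
  have base : ∀ (c : Cell) (e : Fin 2 × Fin 2) (v w : Off n),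
      E.com (X.yo (corner c (1, 1)) v) (X.yo (corner c e) w) := fun c e v w =>
    E.com_symm _ _ (com_tile_of_atoms (fun k => com_atom_y k e w) (Or.inr (Or.inr ⟨v, rfl⟩)))
  have below : ∀ (e : Fin 2 × Fin 2) (v w : Off n),
      E.com (X.yo (corner a e) w) (X.yo (corner a (1, 0)) v) := fun e v w =>
    com_of_decided (fun k => com_atom_y k (1, 0) v) (fun k => com_atom_y k e w)
      fun k hk => Or.inl (hk.below_y v).2
  have low : ∀ v w : Off n, E.com (X.yo (corner a (0, 1)) v) (X.yo (corner a (0, 0)) w) := by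
    intro v w
    have := base (a.1 - 1, a.2) (1, 0) v w
    simpa [corner] using this
  obtain ⟨i, j⟩ := d
  obtain ⟨i', j'⟩ := d'
  fin_cases i <;> fin_cases j <;> fin_cases i' <;> fin_cases j' <;>
    first
      | exact absurd rfl he
      | exact base a _ v w
      | exact E.com_symm _ _ (base a _ w v)
      | exact below _ w v
      | exact E.com_symm _ _ (below _ v w)
      | exact low v w
      | exact E.com_symm _ _ (low w v)

/-- The parts of the parents of a window. -/
def windowSet (X : Parts E n) (a : Cell) : Set E.B :=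
  {u | (∃ d l b, X.bit (corner a d) l b = u) ∨ (∃ d x, X.xo (corner a d) x = u) ∨
    ∃ d y, X.yo (corner a d) y = u}

theorem window_com (X : Parts E n) (a : Cell) :
    ∀ u ∈ windowSet X a, ∀ v ∈ windowSet X a, E.com u v := by
  have hb : ∀ d l b, X.bit (corner a d) l b ∈ tileSet X.xo X.yo X.bit a := fun d l b =>
    Or.inl ⟨d, l, b, rfl⟩
  have xb : ∀ e v d l b, E.com (X.xo (corner a e) v) (X.bit (corner a d) l b) :=
    fun e v d l b => com_tile_of_atoms (fun k => com_atom_x k e v) (hb d l b)
  have yb : ∀ e v d l b, E.com (X.yo (corner a e) v) (X.bit (corner a d) l b) :=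
    fun e v d l b => com_tile_of_atoms (fun k => com_atom_y k e v) (hb d l b)
  rintro u (⟨d, l, b, rfl⟩ | ⟨d, x, rfl⟩ | ⟨d, y, rfl⟩) v
    (⟨d', l', b', rfl⟩ | ⟨d', x', rfl⟩ | ⟨d', y', rfl⟩)
  exacts [X.tile_com a _ (hb _ _ _) _ (hb _ _ _), E.com_symm _ _ (xb _ _ _ _ _),
    E.com_symm _ _ (yb _ _ _ _ _), xb _ _ _ _ _, com_xo_xo _ _ _ _, com_xo_yo _ _ _ _,
    yb _ _ _ _ _, E.com_symm _ _ (com_xo_yo _ _ _ _), com_yo_yo _ _ _ _]

end Parts

end

end Vale.Agent.P196.W
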