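import Vale.Agent.P196.W.PartsSettle

/-!
# P196: atoms with a free offset

An atom in which an offset of the parent below, or of the left parent, is free equals a meet of
events that all commute with that offset: bits seen by the tile of that parent and the absent
offset across the choosing cell.
-/

namespace Vale.Agent.P196.W

open Vale.Agent.P196.Fp Vale.Agent.P196.Sft EventAlgebra

noncomputable section

variable {E : EventAlgebra.{0}} {n : ℕ}

/-- A member is above the meet of a subfamily containing it. -/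
theorem inf_inf_le {B ι ι' : Type} [SemilatticeInf B] [OrderTop B] [Fintype ι] [Fintype ι']
    (P : ι → Prop) [DecidablePred P] (g : ι → ι' → B) {i : ι} (hi : P i) (j : ι') :
    ((Finset.univ.filter P).inf fun i => Finset.univ.inf (g i)) ≤ g i j :=
  (Finset.inf_le (f := fun i => Finset.univ.inf (g i))
    (Finset.mem_filter.2 ⟨Finset.mem_univ i, hi⟩)).trans (Finset.inf_le (Finset.mem_univ j))

/-- Below every member of a subfamily is below its meet. -/
theorem imp_inf_inf {S : E.Block} {z : E.B} {ι ι' : Type} [Fintype ι] [Fintype ι'] (P : ι → Prop)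
    [DecidablePred P] (g : ι → ι' → S.Elem) (h : ∀ i, P i → ∀ j, Imp E z (g i j).1) :
    Imp E z ((Finset.univ.filter P).inf fun i => Finset.univ.inf (g i)).1 :=
  Imp.finsetInf _ _ fun i hi => Imp.finsetInf _ _ fun j _ => h i (Finset.mem_filter.1 hi).2 j

namespace Parts

variable {X : Parts E n} {a : Cell} {k : AtomIx n}

/-- First offsets of vertical neighbours commute. -/
theorem com_xo_up (p : Cell) (v w : Off n) : E.com (X.xo p v) (X.xo (p.1, p.2 + 1) w) := by
  refine com_of_somes (X.xo_part p) (X.xo_part _) (fun c d => ?_) v w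
  by_cases h : c = d
  · subst h; exact X.up_xo_com p c
  · exact (X.up_xo p (some c) (some d) fun hs => h (hs c rfl d rfl).symm).1

/-- Second offsets of horizontal neighbours commute. -/
theorem com_yo_right (p : Cell) (v w : Off n) : E.com (X.yo p v) (X.yo (p.1 + 1, p.2) w) := by
  refine com_of_somes (X.yo_part p) (X.yo_part _) (fun c d => ?_) v w
  by_cases h : c = d
  · subst h; exact X.right_yo_com p c
  · exact (X.right_yo p (some c) (some d) fun hs => h (hs c rfl d rfl).symm).1

/-- Bits forced by a nonzero event show up in an atom of a tile. -/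
theorem exists_atom_showing {c : Cell} {z : E.B} (hz : z ≠ E.bot)
    (P : Fin 2 × Fin 2 → Prop) (f : WinBits)
    (h : ∀ d, P d → ∀ l, Imp E z (X.bit (corner c d) l (f d l))) :
    ∃ k', X.Live c k' ∧ ∀ d, P d → k'.2.2 d = f d := by
  classical
  by_contra hno
  push Not at hno
  let g : Fin 2 × Fin 2 → Lane segCount → (X.tile c).Elem := fun d l => X.bitEl c d l (f d l)
  have hu : (Finset.univ.filter P).inf (fun d => Finset.univ.inf (g d)) = ⊥ :=
      eq_bot_of_atoms _ fun k' hk' => by
    obtain ⟨d, hd, hne⟩ := hno k' hk'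
    obtain ⟨l, hl⟩ := Function.ne_iff.1 hne
    refine le_bot_iff.1 ?_
    calc _ ≤ X.bitEl c d l (f d l) ⊓ X.bitEl c d l (k'.2.2 d l) :=
        inf_le_inf (inf_inf_le P g hd l) (atom_le_bit k' d l)
      _ = ⊥ := Subtype.ext (X.bit_excl _ _ (Ne.symm hl)).2
  have hi := imp_inf_inf P g h
  rw [hu] at hi
  exact hz (eq_bot_of_imp hi)

/-- The left parent's own tile. -/
theorem Live.left_tile (h : X.Live a k) :
    ∃ ψ, AllowedBits ψ ∧ ψ (1, 1) = k.2.2 (0, 1) ∧ ψ (1, 0) = k.2.2 (0, 0) := by
  obtain ⟨k', hk', he⟩ := exists_atom_showing (X := X) (c := (a.1 - 1, a.2)) h.val_ne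
    (fun d => d = (1, 1) ∨ d = (1, 0))
    (fun d => if d = (1, 1) then k.2.2 (0, 1) else k.2.2 (0, 0))
    (by
      rintro d (rfl | rfl) l
      · have := imp_atom_bit (X := X) (a := a) k (0, 1) l
        rw [if_pos rfl]
        simpa [corner] using this
      · have := imp_atom_bit (X := X) (a := a) k (0, 0) l
        rw [if_neg (by decide)]
        simpa [corner] using this)
  exact ⟨k'.2.2, hk'.allowed, (he _ (Or.inl rfl)).trans (if_pos rfl),
    (he _ (Or.inr rfl)).trans (if_neg (by decide))⟩

/-- The tile of the parent below. -/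
theorem Live.below_tile (h : X.Live a k) :
    ∃ ψ, AllowedBits ψ ∧ ψ (1, 1) = k.2.2 (1, 0) ∧ ψ (0, 1) = k.2.2 (0, 0) := by
  obtain ⟨k', hk', he⟩ := exists_atom_showing (X := X) (c := (a.1, a.2 - 1)) h.val_ne
    (fun d => d = (1, 1) ∨ d = (0, 1))
    (fun d => if d = (1, 1) then k.2.2 (1, 0) else k.2.2 (0, 0))
    (by
      rintro d (rfl | rfl) l
      · have := imp_atom_bit (X := X) (a := a) k (1, 0) l
        rw [if_pos rfl]
        simpa [corner] using this
      · have := imp_atom_bit (X := X) (a := a) k (0, 0) l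
        rw [if_neg (by decide)]
        simpa [corner] using this)
  exact ⟨k'.2.2, hk'.allowed, (he _ (Or.inl rfl)).trans (if_pos rfl),
    (he _ (Or.inr rfl)).trans (if_neg (by decide))⟩

theorem Live.freeX (h : X.Live a k) (hx : k.1 = none)
    (hB : k.2.2 (1, 0) (.derived 37) = true) : FreeX n k.2.2 k.2.1 := by
  obtain ⟨R⟩ := h.allowed.reading
  have hself : ∀ q, k.2.2 (1, 1) (.derived q) = derBit n none k.2.1 q := fun q => by
    rw [h.self, hx]
  have hy := R.y_eq_of_free_x hself hB
  refine ⟨hself, fun hp q hq => ?_, fun hp q h1 h2 => ?_, h.left_tile⟩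
  · obtain ⟨v, hv⟩ := h.left_x.exists_imp (X.xo_part _) h.val_ne
    have hs := h.x_of_imp hv
    rw [hp] at hs
    obtain ⟨c, rfl⟩ := Option.isSome_iff_exists.1 hs.symm
    have e2 := bit_eq h.val_ne (imp_atom_bit k (0, 1) (.derived 2)) hv
      (X.xo_bit _ _ 2 (Or.inl (by decide)))
    have hlast := R.left_last 1 (by rw [h.x_presence, hx]; rfl) hp
    rw [hlast, derBit_x_last] at e2
    rw [bit_eq h.val_ne (imp_atom_bit k (0, 1) (.derived q)) hv (X.xo_bit _ _ q (Or.inl hq)),
      eq_offLast (of_decide_eq_true e2.symm)]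
  · obtain ⟨v, hv⟩ := (h.left_y (fun e => by rw [hy] at e; cases e)).exists_imp
      (X.yo_part _) h.val_ne
    have hs := h.y_of_imp hv
    rw [hp] at hs
    obtain ⟨c, rfl⟩ := Option.isSome_iff_exists.1 hs.symm
    rw [bit_eq h.val_ne (imp_atom_bit k (0, 1) (.derived q)) hv
      (X.yo_bit _ _ q (Or.inl ⟨h1, h2⟩))]
    by_cases he : c = offZero n
    · rw [he]
    · refine absurd (eq_bot_of_imp_excl hv (Excl.of_imp (imp_atom_y k) ?_)) h.val_ne
      have := (X.right_yo (corner a (0, 1)) (some c) k.2.1 fun hs => he ((hs c rfl _ hy).symm)).symm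
      rwa [corner_right] at this

theorem Live.freeY (h : X.Live a k) (hy : k.2.1 = none)
    (hL : k.2.2 (0, 1) (.derived 38) = true) : FreeY n k.2.2 k.1 := by
  obtain ⟨R⟩ := h.allowed.reading
  have hself : ∀ q, k.2.2 (1, 1) (.derived q) = derBit n k.1 none q := fun q => by
    rw [h.self, hy]
  have hx := R.x_eq_of_free_y hself hL
  refine ⟨hself, fun hp q hq => ?_, h.below_tile⟩
  obtain ⟨v, hv⟩ := (h.below_x (fun e => by rw [hx] at e; cases e)).exists_imp
    (X.xo_part _) h.val_ne
  have hs := h.x_of_imp hv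
  rw [hp] at hs
  obtain ⟨c, rfl⟩ := Option.isSome_iff_exists.1 hs.symm
  rw [bit_eq h.val_ne (imp_atom_bit k (1, 0) (.derived q)) hv (X.xo_bit _ _ q (Or.inl hq))]
  by_cases he : c = offZero n
  · rw [he]
  · refine absurd (eq_bot_of_imp_excl hv (Excl.of_imp (imp_atom_x k) ?_)) h.val_ne
    have := (X.up_xo (corner a (1, 0)) (some c) k.1 fun hs => he ((hs c rfl _ hx).symm)).symm
    rwa [corner_up] at this

/-- The atom of a free first offset is the absent offset with the lower bits. -/
theorem Live.eq_lower (h : X.Live a k) (hx : k.1 = none)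
    (hB : k.2.2 (1, 0) (.derived 37) = true) :
    X.atom a k = X.xEl a none ⊓ Finset.univ.inf fun il : Fin 2 × Lane segCount =>
      X.bitEl a (il.1, 0) il.2 (k.2.2 (il.1, 0) il.2) := by
  classical
  refine _root_.le_antisymm (_root_.le_inf ?_ (Finset.le_inf fun il _ => atom_le_bit k _ _)) ?_
  · rw [← hx]; exact inf_le_left.trans inf_le_left
  set u := X.xEl a none ⊓ Finset.univ.inf fun il : Fin 2 × Lane segCount =>
    X.bitEl a (il.1, 0) il.2 (k.2.2 (il.1, 0) il.2) with hu
  calc u = u ⊓ Finset.univ.sup (X.atom a) := by rw [sup_atom, inf_top_eq]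
    _ ≤ X.atom a k := by
      rw [Finset.sup_inf_distrib_left]
      refine Finset.sup_le fun k' _ => ?_
      by_cases h0 : u ⊓ X.atom a k' = ⊥
      · rw [h0]; exact _root_.bot_le
      have hl : X.Live a k' := fun e => h0 (by rw [e, inf_bot_eq])
      have hx' : k'.1 = none := by
        by_contra hne
        refine h0 (le_bot_iff.1 ((inf_le_inf inf_le_left (inf_le_left.trans inf_le_left)).trans
          (le_of_eq (Subtype.ext ?_))))
        exact X.xo_excl _ _ _ (Ne.symm hne)
      have hb : ∀ i, k'.2.2 (i, 0) = k.2.2 (i, 0) := fun i => funext fun l => by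
        by_contra hne
        refine h0 (le_bot_iff.1 ((inf_le_inf (inf_le_right.trans
          (Finset.inf_le (f := fun il : Fin 2 × Lane segCount =>
            X.bitEl a (il.1, 0) il.2 (k.2.2 (il.1, 0) il.2)) (Finset.mem_univ (i, l)))) (atom_le_bit k' (i, 0) l)).trans
          (le_of_eq (Subtype.ext ?_))))
        exact (X.bit_excl _ _ (Ne.symm hne)).2
      obtain ⟨e1, e2⟩ := (h.freeX hx hB).unique (hl.freeX hx' (by rw [hb]; exact hB)) h.allowed
        hl.allowed hB (hb 1).symm (hb 0).symm
      obtain ⟨k1, k2, k3⟩ := k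
      obtain ⟨l1, l2, l3⟩ := k'
      simp only at hx hx' e1 e2
      subst hx hx' e1 e2
      exact inf_le_right

/-- The atom of a free second offset is the absent offset with the left bits. -/
theorem Live.eq_left (h : X.Live a k) (hy : k.2.1 = none)
    (hL : k.2.2 (0, 1) (.derived 38) = true) :
    X.atom a k = X.yEl a none ⊓ Finset.univ.inf fun jl : Fin 2 × Lane segCount =>
      X.bitEl a (0, jl.1) jl.2 (k.2.2 (0, jl.1) jl.2) := by
  classical
  refine _root_.le_antisymm (_root_.le_inf ?_ (Finset.le_inf fun il _ => atom_le_bit k _ _)) ?_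
  · rw [← hy]; exact inf_le_left.trans inf_le_right
  set u := X.yEl a none ⊓ Finset.univ.inf fun jl : Fin 2 × Lane segCount =>
    X.bitEl a (0, jl.1) jl.2 (k.2.2 (0, jl.1) jl.2) with hu
  calc u = u ⊓ Finset.univ.sup (X.atom a) := by rw [sup_atom, inf_top_eq]
    _ ≤ X.atom a k := by
      rw [Finset.sup_inf_distrib_left]
      refine Finset.sup_le fun k' _ => ?_
      by_cases h0 : u ⊓ X.atom a k' = ⊥
      · rw [h0]; exact _root_.bot_le
      have hl : X.Live a k' := fun e => h0 (by rw [e, inf_bot_eq])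
      have hy' : k'.2.1 = none := by
        by_contra hne
        refine h0 (le_bot_iff.1 ((inf_le_inf inf_le_left (inf_le_left.trans inf_le_right)).trans
          (le_of_eq (Subtype.ext ?_))))
        exact X.yo_excl _ _ _ (Ne.symm hne)
      have hb : ∀ j, k'.2.2 (0, j) = k.2.2 (0, j) := fun j => funext fun l => by
        by_contra hne
        refine h0 (le_bot_iff.1 ((inf_le_inf (inf_le_right.trans
          (Finset.inf_le (f := fun jl : Fin 2 × Lane segCount =>
            X.bitEl a (0, jl.1) jl.2 (k.2.2 (0, jl.1) jl.2)) (Finset.mem_univ (j, l)))) (atom_le_bit k' (0, j) l)).trans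
          (le_of_eq (Subtype.ext ?_))))
        exact (X.bit_excl _ _ (Ne.symm hne)).2
      obtain ⟨e1, e2⟩ := (h.freeY hy hL).unique (hl.freeY hy' (by rw [hb]; exact hL)) h.allowed
        hl.allowed hL (hb 1).symm (hb 0).symm
      obtain ⟨k1, k2, k3⟩ := k
      obtain ⟨l1, l2, l3⟩ := k'
      simp only at hy hy' e1 e2
      subst hy hy' e1 e2
      exact inf_le_right

/-- The free first offset below commutes with its atom. -/
theorem Live.com_below_x (h : X.Live a k) (v : Off n) :
    E.com (X.atom a k).1 (X.xo (corner a (1, 0)) v) := by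
  by_cases hfree : k.1 = none → k.2.2 (1, 0) (.derived 37) = false
  · exact ((h.below_x hfree) v).1
  simp only [Classical.not_imp, Bool.not_eq_false] at hfree
  rw [h.eq_lower hfree.1 hfree.2]
  refine E.com_symm _ _ (E.com_inf _ _ _ ?_ (com_of_inf _ _ _ fun il _ => ?_) ((X.xEl a none).com _))
  · show E.com (X.xo (corner a (1, 0)) v) (X.xo (corner a (1, 1)) none)
    rw [← corner_up a 1]
    exact com_xo_up _ _ _
  · obtain ⟨i, l⟩ := il
    refine X.tile_com (a.1, a.2 - 1) _ (Or.inr (Or.inl ⟨v, ?_⟩)) _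
      (Or.inl ⟨(i, 1), l, k.2.2 (i, 0) l, ?_⟩)
    · simp [corner]
    · simp [corner, bitEl, Block.mem]

/-- The free second offset on the left commutes with its atom. -/
theorem Live.com_left_y (h : X.Live a k) (v : Off n) :
    E.com (X.atom a k).1 (X.yo (corner a (0, 1)) v) := by
  by_cases hfree : k.2.1 = none → k.2.2 (0, 1) (.derived 38) = false
  · exact ((h.left_y hfree) v).1
  simp only [Classical.not_imp, Bool.not_eq_false] at hfree
  rw [h.eq_left hfree.1 hfree.2]
  refine E.com_symm _ _ (E.com_inf _ _ _ ?_ (com_of_inf _ _ _ fun il _ => ?_) ((X.yEl a none).com _))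
  · show E.com (X.yo (corner a (0, 1)) v) (X.yo (corner a (1, 1)) none)
    rw [← corner_right a 1]
    exact com_yo_right _ _ _
  · obtain ⟨j, l⟩ := il
    refine X.tile_com (a.1 - 1, a.2) _ (Or.inr (Or.inr ⟨v, ?_⟩)) _
      (Or.inl ⟨(1, j), l, k.2.2 (0, j) l, ?_⟩)
    · simp [corner]
    · simp [corner, bitEl, Block.mem]

/-- The first offset of the opposite parent commutes with every atom. -/
theorem Live.com_corner_x (h : X.Live a k) (v : Off n) :
    E.com (X.atom a k).1 (X.xo (corner a (0, 0)) v) := by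
  by_cases hfree : k.1 = none → k.2.2 (1, 0) (.derived 37) = false
  · exact ((h.corner_x hfree) v).1
  simp only [Classical.not_imp, Bool.not_eq_false] at hfree
  let S : E.Block := ⟨insert (X.atom a k).1 (Set.range (X.xo (corner a (1, 0)))), by
    rintro _ (rfl | ⟨c, rfl⟩) _ (rfl | ⟨d, rfl⟩)
    exacts [E.com_refl _, h.com_below_x d, E.com_symm _ _ (h.com_below_x c),
      (X.xo_part _).com c d]⟩
  let Z : S.Elem := S.mem (x := (X.atom a k).1) (Or.inl rfl)
  let W : Off n → S.Elem := fun w => S.mem (Or.inr ⟨w, rfl⟩)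
  show E.com Z.1 _
  rw [← inf_top_eq Z, ← sup_eq_top W (X.xo _) (fun _ => rfl) (X.xo_total _),
    Finset.sup_inf_distrib_left]
  refine E.com_symm _ _ (com_of_sup _ _ _ fun w _ => E.com_symm _ _ ?_)
  have hz : Imp E (Z ⊓ W w).1 (X.atom a k).1 := imp_of_le' (inf_le_left : Z ⊓ W w ≤ Z)
  have hw : Imp E (Z ⊓ W w).1 (X.xo (corner a (1, 0)) w) :=
    imp_of_le' (inf_le_right : Z ⊓ W w ≤ W w)
  cases w with
  | none =>
    rw [eq_bot_of_imp_excl (hz.trans (imp_atom_bit k (1, 0) (.derived 37)))
      (Excl.of_imp (hw.trans (X.xo_bit_isSome _ _)) (X.bit_excl _ _ (by simp [hfree.2])))]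
    exact EventAlgebra.bot_com _
  | some c =>
    refine ((settled_left_x (x := some c) ?_ (hz.trans (imp_atom_bit k (0, 0) _))
      fun e => by cases e) v).1
    rw [corner_right]
    exact hw

/-- The second offset of the opposite parent commutes with every atom. -/
theorem Live.com_corner_y (h : X.Live a k) (v : Off n) :
    E.com (X.atom a k).1 (X.yo (corner a (0, 0)) v) := by
  by_cases hfree : k.2.1 = none → k.2.2 (0, 1) (.derived 38) = false
  · exact ((h.corner_y hfree) v).1
  simp only [Classical.not_imp, Bool.not_eq_false] at hfree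
  let S : E.Block := ⟨insert (X.atom a k).1 (Set.range (X.yo (corner a (0, 1)))), by
    rintro _ (rfl | ⟨c, rfl⟩) _ (rfl | ⟨d, rfl⟩)
    exacts [E.com_refl _, h.com_left_y d, E.com_symm _ _ (h.com_left_y c),
      (X.yo_part _).com c d]⟩
  let Z : S.Elem := S.mem (x := (X.atom a k).1) (Or.inl rfl)
  let W : Off n → S.Elem := fun w => S.mem (Or.inr ⟨w, rfl⟩)
  show E.com Z.1 _
  rw [← inf_top_eq Z, ← sup_eq_top W (X.yo _) (fun _ => rfl) (X.yo_total _),
    Finset.sup_inf_distrib_left]
  refine E.com_symm _ _ (com_of_sup _ _ _ fun w _ => E.com_symm _ _ ?_)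
  have hz : Imp E (Z ⊓ W w).1 (X.atom a k).1 := imp_of_le' (inf_le_left : Z ⊓ W w ≤ Z)
  have hw : Imp E (Z ⊓ W w).1 (X.yo (corner a (0, 1)) w) :=
    imp_of_le' (inf_le_right : Z ⊓ W w ≤ W w)
  cases w with
  | none =>
    rw [eq_bot_of_imp_excl (hz.trans (imp_atom_bit k (0, 1) (.derived 38)))
      (Excl.of_imp (hw.trans (X.yo_bit_isSome _ _)) (X.bit_excl _ _ (by simp [hfree.2])))]
    exact EventAlgebra.bot_com _
  | some c =>
    refine ((settled_below_y (y := some c) ?_ (hz.trans (imp_atom_bit k (0, 0) _))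
      fun e => by cases e) v).1
    rw [corner_up]
    exact hw

end Parts

end

end Vale.Agent.P196.W
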