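import Vale.Agent.P196.W.PartsCom

/-!
# P196: parts of parents give local events of the parents

Offsets and bits of a parent together are a colour of the next level or have the zero event, and
four of them that break a rule window of that level meet in zero.
-/

namespace Vale.Agent.P196.W

open Vale.Agent.P196.Fp Vale.Agent.P196.Sft EventAlgebra

noncomputable section

variable {E : EventAlgebra.{0}} {n : ℕ}

theorem inf_val_congr {S S' : E.Block} {ι : Type} (s : Finset ι) (f : ι → S.Elem)
    (g : ι → S'.Elem) (h : ∀ j ∈ s, (f j).1 = (g j).1) : (s.inf f).1 = (s.inf g).1 := by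
  classical
  induction s using Finset.induction_on with
  | empty => rfl
  | insert j s _ ih =>
    rw [Finset.inf_insert, Finset.inf_insert]
    show E.inf (f j).1 (s.inf f).1 = E.inf (g j).1 (s.inf g).1
    rw [h j (Finset.mem_insert_self j s), ih fun k hk => h k (Finset.mem_insert_of_mem hk)]

/-- The parts of one parent. -/
abbrev PartVal (n : ℕ) : Type := Off n × Off n × (Lane segCount → Bool)

/-- Parts of four parents that may stand in one window. -/
structure GoodWin (w : Win (PartVal n)) : Prop where
  derived : ∀ d q, (w d).2.2 (.derived q) = derBit n (w d).1 (w d).2.1 q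
  allowed : AllowedBits fun d => (w d).2.2
  right_x : ∀ j, StepOff (w (0, j)).1 (w (1, j)).1
  right_y : ∀ j, SameOff (w (0, j)).2.1 (w (1, j)).2.1
  up_x : ∀ i, SameOff (w (i, 0)).1 (w (i, 1)).1
  up_y : ∀ i, StepOff (w (i, 0)).2.1 (w (i, 1)).2.1

/-- The parts of a colour. -/
def partsOf (n : ℕ) (c : Tint (m0 segCount) (n + 1)) : PartVal n :=
  (c.addr.xoff, c.addr.yoff, colourBits layoutKind (tables layoutKind) (m0 segCount) (n + 1) c)

theorem partsOf_injective : Function.Injective (partsOf n) := by
  intro c c' h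
  simp only [partsOf, Prod.mk.injEq] at h
  obtain ⟨hx, hy, hb⟩ := h
  refine eq_of_same_choices ⟨?_, ?_, fun z _ => ?_⟩
  · simp only [choices, hx]
  · simp only [choices, hy]
  · simp only [choices, laneBit, hb]

theorem derBit_descOf (A : Addr segCount (parentLen n)) (q : Fin 40) :
    derBit n A.xoff A.yoff q =
      (descOf (tables layoutKind) (m0 segCount) (n + 1) A).derived q.val := by
  have h := dval_choices (tables layoutKind) (m0 segCount)
    (⟨A, .none, .none⟩ : Tint (m0 segCount) (n + 1)) q
  rw [← h]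
  simp only [derBit, dval, derX, derY, colLine, choices]

theorem mem_rules_of_good {w : Win (Tint (m0 segCount) (n + 1))} (h : GoodWin (partsOf n ∘ w)) :
    w ∈ rules (tables layoutKind) (m0 segCount) (n + 1) := by
  rw [rules, mem_windows_iff]
  exact ⟨h.allowed true, h.allowed false, fun j => ⟨h.right_x j, h.right_y j⟩,
    fun i => ⟨h.up_y i, h.up_x i⟩⟩

theorem exists_partsOf {w : Win (PartVal n)} (h : GoodWin w) :
    w (1, 1) ∈ Set.range (partsOf n) := by
  obtain ⟨R⟩ := h.allowed.reading
  rcases hv : w (1, 1) with ⟨x, y, bits⟩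
  have hb : ∀ l, bits l = (w (1, 1)).2.2 l := fun l => by simp [hv]
  have hd : ∀ q, bits (.derived q) = derBit n x y q := fun q => by
    simpa [hv] using h.derived (1, 1) q
  have px := R.x_isSome (1, 1)
  have py := R.y_isSome (1, 1)
  rw [← hb, hd, derBit_x_isSome] at px
  rw [← hb, hd, derBit_y_isSome] at py
  obtain ⟨A, rfl, rfl, hA⟩ : ∃ A : Addr segCount (parentLen n), A.xoff = x ∧ A.yoff = y ∧
      match A, R.D (1, 1) with
      | .band _, .band _ => True
      | .bandP _, .bandP _ => True
      | .full sA _ sB _, .full sA' sB' _ => sA = sA' ∧ sB = sB'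
      | _, _ => False := by
    cases hD : R.D (1, 1) <;> rw [hD] at px py <;> rcases x with _ | p <;> rcases y with _ | r <;>
      simp [Desc.x?, Desc.y?] at px py
    · exact ⟨.band p, rfl, rfl, trivial⟩
    · exact ⟨.bandP r, rfl, rfl, trivial⟩
    · rename_i sA sB _
      exact ⟨.full sA p sB r, rfl, rfl, rfl, rfl⟩
  refine ⟨⟨A, R.e.h, R.e.v⟩, ?_⟩
  simp only [partsOf, Prod.mk.injEq, true_and]
  have hdesc : descOf (tables layoutKind) (m0 segCount) (n + 1) A = R.D (1, 1) := by
    refine Desc.code_injective (fun _ _ _ => Kind.blank) (funext fun l => ?_)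
    cases l with
    | derived q =>
      show (descOf _ _ _ A).derived q.val = (R.D (1, 1)).derived q.val
      have e := R.derived (1, 1) q
      beta_reduce at e
      rw [← derBit_descOf, ← e, ← hb, hd]
    | segA s => cases A <;> cases hD : R.D (1, 1) <;> simp_all [Desc.code, descOf]
    | segB s => cases A <;> cases hD : R.D (1, 1) <;> simp_all [Desc.code, descOf]
    | kind k =>
      cases A <;> cases hD : R.D (1, 1) <;> simp_all [Desc.code, descOf, Desc.kind] <;> rfl
    | outH _ => rfl
    | outV _ => rfl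
  funext l
  rw [hb]
  have eh := R.outH_self
  have ev := R.outV_self
  have ec := R.code (1, 1)
  beta_reduce at eh ev ec
  cases l with
  | outH s => rw [eh]; rfl
  | outV s => rw [ev]; rfl
  | derived q => rw [ec (.derived q) id]; simp only [colourBits, hdesc]
  | segA s => rw [ec (.segA s) id]; simp only [colourBits, hdesc]
  | segB s => rw [ec (.segB s) id]; simp only [colourBits, hdesc]
  | kind k => rw [ec (.kind k) id]; simp only [colourBits, hdesc]

/-- A member is above the meet of all. -/
theorem univ_inf_le {B ι : Type} [SemilatticeInf B] [OrderTop B] [Fintype ι] (g : ι → B) (i : ι) :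
    Finset.univ.inf g ≤ g i :=
  Finset.inf_le (Finset.mem_univ i)

namespace Parts

variable (X : Parts E n) (a : Cell)

/-- The block of the parts of a window. -/
def winBlock : E.Block := ⟨windowSet X a, window_com X a⟩

/-- A first offset inside the block of a window. -/
def winX (d : Fin 2 × Fin 2) (x : Off n) : (X.winBlock a).Elem :=
  Block.mem (X.winBlock a) (x := X.xo (corner a d) x) (Or.inr (Or.inl ⟨d, x, rfl⟩))

/-- A second offset inside the block of a window. -/
def winY (d : Fin 2 × Fin 2) (y : Off n) : (X.winBlock a).Elem :=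
  Block.mem (X.winBlock a) (x := X.yo (corner a d) y) (Or.inr (Or.inr ⟨d, y, rfl⟩))

/-- A bit inside the block of a window. -/
def winBit (d : Fin 2 × Fin 2) (l : Lane segCount) (b : Bool) : (X.winBlock a).Elem :=
  Block.mem (X.winBlock a) (x := X.bit (corner a d) l b) (Or.inl ⟨d, l, b, rfl⟩)

/-- All bits of one parent. -/
def winBits (d : Fin 2 × Fin 2) (f : Lane segCount → Bool) : (X.winBlock a).Elem :=
  Finset.univ.inf fun l => X.winBit a d l (f l)

/-- The parts of one parent inside the block of a window. -/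
def valEl (d : Fin 2 × Fin 2) (v : PartVal n) : (X.winBlock a).Elem :=
  X.winX a d v.1 ⊓ X.winY a d v.2.1 ⊓ X.winBits a d v.2.2

/-- The event of the parts of one parent. -/
def valEv (p : Cell) (v : PartVal n) : E.B := (X.valEl (anchorAt p) (1, 1) v).1

variable {X a}

theorem winBit_val {b : Cell} {d e : Fin 2 × Fin 2} (h : corner a d = corner b e)
    (l : Lane segCount) (c : Bool) : (X.winBit a d l c).1 = (X.winBit b e l c).1 := by
  show X.bit (corner a d) l c = X.bit (corner b e) l c
  rw [h]

theorem valEl_val (d : Fin 2 × Fin 2) (v : PartVal n) :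
    (X.valEl a d v).1 = X.valEv (corner a d) v := by
  have h : corner a d = corner (anchorAt (corner a d)) (1, 1) := (corner_anchorAt _).symm
  show E.inf (E.inf (X.xo _ v.1) (X.yo _ v.2.1)) (X.winBits a d v.2.2).1 = E.inf (E.inf
    (X.xo (corner (anchorAt (corner a d)) (1, 1)) v.1)
    (X.yo (corner (anchorAt (corner a d)) (1, 1)) v.2.1))
    (X.winBits (anchorAt (corner a d)) (1, 1) v.2.2).1
  rw [← h]
  refine congrArg _ ?_
  exact inf_val_congr Finset.univ (fun l => X.winBit a d l (v.2.2 l))
    (fun l => X.winBit (anchorAt (corner a d)) (1, 1) l (v.2.2 l))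
    fun l _ => winBit_val h l _

theorem valEl_le_bit (d : Fin 2 × Fin 2) (v : PartVal n) (l : Lane segCount) :
    X.valEl a d v ≤ X.winBit a d l (v.2.2 l) :=
  inf_le_right.trans (univ_inf_le (fun l => X.winBit a d l (v.2.2 l)) l)

theorem valEl_excl (d : Fin 2 × Fin 2) {v v' : PartVal n} (h : v ≠ v') :
    X.valEl a d v ⊓ X.valEl a d v' = ⊥ := by
  by_cases hx : v.1 = v'.1
  · by_cases hy : v.2.1 = v'.2.1
    · obtain ⟨l, hl⟩ : ∃ l, v.2.2 l ≠ v'.2.2 l :=
        Function.ne_iff.1 fun e => h (Prod.ext hx (Prod.ext hy e))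
      exact le_bot_iff.1 ((inf_le_inf (valEl_le_bit d v l) (valEl_le_bit d v' l)).trans
        (le_of_eq (Subtype.ext (X.bit_excl _ _ hl).2)))
    · exact le_bot_iff.1 ((inf_le_inf (inf_le_left.trans inf_le_right)
        (inf_le_left.trans inf_le_right)).trans (le_of_eq (Subtype.ext (X.yo_excl _ _ _ hy))))
  · exact le_bot_iff.1 ((inf_le_inf (inf_le_left.trans inf_le_left)
      (inf_le_left.trans inf_le_left)).trans (le_of_eq (Subtype.ext (X.xo_excl _ _ _ hx))))

theorem sup_winBits (d : Fin 2 × Fin 2) : Finset.univ.sup (X.winBits a d) = ⊤ :=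
  _root_.eq_top_iff.2 (top_le_sup_choices (fun l b => X.winBit a d l b) fun l => by
    have e : X.winBit a d l false = (X.winBit a d l true)ᶜ := Subtype.ext (X.bit_compl _ _)
    refine _root_.eq_top_iff.2 ?_
    rw [← _root_.sup_compl_eq_top (x := X.winBit a d l true), ← e]
    exact sup_le (Finset.le_sup (Finset.mem_univ _)) (Finset.le_sup (Finset.mem_univ _)))

theorem sup_valEl (d : Fin 2 × Fin 2) : Finset.univ.sup (X.valEl a d) = ⊤ := by
  classical
  refine _root_.eq_top_iff.2 ?_
  have h : (⊤ : (X.winBlock a).Elem) = Finset.univ.sup (X.winX a d) ⊓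
      Finset.univ.sup (X.winY a d) ⊓ Finset.univ.sup (X.winBits a d) := by
    rw [sup_eq_top (X.winX a d) (X.xo _) (fun _ => rfl) (X.xo_total _),
      sup_eq_top (X.winY a d) (X.yo _) (fun _ => rfl) (X.yo_total _), sup_winBits]
    simp
  rw [h, Finset.sup_inf_sup, Finset.sup_inf_sup]
  refine Finset.sup_le fun i _ => ?_
  exact Finset.le_sup (f := X.valEl a d) (Finset.mem_univ (i.1.1, i.1.2, i.2))

/-- Parts that break a window rule meet in zero. -/
theorem meet_eq_bot (w : Win (PartVal n)) (hw : ¬ GoodWin w) :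
    X.valEl a (0, 0) (w (0, 0)) ⊓ X.valEl a (1, 0) (w (1, 0)) ⊓
      (X.valEl a (0, 1) (w (0, 1)) ⊓ X.valEl a (1, 1) (w (1, 1))) = ⊥ := by
  classical
  set Q := X.valEl a (0, 0) (w (0, 0)) ⊓ X.valEl a (1, 0) (w (1, 0)) ⊓
    (X.valEl a (0, 1) (w (0, 1)) ⊓ X.valEl a (1, 1) (w (1, 1))) with hQ
  have le : ∀ d, Q ≤ X.valEl a d (w d) := by
    rintro ⟨i, j⟩
    fin_cases i <;> fin_cases j
    exacts [inf_le_left.trans inf_le_left, inf_le_right.trans inf_le_left,
      inf_le_left.trans inf_le_right, inf_le_right.trans inf_le_right]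
  have lx : ∀ d, Q ≤ X.winX a d (w d).1 := fun d => (le d).trans (inf_le_left.trans inf_le_left)
  have ly : ∀ d, Q ≤ X.winY a d (w d).2.1 := fun d => (le d).trans (inf_le_left.trans inf_le_right)
  by_contra hne
  refine hw ⟨fun d q => ?_, ?_, fun j => ?_, fun j => ?_, fun i => ?_, fun i => ?_⟩
  · by_contra hq
    refine hne (le_bot_iff.1 ((_root_.le_inf (_root_.le_inf (lx d) (ly d))
      ((le d).trans (valEl_le_bit d (w d) (.derived q)))).trans (le_of_eq (Subtype.ext ?_))))
    show E.inf (E.inf (X.xo _ _) (X.yo _ _)) (X.bit _ _ _) = E.bot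
    rw [Bool.eq_not_iff.2 hq]
    exact X.derived _ _ _ q
  · by_contra hrows
    let g : (Fin 2 × Fin 2) × Lane segCount → (X.winBlock a).Elem := fun dl =>
      X.winBit a dl.1 dl.2 ((w dl.1).2.2 dl.2)
    refine hne (le_bot_iff.1 ((Finset.le_inf (f := g) (s := Finset.univ) fun dl _ =>
      (le dl.1).trans (valEl_le_bit dl.1 (w dl.1) dl.2)).trans (le_of_eq (Subtype.ext ?_))))
    exact (inf_val_congr Finset.univ g (fun dl : (Fin 2 × Fin 2) × Lane segCount =>
      X.bitEl a dl.1 dl.2 ((w dl.1).2.2 dl.2)) fun _ _ => rfl).trans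
      (X.rows a (fun d => (w d).2.2) (X.tile_com a) hrows)
  · by_contra hs
    refine hne (le_bot_iff.1 ((_root_.le_inf (lx (0, j)) (lx (1, j))).trans
      (le_of_eq (Subtype.ext ?_))))
    have := (X.right_xo (corner a (0, j)) _ _ hs).2
    rwa [corner_right] at this
  · by_contra hs
    refine hne (le_bot_iff.1 ((_root_.le_inf (ly (0, j)) (ly (1, j))).trans
      (le_of_eq (Subtype.ext ?_))))
    have := (X.right_yo (corner a (0, j)) _ _ hs).2
    rwa [corner_right] at this
  · by_contra hs
    refine hne (le_bot_iff.1 ((_root_.le_inf (lx (i, 0)) (lx (i, 1))).trans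
      (le_of_eq (Subtype.ext ?_))))
    have := (X.up_xo (corner a (i, 0)) _ _ hs).2
    rwa [corner_up] at this
  · by_contra hs
    refine hne (le_bot_iff.1 ((_root_.le_inf (ly (i, 0)) (ly (i, 1))).trans
      (le_of_eq (Subtype.ext ?_))))
    have := (X.up_yo (corner a (i, 0)) _ _ hs).2
    rwa [corner_up] at this

variable (X)

/-- Two cells at distance one lie in one window. -/
theorem valEv_com {p q : Cell} (h1 : |p.1 - q.1| ≤ 1) (h2 : |p.2 - q.2| ≤ 1) (v v' : PartVal n) :
    E.com (X.valEv p v) (X.valEv q v') := by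
  rw [abs_le] at h1 h2
  let b : Cell := (min p.1 q.1, min p.2 q.2)
  let dp : Fin 2 × Fin 2 := (⟨(p.1 - b.1).toNat, by simp [b]; omega⟩,
    ⟨(p.2 - b.2).toNat, by simp [b]; omega⟩)
  let dq : Fin 2 × Fin 2 := (⟨(q.1 - b.1).toNat, by simp [b]; omega⟩,
    ⟨(q.2 - b.2).toNat, by simp [b]; omega⟩)
  have ep : corner b dp = p := Prod.ext (by simp [corner, dp, b])
    (by simp [corner, dp, b])
  have eq : corner b dq = q := Prod.ext (by simp [corner, dq, b])
    (by simp [corner, dq, b])
  rw [← ep, ← eq, ← valEl_val, ← valEl_val]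
  exact (X.valEl b dp v).com _

/-- The parts of the parents as local events on values. -/
def valEvents : LocalEvents E {w : Win (PartVal n) | GoodWin w} where
  ev := X.valEv
  near p q v v' h1 h2 := X.valEv_com h1 h2 v v'
  exclusive p v v' h := congrArg Subtype.val (valEl_excl (X := X) (a := anchorAt p) (1, 1) h)
  total p := foldr_compl_of_sup (X.valEl (anchorAt p) (1, 1)) _ (fun _ => rfl) (sup_valEl _)
  illegal b w hw := by
    have h := congrArg Subtype.val (meet_eq_bot (X := X) (a := b) w hw)
    simp only [Block.Elem.coe_inf, Block.Elem.coe_bot, valEl_val] at h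
    simpa [Sft.winEvent, corner] using h

/-- **The local events of the parents.** -/
def parents :
    LocalEvents E (rules (tables layoutKind) (m0 segCount) (n + 1)) :=
  relabel X.valEvents (partsOf n) partsOf_injective _ (fun _ h => mem_rules_of_good h)
    fun _ h => exists_partsOf h

theorem parents_imp_xo (p : Cell) (c : Tint (m0 segCount) (n + 1)) :
    Imp E (X.parents.ev p c) (X.xo p c.addr.xoff) := by
  have := imp_of_le' (show X.valEl (anchorAt p) (1, 1) (partsOf n c) ≤
    X.winX (anchorAt p) (1, 1) c.addr.xoff from inf_le_left.trans inf_le_left)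
  simp only [winX, Block.mem, corner_anchorAt] at this
  exact this

theorem parents_imp_yo (p : Cell) (c : Tint (m0 segCount) (n + 1)) :
    Imp E (X.parents.ev p c) (X.yo p c.addr.yoff) := by
  have := imp_of_le' (show X.valEl (anchorAt p) (1, 1) (partsOf n c) ≤
    X.winY (anchorAt p) (1, 1) c.addr.yoff from inf_le_left.trans inf_le_right)
  simp only [winY, Block.mem, corner_anchorAt] at this
  exact this

theorem parents_imp_bit (p : Cell) (c : Tint (m0 segCount) (n + 1)) (l : Lane segCount) :
    Imp E (X.parents.ev p c) (X.bit p l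
      (colourBits layoutKind (tables layoutKind) (m0 segCount) (n + 1) c l)) := by
  have := imp_of_le' (valEl_le_bit (X := X) (a := anchorAt p) (1, 1) (partsOf n c) l)
  simp only [winBit, Block.mem, corner_anchorAt] at this
  exact this

end Parts

end

end Vale.Agent.P196.W
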