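import Vale.Agent.P196.W.PartsAtoms

/-!
# P196: what settles the offsets of the neighbours of a parent
-/

namespace Vale.Agent.P196.W

open Vale.Agent.P196.Fp Vale.Agent.P196.Sft EventAlgebra

noncomputable section

theorem nextOff_injective {M a b : ℕ} (ha : a < M) (hb : b < M) (h : nextOff M a = nextOff M b) :
    a = b := by
  unfold nextOff at h; split_ifs at h <;> omega

variable {E : EventAlgebra.{0}} {n : ℕ}

namespace Parts

variable {X : Parts E n} {z : E.B} {p : Cell}

/-- The first offset of the left neighbour. -/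
theorem settled_left_x {x : Off n} {bl : Bool} (hz : Imp E z (X.xo (p.1 + 1, p.2) x))
    (hl : Imp E z (X.bit p (.derived 37) bl))
    (hlast : x = none → bl = true → Imp E z (X.bit p (.derived 2) true)) :
    Settled (X.xo p) z := by
  refine (X.xo_part p).settled
    (fun v => v.isSome = bl ∧ StepOff v x ∧ (x = none → ∀ c ∈ v, c.val + 1 = parentLen n)) ?_ ?_
  · rintro (_ | c) (_ | d) ⟨h1, h2, h3⟩ ⟨k1, k2, k3⟩
    · rfl
    · rw [← h1] at k1; cases k1
    · rw [← h1] at k1; cases k1
    · rcases x with _ | b
      · have := h3 rfl c rfl; have := k3 rfl d rfl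
        exact congrArg some (Fin.ext (by omega))
      · exact congrArg some (Fin.ext (nextOff_injective c.isLt d.isLt
          ((h2 c rfl b rfl).symm.trans (k2 d rfl b rfl))))
  · intro v hv
    by_cases h1 : v.isSome = bl
    · by_cases h2 : StepOff v x
      · simp only [h1, h2, true_and, Classical.not_imp, not_forall] at hv
        obtain ⟨hx, c, hc, hne⟩ := hv
        rw [Option.mem_def] at hc
        subst hc
        have hb := X.xo_bit p (some c) 2 (Or.inl (by decide))
        rw [derBit_x_last] at hb
        simp [hne] at hb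
        exact Excl.of_imp₂ (hlast hx (h1.symm.trans rfl)) hb (X.bit_excl _ _ (by simp))
      · exact Excl.of_imp hz (X.right_xo p v x h2).symm
    · exact Excl.of_imp₂ hl (X.xo_bit_isSome p v) (X.bit_excl _ _ (Ne.symm h1))

/-- The first offset of the neighbour below. -/
theorem settled_below_x {x : Off n} {bl : Bool} (hz : Imp E z (X.xo (p.1, p.2 + 1) x))
    (hl : Imp E z (X.bit p (.derived 37) bl)) (h : x = none → bl = false) :
    Settled (X.xo p) z := by
  refine (X.xo_part p).settled (fun v => v.isSome = bl ∧ SameOff v x) ?_ ?_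
  · rintro (_ | c) (_ | d) ⟨h1, h2⟩ ⟨k1, k2⟩
    · rfl
    · rw [← h1] at k1; cases k1
    · rw [← h1] at k1; cases k1
    · rcases x with _ | b
      · rw [h rfl] at h1; cases h1
      · rw [← h2 c rfl b rfl, ← k2 d rfl b rfl]
  · intro v hv
    by_cases h1 : v.isSome = bl
    · exact Excl.of_imp hz (X.up_xo p v x fun h2 => hv ⟨h1, h2⟩).symm
    · exact Excl.of_imp₂ hl (X.xo_bit_isSome p v) (X.bit_excl _ _ (Ne.symm h1))

/-- The second offset of the neighbour below. -/
theorem settled_below_y {y : Off n} {bl : Bool} (hz : Imp E z (X.yo (p.1, p.2 + 1) y))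
    (hl : Imp E z (X.bit p (.derived 38) bl)) (h : y = none → bl = false) :
    Settled (X.yo p) z := by
  refine (X.yo_part p).settled (fun v => v.isSome = bl ∧ StepOff v y) ?_ ?_
  · rintro (_ | c) (_ | d) ⟨h1, h2⟩ ⟨k1, k2⟩
    · rfl
    · rw [← h1] at k1; cases k1
    · rw [← h1] at k1; cases k1
    · rcases y with _ | b
      · rw [h rfl] at h1; cases h1
      · exact congrArg some (Fin.ext (nextOff_injective c.isLt d.isLt
          ((h2 c rfl b rfl).symm.trans (k2 d rfl b rfl))))
  · intro v hv
    by_cases h1 : v.isSome = bl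
    · exact Excl.of_imp hz (X.up_yo p v y fun h2 => hv ⟨h1, h2⟩).symm
    · exact Excl.of_imp₂ hl (X.yo_bit_isSome p v) (X.bit_excl _ _ (Ne.symm h1))

/-- The second offset of the left neighbour. -/
theorem settled_left_y {y : Off n} {bl : Bool} (hz : Imp E z (X.yo (p.1 + 1, p.2) y))
    (hl : Imp E z (X.bit p (.derived 38) bl)) (h : y = none → bl = false) :
    Settled (X.yo p) z := by
  refine (X.yo_part p).settled (fun v => v.isSome = bl ∧ SameOff v y) ?_ ?_
  · rintro (_ | c) (_ | d) ⟨h1, h2⟩ ⟨k1, k2⟩
    · rfl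
    · rw [← h1] at k1; cases k1
    · rw [← h1] at k1; cases k1
    · rcases y with _ | b
      · rw [h rfl] at h1; cases h1
      · rw [← h2 c rfl b rfl, ← k2 d rfl b rfl]
  · intro v hv
    by_cases h1 : v.isSome = bl
    · exact Excl.of_imp hz (X.right_yo p v y fun h2 => hv ⟨h1, h2⟩).symm
    · exact Excl.of_imp₂ hl (X.yo_bit_isSome p v) (X.bit_excl _ _ (Ne.symm h1))

/-! ## At an atom -/

variable {a : Cell} {k : AtomIx n}

theorem corner_right (a : Cell) (j : Fin 2) :
    ((corner a (0, j)).1 + 1, (corner a (0, j)).2) = corner a (1, j) := by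
  simp [corner]

theorem corner_up (a : Cell) (i : Fin 2) :
    ((corner a (i, 0)).1, (corner a (i, 0)).2 + 1) = corner a (i, 1) := by
  simp [corner]

theorem Live.x_presence (h : X.Live a k) : k.2.2 (1, 1) (.derived 37) = k.1.isSome := by
  rw [h.self, derBit_x_isSome]

theorem Live.y_presence (h : X.Live a k) : k.2.2 (1, 1) (.derived 38) = k.2.1.isSome := by
  rw [h.self, derBit_y_isSome]

theorem Live.x_of_imp (h : X.Live a k) {d : Fin 2 × Fin 2} {v : Off n}
    (hv : Imp E (X.atom a k).1 (X.xo (corner a d) v)) : k.2.2 d (.derived 37) = v.isSome :=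
  bit_eq h.val_ne (imp_atom_bit k d _) hv (X.xo_bit_isSome _ v)

theorem Live.y_of_imp (h : X.Live a k) {d : Fin 2 × Fin 2} {v : Off n}
    (hv : Imp E (X.atom a k).1 (X.yo (corner a d) v)) : k.2.2 d (.derived 38) = v.isSome :=
  bit_eq h.val_ne (imp_atom_bit k d _) hv (X.yo_bit_isSome _ v)

/-- The left parent's first offset is always settled. -/
theorem Live.left_x (h : X.Live a k) : Settled (X.xo (corner a (0, 1))) (X.atom a k).1 := by
  obtain ⟨R⟩ := h.allowed.reading
  refine settled_left_x (x := k.1) ?_ (imp_atom_bit k (0, 1) _) fun hx hb => ?_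
  · rw [corner_right]; exact imp_atom_x k
  · have e := R.left_last 1 (by rw [h.x_presence, hx]; rfl) hb
    have := imp_atom_bit (X := X) (a := a) k (0, 1) (.derived 2)
    rwa [e] at this

/-- The lower parent's second offset is always settled. -/
theorem Live.below_y (h : X.Live a k) : Settled (X.yo (corner a (1, 0))) (X.atom a k).1 := by
  obtain ⟨R⟩ := h.allowed.reading
  refine settled_below_y (y := k.2.1) ?_ (imp_atom_bit k (1, 0) _) fun hy => ?_
  · rw [corner_up]; exact imp_atom_y k
  · exact R.below_y_none 1 (by rw [h.y_presence, hy]; rfl)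

theorem Live.below_x (h : X.Live a k) (hx : k.1 = none → k.2.2 (1, 0) (.derived 37) = false) :
    Settled (X.xo (corner a (1, 0))) (X.atom a k).1 :=
  settled_below_x (x := k.1) (by rw [corner_up]; exact imp_atom_x k) (imp_atom_bit k (1, 0) _) hx

theorem Live.left_y (h : X.Live a k) (hy : k.2.1 = none → k.2.2 (0, 1) (.derived 38) = false) :
    Settled (X.yo (corner a (0, 1))) (X.atom a k).1 :=
  settled_left_y (y := k.2.1) (by rw [corner_right]; exact imp_atom_y k)
    (imp_atom_bit k (0, 1) _) hy

theorem Live.corner_x (h : X.Live a k) (hx : k.1 = none → k.2.2 (1, 0) (.derived 37) = false) :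
    Settled (X.xo (corner a (0, 0))) (X.atom a k).1 := by
  obtain ⟨R⟩ := h.allowed.reading
  obtain ⟨w, hw⟩ := (h.below_x hx).exists_imp (X.xo_part _) h.val_ne
  refine settled_left_x (x := w) ?_ (imp_atom_bit k (0, 0) _) fun he hb => ?_
  · rw [corner_right]; exact hw
  · have e := R.left_last 0 (by rw [h.x_of_imp hw, he]; rfl) hb
    have := imp_atom_bit (X := X) (a := a) k (0, 0) (.derived 2)
    rwa [e] at this

theorem Live.corner_y (h : X.Live a k) (hy : k.2.1 = none → k.2.2 (0, 1) (.derived 38) = false) :
    Settled (X.yo (corner a (0, 0))) (X.atom a k).1 := by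
  obtain ⟨R⟩ := h.allowed.reading
  obtain ⟨w, hw⟩ := (h.left_y hy).exists_imp (X.yo_part _) h.val_ne
  refine settled_below_y (y := w) ?_ (imp_atom_bit k (0, 0) _) fun he => ?_
  · rw [corner_up]; exact hw
  · exact R.below_y_none 0 (by rw [h.y_of_imp hw, he]; rfl)

theorem Live.self_x (k : AtomIx n) : Settled (X.xo (corner a (1, 1))) (X.atom a k).1 :=
  Settled.of_imp (X.xo_part _) (imp_atom_x k) rfl

theorem Live.self_y (k : AtomIx n) : Settled (X.yo (corner a (1, 1))) (X.atom a k).1 :=
  Settled.of_imp (X.yo_part _) (imp_atom_y k) rfl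

/-- An atom with a first offset settles all first offsets of its window. -/
theorem Live.all_x (h : X.Live a k) (hx : k.1.isSome = true) (d : Fin 2 × Fin 2) :
    Settled (X.xo (corner a d)) (X.atom a k).1 := by
  have hn : k.1 = none → k.2.2 (1, 0) (.derived 37) = false := fun e => by simp [e] at hx
  obtain ⟨i, j⟩ := d
  fin_cases i <;> fin_cases j
  exacts [h.corner_x hn, h.left_x, h.below_x hn, Live.self_x k]

/-- An atom with a second offset settles all second offsets of its window. -/
theorem Live.all_y (h : X.Live a k) (hy : k.2.1.isSome = true) (d : Fin 2 × Fin 2) :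
    Settled (X.yo (corner a d)) (X.atom a k).1 := by
  have hn : k.2.1 = none → k.2.2 (0, 1) (.derived 38) = false := fun e => by simp [e] at hy
  obtain ⟨i, j⟩ := d
  fin_cases i <;> fin_cases j
  exacts [h.corner_y hn, h.left_y hn, h.below_y, Live.self_y k]

/-- One of the two offsets of a parent is known. -/
theorem Live.some_offset (h : X.Live a k) : k.1.isSome = true ∨ k.2.1.isSome = true := by
  obtain ⟨R⟩ := h.allowed.reading
  rw [← h.x_presence, ← h.y_presence]
  exact R.some_offset (1, 1)

end Parts

end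

end Vale.Agent.P196.W
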