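import Vale.Agent.P196.W.Layout
import Vale.Agent.P196.W.Geometry

/-!
# P196: one tile in closed form

`rawH` and `rawV` are the signals that the cell at offset `(x, y)` of the segments `(X, Y)` sends
to the right and upwards, as functions of the free choices of four tiles, indexed like the
bundles (`0` below, `1` below left, `2` self, `3` left).  The signals crossing the band of columns,
resp. of rows, are those of the last ordinary cell.
-/

namespace Vale.Agent.P196.W

noncomputable section

/-- The free choices of one tile: the two lines with their parities, and the free bit of every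
lane. -/
structure Choices where
  ox : Option (ℕ × Bool)
  oy : Option (ℕ × Bool)
  bit : ℕ → Bool

/-- The four tiles that a tile depends on. -/
abbrev Quad : Type := Fin 4 → Choices

/-- A signal of an optional line. -/
def Sig.ofLine : Option Line → Sig
  | some l => .line l
  | Option.none => .none

/-- `(X, x)` lies at or right of offset `z` of the segment `A`. -/
def sinceX (A : XSeg) (z : ℕ) (X : XSeg) (x : ℕ) : Prop :=
  A.index < X.index ∨ (X = A ∧ z ≤ x)

/-- `(Y, y)` lies at or above offset `z` of the segment `A`. -/
def sinceY (A : YSeg) (z : ℕ) (Y : YSeg) (y : ℕ) : Prop :=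
  A.index < Y.index ∨ (Y = A ∧ z ≤ y)

instance (A : XSeg) (z : ℕ) (X : XSeg) (x : ℕ) : Decidable (sinceX A z X x) := by
  unfold sinceX; infer_instance

instance (A : YSeg) (z : ℕ) (Y : YSeg) (y : ℕ) : Decidable (sinceY A z Y y) := by
  unfold sinceY; infer_instance

/-- The signals sent by a bench cell. -/
def Bench.out : Bench → Fin 2 → Fin 2 → Loc → Sig × Sig
  | .inl e, i, j, l =>
    if i = 0 ∧ j = 1 ∧ l.x.last ∧ l.y.first then (e.1.hL, .none)
    else if i = 1 ∧ j = 0 ∧ l.x.first ∧ l.y.last then (.none, e.1.vB)
    else if i = 1 ∧ j = 1 ∧ l.x.first ∧ l.y.first then (e.1.h, e.1.v)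
    else (.none, .none)
  | .inr c, i, j, l =>
    if (if i = 0 then l.x.last else l.x.first) ∧ (if j = 0 then l.y.last else l.y.first) then
      c (i, j)
    else (.none, .none)

section Tile

variable (T : Tables) (M0 n : ℕ)

/-- The role of an offset. -/
def symAt (z : ℕ) : Sym := (T.side M0 n z).sym

/-- The own row line at offset `y`. -/
def rowLine (C : Choices) (y : ℕ) : Option Line :=
  C.oy.bind fun p => if p.1 = y then some { u := p.2, own := true } else Option.none

/-- The own column line at offset `x`, with the copy of the crossing if the row line has been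
crossed below `(Y, y)`. -/
def colLine (C : Choices) (x : ℕ) (Y : YSeg) (y : ℕ) : Option Line :=
  C.ox.bind fun p =>
    if p.1 = x then
      some { u := p.2, own := true, copy := C.oy.bind fun r =>
        if sinceY .my r.1 Y y then some ((T.crossAt n x r.1).sub p.2 r.2) else Option.none }
    else Option.none

/-- What the derived lane `q` reads on the first line. -/
def derX (C : Choices) (q : Fin 40) : Option Bool :=
  C.ox.bind fun p => (colLine T n C p.1 .kt 0).bind (predX q (T.side M0 n p.1))

/-- What the derived lane `q` reads on the second line. -/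
def derY (C : Choices) (q : Fin 40) : Option Bool :=
  C.oy.bind fun p => predY q (T.side M0 n p.1) { u := p.2, own := true }

/-- The value of the derived lane `q`. -/
def dval (C : Choices) (q : Fin 40) : Bool :=
  ((derX T M0 n C q).or (derY T M0 n C q)).getD false

/-- The state of the derived lane `q` of the own tile at `(X, x)`. -/
def derState (C : Choices) (q : Fin 40) (X : XSeg) (x : ℕ) : Sig :=
  let a : Option Bool := C.ox.bind fun p =>
    if sinceX .mx p.1 X x then derX T M0 n C q else Option.none
  let b : Option Bool := C.oy.bind fun p =>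
    if sinceX .tb p.1 X x then derY T M0 n C q else Option.none
  if sinceX .setAbs 0 X x then .bit (dval T M0 n C q)
  else
    match a.or b with
    | some v => .bit v
    | Option.none => .unset

/-- The lane at offset `z` of one bundle, `src` telling the free bits from the derived ones. -/
def laneSig (C : Choices) (src : Bool) (z : ℕ) : Sig :=
  match (symAt T M0 n z).derived? with
  | some q => if src then .none else .bit (dval T M0 n C q)
  | Option.none => if src && (symAt T M0 n z).isSrc then .bit (C.bit z) else .none

/-- The signal in column `z` of the segment of the address rows `c`. -/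
def paCol (w : Quad) (c : Fin 4) (z : ℕ) : Sig :=
  if (symAt T M0 n z).isSrc then laneSig T M0 n (w (paClass c)) true z
  else laneSig T M0 n (w (paClass c)) false z

/-- The signal in column `z` of the segment of the event rows `c`. -/
def prCol (w : Quad) (c : Fin 3) (z : ℕ) : Sig :=
  if Sym.vis (prGate c) (symAt T M0 n z) then laneSig T M0 n (w (prClass c)) true z else .none

/-- A literal of a match row. -/
def litOk (op : Bool × Bool) (v : Sig) : Bool :=
  !(op.1 && decide (v = .bit false)) && !(op.2 && decide (v = .bit true))

/-- The address row at offset `y` read up to `(X, x)`. -/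
def maTruth (w : Quad) (y : ℕ) (X : XSeg) (x : ℕ) : Bool :=
  decide (∀ c : Fin 4, ∀ z < segLen M0 n, sinceX (.pa c) z X x →
    Sym.vis (paGate c) (symAt T M0 n z) = true → litOk ((T.crossAt n z y).gate (paGate c)) (paCol T M0 n w c z) = true)

/-- The event row at offset `y` read up to `(X, x)`. -/
def mrTruth (w : Quad) (y : ℕ) (X : XSeg) (x : ℕ) : Bool :=
  decide (∀ c : Fin 3, ∀ z < segLen M0 n, sinceX (.pr c) z X x →
    Sym.vis (prGate c) (symAt T M0 n z) = true → litOk ((T.crossAt n z y).gate (prGate c)) (prCol T M0 n w c z) = true)

/-- The row of the first offset at height `y`. -/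
def taRow (w : Quad) (y : ℕ) (X : XSeg) (x : ℕ) : Sig :=
  let own : Option Line := (w 2).ox.bind fun p =>
    if p.1 = y ∧ sinceX .mx y X x then some { u := p.2, own := true } else Option.none
  let stop : ℕ := ((w 2).ox.map Prod.fst).getD (segLen M0 n - 1)
  let foreign : Option Line := (w 3).ox.bind fun p =>
    if p.1 = y ∧ ¬sinceX .mx stop X x then
      some { u := p.2, own := !decide (sinceX .sh 0 X x) }
    else Option.none
  Sig.ofLine (own.or foreign)

/-- The column of the second offset at offset `x`. -/
def tbCol (w : Quad) (x : ℕ) (Y : YSeg) (y : ℕ) : Sig :=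
  let own : Option Line := (w 2).oy.bind fun p =>
    if p.1 = x ∧ sinceY .my x Y y then some { u := p.2, own := true } else Option.none
  let stop : ℕ := ((w 2).oy.map Prod.fst).getD (segLen M0 n - 1)
  let foreign : Option Line := (w 0).oy.bind fun p =>
    if p.1 = x ∧ ¬sinceY .my stop Y y then
      some { u := p.2, own := !decide (sinceY .lx 0 Y y) }
    else Option.none
  Sig.ofLine (own.or foreign)

/-- Whether a line stands at or before offset `z`. -/
def seenBy (o : Option (ℕ × Bool)) (z : ℕ) : Bool :=
  (o.map fun p => decide (p.1 ≤ z)).getD false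

/-- The static information of a cell. -/
def locAt (x y : ℕ) : Loc := T.loc M0 n x y

/-- The signal sent to the right. -/
def rawH (w : Quad) (X : XSeg) (x : ℕ) (Y : YSeg) (y : ℕ) : Sig :=
  match Y with
  | .y0 => if y = 0 ∧ X = .kr ∧ x + 1 = segLen M0 n then .lm else .none
  | .lx =>
    if y = 0 ∧ X = .mx ∧ x + 1 < segLen M0 n then
      .seen (seenBy (w 2).ox x) (seenBy (w 0).ox x)
    else .none
  | .r c =>
    if c = 2 then
      if ¬sinceX .sh y X x then laneSig T M0 n (w 3) true y
      else if sinceX .src 0 X x then laneSig T M0 n (w 2) true y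
      else .none
    else if c = 3 then
      if sinceX .sh y X x ∧ ¬sinceX .kr 0 X x then laneSig T M0 n (w 3) true y else .none
    else if c = 0 then
      if sinceX .up y X x ∧ ¬sinceX .kr 0 X x then laneSig T M0 n (w 0) true y else .none
    else if sinceX .upl y X x ∧ ¬sinceX .kr 0 X x then laneSig T M0 n (w 1) true y else .none
  | .my =>
    if sinceX .ly 0 X x then Sig.ofLine (rowLine (w 2) y) else Sig.ofLine (rowLine (w 3) y)
  | .gap => .none
  | .ta => taRow M0 n w y X x
  | .rd c =>
    match (symAt T M0 n y).derived? with
    | Option.none => .none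
    | some q =>
      if c = 2 then
        if ¬sinceX .sh y X x then laneSig T M0 n (w 3) false y
        else if sinceX .src 0 X x then derState T M0 n (w 2) q X x
        else .none
      else if c = 3 then
        if sinceX .sh y X x ∧ ¬sinceX .kr 0 X x then laneSig T M0 n (w 3) false y else .none
      else if c = 0 then
        if sinceX .upd y X x ∧ ¬sinceX .kr 0 X x then laneSig T M0 n (w 0) false y else .none
      else if sinceX .updl y X x ∧ ¬sinceX .kr 0 X x then laneSig T M0 n (w 1) false y else .none
  | .ma =>
    if symAt T M0 n y = .mrow ∧ sinceX (.pa 0) 0 X x ∧ ¬sinceX (.pa 3) (segLen M0 n - 1) X x then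
      .bit (maTruth T M0 n w y X x)
    else .none
  | .mr =>
    if symAt T M0 n y = .mrow ∧ sinceX (.pr 0) 0 X x ∧ ¬sinceX (.pr 2) (segLen M0 n - 1) X x then
      .bit (mrTruth T M0 n w y X x)
    else .none
  | .pad _ => .none
  | .bench t j =>
    match X with
    | .bench t' i => if t' = t then ((benchEquiv.symm t).out i j (locAt T M0 n x y)).1 else .none
    | _ => .none
  | .kt => .none

/-- The signal sent upwards. -/
def rawV (w : Quad) (X : XSeg) (x : ℕ) (Y : YSeg) (y : ℕ) : Sig :=
  match X with
  | .x0 => .none
  | .sh =>
    if sinceY (.r 2) x Y y ∧ ¬sinceY (.r 3) x Y y then laneSig T M0 n (w 3) true x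
    else if sinceY (.rd 2) x Y y ∧ ¬sinceY (.rd 3) x Y y then laneSig T M0 n (w 3) false x
    else .none
  | .ly =>
    if x = 0 ∧ Y = .my ∧ y + 1 < segLen M0 n then
      .seen (seenBy (w 2).oy y) (seenBy (w 3).oy y)
    else .none
  | .src => .none
  | .mx =>
    if sinceY .lx 0 Y y then Sig.ofLine (colLine T n (w 2) x Y y)
    else Sig.ofLine (colLine T n (w 0) x .kt 0)
  | .gap => .none
  | .tb => tbCol M0 n w x Y y
  | .setAbs => .none
  | .up =>
    if ¬sinceY (.r 0) x Y y then laneSig T M0 n (w 0) true x
    else if sinceY (.r 2) x Y y then laneSig T M0 n (w 2) true x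
    else .none
  | .upl =>
    if ¬sinceY (.r 1) x Y y then laneSig T M0 n (w 1) true x
    else if sinceY (.r 3) x Y y then laneSig T M0 n (w 3) true x
    else .none
  | .upd =>
    if ¬sinceY (.rd 0) x Y y then laneSig T M0 n (w 0) false x
    else if sinceY (.rd 2) x Y y then laneSig T M0 n (w 2) false x
    else .none
  | .updl =>
    if ¬sinceY (.rd 1) x Y y then laneSig T M0 n (w 1) false x
    else if sinceY (.rd 3) x Y y then laneSig T M0 n (w 3) false x
    else .none
  | .pa c =>
    let A : YSeg := if (symAt T M0 n x).isSrc then .r (paClass c) else .rd (paClass c)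
    if sinceY A x Y y ∧ ¬sinceY .kt 0 Y y then paCol T M0 n w c x else .none
  | .pr c =>
    if sinceY (.r (prClass c)) x Y y ∧ ¬sinceY .kt 0 Y y then prCol T M0 n w c x else .none
  | .bench t i =>
    match Y with
    | .bench t' j => if t' = t then ((benchEquiv.symm t).out i j (locAt T M0 n x y)).2 else .none
    | _ => .none
  | .kr => .none

/-- The signal that a row carries through the band of columns. -/
def rawBandH (w : Quad) (Y : YSeg) (y : ℕ) : Sig := rawH T M0 n w .kr (segLen M0 n - 1) Y y

/-- The signal that a column carries through the band of rows. -/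
def rawBandV (w : Quad) (X : XSeg) (x : ℕ) : Sig := rawV T M0 n w X x .kt (segLen M0 n - 1)

end Tile

end

end Vale.Agent.P196.W
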