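import Vale.Agent.P196.W.Tile
import Vale.Agent.P196.W.Fields

/-!
# P196: desubstitution of the layout

Every legal tiling is drawn from exactly one tiling of parents on exactly one grid; with the other
fields this is the macro-tile system of the layout, with bands.
-/

namespace Vale.Agent.P196.W

open Sft

noncomputable section

variable {M0 n : ℕ} [NeZero M0]

omit [NeZero M0] in
/-- The tile of a cell given inside its tile. -/
theorem div_lin (P : ℤ) {a : ℕ} (ha : a < tsize M0 n) :
    (P * (tsize M0 n : ℤ) + a) / (tsize M0 n : ℤ) = P := by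
  have hp : (0 : ℤ) < tsize M0 n := by exact_mod_cast lt_of_le_of_lt (Nat.zero_le a) ha
  rw [add_comm, Int.add_mul_ediv_right _ _ hp.ne', Int.ediv_eq_zero_of_lt (by positivity)
    (by exact_mod_cast ha), zero_add]

/-- A drawn tiling inside one tile. -/
theorem expand_lin {α β : Type} (d : Win β → ℕ → ℕ → α) (U : Cell → β) (P : Cell) {a b : ℕ}
    (h1 : a < tsize M0 n) (h2 : b < tsize M0 n) :
    expand (tsize M0 n) d 0 U (cellOfLin M0 n P a b) =
      d (windowAt U (P.1 - 1, P.2 - 1)) a b := by
  have r : ∀ (Q : ℤ) {c : ℕ}, c < tsize M0 n →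
      ((Q * (tsize M0 n : ℤ) + c) % (tsize M0 n : ℤ)).toNat = c := fun Q c hc => by
    have := res_lin (n := n) (M0 := M0) Q hc
    simpa [res, tsize] using this
  simp only [expand, cellOfLin, Prod.fst_zero, Prod.snd_zero, sub_zero, div_lin _ h1,
    div_lin _ h2, r _ h1, r _ h2]

theorem exists_cellOfLin (v : Cell) : ∃ P a b, a < tsize M0 n ∧ b < tsize M0 n ∧
    v = cellOfLin M0 n P a b := by
  refine ⟨(v.1 / (tsize M0 n : ℤ), v.2 / (tsize M0 n : ℤ)), res segCount (segLen M0 n) 0 v.1,
    res segCount (segLen M0 n) 0 v.2, res_lt _ _, res_lt _ _, ?_⟩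
  ext <;> simp only [cellOfLin, res_cast, sub_zero, tsize] <;>
    rw [Int.ediv_mul_add_emod]

section Level

variable {n : ℕ}

theorem isSrc_lt {z : ℕ} (h : (symAt (tables layoutKind) (m0 segCount) n z).isSrc = true) :
    z < segLen (m0 segCount) n := by
  obtain ⟨l, rfl⟩ : ∃ l : Lane segCount, z = laneAt n l :=
    exists_lane_of_side_sym (allowOf layoutKind) n z
      (fun e => by simp [symAt, tables, e, Sym.isSrc] at h)
      (fun e => by simp [symAt, tables, e, Sym.isSrc] at h)
  have := laneAt_add_gap_lt n l
  omega

/-- An aligned legal tiling is drawn from exactly one legal tiling of parents. -/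
theorem desub_aligned (t : Cell → Tint (m0 segCount) n)
    (ht : Legal (rules (tables layoutKind) (m0 segCount) n) t) (ha : Aligned (m0 segCount) n t) :
    ∃! U : Cell → Tint (m0 segCount) (n + 1),
      Legal (rules (tables layoutKind) (m0 segCount) (n + 1)) U ∧
        t = expand (side segCount (segLen (m0 segCount) n))
          (drawTile (tables layoutKind) (m0 segCount) n) 0 U := by
  have H : TabOK (tables layoutKind) (m0 segCount) :=
    tabOK_tablesOf (g := segCount) (allowOf layoutKind)
  have hok := fun P => tileQuad_ok H ht ha P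
  obtain ⟨U, ⟨hlegal, hU⟩, huniq⟩ := existsUnique_parents (tileChoices (tables layoutKind) t)
    tileQuad_inRange (fun P => (hok P).1) fun P => (hok P).2
  refine ⟨U, ⟨hlegal, ?_⟩, ?_⟩
  · funext v
    obtain ⟨P, a, b, h1, h2, rfl⟩ := exists_cellOfLin (M0 := m0 segCount) (n := n) v
    show t _ = expand (tsize (m0 segCount) n) (drawTile (tables layoutKind) (m0 segCount) n) 0 U _
    rw [expand_lin _ _ _ h1 h2, cell_sig H ht ha P h1 h2]
    exact (drawTile_of_same _ U hU P a b).symm
  · rintro U' ⟨hU', e⟩
    refine huniq U' ⟨hU', fun P => ?_⟩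
    have hraw : ∀ X x Y y, x < segLen (m0 segCount) n → y < segLen (m0 segCount) n →
        gH t P X x Y y = rawH (tables layoutKind) (m0 segCount) n
            (quadOf (tables layoutKind) (m0 segCount) n (windowAt U' (P.1 - 1, P.2 - 1))) X x Y y ∧
          gV t P X x Y y = rawV (tables layoutKind) (m0 segCount) n
            (quadOf (tables layoutKind) (m0 segCount) n (windowAt U' (P.1 - 1, P.2 - 1)))
            X x Y y := by
      intro X x Y y hx hy
      have hc : t (cellOfLin (m0 segCount) n P (xlin (segLen (m0 segCount) n) X x)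
          (ylin (segLen (m0 segCount) n) Y y)) =
          drawTile (tables layoutKind) (m0 segCount) n (windowAt U' (P.1 - 1, P.2 - 1))
            (xlin (segLen (m0 segCount) n) X x) (ylin (segLen (m0 segCount) n) Y y) := by
        rw [e]
        exact expand_lin _ _ _ (ord_lt_tsize (xlin_lt X hx)) (ord_lt_tsize (ylin_lt Y hy))
      simp only [gH, gV, hc, drawTile, (sig_lin _ hx hy).1, (sig_lin _ hx hy).2, and_self]
    obtain ⟨f1, f2, f3⟩ := own_of_raw P ht ha (quadOf_inRange _) hraw
    rw [quadOf_windowAt, quadAt_two] at f1 f2 f3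
    exact ⟨f1.symm, f2.symm, fun z hz => (f3 z (isSrc_lt hz) hz).symm⟩

/-- **Desubstitution.** Every legal tiling has exactly one grid and one tiling of parents. -/
theorem desub_layout : Desub := fun n t ht =>
  desub_of_aligned (gridRule_level (tables layoutKind) (m0 segCount) n)
    (drawAddr_drawTile (tables layoutKind) (m0 segCount) n)
    (fun t ht ha => desub_aligned t ht ha) t ht

end Level

/-- The macro-tile system of the layout. -/
abbrev macroSystem : MacroSystem := layoutSystem desub_layout

/-- Its bands. -/
def macroBands : macroSystem.HasBands := layoutBands desub_layout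

end

end Vale.Agent.P196.W
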