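import Vale.Agent.P196.W.RigidEvents
import Vale.Agent.P196.W.System

/-!
# P196: an event below the parts of a parent knows the choices of its tile

The parts of a parent are read at the choosing cells of its tile (`ReadsParts`). An event below the
two offsets and the bits of a colour forces all choosing cells: at the offset of a line by
definition, elsewhere because the other offsets exclude it.
-/

namespace Vale.Agent.P196.W

open Vale.Agent.P196.Fp Vale.Agent.P196.Sft EventAlgebra

noncomputable section

variable {n : ℕ} {E : EventAlgebra.{0}}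
  {L : LocalEvents E (rules (tables layoutKind) (m0 segCount) n)} {o : Cell} {z : E.B}

/-- The parts of the parents are read at the choosing cells of their tiles. -/
structure ReadsParts (L : LocalEvents E (rules (tables layoutKind) (m0 segCount) n)) (o : Cell)
    (p : Parts E n) : Prop where
  xo : ∀ P a, p.xo P (some a) = oxEv L o P (halve a).1 (some (halve a).2)
  yo : ∀ P a, p.yo P (some a) = oyEv L o P (halve a).1 (some (halve a).2)
  bit : ∀ P (l : Lane segCount), l.sym.isSrc = true →
    p.bit P l true = laneEv L o P 2 true (laneAt n l) fun s => s = Sig.bit true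

/-- Every offset of a tile with a parity is the half of a parent offset. -/
theorem exists_halve {x : ℕ} (hx : x < segLen (m0 segCount) n) (u : Bool) :
    ∃ a : Fin (segLen (m0 segCount) (n + 1)), halve a = (x, u) := by
  refine ⟨⟨2 * x + u.toNat, by rw [segLen_succ]; have := u.toNat_le; omega⟩, ?_⟩
  cases u <;> simp [halve] <;> omega

/-- The parts made of `xEv`, `yEv` and `bitEv` are read at the choosing cells. -/
theorem readsParts_of_eq {p : Parts E n} (hx : p.xo = xEv L o) (hy : p.yo = yEv L o)
    (hb : p.bit = bitEv L o) : ReadsParts L o p :=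
  ⟨fun P a => by rw [hx]; rfl, fun P a => by rw [hy]; rfl,
    fun P l hl => by rw [hb]; simp only [bitEv, hl]⟩

theorem parts_xo_com {p : Parts E n} (P : Cell) (x x' : Off n) :
    E.com (p.xo P x) (p.xo P x') := by
  have e : corner (P.1 - 1, P.2 - 1) (1, 1) = P := Prod.ext (by simp [corner]) (by simp [corner])
  exact p.tile_com (P.1 - 1, P.2 - 1) _ (Or.inr (Or.inl ⟨x, by rw [e]⟩)) _
    (Or.inr (Or.inl ⟨x', by rw [e]⟩))

theorem parts_yo_com {p : Parts E n} (P : Cell) (x x' : Off n) :
    E.com (p.yo P x) (p.yo P x') := by
  have e : corner (P.1 - 1, P.2 - 1) (1, 1) = P := Prod.ext (by simp [corner]) (by simp [corner])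
  exact p.tile_com (P.1 - 1, P.2 - 1) _ (Or.inr (Or.inr ⟨x, by rw [e]⟩)) _
    (Or.inr (Or.inr ⟨x', by rw [e]⟩))

variable {p : Parts E n}

theorem ReadsParts.x_read (hp : ReadsParts L o p) {P : Cell} {A : Off n}
    (hz : Imp E z (p.xo P A)) {x : ℕ} (hx : x < segLen (m0 segCount) n) :
    Forced L z (namedCell (m0 segCount) n o P .mx x .lx 0) fun c =>
      lineU c.v = (A.map halve).bind fun r => if r.1 = x then some r.2 else none := by
  by_cases hA : ∃ a, A = some a ∧ (halve a).1 = x
  · obtain ⟨a, rfl, rfl⟩ := hA
    rw [hp.xo] at hz
    simp only [Option.map_some, Option.bind_some, if_true]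
    exact hz
  have e : ((A.map halve).bind fun r => if r.1 = x then some r.2 else none) = none := by
    cases A with
    | none => rfl
    | some a => simpa using fun h => hA ⟨a, rfl, h⟩
  rw [e]
  refine Forced.of_excluded fun c hc => ?_
  obtain ⟨u, hu⟩ := Option.ne_none_iff_exists'.1 hc
  obtain ⟨a', ha'⟩ := exists_halve hx u
  have h : Imp E (L.ev (namedCell (m0 segCount) n o P .mx x .lx 0) c) (p.xo P (some a')) := by
    rw [hp.xo, ha']
    exact (Forced.ev _ c).mono (Q := fun d => lineU d.v = some u) fun d hd => by rw [hd, hu]
  exact com_of_imp_disjoint hz h (parts_xo_com P _ _)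
    (p.xo_excl P _ _ fun e' => hA ⟨a', e', by rw [ha']⟩)

theorem ReadsParts.y_read (hp : ReadsParts L o p) {P : Cell} {A : Off n}
    (hz : Imp E z (p.yo P A)) {y : ℕ} (hy : y < segLen (m0 segCount) n) :
    Forced L z (namedCell (m0 segCount) n o P .ly 0 .my y) fun c =>
      lineU c.h = (A.map halve).bind fun r => if r.1 = y then some r.2 else none := by
  by_cases hA : ∃ a, A = some a ∧ (halve a).1 = y
  · obtain ⟨a, rfl, rfl⟩ := hA
    rw [hp.yo] at hz
    simp only [Option.map_some, Option.bind_some, if_true]
    exact hz
  have e : ((A.map halve).bind fun r => if r.1 = y then some r.2 else none) = none := by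
    cases A with
    | none => rfl
    | some a => simpa using fun h => hA ⟨a, rfl, h⟩
  rw [e]
  refine Forced.of_excluded fun c hc => ?_
  obtain ⟨u, hu⟩ := Option.ne_none_iff_exists'.1 hc
  obtain ⟨a', ha'⟩ := exists_halve hy u
  have h : Imp E (L.ev (namedCell (m0 segCount) n o P .ly 0 .my y) c) (p.yo P (some a')) := by
    rw [hp.yo, ha']
    exact (Forced.ev _ c).mono (Q := fun d => lineU d.h = some u) fun d hd => by rw [hd, hu]
  exact com_of_imp_disjoint hz h (parts_yo_com P _ _)
    (p.yo_excl P _ _ fun e' => hA ⟨a', e', by rw [ha']⟩)

/-- An event below the parts of a colour knows the choices of its tile. -/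
theorem ReadsParts.knows (hF : Flat L o) (hp : ReadsParts L o p) (P : Cell)
    (c : Tint (m0 segCount) (n + 1))
    (hx : Imp E z (p.xo P c.addr.xoff)) (hy : Imp E z (p.yo P c.addr.yoff))
    (hb : ∀ l : Lane segCount, l.sym.isSrc = true → Imp E z
      (p.bit P l (colourBits layoutKind (tables layoutKind) (m0 segCount) (n + 1) c l))) :
    Knows L o z P (choices (tables layoutKind) (m0 segCount) n c) where
  ox_lt := (choices_inRange c).1
  oy_lt := (choices_inRange c).2
  ox x hxl := by
    have hpick : Forced L z (namedCell (m0 segCount) n o P .mx x .lx 0) fun d =>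
        d.v = .none ∨ ∃ u, d.v = .line (ownLine u) := by
      refine named_step hF P .mx hxl .lx (segLen_pos n) (Forced.univ _ _) (Forced.univ _ _)
        (Forced.univ _ _) fun l d e ho _ _ _ => ?_
      rw [show kindOn .mx .lx ((tables layoutKind).loc (m0 segCount) n x 0) =
          .pickX (decide (x + 1 = segLen (m0 segCount) n)) by
        simp [kindOn, mxKind, Tables.loc, Tables.side]] at ho
      exact (pickX_spec ho).1
    refine ((hp.x_read hx hxl).and hpick).mono fun d ⟨hd, hd'⟩ => ?_
    have e : colLine (tables layoutKind) n (choices (tables layoutKind) (m0 segCount) n c) x .lx 0 =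
        ((c.addr.xoff.map halve).bind fun r => if r.1 = x then some r.2 else none).map ownLine := by
      simp only [colLine, choices]
      cases c.addr.xoff with
      | none => rfl
      | some a =>
        simp only [Option.map_some, Option.bind_some]
        split_ifs
        · simp only [Option.map_some, ownLine, Option.some.injEq, Line.mk.injEq, true_and]
          cases (c.addr.yoff.map halve) <;> simp [sinceY_iff, YSeg.index]
        · rfl
    rw [e, ← hd]
    rcases hd' with h | ⟨u, h⟩ <;> rw [h] <;> rfl
  oy y hyl := by
    have hpick : Forced L z (namedCell (m0 segCount) n o P .ly 0 .my y) fun d =>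
        d.h = .none ∨ ∃ u, d.h = .line (ownLine u) := by
      refine named_step hF P .ly (segLen_pos n) .my hyl (Forced.univ _ _) (Forced.univ _ _)
        (Forced.univ _ _) fun l d e ho _ _ _ => ?_
      rw [show kindOn .ly .my ((tables layoutKind).loc (m0 segCount) n 0 y) =
          .pickY (decide (y + 1 = segLen (m0 segCount) n)) by
        simp [kindOn, lyKind, Tables.loc, Tables.side]] at ho
      exact (pickY_spec ho).1
    refine ((hp.y_read hy hyl).and hpick).mono fun d ⟨hd, hd'⟩ => ?_
    have e : rowLine (choices (tables layoutKind) (m0 segCount) n c) y =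
        ((c.addr.yoff.map halve).bind fun r => if r.1 = y then some r.2 else none).map ownLine := by
      simp only [rowLine, choices]
      cases c.addr.yoff with
      | none => rfl
      | some a =>
        simp only [Option.map_some, Option.bind_some]
        split_ifs <;> rfl
    rw [e, ← hd]
    rcases hd' with h | ⟨u, h⟩ <;> rw [h] <;> rfl
  bit y hyl hs := by
    have hS := segLen_pos (M0 := m0 segCount) n
    have hne : ∀ r : Sym, r.isSrc = false →
        ((tablesOf (allowOf layoutKind)).side (m0 segCount) n y).sym ≠ r := fun r hr e => by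
      simp only [symAt, tables] at hs
      rw [e, hr] at hs
      simp at hs
    obtain ⟨l, rfl⟩ : ∃ l : Lane segCount, y = laneAt n l :=
      exists_lane_of_side_sym (allowOf layoutKind) n y (hne _ rfl) (hne _ rfl)
    have hl : l.sym.isSrc = true := by simpa [symAt, tables, side_sym_laneAt] using hs
    rw [choices_bit_laneAt]
    -- the bit is set where the row starts
    have hbit : Forced L z (namedCell (m0 segCount) n o P .src 0 (.r 2) (laneAt n l)) fun d =>
        ∃ b, d.h = .bit b := by
      refine named_step hF P .src hS (.r 2) hyl (Forced.univ _ _) (Forced.univ _ _)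
        (Forced.univ _ _) fun a b e ho _ _ _ => ?_
      have hs' : ((tables layoutKind).loc (m0 segCount) n 0 (laneAt n l)).y.sym.isSrc = true := hs
      simp [kindOn, srcKind, hs', xfirst_loc, Kind.outs] at ho
      rcases ho with h | h <;> exact ⟨_, h.1⟩
    have wire : ∀ (w : E.B) (S : Sig → Prop),
        Forced L w (namedCell (m0 segCount) n o P (.pa 0) 0 (.r 2) (laneAt n l)) (fun d => S d.h) ↔
          Forced L w (namedCell (m0 segCount) n o P .src 0 (.r 2) (laneAt n l)) fun d => S d.h := by
      intro w S
      refine wireH hF P (.r 2) hyl hS hS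
        ((xlin_le_iff hS hS).2 (by rw [sinceX_iff]; simp [XSeg.index])) ?_ S
      intro X' x' hx' h1 _
      have hs' : ((tables layoutKind).loc (m0 segCount) n x' (laneAt n l)).y.sym.isSrc = true := hs
      rw [xlin_lt_iff hS hx', sinceX_iff] at h1
      cases X' <;> simp [XSeg.index] at h1 <;>
        simp [kindOn, srcKind, mxKind, tbKind, setAbsKind, upKind, paKind, prKind, krKind,
          keepsRow, hs', xfirst_loc, Ne.symm] <;>
        (repeat' split) <;>
        first
          | exact keepsH_pass | exact keepsH_passH
          | (rcases turnAt_cases _ Kind.fanUp _ with e | e <;> rw [e] <;>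
              first | exact keepsH_fanUp | exact keepsH_pass)
          | (exfalso; simp_all)
    have hv : Imp E z (p.bit P l
        (colourBits layoutKind (tables layoutKind) (m0 segCount) (n + 1) c l)) := hb l hl
    revert hv
    cases colourBits layoutKind (tables layoutKind) (m0 segCount) (n + 1) c l <;> intro hv
    · rw [p.bit_compl, hp.bit P l hl] at hv
      have h : Forced L z (namedCell (m0 segCount) n o P (.pa 0) 0 (.r 2) (laneAt n l))
          fun d => ¬d.h = Sig.bit true := by
        refine Forced.of_excluded fun d hd => ?_
        have h' : Imp E (L.ev (namedCell (m0 segCount) n o P (.pa 0) 0 (.r 2) (laneAt n l)) d)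
            (laneEv L o P 2 true (laneAt n l) fun s => s = Sig.bit true) := by
          show Forced L (L.ev (namedCell (m0 segCount) n o P (.pa 0) 0 (.r 2) (laneAt n l)) d)
            (namedCell (m0 segCount) n o P (.pa 0) 0 (.r 2) (laneAt n l)) fun e => e.h = Sig.bit true
          exact (Forced.ev _ _).mono fun e he => by rw [he]; exact not_not.1 hd
        refine com_of_imp_disjoint hv h' (E.com_symm _ _ (E.com_compl _ _ (E.com_refl _))) ?_
        rw [E.inf_comm _ _ (E.com_symm _ _ (E.com_compl _ _ (E.com_refl _))), E.inf_compl]
      refine (((wire z fun s => ¬s = Sig.bit true).1 h).and hbit).mono fun d hd => ?_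
      obtain ⟨h1, b, h2⟩ := hd
      cases b
      · exact h2
      · exact absurd h2 h1
    · rw [hp.bit P l hl] at hv
      exact (wire z fun s => s = Sig.bit true).1 hv

end

end Vale.Agent.P196.W
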