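import Vale.Agent.P196.W.RigidTop
import Vale.Agent.P196.W.RigidKnows
import Vale.Agent.P196.W.PartsLocal

/-!
# P196: rigidity of the layout from the parts of the parents
-/

namespace Vale.Agent.P196.W

open Vale.Agent.P196.Fp Vale.Agent.P196.Sft EventAlgebra

noncomputable section

/-- Parts read at the choosing cells give rigidity. -/
theorem rigid_of_parts
    (H : ∀ (n : ℕ) (E : EventAlgebra.{0})
      (L : LocalEvents E (rules (tables layoutKind) (m0 segCount) n)) (o : Cell), Flat L o →
      ∃ p : Parts E n, p.xo = xEv L o ∧ p.yo = yEv L o ∧ p.bit = bitEv L o) :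
    macroSystem.Rigid :=
  rigid_of_parents fun n E L o hF => by
    obtain ⟨p, h1, h2, h3⟩ := H n E L o hF
    exact ⟨p.parents, fun P c => (readsParts_of_eq h1 h2 h3).knows hF P c
      (p.parents_imp_xo P c) (p.parents_imp_yo P c) fun l _ => p.parents_imp_bit P c l⟩

end

end Vale.Agent.P196.W
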