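import Vale.Agent.P196.W.RigidOwn
import Vale.Agent.P196.W.Parts

/-!
# P196: the events of the parts of a parent, read in its tile

A known offset of a parent is the event of the choosing cell at half of it with the parity as the
parity of the line, the unknown one is what remains. A bit is read on the lane of the own bundle.
-/

namespace Vale.Agent.P196.W

open Vale.Agent.P196.Fp Vale.Agent.P196.Sft EventAlgebra

noncomputable section

variable {E : EventAlgebra.{0}} {n : ℕ}

/-- The first offset of the parent `P`. -/
def xEv (L : LocalEvents E (rules (tables layoutKind) (m0 segCount) n)) (o P : Cell) :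
    Off n → E.B
  | some a => oxEv L o P (halve a).1 (some (halve a).2)
  | Option.none =>
    (Finset.univ.toList.map fun a : Fin (segLen (m0 segCount) (n + 1)) =>
      E.compl (oxEv L o P (halve a).1 (some (halve a).2))).foldr E.inf E.top

/-- The second offset of the parent `P`. -/
def yEv (L : LocalEvents E (rules (tables layoutKind) (m0 segCount) n)) (o P : Cell) :
    Off n → E.B
  | some b => oyEv L o P (halve b).1 (some (halve b).2)
  | Option.none =>
    (Finset.univ.toList.map fun b : Fin (segLen (m0 segCount) (n + 1)) =>
      E.compl (oyEv L o P (halve b).1 (some (halve b).2))).foldr E.inf E.top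

/-- The bit of the parent `P` on the lane `l`. -/
def bitEv (L : LocalEvents E (rules (tables layoutKind) (m0 segCount) n)) (o P : Cell)
    (l : Lane segCount) : Bool → E.B
  | true => laneEv L o P 2 l.sym.isSrc (laneAt n l) (· = .bit true)
  | false => E.compl (laneEv L o P 2 l.sym.isSrc (laneAt n l) (· = .bit true))

theorem laneAt_lt (n : ℕ) (l : Lane segCount) : laneAt n l < segLen (m0 segCount) n := by
  have := laneAt_add_gap_lt n l
  omega

theorem symAt_laneAt (n : ℕ) (l : Lane segCount) :
    symAt (tables layoutKind) (m0 segCount) n (laneAt n l) = l.sym :=
  side_sym_laneAt _ n l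

theorem laneOk_lane (n : ℕ) (l : Lane segCount) :
    laneOk l.sym.isSrc (symAt (tables layoutKind) (m0 segCount) n (laneAt n l)) = true := by
  rw [symAt_laneAt]
  cases l <;> rfl

/-- Below an event there is what is below each member of a finite meet. -/
theorem imp_finset_inf {S : E.Block} {ι : Type} (s : Finset ι) (f : ι → S.Elem) {z : E.B}
    (h : ∀ j ∈ s, Imp E z (f j).1) : Imp E z (s.inf f).1 := by
  classical
  induction s using Finset.induction_on with
  | empty => exact imp_top z
  | insert j s _ ih =>
    rw [Finset.inf_insert]
    exact Imp.inf (h j (Finset.mem_insert_self j s))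
      (ih fun k hk => h k (Finset.mem_insert_of_mem hk)) ((f j).com (s.inf f))

end

end Vale.Agent.P196.W
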