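import Vale.Agent.P196.W.RigidPick
import Vale.Agent.P196.W.RigidEvents

/-!
# P196: the events of the offsets of neighbouring parents

Upwards the first offset comes back to the choosing row and must be the same, to the right it is
compared with the new choice and must make a step. The second offset is the mirror image.
-/

namespace Vale.Agent.P196.W

open Vale.Agent.P196.Fp Vale.Agent.P196.Sft EventAlgebra

/-- An event commutes with what remains of an exclusive family and excludes it. -/
theorem excl_foldr {E : EventAlgebra.{0}} {ι : Type} [Fintype ι] (e : ι → E.B)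
    (he : ∀ i j, i ≠ j → Excl E (e i) (e j)) (a : ι) :
    Excl E (e a) ((Finset.univ.toList.map fun i => E.compl (e i)).foldr E.inf E.top) := by
  let S : E.Block := ⟨Set.range e, by
    rintro _ ⟨i, rfl⟩ _ ⟨j, rfl⟩
    rcases eq_or_ne i j with rfl | h
    · exact E.com_refl _
    · exact (he i j h).1⟩
  let f : ι → S.Elem := fun i => S.mem (x := e i) ⟨i, rfl⟩
  have key : ∀ l : List ι, ∃ z : S.Elem,
      z.1 = (l.map fun i => E.compl (e i)).foldr E.inf E.top ∧ ∀ i ∈ l, z ≤ (f i)ᶜ := by
    intro l
    induction l with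
    | nil => exact ⟨⊤, rfl, fun _ hj => absurd hj List.not_mem_nil⟩
    | cons i l ih =>
      obtain ⟨z, hz, hle⟩ := ih
      refine ⟨(f i)ᶜ ⊓ z, ?_, fun j hj => ?_⟩
      · rw [List.map_cons, List.foldr_cons, ← hz]; rfl
      · rcases List.mem_cons.1 hj with rfl | hj
        · exact inf_le_left
        · exact inf_le_right.trans (hle j hj)
  obtain ⟨z, hz, hle⟩ := key Finset.univ.toList
  have h0 : f a ⊓ z = ⊥ := le_bot_iff.1 ((inf_le_inf le_rfl (hle a (by simp))).trans
    (le_of_eq inf_compl_eq_bot))
  rw [← hz]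
  exact ⟨(f a).com z, congrArg Subtype.val h0⟩

/-- Two lines meet in a comparison only as a step. -/
theorem cmpA_refuse {r : Cmp} {last : Bool} {h v : Sig} {p : Sig × Sig} {u u' : Bool}
    (hp : p ∈ (Kind.cmpA r last).outs h v) (hu : lineU h = some u) (hv : lineU v = some u') :
    (r = .same ∧ u = false ∧ u' = true) ∨ (r = .next ∧ u = true ∧ u' = false) := by
  simp only [lineU, Option.map_eq_some_iff] at hu hv
  obtain ⟨a, ha, rfl⟩ := hu
  obtain ⟨b, hb, rfl⟩ := hv
  simp only [Kind.outs, ha, hb] at hp
  cases r <;> rcases a with ⟨_ | _, _ | _, _⟩ <;> rcases b with ⟨_ | _, _ | _, _⟩ <;> simp_all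

theorem cmpB_refuse {r : Cmp} {last : Bool} {h v : Sig} {p : Sig × Sig} {u u' : Bool}
    (hp : p ∈ (Kind.cmpB r last).outs h v) (hu : lineU v = some u) (hv : lineU h = some u') :
    (r = .same ∧ u = false ∧ u' = true) ∨ (r = .next ∧ u = true ∧ u' = false) := by
  rw [cmpB_outs_eq] at hp
  obtain ⟨q, hq, -⟩ := List.mem_map.1 hp
  exact cmpA_refuse hq hu hv

/-- Without a second line and before the end a comparison passes the line on. -/
theorem cmpA_passes {r : Cmp} {h v : Sig} {p : Sig × Sig}
    (hp : p ∈ (Kind.cmpA r false).outs h v) (hv : lineU v = Option.none) : p.1 = h := by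
  simp only [lineU, Option.map_eq_none_iff] at hv
  cases hh : h.line? <;> simp [Kind.outs, hv, hh] at hp <;> simp [hp]

theorem cmpB_passes {r : Cmp} {h v : Sig} {p : Sig × Sig}
    (hp : p ∈ (Kind.cmpB r false).outs h v) (hv : lineU h = Option.none) : p.2 = v := by
  rw [cmpB_outs_eq] at hp
  obtain ⟨q, hq, rfl⟩ := List.mem_map.1 hp
  exact cmpA_passes hq hv

theorem resetH_lineU {h v : Sig} {p : Sig × Sig} (hp : p ∈ Kind.resetH.outs h v) :
    lineU p.1 = lineU h := by
  cases hh : h.line? <;> simp [Kind.outs, hh] at hp <;> simp only [hp, lineU, hh] <;> rfl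

theorem resetV_lineU {h v : Sig} {p : Sig × Sig} (hp : p ∈ Kind.resetV.outs h v) :
    lineU p.2 = lineU v := by
  cases hh : v.line? <;> simp [Kind.outs, hh] at hp <;> simp only [hp, lineU, hh] <;> rfl

noncomputable section

variable {T : Tables} {M0 n : ℕ} [NeZero M0] {E : EventAlgebra.{0}}
  {L : LocalEvents E (rules T M0 n)} {o : Cell}
variable (hF : Flat L o) (P : Cell)
include hF

/-- The line from below is the choice of the parent below. -/
theorem oldXEv_eq {x : ℕ} (hx : x < segLen M0 n) (a : Option Bool) :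
    oldXEv L o P x a = oxEv L o (P.1, P.2 - 1) x a := by
  have hS := segLen_pos (M0 := M0) n
  have hl : segLen M0 n - 1 < segLen M0 n := by omega
  refine evP_eq_of_iff fun z => ?_
  rw [bCell_pred _ _ (Y' := .y0) (y' := segLen M0 n - 1) (Or.inr ⟨rfl, rfl, by omega⟩)]
  refine (wireV (Y₀ := .y0) hF P .mx hx hS hl
    ((ylin_le_iff hS hl).2 (by rw [sinceY_iff]; simp)) ?_ (fun s => lineU s = a)).trans ?_
  · intro Y' y' hy' h1 h2
    rw [ylin_lt_iff hS hy', sinceY_iff] at h1
    rw [ylin_le_iff hy' hl, sinceY_iff] at h2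
    cases Y' <;> simp [YSeg.index] at h1 h2 <;>
      first | omega | (simp [kindOn, mxKind]; exact keepsV_pass)
  refine Iff.trans ?_ ((wire_lower_edge hF P .mx hx fun s => lineU s = a).trans
    (ox_col hF (P.1, P.2 - 1) hx keepsVia_cross hl (sinceY_kt (by omega)) (· = a)))
  have hk : kindOn .mx .y0 (T.loc M0 n x 0) = .pass := by simp [kindOn, mxKind]
  constructor
  · intro hC
    refine named_from_below hF P .mx hx .y0 hS (Forced.univ _ _) (Forced.univ _ _) hC
      fun l d c ho _ _ hc => ?_
    rw [hk] at ho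
    have e := keepsV_pass _ _ _ ho
    simp only at e
    rwa [← e]
  · intro hB
    refine named_step hF P .mx hx .y0 hS (Forced.univ _ _) hB (Forced.univ _ _)
      fun l d c ho _ hd _ => ?_
    rw [hk] at ho
    exact (congrArg _ (keepsV_pass _ _ _ ho)).trans hd

/-- The row `Y` up to the end of the first two segments receives what the left neighbour sends. -/
theorem left_edge_x0 (Y : YSeg) {y : ℕ} (hy : y < segLen M0 n) (hY : ¬(Y = .y0 ∨ Y = .kt))
    (S : Sig → Prop) (z : E.B) :
    Forced L z (namedCell M0 n o P .x0 (segLen M0 n - 1) Y y) (fun c => S c.h) ↔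
      Forced L z (namedCell M0 n o (P.1 - 1, P.2) .kr (segLen M0 n - 1) Y y) fun c => S c.h := by
  have hS := segLen_pos (M0 := M0) n
  have hl : segLen M0 n - 1 < segLen M0 n := by omega
  rw [not_or] at hY
  refine (wireH (X₀ := .x0) hF P Y hy hS hl
    ((xlin_le_iff hS hl).2 (by rw [sinceX_iff]; simp)) ?_ S).trans ?_
  · intro X' x' hx' h1 h2
    rw [xlin_lt_iff hS hx', sinceX_iff] at h1
    rw [xlin_le_iff hx' hl, sinceX_iff] at h2
    cases X' <;> simp [XSeg.index] at h1 h2 <;>
      first
        | omega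
        | (simp [kindOn, x0Kind, Tables.loc, Tables.side, show x' ≠ 0 by omega, hY.2]
           exact keepsH_pass)
  refine Iff.trans ?_ (wire_left_edge hF P Y hy S)
  have hk : kindOn .x0 Y (T.loc M0 n 0 y) = .col0 := by
    simp [kindOn, x0Kind, Tables.loc, Tables.side, hY.1]
  constructor
  · intro hC
    refine named_from_left hF P .x0 hS Y hy (Forced.univ _ _) (Forced.univ _ _) hC
      fun l d c ho _ _ hc => ?_
    rw [hk] at ho
    have e := keepsH_col0 _ _ _ ho
    simp only at e
    rwa [← e]
  · intro hA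
    refine named_step hF P .x0 hS Y hy hA (Forced.univ _ _) (Forced.univ _ _)
      fun l d c ho hl' _ _ => ?_
    rw [hk] at ho
    have e := keepsH_col0 _ _ _ ho
    simp only at e
    rwa [e]

/-- The line from the left is the choice of the parent on the left. -/
theorem oldYEv_eq {y : ℕ} (hy : y < segLen M0 n) (a : Option Bool) :
    oldYEv L o P y a = oyEv L o (P.1 - 1, P.2) y a := by
  have hS := segLen_pos (M0 := M0) n
  have hl : segLen M0 n - 1 < segLen M0 n := by omega
  refine evP_eq_of_iff fun z => ?_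
  rw [lCell_pred (X' := .sh) (x' := segLen M0 n - 1) (Or.inr ⟨rfl, rfl, by omega⟩)]
  refine (wireH (X₀ := .x0) hF P .my hy hl hl
    ((xlin_le_iff hl hl).2 (by rw [sinceX_iff]; simp [XSeg.index])) ?_
    (fun s => lineU s = a)).trans ?_
  · intro X' x' hx' h1 h2
    rw [xlin_lt_iff hl hx', sinceX_iff] at h1
    rw [xlin_le_iff hx' hl, sinceX_iff] at h2
    cases X' <;> simp [XSeg.index] at h1 h2 <;>
      first
        | omega
        | (simp [kindOn, shKind]; exact keepsH_pass)
  exact (left_edge_x0 hF P .my hy (by simp) (fun s => lineU s = a) z).trans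
    (oy_row hF (P.1 - 1, P.2) hy hl (sinceX_kr (by omega)) fun s => lineU s = a)

/-- A row of the first offset enters the comparisons with the choice of the parent on the left. -/
theorem ta_enter_eq {y : ℕ} (hy : y < segLen M0 n) (a : Option Bool) :
    evP L (lCell (namedCell M0 n o P .mx 0 .ta y)) (fun c => lineU c.h = a) =
      oxEv L o (P.1 - 1, P.2) y a := by
  have hS := segLen_pos (M0 := M0) n
  have hl : segLen M0 n - 1 < segLen M0 n := by omega
  rw [← ta_exit_eq hF (P.1 - 1, P.2) hy (X := .kr) hl (sinceX_kr (by omega)) a]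
  refine evP_eq_of_iff fun z => ?_
  rw [lCell_pred (X' := .src) (x' := segLen M0 n - 1) (Or.inr ⟨rfl, rfl, by omega⟩)]
  refine (wireH (X₀ := .sh) hF P .ta hy hS hl
    ((xlin_le_iff hS hl).2 (by rw [sinceX_iff]; simp [XSeg.index])) ?_
    (fun s => lineU s = a)).trans ?_
  · intro X' x' hx' h1 h2
    rw [xlin_lt_iff hS hx', sinceX_iff] at h1
    rw [xlin_le_iff hx' hl, sinceX_iff] at h2
    cases X' <;> simp [XSeg.index] at h1 h2 <;>
      first
        | omega
        | (simp [kindOn, shKind, lyKind, srcKind, Tables.loc, Tables.side, h1]; exact keepsH_pass)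
  refine Iff.trans ?_ (left_edge_x0 hF P .ta hy (by simp) (fun s => lineU s = a) z)
  rw [← lCell_pred (X := .sh) (x := 0) (X' := .x0) (x' := segLen M0 n - 1)
    (Or.inr ⟨rfl, rfl, by omega⟩)]
  have hk : kindOn .sh .ta (T.loc M0 n 0 y) = .resetH := by
    simp [kindOn, shKind, Tables.loc, Tables.side]
  constructor
  · intro hC
    refine named_from_left hF P .sh hS .ta hy (Forced.univ _ _) (Forced.univ _ _) hC
      fun l d c ho _ _ hc => ?_
    rw [hk] at ho
    rw [← resetH_lineU ho]; exact hc
  · intro hA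
    refine named_step hF P .sh hS .ta hy hA (Forced.univ _ _) (Forced.univ _ _)
      fun l d c ho hl' _ _ => ?_
    rw [hk] at ho
    exact (resetH_lineU ho).trans hl'

/-- A column of the second offset enters the comparisons with the choice of the parent below. -/
theorem tb_enter_eq {x : ℕ} (hx : x < segLen M0 n) (a : Option Bool) :
    evP L (bCell (namedCell M0 n o P .tb x .my 0)) (fun c => lineU c.v = a) =
      oyEv L o (P.1, P.2 - 1) x a := by
  have hS := segLen_pos (M0 := M0) n
  have hl : segLen M0 n - 1 < segLen M0 n := by omega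
  rw [← tb_exit_eq hF (P.1, P.2 - 1) hx (Y := .kt) hl (sinceY_kt (by omega)) a]
  refine evP_eq_of_iff fun z => ?_
  rw [bCell_pred _ _ (Y' := .r 3) (y' := segLen M0 n - 1) (Or.inr ⟨rfl, rfl, by omega⟩)]
  refine (wireV (Y₀ := .lx) hF P .tb hx hS hl
    ((ylin_le_iff hS hl).2 (by rw [sinceY_iff]; simp [YSeg.index])) ?_
    (fun s => lineU s = a)).trans ?_
  · intro Y' y' hy' h1 h2
    rw [ylin_lt_iff hS hy', sinceY_iff] at h1
    rw [ylin_le_iff hy' hl, sinceY_iff] at h2
    cases Y' <;> simp [YSeg.index] at h1 h2 <;>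
      first
        | omega
        | (simp [kindOn, tbKind, Tables.loc, Tables.side, h1]; exact keepsV_pass)
  refine Iff.trans ?_ (wire_lower_edge hF P .tb hx fun s => lineU s = a)
  have hk : kindOn .tb .lx (T.loc M0 n x 0) = .resetV := by
    simp [kindOn, tbKind, Tables.loc, Tables.side]
  have hk0 : kindOn .tb .y0 (T.loc M0 n x 0) = .pass := by simp [kindOn, tbKind]
  have e1 : Forced L z (namedCell M0 n o P .tb x .lx 0) (fun c => lineU c.v = a) ↔
      Forced L z (bCell (namedCell M0 n o P .tb x .lx 0)) fun c => lineU c.v = a := by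
    constructor
    · intro hC
      refine named_from_below hF P .tb hx .lx hS (Forced.univ _ _) (Forced.univ _ _) hC
        fun l d c ho _ _ hc => ?_
      rw [hk] at ho
      rw [← resetV_lineU ho]; exact hc
    · intro hB
      refine named_step hF P .tb hx .lx hS (Forced.univ _ _) hB (Forced.univ _ _)
        fun l d c ho _ hd _ => ?_
      rw [hk] at ho
      exact (resetV_lineU ho).trans hd
  refine e1.trans ?_
  rw [bCell_pred _ _ (Y' := .y0) (y' := segLen M0 n - 1) (Or.inr ⟨rfl, rfl, by omega⟩)]
  refine (wireV (Y₀ := .y0) hF P .tb hx hS hl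
    ((ylin_le_iff hS hl).2 (by rw [sinceY_iff]; simp)) ?_ (fun s => lineU s = a)).trans ?_
  · intro Y' y' hy' h1 h2
    rw [ylin_lt_iff hS hy', sinceY_iff] at h1
    rw [ylin_le_iff hy' hl, sinceY_iff] at h2
    cases Y' <;> simp [YSeg.index] at h1 h2 <;>
      first | omega | (simp [kindOn, tbKind]; exact keepsV_pass)
  constructor
  · intro hC
    refine named_from_below hF P .tb hx .y0 hS (Forced.univ _ _) (Forced.univ _ _) hC
      fun l d c ho _ _ hc => ?_
    rw [hk0] at ho
    have e := keepsV_pass _ _ _ ho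
    simp only at e
    rwa [← e]
  · intro hB
    refine named_step hF P .tb hx .y0 hS (Forced.univ _ _) hB (Forced.univ _ _)
      fun l d c ho _ hd _ => ?_
    rw [hk0] at ho
    exact (congrArg _ (keepsV_pass _ _ _ ho)).trans hd

/-- The first offsets of two neighbours make a step to the right. -/
theorem oxEv_excl_right {i j : ℕ} (hi : i < segLen M0 n) (hj : j < segLen M0 n) {u v : Bool}
    (h1 : ¬(u = false ∧ v = true ∧ j = i))
    (h2 : ¬(u = true ∧ v = false ∧ (j = i + 1 ∨ (j = 0 ∧ i + 1 = segLen M0 n)))) :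
    Excl E (oxEv L o P i (some u)) (oxEv L o (P.1 + 1, P.2) j (some v)) := by
  set Q : Cell := (P.1 + 1, P.2)
  rw [show P = (Q.1 - 1, Q.2) by simp [Q]]
  rw [← ta_enter_eq hF Q hi]
  refine excl_of_forced (B := fun c => ¬ lineU c.h = some u) (Forced.self _ _) ?_ (fun c h h' => h' h)
  set w := oxEv L o Q j (some v)
  have hcol : ∀ k, k < segLen M0 n → Forced L w (bCell (namedCell M0 n o Q .mx k .ta i))
      fun c => lineU c.v = if k = j then some v else Option.none := by
    intro k hk
    obtain ⟨Y', y', hy', hp⟩ := exists_yPred (Y := .ta) (segLen_pos n) hi (by simp)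
    rw [bCell_pred _ _ hp]
    refine (ox_col hF Q hk keepsVia_cross hy'
      ((hp.since .lx (segLen_pos n)).2 ⟨by rw [sinceY_iff]; simp [YSeg.index], by simp⟩)
      (fun s => s = if k = j then some v else Option.none)).2 ?_
    by_cases hkj : k = j
    · subst hkj; simp only [if_true]; exact Forced.self _ _
    · simp only [if_neg hkj]
      exact oxEv_others hF Q hj hk hkj (Forced.self _ _)
  have main : ∀ m, ∀ k, k + m = j →
      Forced L w (lCell (namedCell M0 n o Q .mx k .ta i)) fun c => ¬ lineU c.h = some u := by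
    intro m
    induction m with
    | zero =>
      intro k hk
      obtain rfl : k = j := by omega
      refine named_from_left hF Q .mx hj .ta hi (Forced.univ _ _) (hcol k hj) (Forced.univ _ _)
        fun l d c ho _ hd _ hl => ?_
      rw [if_pos rfl] at hd
      simp only [kindOn, mxKind] at ho
      rcases cmpA_refuse ho hl hd with ⟨hr, h⟩ | ⟨hr, h⟩ <;> rw [cmpARel_loc] at hr
      · refine h1 ⟨h.1, h.2, ?_⟩
        split_ifs at hr; assumption
      · refine h2 ⟨h.1, h.2, ?_⟩
        split_ifs at hr; assumption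
    | succ m ih =>
      intro k hk
      have hC : Forced L w (namedCell M0 n o Q .mx k .ta i) fun c => ¬ lineU c.h = some u := by
        rw [← lCell_pred (X := .mx) (x := k + 1) (Or.inl ⟨rfl, rfl⟩)]
        exact ih (k + 1) (by omega)
      refine named_from_left hF Q .mx (show k < segLen M0 n by omega) .ta hi (Forced.univ _ _)
        (hcol k (by omega)) hC fun l d c ho _ hd hc => ?_
      rw [if_neg (show k ≠ j by omega)] at hd
      simp only [kindOn, mxKind] at ho
      rw [show (T.loc M0 n k i).x.last = false by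
        simp [Tables.loc, Tables.side]; omega] at ho
      have e := cmpA_passes ho hd
      simp only at e
      rwa [← e]
  exact main j 0 (by simp)

/-- The second offsets of two neighbours make a step upwards. -/
theorem oyEv_excl_up {i j : ℕ} (hi : i < segLen M0 n) (hj : j < segLen M0 n) {u v : Bool}
    (h1 : ¬(u = false ∧ v = true ∧ j = i))
    (h2 : ¬(u = true ∧ v = false ∧ (j = i + 1 ∨ (j = 0 ∧ i + 1 = segLen M0 n)))) :
    Excl E (oyEv L o P i (some u)) (oyEv L o (P.1, P.2 + 1) j (some v)) := by
  set Q : Cell := (P.1, P.2 + 1)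
  rw [show P = (Q.1, Q.2 - 1) by simp [Q]]
  rw [← tb_enter_eq hF Q hi]
  refine excl_of_forced (B := fun c => ¬ lineU c.v = some u) (Forced.self _ _) ?_ (fun c h h' => h' h)
  set w := oyEv L o Q j (some v)
  have hrow : ∀ k, k < segLen M0 n → Forced L w (lCell (namedCell M0 n o Q .tb i .my k))
      fun c => lineU c.h = if k = j then some v else Option.none := by
    intro k hk
    obtain ⟨X', x', hx', hp⟩ := exists_xPred (X := .tb) (segLen_pos n) hi (by simp)
    rw [lCell_pred hp]
    refine (oy_row hF Q hk hx'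
      ((hp.since .ly (segLen_pos n)).2 ⟨by rw [sinceX_iff]; simp [XSeg.index], by simp⟩)
      (fun s => lineU s = if k = j then some v else Option.none)).2 ?_
    by_cases hkj : k = j
    · subst hkj; simp only [if_true]; exact Forced.self _ _
    · simp only [if_neg hkj]
      exact oyEv_others hF Q hj hk hkj (Forced.self _ _)
  have main : ∀ m, ∀ k, k + m = j →
      Forced L w (bCell (namedCell M0 n o Q .tb i .my k)) fun c => ¬ lineU c.v = some u := by
    intro m
    induction m with
    | zero =>
      intro k hk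
      obtain rfl : k = j := by omega
      refine named_from_below hF Q .tb hi .my hj (hrow k hj) (Forced.univ _ _) (Forced.univ _ _)
        fun l d c ho hl _ _ hd => ?_
      rw [if_pos rfl] at hl
      simp only [kindOn, tbKind] at ho
      rcases cmpB_refuse ho hd hl with ⟨hr, h⟩ | ⟨hr, h⟩ <;> rw [cmpBRel_loc] at hr
      · refine h1 ⟨h.1, h.2, ?_⟩
        split_ifs at hr; assumption
      · refine h2 ⟨h.1, h.2, ?_⟩
        split_ifs at hr; assumption
    | succ m ih =>
      intro k hk
      have hC : Forced L w (namedCell M0 n o Q .tb i .my k) fun c => ¬ lineU c.v = some u := by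
        rw [← bCell_pred (Y := .my) (y := k + 1) _ _ (Or.inl ⟨rfl, rfl⟩)]
        exact ih (k + 1) (by omega)
      refine named_from_below hF Q .tb hi .my (show k < segLen M0 n by omega) (hrow k (by omega))
        (Forced.univ _ _) hC fun l d c ho hl _ hc => ?_
      rw [if_neg (show k ≠ j by omega)] at hl
      simp only [kindOn, tbKind] at ho
      rw [show (T.loc M0 n i k).y.last = false by
        simp [Tables.loc, Tables.side]; omega] at ho
      have e := cmpB_passes ho hl
      simp only at e
      rwa [← e]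
  exact main j 0 (by simp)

end

/-! ## The fields of the parts -/

noncomputable section

variable {E : EventAlgebra.{0}} {n : ℕ}
  {L : LocalEvents E (rules (tables layoutKind) (m0 segCount) n)} {o : Cell}

theorem halve_pair_ne {m : ℕ} {a a' : Fin m} (h : a ≠ a') :
    ((halve a).1, (halve a).2) ≠ ((halve a').1, (halve a').2) :=
  fun e => h (halve_injective m e)

theorem xEv_excl (hF : Flat L o) (P : Cell) (x x' : Off n) (h : x ≠ x') :
    Excl E (xEv L o P x) (xEv L o P x') := by
  have he : ∀ a a' : Fin (segLen (m0 segCount) (n + 1)), a ≠ a' →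
      Excl E (oxEv L o P (halve a).1 (some (halve a).2))
        (oxEv L o P (halve a').1 (some (halve a').2)) := fun a a' ha =>
    oxEv_excl hF P (halve_lt _ _ a) (halve_lt _ _ a') (halve_pair_ne ha)
  rcases x with _ | a <;> rcases x' with _ | a'
  · exact absurd rfl h
  · exact (excl_foldr _ he a').symm
  · exact excl_foldr _ he a
  · exact he a a' fun e => h (by rw [e])

theorem yEv_excl (hF : Flat L o) (P : Cell) (y y' : Off n) (h : y ≠ y') :
    Excl E (yEv L o P y) (yEv L o P y') := by
  have he : ∀ b b' : Fin (segLen (m0 segCount) (n + 1)), b ≠ b' →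
      Excl E (oyEv L o P (halve b).1 (some (halve b).2))
        (oyEv L o P (halve b').1 (some (halve b').2)) := fun b b' hb =>
    oyEv_excl hF P (halve_lt _ _ b) (halve_lt _ _ b') (halve_pair_ne hb)
  rcases y with _ | b <;> rcases y' with _ | b'
  · exact absurd rfl h
  · exact (excl_foldr _ he b').symm
  · exact excl_foldr _ he b
  · exact he b b' fun e => h (by rw [e])

theorem not_sameOff {x x' : Off n} (h : ¬SameOff x x') :
    ∃ a a', x = some a ∧ x' = some a' ∧ a' ≠ a := by
  rcases x with _ | a <;> rcases x' with _ | a' <;> simp [SameOff] at h ⊢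
  exact h

/-- A step of offsets, read on the halves. -/
theorem not_stepOff {x x' : Off n} (h : ¬StepOff x x') :
    ∃ a a', x = some a ∧ x' = some a' ∧
      ¬((halve a).2 = false ∧ (halve a').2 = true ∧ (halve a').1 = (halve a).1) ∧
      ¬((halve a).2 = true ∧ (halve a').2 = false ∧ ((halve a').1 = (halve a).1 + 1 ∨
        ((halve a').1 = 0 ∧ (halve a).1 + 1 = segLen (m0 segCount) n))) := by
  rcases x with _ | a <;> rcases x' with _ | a' <;> simp only [StepOff] at h <;> try simp at h
  refine ⟨a, a', rfl, rfl, ?_, ?_⟩ <;> rintro ⟨h1, h2, h3⟩ <;> refine h ?_ <;>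
    have e := halve_spec a <;> have e' := halve_spec a' <;> rw [h1] at e <;> rw [h2] at e' <;>
    have := segLen_succ (m0 segCount) n <;> have := halve_lt _ _ a' <;>
    simp only [Bool.toNat_true, Bool.toNat_false] at e e' <;> rw [nextOff] <;> split_ifs <;> omega

theorem right_xo (hF : Flat L o) (p : Cell) (x x' : Off n) (h : ¬StepOff x x') :
    Excl E (xEv L o p x) (xEv L o (p.1 + 1, p.2) x') := by
  obtain ⟨a, a', rfl, rfl, h1, h2⟩ := not_stepOff h
  exact oxEv_excl_right hF p (halve_lt _ _ a) (halve_lt _ _ a') h1 h2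

theorem up_yo (hF : Flat L o) (p : Cell) (y y' : Off n) (h : ¬StepOff y y') :
    Excl E (yEv L o p y) (yEv L o (p.1, p.2 + 1) y') := by
  obtain ⟨b, b', rfl, rfl, h1, h2⟩ := not_stepOff h
  exact oyEv_excl_up hF p (halve_lt _ _ b) (halve_lt _ _ b') h1 h2

theorem up_xo (hF : Flat L o) (p : Cell) (x x' : Off n) (h : ¬SameOff x x') :
    Excl E (xEv L o p x) (xEv L o (p.1, p.2 + 1) x') := by
  obtain ⟨a, a', rfl, rfl, hne⟩ := not_sameOff h
  have := (oxEv_excl_old hF (p.1, p.2 + 1) (halve_lt _ _ a') (halve_lt _ _ a)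
    (halve_pair_ne hne)).symm
  rw [oldXEv_eq hF _ (halve_lt _ _ a)] at this
  simpa [xEv, yEv] using this

theorem right_yo (hF : Flat L o) (p : Cell) (y y' : Off n) (h : ¬SameOff y y') :
    Excl E (yEv L o p y) (yEv L o (p.1 + 1, p.2) y') := by
  obtain ⟨b, b', rfl, rfl, hne⟩ := not_sameOff h
  have := (oyEv_excl_old hF (p.1 + 1, p.2) (halve_lt _ _ b') (halve_lt _ _ b)
    (halve_pair_ne hne)).symm
  rw [oldYEv_eq hF _ (halve_lt _ _ b)] at this
  simpa [xEv, yEv] using this

theorem up_xo_com (hF : Flat L o) (p : Cell) (a : Fin (segLen (m0 segCount) (n + 1))) :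
    E.com (xEv L o p (some a)) (xEv L o (p.1, p.2 + 1) (some a)) := by
  have h : E.com (oldXEv L o (p.1, p.2 + 1) (halve a).1 (some (halve a).2))
      (oxEv L o (p.1, p.2 + 1) (halve a).1 (some (halve a).2)) :=
    evP_near (by simp [bCell]) (by simp [bCell]) _ _
  rw [oldXEv_eq hF _ (halve_lt _ _ a)] at h
  simpa [xEv, yEv] using h

theorem right_yo_com (hF : Flat L o) (p : Cell) (b : Fin (segLen (m0 segCount) (n + 1))) :
    E.com (yEv L o p (some b)) (yEv L o (p.1 + 1, p.2) (some b)) := by
  have h : E.com (oldYEv L o (p.1 + 1, p.2) (halve b).1 (some (halve b).2))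
      (oyEv L o (p.1 + 1, p.2) (halve b).1 (some (halve b).2)) :=
    evP_near (by simp [lCell]) (by simp [lCell]) _ _
  rw [oldYEv_eq hF _ (halve_lt _ _ b)] at h
  simpa [xEv, yEv] using h

end

end Vale.Agent.P196.W
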