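import Vale.Agent.P196.W.RigidOwn

/-!
# P196: a lane of a neighbouring bundle is the own lane of that neighbour

The own lanes leave a tile to the right on their rows and upwards on the relayed columns. The tile
on the right turns them up to the rows of bundle `3`, the tile above turns the relayed columns to
the rows of the bundles `0` and `1`. All lanes carry bits.
-/

namespace Vale.Agent.P196.W

open Vale.Agent.P196.Fp Vale.Agent.P196.Sft EventAlgebra

noncomputable section

variable {T : Tables} {M0 n : ℕ} [NeZero M0] {E : EventAlgebra.{0}}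
  {L : LocalEvents E (rules T M0 n)} {o : Cell} {z : E.B}

/-- A turn upwards. -/
theorem turnUp_iff (hF : Flat L o) (P : Cell) (X : XSeg) {x : ℕ} (hx : x < segLen M0 n)
    (Y : YSeg) {y : ℕ} (hy : y < segLen M0 n)
    (hk : kindOn X Y (T.loc M0 n x y) = .turnUp) (S : Sig → Prop) :
    Forced L z (namedCell M0 n o P X x Y y) (fun c => S c.v) ↔
      Forced L z (lCell (namedCell M0 n o P X x Y y)) fun c => S c.h := by
  constructor
  · intro hC
    refine flat_back_left hF P (ord_lt_tsize (xlin_lt X hx)) (ord_lt_tsize (ylin_lt Y hy))
      (Forced.univ _ _) (Forced.univ _ _) hC fun l d c ho _ _ hc => ?_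
    rw [kindAt_lin T X hx Y hy, hk] at ho
    simp only [Kind.outs, List.mem_singleton, Prod.mk.injEq] at ho
    rwa [← ho.2]
  · intro hA
    refine named_step hF P X hx Y hy hA (Forced.univ _ _) (Forced.univ _ _)
      fun l d c ho hl _ _ => ?_
    rw [hk] at ho
    simp only [Kind.outs, List.mem_singleton, Prod.mk.injEq] at ho
    rwa [ho.2]

/-- The segment that takes a lane up: `b` tells the left bundle from the own one. -/
def relaySeg (b src : Bool) : XSeg :=
  if b then (if src then .upl else .updl) else (if src then .up else .upd)

/-- The bundle read by a relaying segment. -/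
def relayHi (b : Bool) : Fin 4 := if b then 3 else 2

/-- The bundle of the tile above that receives it. -/
def relayLo (b : Bool) : Fin 4 := if b then 1 else 0

theorem relay_kind (b src : Bool) {c : Fin 4} (hc : c = relayHi b ∨ c = relayLo b) {x : ℕ}
    (hok : laneOk src (symAt T M0 n x) = true) :
    kindOn (relaySeg b src) (laneSeg c src) (T.loc M0 n x x) =
      if c = relayHi b then .fanUp else .turnRight := by
  have e : (T.loc M0 n x x).cross.eq = true := by simp [Tables.loc, Tables.crossAt]
  have es : (T.loc M0 n x x).y.sym = symAt T M0 n x := rfl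
  rcases hc with rfl | rfl <;> cases b <;> cases src <;>
    simp [laneOk] at hok <;>
    simp [relaySeg, relayHi, relayLo, laneSeg, kindOn, upKind, turnAt, e, es, hok]

/-- A row of the own or the left bundle is kept from its column to the address rows. -/
theorem row_hi_wire (hF : Flat L o) (P : Cell) (b src : Bool) {y : ℕ} (hy : y < segLen M0 n)
    (S : Sig → Prop) :
    Forced L z (laneCell M0 n o P (relayHi b) src y) (fun d => S d.h) ↔
      Forced L z (namedCell M0 n o P (relaySeg b src) y (laneSeg (relayHi b) src) y)
        fun d => S d.h := by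
  have hS := segLen_pos (M0 := M0) n
  refine wireH hF P _ hy hy hS ((xlin_le_iff hy hS).2 ?_) ?_ S
  · cases b <;> cases src <;> simp [relaySeg, sinceX_iff, XSeg.index]
  intro X' x' hx' h1 h2
  rw [xlin_lt_iff hy hx', sinceX_iff] at h1
  rw [xlin_le_iff hx' hS, sinceX_iff] at h2
  cases b <;> cases src <;> simp [relaySeg, XSeg.index] at h1 h2 <;>
    cases X' <;> simp at h1 h2 <;>
    first
      | omega
      | exact pa_row_keep _ _ _ _
      | (simp [relayHi, laneSeg, kindOn, upKind]
         first
           | exact keepsH_pass
           | (repeat' split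
              all_goals first
                | exact keepsH_pass
                | (rcases turnAt_cases Sym.isSrc .fanUp (T.loc M0 n x' y) with h | h <;> rw [h] <;>
                    first | exact keepsH_fanUp | exact keepsH_pass)
                | (rcases turnAt_cases Sym.isDerived .fanUp (T.loc M0 n x' y) with h | h <;>
                    rw [h] <;> first | exact keepsH_fanUp | exact keepsH_pass)))

/-- A lane of bundle `0` or `1` is that of bundle `2` or `3` of the tile below. -/
theorem lane_from_below (hF : Flat L o) (P : Cell) (b src : Bool) {y : ℕ} (hy : y < segLen M0 n)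
    (hok : laneOk src (symAt T M0 n y) = true) (S : Sig → Prop) :
    Forced L z (laneCell M0 n o P (relayLo b) src y) (fun d => S d.h) ↔
      Forced L z (laneCell M0 n o (P.1, P.2 - 1) (relayHi b) src y) fun d => S d.h := by
  have hS := segLen_pos (M0 := M0) n
  have hl : segLen M0 n - 1 < segLen M0 n := by omega
  set Q : Cell := (P.1, P.2 - 1)
  set X := relaySeg b src with hX
  -- the own row and the column up to the upper edge
  have e1 : Forced L z (laneCell M0 n o Q (relayHi b) src y) (fun d => S d.h) ↔
      Forced L z (namedCell M0 n o Q X y .kt (segLen M0 n - 1)) fun d => S d.v := by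
    refine (row_hi_wire hF Q b src hy S).trans ((fan_iff hF Q X hy (laneSeg (relayHi b) src) hy
      (by rw [relay_kind b src (Or.inl rfl) hok, if_pos rfl]) S).symm.trans
      (wireV hF Q X hy hy hl ((ylin_le_iff hy hl).2 (sinceY_kt (by omega))) ?_ S).symm)
    intro Y' y' hy' h1 _
    rw [ylin_lt_iff hy hy', sinceY_iff] at h1
    cases b <;> cases src <;> simp [laneOk] at hok <;>
      simp [relayHi, laneSeg, YSeg.index] at h1 <;>
      cases Y' <;> simp at h1 <;>
      simp [hX, relaySeg, kindOn, upKind, ktKind, keepsCol, turnAt, Tables.loc, Tables.crossAt,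
        Tables.side] at hok ⊢ <;>
      (repeat' split) <;>
      first | exact keepsV_pass | exact keepsV_passV | (exfalso; simp_all [symAt, Tables.side])
  -- the lower part of the column and the row
  have e2 : Forced L z (laneCell M0 n o P (relayLo b) src y) (fun d => S d.h) ↔
      Forced L z (bCell (namedCell M0 n o P X y (laneSeg (relayLo b) src) y)) fun d => S d.v := by
    refine (wireH hF P _ hy hy hS ((xlin_le_iff hy hS).2 ?_) ?_ S).trans
      (turnRight_iff hF P X hy _ hy (by
        rw [relay_kind b src (Or.inr rfl) hok, if_neg (by cases b <;> decide)]) S)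
    · cases b <;> cases src <;> simp [hX, relaySeg, sinceX_iff, XSeg.index]
    intro X' x' hx' h1 h2
    rw [xlin_lt_iff hy hx', sinceX_iff] at h1
    rw [xlin_le_iff hx' hS, sinceX_iff] at h2
    cases b <;> cases src <;> simp [hX, relaySeg, XSeg.index] at h1 h2 <;>
      cases X' <;> simp at h1 h2 <;>
      first
        | omega
        | exact pa_row_keep _ _ _ _
        | (simp [relayLo, laneSeg, kindOn, upKind]
           first
             | exact keepsH_pass
             | (rw [turnAt_off]
                · exact keepsH_pass
                · simp [Tables.loc, Tables.crossAt]; omega))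
  refine e2.trans (Iff.trans ?_ e1.symm)
  obtain ⟨Y', y', hy', hp⟩ := exists_yPred (Y := laneSeg (relayLo b) src) hS hy
    (by cases b <;> cases src <;> simp [laneSeg])
  rw [bCell_pred _ _ hp]
  have k0 : KeepsV (kindOn X .y0 (T.loc M0 n y 0)) := by
    cases b <;> cases src <;> simp [hX, relaySeg, relayLo, kindOn, upKind] <;> exact keepsV_pass
  have f0 := keepsV_iff (z := z) hF P (ord_lt_tsize (xlin_lt X hy))
    (ord_lt_tsize (ylin_lt .y0 hS)) (kindAt_lin T X hy .y0 hS ▸ k0) S
  change Forced L z (namedCell M0 n o P X y .y0 0) _ ↔
    Forced L z (bCell (namedCell M0 n o P X y .y0 0)) _ at f0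
  refine Iff.trans ?_ (wire_lower_edge hF P X hy S)
  refine Iff.trans ?_ f0
  refine wireV hF P X hy hS hy' ((ylin_le_iff hS hy').2 ?_) ?_ S
  · rw [sinceY_iff]; simp only [YSeg.index]; omega
  intro Y'' y'' hy'' h1 h2
  have h3 := hp.ylin_succ
  have h4 : ylin (segLen M0 n) Y'' y'' < ylin (segLen M0 n) (laneSeg (relayLo b) src) y := by omega
  rw [ylin_lt_iff hy'' hy, sinceY_iff] at h4
  cases b <;> cases src <;> simp [relayLo, laneSeg, YSeg.index] at h4 <;>
    cases Y'' <;> simp at h4 <;>
    simp [hX, relaySeg, kindOn, upKind, turnAt, Tables.loc, Tables.crossAt] <;>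
    (repeat' split) <;> first | exact keepsV_pass | (exfalso; simp_all <;> omega)

/-- A lane of bundle `3` is the own lane of the left tile. -/
theorem lane_from_left (hF : Flat L o) (P : Cell) (src : Bool) {y : ℕ} (hy : y < segLen M0 n)
    (hok : laneOk src (symAt T M0 n y) = true) (S : Sig → Prop) :
    Forced L z (laneCell M0 n o P 3 src y) (fun d => S d.h) ↔
      Forced L z (laneCell M0 n o (P.1 - 1, P.2) 2 src y) fun d => S d.h := by
  have hS := segLen_pos (M0 := M0) n
  have hl : segLen M0 n - 1 < segLen M0 n := by omega
  have es : (T.loc M0 n y y).y.sym = symAt T M0 n y := rfl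
  have ee : (T.loc M0 n y y).cross.eq = true := by simp [Tables.loc, Tables.crossAt]
  -- the row of the left tile reaches the edge
  have e1 : Forced L z (laneCell M0 n o (P.1 - 1, P.2) 2 src y) (fun d => S d.h) ↔
      Forced L z (lCell (namedCell M0 n o P .x0 0 (laneSeg 2 src) y)) fun d => S d.h := by
    refine Iff.trans (wireH hF (P.1 - 1, P.2) _ hy hS hl
      ((xlin_le_iff hS hl).2 (sinceX_kr (by omega))) ?_ S).symm
      (wire_left_edge hF P (laneSeg 2 src) hy S).symm
    intro X' x' hx' h1 _
    rw [xlin_lt_iff hS hx', sinceX_iff] at h1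
    have hs : (T.loc M0 n x' y).y.sym = symAt T M0 n y := rfl
    cases X' <;> simp [XSeg.index] at h1 <;>
      first
        | omega
        | exact pa_row_keep _ _ _ _
        | (cases src <;> simp [laneOk] at hok <;>
            simp [laneSeg, kindOn, prKind, krKind, keepsRow, hs, hok] <;>
            (repeat' split) <;>
            first
              | exact keepsH_pass | exact keepsH_passH
              | (rcases turnAt_cases (Sym.vis (prGate _)) .fanUp (T.loc M0 n x' y) with h | h <;>
                  rw [h] <;> first | exact keepsH_fanUp | exact keepsH_pass)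
              | (exfalso; simp_all))
  -- the row of the left neighbour up to its turn
  have e2 : Forced L z (lCell (namedCell M0 n o P .sh y (laneSeg 2 src) y)) (fun d => S d.h) ↔
      Forced L z (lCell (namedCell M0 n o P .x0 0 (laneSeg 2 src) y)) fun d => S d.h := by
    obtain ⟨X', x', hx', hp⟩ := exists_xPred (X := .sh) hS hy (by simp)
    rw [lCell_pred hp]
    have k0 : KeepsH (kindOn .x0 (laneSeg 2 src) (T.loc M0 n 0 y)) := by
      cases src <;> simp [laneSeg, kindOn, x0Kind, Tables.loc, Tables.side] <;> exact keepsH_col0
    have f0 := keepsH_iff (z := z) hF P (ord_lt_tsize (xlin_lt .x0 hS))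
      (ord_lt_tsize (ylin_lt (laneSeg 2 src) hy)) (kindAt_lin T .x0 hS (laneSeg 2 src) hy ▸ k0) S
    refine Iff.trans ?_ f0
    refine wireH hF P _ hy hS hx' ((xlin_le_iff hS hx').2 (by
      rw [sinceX_iff]; simp only [XSeg.index]; omega)) ?_ S
    intro A a ha' h1 h2
    have h3 := hp.xlin_succ
    have h4 : xlin (segLen M0 n) A a < xlin (segLen M0 n) .sh y := by omega
    rw [xlin_lt_iff ha' hy, sinceX_iff] at h4
    rw [xlin_lt_iff hS ha', sinceX_iff] at h1
    cases A <;> simp [XSeg.index] at h1 h4 <;>
      cases src <;>
      simp [laneSeg, kindOn, x0Kind, shKind, Tables.loc, Tables.side, turnAt, Tables.crossAt] <;>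
      (repeat' split) <;> first | exact keepsH_pass | exact keepsH_col0 | omega | (exfalso; simp_all)
  -- the column between the two turns
  have e3 : Forced L z (bCell (namedCell M0 n o P .sh y (laneSeg 3 src) y)) (fun d => S d.v) ↔
      Forced L z (namedCell M0 n o P .sh y (laneSeg 2 src) y) fun d => S d.v := by
    obtain ⟨Y', y', hy', hp⟩ := exists_yPred (Y := laneSeg 3 src) hS hy
      (by cases src <;> simp [laneSeg])
    have h0 : ylin (segLen M0 n) (laneSeg 2 src) y < ylin (segLen M0 n) (laneSeg 3 src) y :=
      (ylin_lt_iff hy hy).2 (by cases src <;> simp [laneSeg, sinceY_iff, YSeg.index])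
    have h3 := hp.ylin_succ
    rw [bCell_pred _ _ hp]
    refine wireV hF P .sh hy hy hy' (by omega) ?_ S
    intro A a ha' h1 h2
    have h4 : ylin (segLen M0 n) A a < ylin (segLen M0 n) (laneSeg 3 src) y := by omega
    rw [ylin_lt_iff ha' hy, sinceY_iff] at h4
    rw [ylin_lt_iff hy ha', sinceY_iff] at h1
    cases src <;> simp [laneSeg, YSeg.index] at h1 h4 <;>
      cases A <;> simp at h1 h4 <;>
      simp [kindOn, shKind, turnAt, Tables.loc, Tables.crossAt] <;>
      (repeat' split) <;> first | exact keepsV_pass | omega | (exfalso; simp_all <;> omega)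
  refine Iff.trans ?_ (((turnRight_iff hF P .sh hy (laneSeg 3 src) hy ?_ S).trans e3).trans
    ((turnUp_iff hF P .sh hy (laneSeg 2 src) hy ?_ S).trans (e2.trans e1.symm)))
  · refine wireH hF P _ hy hy hS ((xlin_le_iff hy hS).2 (by
      rw [sinceX_iff]; simp [XSeg.index])) ?_ S
    intro X' x' hx' h1 h2
    rw [xlin_lt_iff hy hx', sinceX_iff] at h1
    rw [xlin_le_iff hx' hS, sinceX_iff] at h2
    cases X' <;> simp [XSeg.index] at h1 h2 <;>
      first
        | omega
        | exact pa_row_keep _ _ _ _
        | (cases src <;>
            simp [laneSeg, kindOn, shKind, lyKind, srcKind, mxKind, tbKind, setAbsKind, upKind] <;>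
            (repeat' split) <;>
            first
              | exact keepsH_pass
              | (rw [turnAt_off]
                 · exact keepsH_pass
                 · simp [Tables.loc, Tables.crossAt]; omega)
              | (rcases turnAt_cases Sym.isSrc .fanUp (T.loc M0 n x' y) with h | h <;> rw [h] <;>
                  first | exact keepsH_fanUp | exact keepsH_pass)
              | (rcases turnAt_cases Sym.isDerived .fanUp (T.loc M0 n x' y) with h | h <;> rw [h] <;>
                  first | exact keepsH_fanUp | exact keepsH_pass))
  all_goals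
    cases src <;> simp [laneOk] at hok <;>
      simp [laneSeg, kindOn, shKind, turnAt, ee, es, hok]

/-- The tile whose own bundle is the bundle `c` of `P`. -/
def srcTile (P : Cell) (c : Fin 4) : Cell :=
  ![(P.1, P.2 - 1), (P.1 - 1, P.2 - 1), P, (P.1 - 1, P.2)] c

/-- Every lane is the own lane of a tile. -/
theorem lane_source (hF : Flat L o) (P : Cell) (c : Fin 4) (src : Bool) {y : ℕ}
    (hy : y < segLen M0 n) (hok : laneOk src (symAt T M0 n y) = true) (S : Sig → Prop) :
    Forced L z (laneCell M0 n o P c src y) (fun d => S d.h) ↔
      Forced L z (laneCell M0 n o (srcTile P c) 2 src y) fun d => S d.h := by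
  fin_cases c
  · exact lane_from_below hF P false src hy hok S
  · exact (lane_from_below hF P true src hy hok S).trans
      (lane_from_left hF (P.1, P.2 - 1) src hy hok S)
  · exact Iff.rfl
  · exact lane_from_left hF P src hy hok S

theorem laneEv_source (hF : Flat L o) (P : Cell) (c : Fin 4) (src : Bool) {y : ℕ}
    (hy : y < segLen M0 n) (hok : laneOk src (symAt T M0 n y) = true) (S : Sig → Prop) :
    laneEv L o P c src y S = laneEv L o (srcTile P c) 2 src y S :=
  evP_eq_of_iff fun _ => lane_source hF P c src hy hok S

/-- A derived lane that has not been closed carries no signal but `unset` or a bit. -/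
def openBit (s : Sig) : Prop := s = .unset ∨ ∃ b, s = .bit b

theorem exX_openBit {q : Fin 40} {s : Side} {h v : Sig} {p : Sig × Sig}
    (hp : p ∈ (Kind.exX q s).outs h v) (hh : openBit h) : openBit p.1 := by
  simp only [Kind.outs] at hp
  repeat' split at hp
  all_goals simp at hp
  all_goals subst hp
  · exact Or.inr ⟨_, rfl⟩
  · exact hh

theorem exY_openBit {q : Fin 40} {s : Side} {h v : Sig} {p : Sig × Sig}
    (hp : p ∈ (Kind.exY q s).outs h v) (hh : openBit h) : openBit p.1 := by
  simp only [Kind.outs] at hp
  repeat' split at hp
  all_goals simp at hp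
  all_goals subst hp
  · exact Or.inr ⟨_, rfl⟩
  · exact hh

/-- The own lanes carry bits. -/
theorem own_lane_bit (hF : Flat L o) (P : Cell) (src : Bool) {y : ℕ} (hy : y < segLen M0 n)
    (hok : laneOk src (symAt T M0 n y) = true) :
    Forced L z (laneCell M0 n o P 2 src y) fun d => ∃ b, d.h = .bit b := by
  have hS := segLen_pos (M0 := M0) n
  have hs : ∀ a, (T.loc M0 n a y).y.sym = symAt T M0 n y := fun _ => rfl
  cases src
  · obtain ⟨q, hq⟩ : ∃ q, (symAt T M0 n y).derived? = some q := by
      simp [laneOk] at hok
      revert hok
      cases symAt T M0 n y <;> simp [Sym.isDerived, Sym.derived?]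
    have hd : (symAt T M0 n y).isDerived = true := by simpa [laneOk] using hok
    have opened : ∀ X x, x < segLen M0 n → sinceX .src 0 X x → ¬sinceX .setAbs 0 X x →
        Forced L z (namedCell M0 n o P X x (.rd 2) y) fun d => openBit d.h := by
      intro X x hx h hn
      induction hm : xlin (segLen M0 n) X x using Nat.strong_induction_on generalizing X x with
      | _ m ih =>
        subst hm
        by_cases h0 : X = .src ∧ x = 0
        · obtain ⟨rfl, rfl⟩ := h0
          refine named_step hF P .src hS (.rd 2) hy (Forced.univ _ _) (Forced.univ _ _)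
            (Forced.univ _ _) fun l d c ho _ _ _ => ?_
          simp [kindOn, srcKind, xfirst_loc, hs, hd, Kind.outs] at ho
          exact Or.inl ho.1
        · have hne : ¬(X = .x0 ∧ x = 0) := by
            rintro ⟨rfl, rfl⟩; rw [sinceX_iff] at h; simp [XSeg.index] at h
          obtain ⟨X', x', hx', hp⟩ := exists_xPred hS hx hne
          have h3 := hp.xlin_succ
          have hA : Forced L z (lCell (namedCell M0 n o P X x (.rd 2) y)) fun d => openBit d.h := by
            rw [lCell_pred hp]
            exact ih _ (by omega) X' x' hx' ((hp.since .src hS).2 ⟨h, h0⟩)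
              (fun hh => hn ((hp.since .setAbs hS).1 hh).1) rfl
          refine named_step hF P X hx (.rd 2) hy hA (Forced.univ _ _) (Forced.univ _ _)
            fun l d c ho hl _ _ => ?_
          rw [sinceX_iff] at h hn
          cases X <;> simp [XSeg.index] at h hn h0 <;>
            simp [kindOn, srcKind, mxKind, tbKind, hs, hq, hd, xfirst_loc, h0] at ho <;>
            first
              | exact exX_openBit ho hl
              | exact exY_openBit ho hl
              | (simp [Kind.outs] at ho; show openBit c.h; rw [ho.1]; exact hl)
              | omega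
    have closed : Forced L z (namedCell M0 n o P .setAbs 0 (.rd 2) y) fun d => ∃ b, d.h = .bit b := by
      obtain ⟨X', x', hx', hp⟩ := exists_xPred (X := .setAbs) hS hS (by simp)
      have hA : Forced L z (lCell (namedCell M0 n o P .setAbs 0 (.rd 2) y))
          fun d => openBit d.h := by
        rw [lCell_pred hp]
        exact opened X' x' hx'
          ((hp.since .src hS).2 ⟨by rw [sinceX_iff]; simp [XSeg.index], by simp⟩)
          (fun hh => ((hp.since .setAbs hS).1 hh).2 ⟨rfl, rfl⟩)
      refine named_step hF P .setAbs hS (.rd 2) hy hA (Forced.univ _ _) (Forced.univ _ _)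
        fun l d c ho hl _ _ => ?_
      simp [kindOn, setAbsKind, xfirst_loc, hs, hd, Kind.outs] at ho
      rcases hl with e | ⟨b, e⟩ <;> rw [e] at ho <;> simp at ho <;> exact ⟨_, ho.1⟩
    refine (wireH hF P _ hy hS hS ((xlin_le_iff hS hS).2 (by
      rw [sinceX_iff]; simp [XSeg.index])) ?_ fun s => ∃ b, s = .bit b).2 closed
    intro X' x' hx' h1 h2
    rw [xlin_lt_iff hS hx', sinceX_iff] at h1
    rw [xlin_le_iff hx' hS, sinceX_iff] at h2
    cases X' <;> simp [XSeg.index] at h1 h2 <;>
      first
        | omega
        | exact pa_row_keep _ _ _ _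
        | (simp [laneSeg, kindOn, setAbsKind, upKind, xfirst_loc, h1]
           repeat' split
           all_goals first
             | exact keepsH_pass
             | (rcases turnAt_cases Sym.isDerived .fanUp (T.loc M0 n x' y) with h | h <;> rw [h] <;>
                 first | exact keepsH_fanUp | exact keepsH_pass)
             | (exfalso; simp_all))
  · have hd : (symAt T M0 n y).isSrc = true := by simpa [laneOk] using hok
    refine (wireH hF P _ hy hS hS ((xlin_le_iff hS hS).2 (by
      rw [sinceX_iff]; simp [XSeg.index])) ?_ fun s => ∃ b, s = .bit b).2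
        (?_ : Forced L z (namedCell M0 n o P .src 0 (laneSeg 2 true) y) fun d => ∃ b, d.h = .bit b)
    · intro X' x' hx' h1 h2
      rw [xlin_lt_iff hS hx', sinceX_iff] at h1
      rw [xlin_le_iff hx' hS, sinceX_iff] at h2
      cases X' <;> simp [XSeg.index] at h1 h2 <;>
        first
          | omega
          | exact pa_row_keep _ _ _ _
          | (simp [laneSeg, kindOn, srcKind, mxKind, tbKind, setAbsKind, upKind, xfirst_loc, h1]
             repeat' split
             all_goals first
               | exact keepsH_pass
               | (rcases turnAt_cases Sym.isSrc .fanUp (T.loc M0 n x' y) with h | h <;> rw [h] <;>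
                   first | exact keepsH_fanUp | exact keepsH_pass)
               | (exfalso; simp_all))
    · refine named_step hF P .src hS _ hy (Forced.univ _ _) (Forced.univ _ _) (Forced.univ _ _)
        fun l d c ho _ _ _ => ?_
      simp [laneSeg, kindOn, srcKind, xfirst_loc, hs, hd, Kind.outs] at ho
      rcases ho with ⟨e, -⟩ | ⟨e, -⟩ <;> exact ⟨_, e⟩

/-- All lanes carry bits. -/
theorem lane_bit (hF : Flat L o) (P : Cell) (c : Fin 4) (src : Bool) {y : ℕ}
    (hy : y < segLen M0 n) (hok : laneOk src (symAt T M0 n y) = true) :
    Forced L z (laneCell M0 n o P c src y) fun d => ∃ b, d.h = .bit b :=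
  (lane_source hF P c src hy hok fun s => ∃ b, s = .bit b).2 (own_lane_bit hF _ src hy hok)

end

end Vale.Agent.P196.W
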