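import Vale.Agent.P196.W.RigidGrid
import Vale.Agent.P196.W.Cells

/-!
# P196: events of a layout level below an offset event

Below an offset event the address of every cell is known (`Flat`), so the kind is, and one rule
window turns what is known about the signals entering a cell into what is known about the signals
leaving it. Along kinds that pass a signal on, knowledge moves in both directions.
-/

namespace Vale.Agent.P196.W

open Vale.Agent.P196.Fp Vale.Agent.P196.Sft EventAlgebra

section restrict

variable {α : Type} [Fintype α] {W : Set (Win α)} {E : EventAlgebra.{0}}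

theorem below_inf_val {b : E.B} {x y : (E.below b).B} (h : E.com x.1 y.1) :
    ((E.below b).inf x y).1 = E.inf x.1 y.1 := by
  simp only [EventAlgebra.below] at x y ⊢
  rw [dif_pos h]

/-- Local events cut down to an event commuting with all of them. -/
noncomputable def restrict (L : LocalEvents E W) (b : E.B) (hb : ∀ p c, E.com b (L.ev p c)) :
    LocalEvents (E.below b) W where
  ev p c := ⟨E.inf (L.ev p c) b, E.com_symm _ _ (E.com_inf b _ _ (hb p c) (E.com_refl b)
      (E.com_symm _ _ (hb p c))), by
    rw [E.inf_assoc _ _ _ (E.com_symm _ _ (hb p c)) (E.com_symm _ _ (hb p c)) (E.com_refl b),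
      E.inf_idem]⟩
  near p q c d h1 h2 := by
    let S : E.Block := ⟨{L.ev p c, L.ev q d, b}, by
      rintro _ (rfl | rfl | rfl) _ (rfl | rfl | rfl)
      exacts [E.com_refl _, L.near p q c d h1 h2, E.com_symm _ _ (hb _ _),
        E.com_symm _ _ (L.near p q c d h1 h2), E.com_refl _, E.com_symm _ _ (hb _ _),
        hb _ _, hb _ _, E.com_refl _]⟩
    let A : S.Elem := S.mem (x := L.ev p c) (Or.inl rfl)
    let A' : S.Elem := S.mem (x := L.ev q d) (Or.inr (Or.inl rfl))
    let B : S.Elem := S.mem (x := b) (Or.inr (Or.inr rfl))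
    exact (A ⊓ B).com (A' ⊓ B)
  exclusive p c d h := by
    let S : E.Block := ⟨{L.ev p c, L.ev p d, b}, by
      rintro _ (rfl | rfl | rfl) _ (rfl | rfl | rfl)
      exacts [E.com_refl _, L.near p p c d (by simp) (by simp), E.com_symm _ _ (hb _ _),
        L.near p p d c (by simp) (by simp), E.com_refl _, E.com_symm _ _ (hb _ _),
        hb _ _, hb _ _, E.com_refl _]⟩
    let A : S.Elem := S.mem (x := L.ev p c) (Or.inl rfl)
    let A' : S.Elem := S.mem (x := L.ev p d) (Or.inr (Or.inl rfl))
    let B : S.Elem := S.mem (x := b) (Or.inr (Or.inr rfl))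
    have h0 : A ⊓ B ⊓ (A' ⊓ B) = ⊥ := by
      rw [inf_inf_inf_comm, show A ⊓ A' = ⊥ from Subtype.ext (L.exclusive p c d h), bot_inf_eq]
    simp only [EventAlgebra.below]
    rw [dif_pos (show E.com (E.inf (L.ev p c) b) (E.inf (L.ev p d) b) from (A ⊓ B).com (A' ⊓ B))]
    exact Subtype.ext (congrArg Subtype.val h0 : _)
  total p := by
    let S : E.Block := ⟨insert b (Set.range (L.ev p)), by
      rintro _ (rfl | ⟨c, rfl⟩) _ (rfl | ⟨d, rfl⟩)
      exacts [E.com_refl _, hb _ _, E.com_symm _ _ (hb _ _), L.near p p c d (by simp) (by simp)]⟩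
    let B : S.Elem := S.mem (x := b) (Or.inl rfl)
    let C : α → S.Elem := fun c => S.mem (Or.inr ⟨c, rfl⟩)
    let ev' : α → (E.below b).B := fun c => ⟨E.inf (L.ev p c) b, E.com_symm _ _
      (E.com_inf b _ _ (hb p c) (E.com_refl b) (E.com_symm _ _ (hb p c))), by
      rw [E.inf_assoc _ _ _ (E.com_symm _ _ (hb p c)) (E.com_symm _ _ (hb p c)) (E.com_refl b),
        E.inf_idem]⟩
    have key : ∀ l : List α, ∃ u : S.Elem, u.1 = ((l.map fun c => (E.below b).compl (ev' c)).foldr
        (E.below b).inf (E.below b).top).1 ∧ u ≤ B ∧ ∀ c ∈ l, u ≤ (C c)ᶜ := by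
      intro l
      induction l with
      | nil => exact ⟨B, rfl, le_rfl, fun _ h => absurd h List.not_mem_nil⟩
      | cons c l ih =>
        obtain ⟨u, hu, huB, hle⟩ := ih
        refine ⟨(C c ⊓ B)ᶜ ⊓ B ⊓ u, ?_, inf_le_right.trans huB, fun d hd => ?_⟩
        · rw [List.map_cons, List.foldr_cons]
          have hc := ((C c ⊓ B)ᶜ ⊓ B).com u
          rw [hu] at hc
          refine Eq.trans ?_ (below_inf_val (x := (E.below b).compl (ev' c)) hc).symm
          show E.inf ((C c ⊓ B)ᶜ ⊓ B).1 u.1 = _
          rw [hu]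
          rfl
        · rcases List.mem_cons.1 hd with rfl | hd
          · rw [compl_inf, inf_sup_right, _root_.compl_inf_eq_bot, sup_bot_eq]
            exact inf_le_left.trans inf_le_left
          · exact inf_le_right.trans (hle d hd)
    obtain ⟨u, hu, huB, hle⟩ := key Finset.univ.toList
    refine Subtype.ext ?_
    rw [← hu]
    have h1 : u ≤ (Finset.univ.sup C)ᶜ :=
      le_compl_comm.1 (Finset.sup_le fun c _ => le_compl_comm.1 (hle c (by simp)))
    rw [sup_eq_top C (L.ev p) (fun _ => rfl) (L.total p), _root_.compl_top] at h1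
    rw [show u = ⊥ from le_bot_iff.1 h1]
    rfl
  illegal a w hw := by
    let S : E.Block := ⟨insert b {x | ∃ (d : Fin 2 × Fin 2) (c : α), L.ev (corner a d) c = x}, by
      rintro _ (rfl | hx) _ (rfl | hy)
      · exact E.com_refl _
      · obtain ⟨d, c, rfl⟩ := hy; exact hb _ _
      · obtain ⟨d, c, rfl⟩ := hx; exact E.com_symm _ _ (hb _ _)
      · exact (winBlock L a).com _ hx _ hy⟩
    let B : S.Elem := S.mem (x := b) (Or.inl rfl)
    let C : Fin 2 × Fin 2 → S.Elem := fun d => S.mem (Or.inr ⟨d, w d, rfl⟩)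
    let D : Fin 2 × Fin 2 → S.Elem := fun d => C d ⊓ B
    have h0 : D (0, 0) ⊓ D (1, 0) ⊓ (D (0, 1) ⊓ D (1, 1)) = ⊥ := by
      refine le_bot_iff.1 (le_trans (inf_le_inf (inf_le_inf inf_le_left inf_le_left)
        (inf_le_inf inf_le_left inf_le_left)) (le_of_eq (Subtype.ext ?_)))
      have := L.illegal a w hw
      simp only [Sft.winEvent] at this
      show E.inf (E.inf (L.ev (corner a (0, 0)) (w (0, 0))) (L.ev (corner a (1, 0)) (w (1, 0))))
        (E.inf (L.ev (corner a (0, 1)) (w (0, 1))) (L.ev (corner a (1, 1)) (w (1, 1)))) = E.bot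
      simpa [corner] using this
    have c1 : E.com (D (0, 0)).1 (D (1, 0)).1 := (D _).com _
    have c2 : E.com (D (0, 1)).1 (D (1, 1)).1 := (D _).com _
    have c3 : E.com (E.inf (D (0, 0)).1 (D (1, 0)).1) (E.inf (D (0, 1)).1 (D (1, 1)).1) :=
      (D (0, 0) ⊓ D (1, 0)).com (D (0, 1) ⊓ D (1, 1))
    have e : ∀ d : Fin 2 × Fin 2, (D d).1 = E.inf (L.ev (corner a d) (w d)) b := fun _ => rfl
    have h1 := congrArg Subtype.val h0
    simp only [Block.Elem.coe_inf, Block.Elem.coe_bot, e, corner] at h1 c1 c2 c3
    simp at h1 c1 c2 c3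
    refine Subtype.ext ?_
    simp only [Sft.winEvent]
    set x0 : (E.below b).B := ⟨E.inf (L.ev a (w (0, 0))) b, _⟩
    set x1 : (E.below b).B := ⟨E.inf (L.ev (a.1 + 1, a.2) (w (1, 0))) b, _⟩
    set x2 : (E.below b).B := ⟨E.inf (L.ev (a.1, a.2 + 1) (w (0, 1))) b, _⟩
    set x3 : (E.below b).B := ⟨E.inf (L.ev (a.1 + 1, a.2 + 1) (w (1, 1))) b, _⟩
    have d1 : E.com x0.1 x1.1 := c1
    have d2 : E.com x2.1 x3.1 := c2
    have d3 : E.com ((E.below b).inf x0 x1).1 ((E.below b).inf x2 x3).1 := by
      rw [below_inf_val d1, below_inf_val d2]; exact c3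
    rw [below_inf_val d3, below_inf_val d1, below_inf_val d2]
    exact h1

variable {L : LocalEvents E W}

/-- What holds of every colour with a nonzero event is forced everywhere. -/
theorem forced_top {p : Cell} {P : α → Prop} (h : ∀ c, ¬P c → L.ev p c = E.bot) :
    Forced L E.top p P := by
  have e : cellSup L p P = ⊤ := by
    refine _root_.le_antisymm _root_.le_top ?_
    rw [← sup_cellEl p]
    refine Finset.sup_le fun c _ => ?_
    by_cases hc : P c
    · exact cellEl_le_cellSup hc
    · rw [show cellEl L p c = ⊥ from Subtype.ext (h c hc)]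
      exact _root_.bot_le
  show Imp E _ _
  rw [evP, e]
  exact Imp.refl _

/-- Below an event everything that it forces holds. -/
theorem forced_restrict {b : E.B} (hb : ∀ p c, E.com b (L.ev p c)) {p : Cell} {P : α → Prop}
    (h : Forced L b p P) : Forced (restrict L b hb) (E.below b).top p P := by
  refine forced_top fun c hc => Subtype.ext ?_
  have h' : Forced L (L.ev p c) p fun d => ¬P d := (Forced.ev p c).mono fun d hd => hd ▸ hc
  obtain ⟨-, h0⟩ := h'.disjoint h fun d a b => a b
  exact h0

end restrict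

/-! ## The named cells -/

noncomputable section

variable {T : Tables} {M0 n : ℕ} [NeZero M0] {E : EventAlgebra.{0}}

variable (L : LocalEvents E (rules T M0 n)) (o : Cell)

/-- The grid starts at `o` and every address is known. -/
def Flat : Prop :=
  ∀ p : Cell, Forced L E.top p fun c =>
    c.addr = addrAt (res segCount (segLen M0 n) o.1 p.1) (res segCount (segLen M0 n) o.2 p.2)

omit [NeZero M0] in
/-- The cell of the tile `P` at linear coordinates. -/
def cellAt (M0 n : ℕ) (o P : Cell) (a b : ℕ) : Cell := o + cellOfLin M0 n P a b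

/-- A named cell. -/
def namedCell (M0 n : ℕ) (o P : Cell) (X : XSeg) (x : ℕ) (Y : YSeg) (y : ℕ) : Cell :=
  cellAt M0 n o P (xlin (segLen M0 n) X x) (ylin (segLen M0 n) Y y)

/-- The cell left of a cell. -/
def lCell (p : Cell) : Cell := (p.1 - 1, p.2)

/-- The cell below a cell. -/
def bCell (p : Cell) : Cell := (p.1, p.2 - 1)

variable {L o} {z : E.B}

/-- What is known at the two cells before a cell and at the cell passes through its kind. -/
theorem flat_step (hF : Flat L o) (P : Cell) {a b : ℕ} (ha : a < tsize M0 n) (hb : b < tsize M0 n)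
    {A B C Q : Tint M0 n → Prop} (hA : Forced L z (lCell (cellAt M0 n o P a b)) A)
    (hB : Forced L z (bCell (cellAt M0 n o P a b)) B) (hC : Forced L z (cellAt M0 n o P a b) C)
    (h : ∀ l d c : Tint M0 n, c.addr = addrAt a b →
      (c.h, c.v) ∈ (kindAt layoutKind (locF T M0 n) (addrAt a b)).outs l.h d.v →
      A l → B d → C c → Q c) :
    Forced L z (cellAt M0 n o P a b) Q := by
  set p := cellAt M0 n o P a b with hp
  have hal : Forced L z p fun c => c.addr = addrAt a b := by
    refine ((hF p).of_imp (imp_top z)).mono fun c hc => ?_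
    rw [hc]
    have e1 : res segCount (segLen M0 n) o.1 p.1 = a := by
      have := res_add (g := segCount) (M := segLen M0 n) o.1 P.1 ha
      rw [← this]
      simp [hp, cellAt, cellOfLin, tsize, add_assoc]
    have e2 : res segCount (segLen M0 n) o.2 p.2 = b := by
      have := res_add (g := segCount) (M := segLen M0 n) o.2 P.2 hb
      rw [← this]
      simp [hp, cellAt, cellOfLin, tsize, add_assoc]
    rw [e1, e2]
  have key := Forced.step (L := L) (z := z) (p.1 - 1, p.2 - 1)
    (fun d c => (d = (0, 1) → A c) ∧ (d = (1, 0) → B c) ∧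
      (d = (1, 1) → C c ∧ c.addr = addrAt a b)) (r := (1, 1)) (Q := Q) (fun d => ?_) ?_
  · simpa [corner] using key
  · rcases d with ⟨i, j⟩
    fin_cases i <;> fin_cases j <;> simp [corner]
    · exact Forced.univ _ _
    · exact hA.mono fun c hc => by simpa using hc
    · exact hB.mono fun c hc => by simpa using hc
    · exact (hC.and hal).mono fun c hc => by simpa using hc
  · intro w hw hd
    obtain ⟨hC', had⟩ := (hd (1, 1)).2.2 rfl
    have ev := hw.2.2
    simp only [Event.Ok, winEvent, had] at ev
    exact h _ _ _ had ev ((hd (0, 1)).1 rfl) ((hd (1, 0)).2.1 rfl) hC'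

/-- What is known at a cell and below it tells about the cell on the left. -/
theorem flat_back_left (hF : Flat L o) (P : Cell) {a b : ℕ} (ha : a < tsize M0 n)
    (hb : b < tsize M0 n) {A B C Q : Tint M0 n → Prop}
    (hA : Forced L z (lCell (cellAt M0 n o P a b)) A) (hB : Forced L z (bCell (cellAt M0 n o P a b)) B)
    (hC : Forced L z (cellAt M0 n o P a b) C)
    (h : ∀ l d c : Tint M0 n,
      (c.h, c.v) ∈ (kindAt layoutKind (locF T M0 n) (addrAt a b)).outs l.h d.v →
      A l → B d → C c → Q l) :
    Forced L z (lCell (cellAt M0 n o P a b)) Q := by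
  set p := cellAt M0 n o P a b with hp
  have hal := flat_step hF P ha hb hA hB hC (Q := fun c => C c ∧ c.addr = addrAt a b)
    fun l d c hc _ _ _ hC' => ⟨hC', hc⟩
  have key := Forced.step (L := L) (z := z) (p.1 - 1, p.2 - 1)
    (fun d c => (d = (0, 1) → A c) ∧ (d = (1, 0) → B c) ∧
      (d = (1, 1) → C c ∧ c.addr = addrAt a b)) (r := (0, 1)) (Q := Q) (fun d => ?_) ?_
  · simpa [corner, lCell] using key
  · rcases d with ⟨i, j⟩
    fin_cases i <;> fin_cases j <;> simp [corner]
    · exact Forced.univ _ _
    · exact hA.mono fun c hc => by simpa using hc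
    · exact hB.mono fun c hc => by simpa using hc
    · exact hal.mono fun c hc => by simpa using hc
  · intro w hw hd
    obtain ⟨hC', had⟩ := (hd (1, 1)).2.2 rfl
    have ev := hw.2.2
    simp only [Event.Ok, winEvent, had] at ev
    exact h _ _ _ ev ((hd (0, 1)).1 rfl) ((hd (1, 0)).2.1 rfl) hC'

/-- What is known at a cell and left of it tells about the cell below. -/
theorem flat_back_below (hF : Flat L o) (P : Cell) {a b : ℕ} (ha : a < tsize M0 n)
    (hb : b < tsize M0 n) {A B C Q : Tint M0 n → Prop}
    (hA : Forced L z (lCell (cellAt M0 n o P a b)) A) (hB : Forced L z (bCell (cellAt M0 n o P a b)) B)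
    (hC : Forced L z (cellAt M0 n o P a b) C)
    (h : ∀ l d c : Tint M0 n,
      (c.h, c.v) ∈ (kindAt layoutKind (locF T M0 n) (addrAt a b)).outs l.h d.v →
      A l → B d → C c → Q d) :
    Forced L z (bCell (cellAt M0 n o P a b)) Q := by
  set p := cellAt M0 n o P a b with hp
  have hal := flat_step hF P ha hb hA hB hC (Q := fun c => C c ∧ c.addr = addrAt a b)
    fun l d c hc _ _ _ hC' => ⟨hC', hc⟩
  have key := Forced.step (L := L) (z := z) (p.1 - 1, p.2 - 1)
    (fun d c => (d = (0, 1) → A c) ∧ (d = (1, 0) → B c) ∧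
      (d = (1, 1) → C c ∧ c.addr = addrAt a b)) (r := (1, 0)) (Q := Q) (fun d => ?_) ?_
  · simpa [corner, bCell] using key
  · rcases d with ⟨i, j⟩
    fin_cases i <;> fin_cases j <;> simp [corner]
    · exact Forced.univ _ _
    · exact hA.mono fun c hc => by simpa using hc
    · exact hB.mono fun c hc => by simpa using hc
    · exact hal.mono fun c hc => by simpa using hc
  · intro w hw hd
    obtain ⟨hC', had⟩ := (hd (1, 1)).2.2 rfl
    have ev := hw.2.2
    simp only [Event.Ok, winEvent, had] at ev
    exact h _ _ _ ev ((hd (0, 1)).1 rfl) ((hd (1, 0)).2.1 rfl) hC'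

/-- A kind that passes the signal from the left on. -/
theorem keepsH_iff (hF : Flat L o) (P : Cell) {a b : ℕ} (ha : a < tsize M0 n)
    (hb : b < tsize M0 n) (hk : KeepsH (kindAt layoutKind (locF T M0 n) (addrAt a b)))
    (S : Sig → Prop) :
    Forced L z (cellAt M0 n o P a b) (fun c => S c.h) ↔
      Forced L z (lCell (cellAt M0 n o P a b)) fun c => S c.h := by
  constructor
  · intro hC
    exact flat_back_left hF P ha hb (Forced.univ _ _) (Forced.univ _ _) hC
      fun l d c ho _ _ hc => by have := hk _ _ _ ho; simp only at this; rwa [← this]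
  · intro hA
    exact flat_step hF P ha hb hA (Forced.univ _ _) (Forced.univ _ _)
      fun l d c _ ho hl _ _ => by have := hk _ _ _ ho; simp only at this; rwa [this]

/-- A kind that passes the signal from below on. -/
theorem keepsV_iff (hF : Flat L o) (P : Cell) {a b : ℕ} (ha : a < tsize M0 n)
    (hb : b < tsize M0 n) (hk : KeepsV (kindAt layoutKind (locF T M0 n) (addrAt a b)))
    (S : Sig → Prop) :
    Forced L z (cellAt M0 n o P a b) (fun c => S c.v) ↔
      Forced L z (bCell (cellAt M0 n o P a b)) fun c => S c.v := by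
  constructor
  · intro hC
    exact flat_back_below hF P ha hb (Forced.univ _ _) (Forced.univ _ _) hC
      fun l d c ho _ _ hc => by have := hk _ _ _ ho; simp only at this; rwa [← this]
  · intro hB
    exact flat_step hF P ha hb (Forced.univ _ _) hB (Forced.univ _ _)
      fun l d c _ ho _ hd _ => by have := hk _ _ _ ho; simp only at this; rwa [this]

/-! ## Cells before named cells -/

omit [NeZero M0] in
theorem lCell_pred {P : Cell} {X X' : XSeg} {x x' : ℕ} (h : XPred (segLen M0 n) X' x' X x)
    (Y : YSeg) (y : ℕ) :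
    lCell (namedCell M0 n o P X x Y y) = namedCell M0 n o P X' x' Y y := by
  refine Prod.ext ?_ rfl
  simp only [lCell, namedCell, cellAt, cellOfLin, h.xlin_succ, Prod.fst_add]
  push_cast
  ring

omit [NeZero M0] in
theorem bCell_pred {P : Cell} (X : XSeg) (x : ℕ) {Y Y' : YSeg} {y y' : ℕ}
    (h : YPred (segLen M0 n) Y' y' Y y) :
    bCell (namedCell M0 n o P X x Y y) = namedCell M0 n o P X x Y' y' := by
  refine Prod.ext rfl ?_
  simp only [bCell, namedCell, cellAt, cellOfLin, h.ylin_succ, Prod.snd_add]
  push_cast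
  ring

/-- The step at a named cell. -/
theorem named_step (hF : Flat L o) (P : Cell) (X : XSeg) {x : ℕ} (hx : x < segLen M0 n)
    (Y : YSeg) {y : ℕ} (hy : y < segLen M0 n) {A B C Q : Tint M0 n → Prop}
    (hA : Forced L z (lCell (namedCell M0 n o P X x Y y)) A)
    (hB : Forced L z (bCell (namedCell M0 n o P X x Y y)) B)
    (hC : Forced L z (namedCell M0 n o P X x Y y) C)
    (h : ∀ l d c : Tint M0 n, (c.h, c.v) ∈ (kindOn X Y (T.loc M0 n x y)).outs l.h d.v →
      A l → B d → C c → Q c) :
    Forced L z (namedCell M0 n o P X x Y y) Q := by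
  refine flat_step hF P (ord_lt_tsize (xlin_lt X hx)) (ord_lt_tsize (ylin_lt Y hy)) hA hB hC
    fun l d c _ ho => h l d c ?_
  rwa [show addrAt (g := segCount) (M := segLen M0 n) (xlin (segLen M0 n) X x)
      (ylin (segLen M0 n) Y y) = addrAt (pos (xSegEquiv X) (⟨x, hx⟩ : Fin (segLen M0 n)))
        (pos (ySegEquiv Y) (⟨y, hy⟩ : Fin (segLen M0 n))) from rfl, kindAt_named] at ho

theorem kindAt_lin (T : Tables) (X : XSeg) {x : ℕ} (hx : x < segLen M0 n) (Y : YSeg) {y : ℕ}
    (hy : y < segLen M0 n) :
    kindAt layoutKind (locF T M0 n) (addrAt (g := segCount) (M := segLen M0 n)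
      (xlin (segLen M0 n) X x) (ylin (segLen M0 n) Y y)) = kindOn X Y (T.loc M0 n x y) :=
  kindAt_named T M0 n X ⟨x, hx⟩ Y ⟨y, hy⟩

/-- Along kinds that pass it on, a row signal is known at both ends or at neither. -/
theorem wireH (hF : Flat L o) (P : Cell) (Y : YSeg) {y : ℕ} (hy : y < segLen M0 n)
    {X₀ X : XSeg} {x₀ x : ℕ} (hx₀ : x₀ < segLen M0 n) (hx : x < segLen M0 n)
    (hle : xlin (segLen M0 n) X₀ x₀ ≤ xlin (segLen M0 n) X x)
    (hk : ∀ X' x', x' < segLen M0 n →
      xlin (segLen M0 n) X₀ x₀ < xlin (segLen M0 n) X' x' →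
      xlin (segLen M0 n) X' x' ≤ xlin (segLen M0 n) X x →
      KeepsH (kindOn X' Y (T.loc M0 n x' y)))
    (S : Sig → Prop) :
    Forced L z (namedCell M0 n o P X x Y y) (fun c => S c.h) ↔
      Forced L z (namedCell M0 n o P X₀ x₀ Y y) fun c => S c.h := by
  induction hm : xlin (segLen M0 n) X x using Nat.strong_induction_on generalizing X x with
  | _ m ih =>
    subst hm
    rcases hle.eq_or_lt with h | h
    · obtain ⟨rfl, rfl⟩ := xlin_inj hx₀ hx h; rfl
    · have hne : ¬(X = .x0 ∧ x = 0) := by
        rintro ⟨rfl, rfl⟩; simp [xlin, XSeg.index] at h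
      obtain ⟨X', x', hx', hp⟩ := exists_xPred (segLen_pos n) hx hne
      have hs := hp.xlin_succ
      have e := keepsH_iff (z := z) hF P (ord_lt_tsize (xlin_lt X hx)) (ord_lt_tsize (ylin_lt Y hy))
        (kindAt_lin T X hx Y hy ▸ hk X x hx h le_rfl) S
      change Forced L z (namedCell M0 n o P X x Y y) _ ↔
        Forced L z (lCell (namedCell M0 n o P X x Y y)) _ at e
      rw [lCell_pred hp] at e
      exact e.trans (ih _ (by omega) hx' (by omega)
        (fun A a ha' h1 h2 => hk A a ha' h1 (by omega)) rfl)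

/-- Along kinds that pass it on, a column signal is known at both ends or at neither. -/
theorem wireV (hF : Flat L o) (P : Cell) (X : XSeg) {x : ℕ} (hx : x < segLen M0 n)
    {Y₀ Y : YSeg} {y₀ y : ℕ} (hy₀ : y₀ < segLen M0 n) (hy : y < segLen M0 n)
    (hle : ylin (segLen M0 n) Y₀ y₀ ≤ ylin (segLen M0 n) Y y)
    (hk : ∀ Y' y', y' < segLen M0 n →
      ylin (segLen M0 n) Y₀ y₀ < ylin (segLen M0 n) Y' y' →
      ylin (segLen M0 n) Y' y' ≤ ylin (segLen M0 n) Y y →
      KeepsV (kindOn X Y' (T.loc M0 n x y')))
    (S : Sig → Prop) :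
    Forced L z (namedCell M0 n o P X x Y y) (fun c => S c.v) ↔
      Forced L z (namedCell M0 n o P X x Y₀ y₀) fun c => S c.v := by
  induction hm : ylin (segLen M0 n) Y y using Nat.strong_induction_on generalizing Y y with
  | _ m ih =>
    subst hm
    rcases hle.eq_or_lt with h | h
    · obtain ⟨rfl, rfl⟩ := ylin_inj hy₀ hy h; rfl
    · have hne : ¬(Y = .y0 ∧ y = 0) := by
        rintro ⟨rfl, rfl⟩; simp [ylin, YSeg.index] at h
      obtain ⟨Y', y', hy', hp⟩ := exists_yPred (segLen_pos n) hy hne
      have hs := hp.ylin_succ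
      have e := keepsV_iff (z := z) hF P (ord_lt_tsize (xlin_lt X hx)) (ord_lt_tsize (ylin_lt Y hy))
        (kindAt_lin T X hx Y hy ▸ hk Y y hy h le_rfl) S
      change Forced L z (namedCell M0 n o P X x Y y) _ ↔
        Forced L z (bCell (namedCell M0 n o P X x Y y)) _ at e
      rw [bCell_pred _ _ hp] at e
      exact e.trans (ih _ (by omega) hy' (by omega)
        (fun A a ha' h1 h2 => hk A a ha' h1 (by omega)) rfl)

theorem addrAt_band_kind {a : ℕ} (h : segCount * segLen M0 n ≤ a) (b : ℕ) :
    kindAt layoutKind (locF T M0 n) (addrAt (g := segCount) (M := segLen M0 n) a b) = .passH := by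
  rw [addrAt, if_pos h]; rfl

theorem addrAt_bandP_kind {a b : ℕ} (h : a < segCount * segLen M0 n)
    (h' : segCount * segLen M0 n ≤ b) :
    kindAt layoutKind (locF T M0 n) (addrAt (g := segCount) (M := segLen M0 n) a b) = .colOnly := by
  rw [addrAt, if_neg (by omega), if_pos h']; rfl

theorem keepsV_colOnly : KeepsV .colOnly := fun h v p hp => by
  simp only [Kind.outs] at hp; split_ifs at hp <;> simp at hp; simp [hp]

omit [NeZero M0] in
theorem lCell_cellAt (P : Cell) {a : ℕ} (ha : 0 < a) (b : ℕ) :
    lCell (cellAt M0 n o P a b) = cellAt M0 n o P (a - 1) b := by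
  refine Prod.ext ?_ rfl
  simp only [lCell, cellAt, cellOfLin, Prod.fst_add, Nat.cast_sub ha]
  push_cast; ring

omit [NeZero M0] in
theorem bCell_cellAt (P : Cell) (a : ℕ) {b : ℕ} (hb : 0 < b) :
    bCell (cellAt M0 n o P a b) = cellAt M0 n o P a (b - 1) := by
  refine Prod.ext rfl ?_
  simp only [bCell, cellAt, cellOfLin, Prod.snd_add, Nat.cast_sub hb]
  push_cast; ring

/-- The band of columns carries every row signal. -/
theorem wire_band (hF : Flat L o) (P : Cell) {b : ℕ} (hb : b < tsize M0 n) {k : ℕ}
    (hk : k ≤ segLen M0 n) (S : Sig → Prop) :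
    Forced L z (cellAt M0 n o P (segCount * segLen M0 n + k - 1) b) (fun c => S c.h) ↔
      Forced L z (cellAt M0 n o P (segCount * segLen M0 n - 1) b) fun c => S c.h := by
  induction k with
  | zero => rfl
  | succ k ih =>
    have hlt : segCount * segLen M0 n + k < tsize M0 n := by rw [tsize, side_eq]; omega
    have hp : 0 < segCount * segLen M0 n :=
      Nat.mul_pos (NeZero.pos segCount) (segLen_pos n)
    have e := keepsH_iff (z := z) hF P hlt hb (by
      rw [addrAt_band_kind (by omega)]; exact keepsH_passH) S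
    rw [lCell_cellAt _ (by omega)] at e
    rw [show segCount * segLen M0 n + (k + 1) - 1 = segCount * segLen M0 n + k by omega]
    exact e.trans (ih (by omega))

/-- The band of rows carries every column signal. -/
theorem wire_bandP (hF : Flat L o) (P : Cell) {a : ℕ} (ha : a < segCount * segLen M0 n) {k : ℕ}
    (hk : k ≤ segLen M0 n) (S : Sig → Prop) :
    Forced L z (cellAt M0 n o P a (segCount * segLen M0 n + k - 1)) (fun c => S c.v) ↔
      Forced L z (cellAt M0 n o P a (segCount * segLen M0 n - 1)) fun c => S c.v := by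
  induction k with
  | zero => rfl
  | succ k ih =>
    have hlt : segCount * segLen M0 n + k < tsize M0 n := by rw [tsize, side_eq]; omega
    have hp : 0 < segCount * segLen M0 n :=
      Nat.mul_pos (NeZero.pos segCount) (segLen_pos n)
    have e := keepsV_iff (z := z) hF P (ord_lt_tsize ha) hlt (by
      rw [addrAt_bandP_kind ha (by omega)]; exact keepsV_colOnly) S
    rw [bCell_cellAt _ _ (by omega)] at e
    rw [show segCount * segLen M0 n + (k + 1) - 1 = segCount * segLen M0 n + k by omega]
    exact e.trans (ih (by omega))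

/-- The left edge of a tile receives what the last segment of the left neighbour sends. -/
theorem wire_left_edge (hF : Flat L o) (P : Cell) (Y : YSeg) {y : ℕ} (hy : y < segLen M0 n)
    (S : Sig → Prop) :
    Forced L z (lCell (namedCell M0 n o P .x0 0 Y y)) (fun c => S c.h) ↔
      Forced L z (namedCell M0 n o (P.1 - 1, P.2) .kr (segLen M0 n - 1) Y y) fun c => S c.h := by
  have e := wire_band (z := z) hF (P.1 - 1, P.2) (ord_lt_tsize (ylin_lt (n := n) Y hy))
    (le_refl (segLen M0 n)) S
  rw [namedCell, namedCell, kr_last, ← e]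
  have := segLen_pos (M0 := M0) n
  have h : lCell (cellAt M0 n o P (xlin (segLen M0 n) .x0 0)
      (ylin (segLen M0 n) Y y)) = cellAt M0 n o (P.1 - 1, P.2)
        (segCount * segLen M0 n + segLen M0 n - 1) (ylin (segLen M0 n) Y y) := by
    refine Prod.ext ?_ rfl
    simp only [lCell, cellAt, cellOfLin, xlin, XSeg.index, zero_mul, Nat.cast_zero, add_zero,
      tsize, side_eq, Prod.fst_add,
      Nat.cast_sub (show 1 ≤ segCount * segLen M0 n + segLen M0 n by omega)]
    push_cast; ring
  rw [h]

/-- The lower edge of a tile receives what the top segment of the neighbour below sends. -/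
theorem wire_lower_edge (hF : Flat L o) (P : Cell) (X : XSeg) {x : ℕ} (hx : x < segLen M0 n)
    (S : Sig → Prop) :
    Forced L z (bCell (namedCell M0 n o P X x .y0 0)) (fun c => S c.v) ↔
      Forced L z (namedCell M0 n o (P.1, P.2 - 1) X x .kt (segLen M0 n - 1)) fun c => S c.v := by
  have e := wire_bandP (z := z) hF (P.1, P.2 - 1) (xlin_lt (n := n) X hx)
    (le_refl (segLen M0 n)) S
  rw [namedCell, namedCell, kt_last, ← e]
  have := segLen_pos (M0 := M0) n
  have h : bCell (cellAt M0 n o P (xlin (segLen M0 n) X x)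
      (ylin (segLen M0 n) .y0 0)) = cellAt M0 n o (P.1, P.2 - 1) (xlin (segLen M0 n) X x)
        (segCount * segLen M0 n + segLen M0 n - 1) := by
    refine Prod.ext rfl ?_
    simp only [bCell, cellAt, cellOfLin, ylin, YSeg.index, zero_mul, Nat.cast_zero, add_zero,
      tsize, side_eq, Prod.snd_add,
      Nat.cast_sub (show 1 ≤ segCount * segLen M0 n + segLen M0 n by omega)]
    push_cast; ring
  rw [h]

/-- Below an offset event of a layout level the addresses are known. -/
theorem flat_restrict {L : LocalEvents E (rules T M0 n)}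
    (i : Fin (side segCount (segLen M0 n)) × Fin (side segCount (segLen M0 n))) :
    Flat (restrict L (offsetEv L i) (fun p c =>
      offsetEv_com_ev (gridRule_level T M0 n) i p c)) (gridOrigin i) :=
  fun p => forced_restrict _ (offsetEv_aligned (gridRule_level T M0 n) i p)

omit [NeZero M0] in
/-- Two events that know the same about every set of signals at two cells are equal. -/
theorem evP_eq_of_wire {p q : Cell} {f : Tint M0 n → Sig} (S : Sig → Prop)
    (h : ∀ z : E.B, Forced L z p (fun c => S (f c)) ↔ Forced L z q fun c => S (f c)) :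
    evP L p (fun c => S (f c)) = evP L q fun c => S (f c) :=
  Imp.eq ((h _).1 (Forced.self _ _)) ((h _).2 (Forced.self _ _))

end

end Vale.Agent.P196.W
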