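import Vale.Agent.P196.W.RigidCross
import Vale.Agent.P196.W.RigidEvents

/-!
# P196: the offsets and the free bits of a tile fix its derived lanes

Below a meet of the two offsets and the free bits the choices of the tile are known, so every
derived lane of the own bundle carries the value of the two offsets. It commutes with both.
-/

namespace Vale.Agent.P196.W

open Vale.Agent.P196.Fp Vale.Agent.P196.Sft EventAlgebra

section general

variable {E : EventAlgebra.{0}}

/-- An event commutes with a meet of complements if it commutes with the events. -/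
theorem com_foldr_compl {ι : Type} (e : ι → E.B) (hc : ∀ i j, E.com (e i) (e j)) (l : List ι) :
    ∀ {z : E.B}, (∀ i, E.com z (e i)) →
      E.com z ((l.map fun i => E.compl (e i)).foldr E.inf E.top) := by
  induction l with
  | nil => exact fun {z} _ => E.com_top z
  | cons i l ih =>
    intro z h
    rw [List.map_cons, List.foldr_cons]
    exact E.com_inf z _ _ (E.com_compl _ _ (h i)) (ih h)
      (ih fun j => E.com_symm _ _ (E.com_compl _ _ (hc j i)))

/-- A family completed by the meet of the complements is total. -/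
theorem total_option {ι : Type} [Fintype ι] (e : ι → E.B) (hc : ∀ i j, E.com (e i) (e j))
    (g : Option ι → E.B) (hs : ∀ i, g (some i) = e i)
    (hn : g Option.none = (Finset.univ.toList.map fun i => E.compl (e i)).foldr E.inf E.top) :
    (Finset.univ.toList.map fun x => E.compl (g x)).foldr E.inf E.top = E.bot := by
  classical
  let S : E.Block := ⟨Set.range e, by rintro _ ⟨i, rfl⟩ _ ⟨j, rfl⟩; exact hc i j⟩
  let f : ι → S.Elem := fun i => S.mem ⟨i, rfl⟩
  have key : ∀ l : List ι, ∃ u : S.Elem, u.1 = (l.map fun i => E.compl (e i)).foldr E.inf E.top ∧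
      (Finset.univ.sup f)ᶜ ≤ u := by
    intro l
    induction l with
    | nil => exact ⟨⊤, rfl, _root_.le_top⟩
    | cons i l ih =>
      obtain ⟨u, hu, hle⟩ := ih
      refine ⟨(f i)ᶜ ⊓ u, ?_, _root_.le_inf (compl_le_compl (Finset.le_sup (Finset.mem_univ i))) hle⟩
      rw [List.map_cons, List.foldr_cons, ← hu]
      rfl
  obtain ⟨u, hu, hle⟩ := key Finset.univ.toList
  let f' : Option ι → S.Elem := fun x => x.elim u f
  refine foldr_compl_of_sup f' g (fun x => ?_) (_root_.eq_top_iff.2 ?_)
  · cases x with
    | none => rw [hn, ← hu]; rfl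
    | some i => rw [hs]; rfl
  · rw [← sup_compl_eq_top (x := Finset.univ.sup f)]
    refine sup_le (Finset.sup_le fun i _ => ?_) (hle.trans ?_)
    · exact Finset.le_sup (f := f') (Finset.mem_univ (some i))
    · exact Finset.le_sup (f := f') (Finset.mem_univ Option.none)

/-- A join lies below what all its members lie below. -/
theorem imp_finset_sup {S : E.Block} {ι : Type} (s : Finset ι) (f : ι → S.Elem) {t : E.B}
    (h : ∀ j ∈ s, Imp E (f j).1 t) : Imp E (s.sup f).1 t := by
  have h1 : Imp E (E.compl t) (s.inf fun j => (f j)ᶜ).1 :=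
    imp_finset_inf s _ fun j hj => (h j hj).compl
  rw [← Finset.compl_sup] at h1
  have h2 := h1.compl
  rw [E.compl_compl] at h2
  have e : E.compl ((s.sup f)ᶜ).1 = (s.sup f).1 :=
    congrArg Subtype.val (_root_.compl_compl (s.sup f))
  rwa [e] at h2

/-- A meet of one value of each of finitely many pairs. -/
noncomputable def meetAll {S : E.Block} {ι : Type} [Fintype ι] (f : ι → Bool → S.Elem)
    (β : ι → Bool) : S.Elem :=
  Finset.univ.inf fun i => f i (β i)

theorem meetAll_le {S : E.Block} {ι : Type} [Fintype ι] (f : ι → Bool → S.Elem) (β : ι → Bool)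
    (i : ι) : meetAll f β ≤ f i (β i) :=
  Finset.inf_le (f := fun i => f i (β i)) (Finset.mem_univ i)

theorem sup_meetAll {S : E.Block} {ι : Type} [Fintype ι] [DecidableEq ι]
    (f : ι → Bool → S.Elem) (h : ∀ i, f i false = (f i true)ᶜ) :
    Finset.univ.sup (meetAll f) = ⊤ := by
  refine _root_.eq_top_iff.2 ?_
  have h1 : (⊤ : S.Elem) ≤ Finset.univ.inf fun i => Finset.univ.sup (f i) :=
    Finset.le_inf fun i _ => by
      rw [Fintype.univ_bool, Finset.sup_insert, Finset.sup_singleton, h, sup_compl_eq_top]
  refine h1.trans ?_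
  rw [Finset.inf_sup]
  refine Finset.sup_le fun g _ => ?_
  refine le_trans ?_ (Finset.le_sup (f := meetAll f)
    (Finset.mem_univ fun i => g i (Finset.mem_univ i)))
  exact Finset.le_inf fun i _ =>
    (Finset.inf_le (f := fun j => f j.1 (g j.1 j.2))
      (Finset.mem_attach Finset.univ ⟨i, Finset.mem_univ i⟩)).trans le_rfl

/-- An event commutes with what two total families split if it commutes with the pieces. -/
theorem com_of_split {S : E.Block} {ι κ : Type} [Fintype ι] [Fintype κ] (u : S.Elem)
    (f : ι → S.Elem) (g : κ → S.Elem) (hf : Finset.univ.sup f = ⊤) (hg : Finset.univ.sup g = ⊤)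
    {d : E.B} (h : ∀ i j, E.com d (u ⊓ f i ⊓ g j).1) : E.com d u.1 := by
  have e : u = Finset.univ.sup fun i => Finset.univ.sup fun j => u ⊓ f i ⊓ g j := by
    simp only [← Finset.sup_inf_distrib_left, hg, inf_top_eq, hf]
  rw [e]
  exact com_of_sup _ _ _ fun i _ => com_of_sup _ _ _ fun j _ => h i j

/-- An event lies above what a total family splits if it lies above the pieces. -/
theorem imp_of_split {S : E.Block} {κ : Type} [Fintype κ] (u : S.Elem)
    (g : κ → S.Elem) (hg : Finset.univ.sup g = ⊤)
    {d : E.B} (h : ∀ j, Imp E (u ⊓ g j).1 d) : Imp E u.1 d := by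
  have e : u = Finset.univ.sup fun j => u ⊓ g j := by
    simp only [← Finset.sup_inf_distrib_left, hg, inf_top_eq]
  rw [e]
  exact imp_finset_sup _ _ fun j _ => h j

variable {α : Type} [Fintype α] {W : Set (Win α)} {L : LocalEvents E W} {p : Cell}

theorem evP_compl (P : α → Prop) : E.compl (evP L p P) = evP L p fun c => ¬P c := by
  have e : cellSup L p (fun c => ¬P c) = (cellSup L p P)ᶜ := by
    refine eq_compl_iff_isCompl.2 (IsCompl.symm ⟨?_, ?_⟩)
    · rw [disjoint_iff, cellSup_and]
      exact le_bot_iff.1 (cellSup_le fun c hc => absurd hc.1 hc.2)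
    · rw [codisjoint_iff, _root_.eq_top_iff, ← sup_cellEl p]
      refine Finset.sup_le fun c _ => ?_
      by_cases hc : P c
      · exact (cellEl_le_cellSup hc).trans le_sup_left
      · exact (cellEl_le_cellSup (P := fun c => ¬P c) hc).trans le_sup_right
  exact (congrArg Subtype.val e).symm

end general

noncomputable section

variable {n : ℕ} {E : EventAlgebra.{0}}
  {L : LocalEvents E (rules (tables layoutKind) (m0 segCount) n)} {o : Cell} {z : E.B}

theorem bitEv_eq (P : Cell) (l : Lane segCount) (b : Bool) :
    bitEv L o P l b = laneEv L o P 2 l.sym.isSrc (laneAt n l)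
      (fun s => if b then s = .bit true else ¬s = .bit true) := by
  cases b
  · simp only [bitEv, laneEv, evP_compl, Bool.false_eq_true, if_false]
  · simp only [bitEv, laneEv, if_true]

theorem bitEv_com (hF : Flat L o) (P : Cell) (l l' : Lane segCount) (b b' : Bool) :
    E.com (bitEv L o P l b) (bitEv L o P l' b') := by
  rw [bitEv_eq, bitEv_eq]
  exact laneEv_com hF P (laneAt_lt n l) (laneAt_lt n l') (laneOk_lane n l) (laneOk_lane n l') _ _

/-- An event below a bit of the parent `Q` forces it on every lane that shows that parent. -/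
theorem bitEv_read (hF : Flat L o) (P : Cell) (c : Fin 4) (l : Lane segCount) (b : Bool)
    (hz : Imp E z (bitEv L o (srcTile P c) l b)) :
    Forced L z (laneCell (m0 segCount) n o P c l.sym.isSrc (laneAt n l)) fun d => d.h = .bit b := by
  have hl := laneAt_lt n l
  have hok := laneOk_lane n l
  rw [bitEv_eq, ← laneEv_source hF P c _ hl hok] at hz
  refine (Forced.and hz (lane_bit hF P c _ hl hok)).mono fun d hd => ?_
  obtain ⟨h1, b', h2⟩ := hd
  cases b <;> cases b' <;> simp [h2] at h1 ⊢

/-- The offsets of a parent commute with whatever commutes with all of its known values. -/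
theorem com_xEv (hX : ∀ P x x', x ≠ x' → Excl E (xEv L o P x) (xEv L o P x')) (P : Cell)
    (h : ∀ a : Fin (segLen (m0 segCount) (n + 1)),
      E.com z (oxEv L o P (halve a).1 (some (halve a).2))) (x : Off n) :
    E.com z (xEv L o P x) := by
  cases x with
  | some a => exact h a
  | none =>
    refine com_foldr_compl _ (fun i j => ?_) _ h
    by_cases e : i = j
    · subst e; exact E.com_refl _
    · exact (hX P (some i) (some j) fun e' => e (Option.some.inj e')).1

theorem com_yEv (hY : ∀ P x x', x ≠ x' → Excl E (yEv L o P x) (yEv L o P x')) (P : Cell)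
    (h : ∀ a : Fin (segLen (m0 segCount) (n + 1)),
      E.com z (oyEv L o P (halve a).1 (some (halve a).2))) (x : Off n) :
    E.com z (yEv L o P x) := by
  cases x with
  | some a => exact h a
  | none =>
    refine com_foldr_compl _ (fun i j => ?_) _ h
    by_cases e : i = j
    · subst e; exact E.com_refl _
    · exact (hY P (some i) (some j) fun e' => e (Option.some.inj e')).1

theorem excl_com {ι : Type} (f : Cell → ι → E.B) (h : ∀ P x x', x ≠ x' → Excl E (f P x) (f P x'))
    (P : Cell) (x x' : ι) : E.com (f P x) (f P x') := by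
  by_cases e : x = x'
  · subst e; exact E.com_refl _
  · exact (h P x x' e).1

theorem xEv_com_yEv (hF : Flat L o)
    (hX : ∀ P x x', x ≠ x' → Excl E (xEv L o P x) (xEv L o P x'))
    (hY : ∀ P x x', x ≠ x' → Excl E (yEv L o P x) (yEv L o P x')) (P : Cell) (x y : Off n) :
    E.com (xEv L o P x) (yEv L o P y) :=
  com_yEv hY P (fun b => E.com_symm _ _ (com_xEv hX P (fun a => E.com_symm _ _
    (oxEv_com_oyEv hF P (halve_lt _ _ a) (halve_lt _ _ b) _ _)) x)) y

theorem xEv_com_lane (hF : Flat L o)
    (hX : ∀ P x x', x ≠ x' → Excl E (xEv L o P x) (xEv L o P x')) (P : Cell) (x : Off n) (c : Fin 4)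
    (l : Lane segCount) (hc : l.sym.isSrc = true ∨ c ≠ 2) (S : Sig → Prop) :
    E.com (laneEv L o P c l.sym.isSrc (laneAt n l) S) (xEv L o P x) := by
  refine com_xEv hX P (fun a => E.com_symm _ _ ?_) x
  have hok := laneOk_lane n l
  cases hs : l.sym.isSrc
  · rw [hs] at hok
    exact oxEv_com_derived hF P (halve_lt _ _ a) _ (hc.resolve_left (by simp [hs]))
      (laneAt_lt n l) (by simpa [laneOk] using hok) S
  · rw [hs] at hok
    exact oxEv_com_src hF P (halve_lt _ _ a) _ c (laneAt_lt n l) (by simpa [laneOk] using hok) S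

theorem yEv_com_lane (hF : Flat L o)
    (hY : ∀ P x x', x ≠ x' → Excl E (yEv L o P x) (yEv L o P x')) (P : Cell) (x : Off n) (c : Fin 4)
    (l : Lane segCount) (hc : l.sym.isSrc = true ∨ c ≠ 2) (S : Sig → Prop) :
    E.com (laneEv L o P c l.sym.isSrc (laneAt n l) S) (yEv L o P x) := by
  refine com_yEv hY P (fun a => E.com_symm _ _ ?_) x
  have hok := laneOk_lane n l
  cases hs : l.sym.isSrc
  · rw [hs] at hok
    exact oyEv_com_derived hF P (halve_lt _ _ a) _ (hc.resolve_left (by simp [hs]))
      (laneAt_lt n l) (by simpa [laneOk] using hok) S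
  · rw [hs] at hok
    exact oyEv_com_src hF P (halve_lt _ _ a) _ c (laneAt_lt n l) (by simpa [laneOk] using hok) S

theorem dval_bits (T : Tables) (M0 n : ℕ) (a b : Option (ℕ × Bool)) (f g : ℕ → Bool) (q : Fin 40) :
    dval T M0 n ⟨a, b, f⟩ q = dval T M0 n ⟨a, b, g⟩ q := by
  simp only [dval, derX, derY, colLine]

/-- The free lanes of a parent. -/
abbrev SrcLane : Type := {l : Lane segCount // l.sym.isSrc = true}

variable (hF : Flat L o) (hX : ∀ P x x', x ≠ x' → Excl E (xEv L o P x) (xEv L o P x'))
  (hY : ∀ P x x', x ≠ x' → Excl E (yEv L o P x) (yEv L o P x'))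

/-- The block of the offsets and the free bits of a parent. -/
def ownBlock (P : Cell) : E.Block where
  set := {u | (∃ x, xEv L o P x = u) ∨ (∃ y, yEv L o P y = u) ∨
    ∃ (l : SrcLane) (b : Bool), bitEv L o P l.1 b = u}
  com := by
    rintro _ (⟨x, rfl⟩ | ⟨x, rfl⟩ | ⟨⟨l, hl⟩, b, rfl⟩) _ (⟨y, rfl⟩ | ⟨y, rfl⟩ | ⟨⟨l', hl'⟩, b', rfl⟩)
    · exact excl_com _ hX P x y
    · exact xEv_com_yEv hF hX hY P x y
    · rw [bitEv_eq]; exact E.com_symm _ _ (xEv_com_lane hF hX P x 2 l' (Or.inl hl') _)
    · exact E.com_symm _ _ (xEv_com_yEv hF hX hY P y x)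
    · exact excl_com _ hY P x y
    · rw [bitEv_eq]; exact E.com_symm _ _ (yEv_com_lane hF hY P x 2 l' (Or.inl hl') _)
    · rw [bitEv_eq]; exact xEv_com_lane hF hX P y 2 l (Or.inl hl) _
    · rw [bitEv_eq]; exact yEv_com_lane hF hY P y 2 l (Or.inl hl) _
    · exact bitEv_com hF P l l' b b'

def ownX (P : Cell) (x : Off n) : (ownBlock hF hX hY P).Elem :=
  Block.mem _ (x := xEv L o P x) (Or.inl ⟨x, rfl⟩)

def ownY (P : Cell) (y : Off n) : (ownBlock hF hX hY P).Elem :=
  Block.mem _ (x := yEv L o P y) (Or.inr (Or.inl ⟨y, rfl⟩))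

def ownBit (P : Cell) (l : SrcLane) (b : Bool) : (ownBlock hF hX hY P).Elem :=
  Block.mem _ (x := bitEv L o P l.1 b) (Or.inr (Or.inr ⟨l, b, rfl⟩))

open Classical in
/-- Bits on the free lanes as the bits of choices. -/
def bitsOf (n : ℕ) (β : SrcLane → Bool) (i : ℕ) : Bool :=
  decide (∃ l : SrcLane, i = laneAt n l.1 ∧ β l = true)

/-- All free bits of a parent. -/
def ownBits (P : Cell) (β : SrcLane → Bool) : (ownBlock hF hX hY P).Elem :=
  meetAll (S := ownBlock hF hX hY P) (ι := SrcLane) (ownBit hF hX hY P) β

theorem sup_ownX (P : Cell) : Finset.univ.sup (ownX hF hX hY P) = ⊤ :=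
  sup_eq_top _ (xEv L o P) (fun _ => rfl)
    (total_option _ (fun i j => excl_com _ hX P (some i) (some j)) _ (fun _ => rfl) rfl)

theorem sup_ownY (P : Cell) : Finset.univ.sup (ownY hF hX hY P) = ⊤ :=
  sup_eq_top _ (yEv L o P) (fun _ => rfl)
    (total_option _ (fun i j => excl_com _ hY P (some i) (some j)) _ (fun _ => rfl) rfl)

theorem sup_ownBits (P : Cell) : Finset.univ.sup (ownBits hF hX hY P) = ⊤ := by
  classical
  exact sup_meetAll (ι := SrcLane) (ownBit hF hX hY P) fun l => Subtype.ext rfl

include hF hX hY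

theorem knows_of_own_x (P : Cell) (x y : Off n) (β' : ℕ → Bool) (hzx : Imp E z (xEv L o P x))
    {i : ℕ} (hi : i < segLen (m0 segCount) n) :
    Forced L z (namedCell (m0 segCount) n o P .mx i .lx 0) fun c => c.v = Sig.ofLine
      (colLine (tables layoutKind) n ⟨x.map halve, y.map halve, β'⟩ i .lx 0) := by
  have hu : Forced L z (namedCell (m0 segCount) n o P .mx i .lx 0) fun c =>
      lineU c.v = (x.map halve).bind fun r => if r.1 = i then some r.2 else Option.none := by
    by_cases hA : ∃ a, x = some a ∧ (halve a).1 = i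
    · obtain ⟨a, rfl, rfl⟩ := hA
      simp only [Option.map_some, Option.bind_some, if_true]
      exact hzx
    have e : ((x.map halve).bind fun r => if r.1 = i then some r.2 else Option.none) =
        Option.none := by
      cases x with
      | none => rfl
      | some a => simpa using fun h => hA ⟨a, rfl, h⟩
    rw [e]
    refine Forced.of_excluded fun c hc => ?_
    obtain ⟨u, hu⟩ := Option.ne_none_iff_exists'.1 hc
    obtain ⟨a', ha'⟩ : ∃ a' : Fin (segLen (m0 segCount) (n + 1)), halve a' = (i, u) := by
      refine ⟨⟨2 * i + u.toNat, by rw [segLen_succ]; have := u.toNat_le; omega⟩, ?_⟩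
      cases u <;> simp [halve] <;> omega
    have h : Imp E (L.ev (namedCell (m0 segCount) n o P .mx i .lx 0) c)
        (xEv L o P (some a')) := by
      simp only [xEv, ha']
      exact (Forced.ev _ c).mono (Q := fun d => lineU d.v = some u) fun d hd => by rw [hd, hu]
    have hne : x ≠ some a' := fun e' => hA ⟨a', e', by rw [ha']⟩
    exact com_of_imp_disjoint hzx h (hX P _ _ hne).1 (hX P _ _ hne).2
  have hpick : Forced L z (namedCell (m0 segCount) n o P .mx i .lx 0) fun d =>
      d.v = .none ∨ ∃ u, d.v = .line (ownLine u) := by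
    refine named_step hF P .mx hi .lx (segLen_pos n) (Forced.univ _ _) (Forced.univ _ _)
      (Forced.univ _ _) fun l d e ho _ _ _ => ?_
    rw [show kindOn .mx .lx ((tables layoutKind).loc (m0 segCount) n i 0) =
        .pickX (decide (i + 1 = segLen (m0 segCount) n)) by
      simp [kindOn, mxKind, Tables.loc, Tables.side]] at ho
    exact (pickX_spec ho).1
  refine (hu.and hpick).mono fun d hd => ?_
  have e : ∀ β', colLine (tables layoutKind) n ⟨x.map halve, y.map halve, β'⟩ i .lx 0 =
      ((x.map halve).bind fun r => if r.1 = i then some r.2 else Option.none).map ownLine := by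
    intro β'
    simp only [colLine]
    cases x with
    | none => rfl
    | some a =>
      simp only [Option.map_some, Option.bind_some]
      split_ifs
      · simp only [Option.map_some, ownLine, Option.some.injEq, Line.mk.injEq, true_and]
        cases (y.map halve) <;> simp [sinceY_iff, YSeg.index]
      · rfl
  rw [e, ← hd.1]
  rcases hd.2 with h | ⟨u, h⟩ <;> rw [h] <;> rfl

theorem knows_of_own_y (P : Cell) (x y : Off n) (β' : ℕ → Bool) (hzy : Imp E z (yEv L o P y))
    {i : ℕ} (hi : i < segLen (m0 segCount) n) :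
    Forced L z (namedCell (m0 segCount) n o P .ly 0 .my i) fun c => c.h = Sig.ofLine
      (rowLine ⟨x.map halve, y.map halve, β'⟩ i) := by
  have hu : Forced L z (namedCell (m0 segCount) n o P .ly 0 .my i) fun c =>
      lineU c.h = (y.map halve).bind fun r => if r.1 = i then some r.2 else Option.none := by
    by_cases hA : ∃ a, y = some a ∧ (halve a).1 = i
    · obtain ⟨a, rfl, rfl⟩ := hA
      simp only [Option.map_some, Option.bind_some, if_true]
      exact hzy
    have e : ((y.map halve).bind fun r => if r.1 = i then some r.2 else Option.none) =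
        Option.none := by
      cases y with
      | none => rfl
      | some a => simpa using fun h => hA ⟨a, rfl, h⟩
    rw [e]
    refine Forced.of_excluded fun c hc => ?_
    obtain ⟨u, hu⟩ := Option.ne_none_iff_exists'.1 hc
    obtain ⟨a', ha'⟩ : ∃ a' : Fin (segLen (m0 segCount) (n + 1)), halve a' = (i, u) := by
      refine ⟨⟨2 * i + u.toNat, by rw [segLen_succ]; have := u.toNat_le; omega⟩, ?_⟩
      cases u <;> simp [halve] <;> omega
    have h : Imp E (L.ev (namedCell (m0 segCount) n o P .ly 0 .my i) c)
        (yEv L o P (some a')) := by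
      simp only [yEv, ha']
      exact (Forced.ev _ c).mono (Q := fun d => lineU d.h = some u) fun d hd => by rw [hd, hu]
    have hne : y ≠ some a' := fun e' => hA ⟨a', e', by rw [ha']⟩
    exact com_of_imp_disjoint hzy h (hY P _ _ hne).1 (hY P _ _ hne).2
  have hpick : Forced L z (namedCell (m0 segCount) n o P .ly 0 .my i) fun d =>
      d.h = .none ∨ ∃ u, d.h = .line (ownLine u) := by
    refine named_step hF P .ly (segLen_pos n) .my hi (Forced.univ _ _) (Forced.univ _ _)
      (Forced.univ _ _) fun l d e ho _ _ _ => ?_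
    rw [show kindOn .ly .my ((tables layoutKind).loc (m0 segCount) n 0 i) =
        .pickY (decide (i + 1 = segLen (m0 segCount) n)) by
      simp [kindOn, lyKind, Tables.loc, Tables.side]] at ho
    exact (pickY_spec ho).1
  refine (hu.and hpick).mono fun d hd => ?_
  have e : ∀ β', rowLine ⟨x.map halve, y.map halve, β'⟩ i =
      ((y.map halve).bind fun r => if r.1 = i then some r.2 else Option.none).map ownLine := by
    intro β'
    simp only [rowLine]
    cases y with
    | none => rfl
    | some a =>
      simp only [Option.map_some, Option.bind_some]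
      split_ifs <;> rfl
  rw [e, ← hd.1]
  rcases hd.2 with h | ⟨u, h⟩ <;> rw [h] <;> rfl

theorem knows_of_own_bit (P : Cell) (β : SrcLane → Bool)
    (hzb : ∀ l, Imp E z (bitEv L o P l.1 (β l))) {i : ℕ} (hi : i < segLen (m0 segCount) n)
    (hs : (symAt (tables layoutKind) (m0 segCount) n i).isSrc = true) :
    Forced L z (namedCell (m0 segCount) n o P .src 0 (.r 2) i) fun c => c.h = .bit
      (bitsOf n β i) := by
  have hS := segLen_pos (M0 := m0 segCount) n
  have hne : ∀ r : Sym, r.isSrc = false →
      ((tablesOf (allowOf layoutKind)).side (m0 segCount) n i).sym ≠ r := fun r hr e => by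
    simp only [symAt, tables] at hs
    rw [e, hr] at hs
    simp at hs
  obtain ⟨l, rfl⟩ : ∃ l : Lane segCount, i = laneAt n l :=
    exists_lane_of_side_sym (allowOf layoutKind) n i (hne _ rfl) (hne _ rfl)
  have hl : l.sym.isSrc = true := by rwa [symAt_laneAt] at hs
  have eb : bitsOf n β (laneAt n l) = β ⟨l, hl⟩ := by
    rw [bitsOf, Bool.eq_iff_iff, decide_eq_true_eq]
    constructor
    · rintro ⟨l', e, hb⟩
      rwa [show (⟨l, hl⟩ : SrcLane) = l' from Subtype.ext (laneAt_injective n e)]
    · exact fun hb => ⟨_, rfl, hb⟩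
  have h : Forced L z (laneCell (m0 segCount) n o P 2 l.sym.isSrc (laneAt n l))
      fun d => d.h = .bit (β ⟨l, hl⟩) := bitEv_read hF P 2 l _ (hzb ⟨l, hl⟩)
  simp only [hl, laneCell, laneSeg, if_true] at h
  refine ((wireH hF P (.r 2) hi hS hS
    ((xlin_le_iff hS hS).2 (by rw [sinceX_iff]; simp [XSeg.index])) ?_ fun s => s = _).1 h).mono
    fun d hd => by rw [hd]; exact congrArg Sig.bit eb.symm
  intro X' x' hx' h1 _
  have hs' : ((tables layoutKind).loc (m0 segCount) n x' (laneAt n l)).y.sym.isSrc = true := hs
  rw [xlin_lt_iff hS hx', sinceX_iff] at h1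
  cases X' <;> simp [XSeg.index] at h1 <;>
    simp [kindOn, srcKind, mxKind, tbKind, setAbsKind, upKind, paKind, prKind, krKind,
      keepsRow, hs', xfirst_loc, Ne.symm] <;>
    (repeat' split) <;>
    first
      | exact keepsH_pass | exact keepsH_passH
      | (rcases turnAt_cases _ Kind.fanUp _ with e | e <;> rw [e] <;>
          first | exact keepsH_fanUp | exact keepsH_pass)
      | (exfalso; simp_all)

/-- An event below two offsets and all free bits knows the choices. -/
theorem knows_of_own (P : Cell) (x y : Off n) (β : SrcLane → Bool) (hzx : Imp E z (xEv L o P x))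
    (hzy : Imp E z (yEv L o P y)) (hzb : ∀ l, Imp E z (bitEv L o P l.1 (β l))) :
    Knows L o z P (Choices.mk (x.map halve) (y.map halve) (bitsOf n β)) := by
  refine ⟨?_, ?_, ?_, ?_, ?_⟩
  · intro p hp
    change p ∈ Option.map halve x at hp
    obtain ⟨a, -, rfl⟩ := Option.mem_map.1 hp
    exact halve_lt _ _ a
  · intro p hp
    change p ∈ Option.map halve y at hp
    obtain ⟨a, -, rfl⟩ := Option.mem_map.1 hp
    exact halve_lt _ _ a
  · intro i hi
    exact knows_of_own_x hF hX hY P x y (bitsOf n β) hzx hi
  · intro i hi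
    exact knows_of_own_y hF hX hY P x y (bitsOf n β) hzy hi
  · intro i hi hs
    simpa only using knows_of_own_bit hF hX hY P β hzb hi hs

/-- Below two offsets and all free bits a derived lane carries the value of the offsets. -/
theorem atom_derived (P : Cell) (x y : Off n) (β : SrcLane → Bool) (q : Fin 40) :
    Forced L (ownX hF hX hY P x ⊓ ownY hF hX hY P y ⊓ ownBits hF hX hY P β).1
      (laneCell (m0 segCount) n o P 2 false (laneAt n (Lane.derived q : Lane segCount)))
      fun d => d.h = .bit (derBit n x y q) := by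
  set A := ownX hF hX hY P x ⊓ ownY hF hX hY P y ⊓ ownBits hF hX hY P β with hA
  have imp : ∀ {u : (ownBlock hF hX hY P).Elem}, A ≤ u → Imp E A.1 u.1 := fun {u} h =>
    ⟨A.com u, (Block.Elem.le_iff _ _).1 h⟩
  have hK := knows_of_own hF hX hY P x y β (z := A.1)
    (imp (u := ownX hF hX hY P x) (inf_le_left.trans inf_le_left))
    (imp (u := ownY hF hX hY P y) (inf_le_left.trans inf_le_right))
    fun l => imp (u := ownBit hF hX hY P l (β l))
      (inf_le_right.trans (meetAll_le (ι := SrcLane) (ownBit hF hX hY P) β l))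
  have hS := segLen_pos (M0 := m0 segCount) n
  have hq : (symAt (tables layoutKind) (m0 segCount) n (laneAt n (Lane.derived q : Lane segCount))).derived? =
      some q := by rw [symAt_laneAt]; rfl
  have h := knows_der_row P hF hK (X := .pa 0) (x := 0) hS (laneAt_lt n (Lane.derived q : Lane segCount)) hq
    (by rw [sinceX_iff]; simp [XSeg.index])
  refine h.mono fun d hd => ?_
  rw [hd]
  simp only [derState]
  rw [if_pos (by rw [sinceX_iff]; simp [XSeg.index])]
  simp only [derBit]
  rw [dval_bits]

theorem derLane_com_atom (P : Cell) (x y : Off n) (β : SrcLane → Bool) (q : Fin 40)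
    (S : Sig → Prop) :
    E.com (laneEv L o P 2 false (laneAt n (Lane.derived q : Lane segCount)) S)
      (ownX hF hX hY P x ⊓ ownY hF hX hY P y ⊓ ownBits hF hX hY P β).1 := by
  have h := atom_derived hF hX hY P x y β q
  by_cases hS : S (.bit (derBit n x y q))
  · have h' := h.mono (Q := fun d => S d.h) fun d hd => by rw [hd]; exact hS
    exact E.com_symm _ _ h'.1
  · exact E.com_symm _ _ (Forced.disjoint h
      (Forced.self _ fun d => S d.h) fun d hd hd' => hS (hd ▸ hd')).1

/-- The offsets commute with the own derived lanes. -/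
theorem derLane_com_xy (P : Cell) (q : Fin 40) (S : Sig → Prop) (x : Off n) :
    E.com (laneEv L o P 2 false (laneAt n (Lane.derived q : Lane segCount)) S) (xEv L o P x) ∧
      E.com (laneEv L o P 2 false (laneAt n (Lane.derived q : Lane segCount)) S) (yEv L o P x) := by
  refine ⟨com_of_split (ownX hF hX hY P x) (ownY hF hX hY P) (ownBits hF hX hY P)
      (sup_ownY hF hX hY P) (sup_ownBits hF hX hY P)
      fun y β => derLane_com_atom hF hX hY P x y β q S,
    com_of_split (ownY hF hX hY P x) (ownX hF hX hY P) (ownBits hF hX hY P)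
      (sup_ownX hF hX hY P) (sup_ownBits hF hX hY P) fun x' β => ?_⟩
  rw [inf_comm (ownY hF hX hY P x)]
  exact derLane_com_atom hF hX hY P x' x β q S

/-- The crossings compute the derived bits. -/
theorem derived_bot (P : Cell) (x y : Off n) (q : Fin 40) :
    E.inf (E.inf (xEv L o P x) (yEv L o P y)) (bitEv L o P (.derived q) (!derBit n x y q)) =
      E.bot := by
  set v := derBit n x y q
  have h : Forced L (E.inf (xEv L o P x) (yEv L o P y))
      (laneCell (m0 segCount) n o P 2 false (laneAt n (Lane.derived q : Lane segCount)))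
      fun d => d.h = .bit v :=
    imp_of_split (ownX hF hX hY P x ⊓ ownY hF hX hY P y) (ownBits hF hX hY P)
      (sup_ownBits hF hX hY P) fun β => atom_derived hF hX hY P x y β q
  rw [bitEv_eq]
  refine (Forced.disjoint h (Forced.self _ _) fun d hd hd' => ?_).2
  revert hd'
  cases hv : v <;> simp_all

end

end Vale.Agent.P196.W
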