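import Vale.Agent.P196.W.RigidRows

/-!
# P196: what leaves a tile below an event that knows its choices

To the right only the own choices matter, upwards also those of the tile on the left.
-/

namespace Vale.Agent.P196.W

open Vale.Agent.P196.Fp Vale.Agent.P196.Sft EventAlgebra

noncomputable section

variable {T : Tables} {M0 n : ℕ} [NeZero M0] {E : EventAlgebra.{0}}
  {L : LocalEvents E (rules T M0 n)} {o : Cell} {z : E.B}

omit [NeZero M0] in
theorem SendsH.congr {P : Cell} {X : XSeg} {x : ℕ} {Y : YSeg} {y : ℕ} {v v' : Sig}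
    (h : SendsH L o z P X x Y y v) (e : v = v') : SendsH L o z P X x Y y v' :=
  e ▸ h

omit [NeZero M0] in
theorem SendsV.congr {P : Cell} {X : XSeg} {x : ℕ} {Y : YSeg} {y : ℕ} {v v' : Sig}
    (h : SendsV L o z P X x Y y v) (e : v = v') : SendsV L o z P X x Y y v' :=
  e ▸ h

omit [NeZero M0] in
theorem lane_facts (x y : ℕ) :
    (T.loc M0 n x y).cross.eq = decide (x = y) ∧
      (T.loc M0 n x y).x.last = decide (x + 1 = segLen M0 n) ∧
      (T.loc M0 n x y).y.first = decide (y = 0) ∧
      (T.loc M0 n x y).x.first = decide (x = 0) ∧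
      (T.loc M0 n x y).y.sym = symAt T M0 n y ∧ (T.loc M0 n x y).x.sym = symAt T M0 n x :=
  ⟨rfl, rfl, rfl, rfl, rfl, rfl⟩

variable (P : Cell) (hF : Flat L o)
include hF

/-- A row that is not kept is empty when it leaves. -/
theorem knows_dead_row {Y : YSeg} {y : ℕ} (hy : y < segLen M0 n)
    (hk : keepsRow Y (symAt T M0 n y) = false) (hne : ¬(Y = .y0 ∧ y = 0)) :
    SendsH L o z P .kr (segLen M0 n - 1) Y y .none := by
  have hS := segLen_pos (M0 := M0) n
  have hz : SendsH L o z P .kr 0 Y y .none := by
    refine out_h_free P hF hS hy (Q := fun s => s = _) fun a b p e => ?_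
    have h1 : ¬(0 + 1 = segLen M0 n ∧ Y = .y0 ∧ y = 0) := fun h => hne h.2
    simp only [kindOn, krKind, lane_facts, decide_eq_true_eq] at e
    rw [if_neg h1] at e
    split_ifs at e <;> simp_all [Kind.outs]
  refine row_on P hF Y hy hS (by omega) hz
    ((xlin_le_iff hS (by omega)).2 (Or.inr ⟨rfl, Nat.zero_le _⟩)) ?_
  intro X' x' hx' h1 h2
  rw [xlin_lt_iff hS hx', sinceX_iff] at h1
  rw [xlin_le_iff hx' (by omega), sinceX_iff] at h2
  obtain rfl : X' = .kr := XSeg.eq_of_index (by
    have := X'.index_lt; simp only [XSeg.index, segCount] at h1 this ⊢; omega)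
  simp only [true_and, lt_irrefl, false_or] at h1
  simp only [kindOn, krKind, lane_facts, decide_eq_true_eq]
  rw [if_neg (fun h => hne h.2), if_neg (by omega), if_neg (by omega)]
  split_ifs <;> first | exact keepsH_passH | exact keepsH_pass

/-- The marked row leaves as the mark. -/
theorem knows_lm_row : SendsH L o z P .kr (segLen M0 n - 1) .y0 0 .lm := by
  have hS := segLen_pos (M0 := M0) n
  refine out_h_free P hF (show segLen M0 n - 1 < segLen M0 n by omega) hS (Q := fun s => s = _)
    fun a b p e => ?_
  have h : segLen M0 n - 1 + 1 = segLen M0 n := by omega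
  simp [kindOn, krKind, lane_facts, h, Kind.outs] at e
  simp [e]

/-- A column that is not kept is empty when it leaves. -/
theorem knows_dead_col {X : XSeg} {x : ℕ} (hx : x < segLen M0 n)
    (hk : keepsCol X (symAt T M0 n x) = false) :
    SendsV L o z P X x .kt (segLen M0 n - 1) .none := by
  have hS := segLen_pos (M0 := M0) n
  by_cases hb : (∃ b i, X = .bench b i) ∨ (X = .x0 ∧ x = 0)
  · refine out_v_free P hF hx (show segLen M0 n - 1 < segLen M0 n by omega) (Q := fun s => s = _)
      fun a c p e => ?_
    rcases hb with ⟨b, i, rfl⟩ | ⟨rfl, rfl⟩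
    · simp [kindOn, Kind.outs] at e; simp [e]
    · simp [kindOn, x0Kind, lane_facts, Kind.outs] at e; simp [e]
  have hz : SendsV L o z P X x .kt 0 .none := by
    refine out_v_free P hF hx hS (Q := fun s => s = _) fun a c p e => ?_
    revert e hk hb
    cases X <;> intro hk hb e <;>
      simp [kindOn, x0Kind, krKind, ktKind, keepsCol, keepsRow, lane_facts] at e hk hb <;>
      (repeat' split at e) <;> simp_all [Kind.outs]
  refine col_on P hF X hx hS (by omega) hz
    ((ylin_le_iff hS (by omega)).2 (Or.inr ⟨rfl, Nat.zero_le _⟩)) ?_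
  intro Y' y' hy' h1 h2
  rw [ylin_lt_iff hS hy', sinceY_iff] at h1
  rw [ylin_le_iff hy' (by omega), sinceY_iff] at h2
  obtain rfl : Y' = .kt := YSeg.eq_of_index (by
    have := Y'.index_lt; simp only [YSeg.index, segCount] at h1 this ⊢; omega)
  have hy0 : y' ≠ 0 := by simp at h1; omega
  cases X <;> simp at hb <;>
    simp [kindOn, x0Kind, krKind, ktKind, keepsRow, lane_facts, hy0] <;>
    (repeat' split) <;> first | exact keepsV_pass | exact keepsV_passV | (exfalso; simp_all)

variable {C : Choices} (hC : Knows L o z P C)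
include hC

/-- What leaves a tile to the right. -/
theorem knows_exit_h {Y : YSeg} {y : ℕ} (hy : y < segLen M0 n) :
    SendsH L o z P .kr (segLen M0 n - 1) Y y (rawBandH T M0 n (fun _ => C) Y y) := by
  have hS := segLen_pos (M0 := M0) n
  have hl : segLen M0 n - 1 < segLen M0 n := by omega
  have hk : ∀ A z, z < segLen M0 n → sinceX A z .kr (segLen M0 n - 1) := fun A z hz =>
    sinceX_kr (by omega)
  simp only [rawBandH]
  cases Y with
  | y0 =>
    by_cases h : y = 0
    · subst h
      refine (knows_lm_row P hF).congr ?_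
      simp [rawH, show segLen M0 n - 1 + 1 = segLen M0 n by omega]
    · refine (knows_dead_row P hF hy rfl (by simp [h])).congr ?_
      simp [rawH, h]
  | lx => exact (knows_dead_row P hF hy rfl (by simp)).congr (by simp [rawH])
  | r c =>
    by_cases hc : c = 2
    · subst hc
      by_cases hs : (symAt T M0 n y).isSrc = true
      · refine (knows_src_row P hF hC hl hy hs (hk _ _ hS)).congr ?_
        simp [rawH, hk _ _ hy, hk _ _ hS]
      · refine (knows_dead_row P hF hy (by simp [keepsRow, hs]) (by simp)).congr ?_
        simp [rawH, hk _ _ hy, hk _ _ hS, laneSig]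
        split <;> simp [hs]
    · refine (knows_dead_row P hF hy (by simp [keepsRow, hc]) (by simp)).congr ?_
      simp [rawH, hc, hk _ _ hS]
  | my =>
    refine (knows_my_row P hF hC hl hy (hk _ _ hS)).congr ?_
    simp [rawH, hk _ _ hS]
  | gap => exact (knows_dead_row P hF hy rfl (by simp)).congr (by simp [rawH])
  | ta =>
    refine (knows_ta_exit P hF hC hy).congr ?_
    simp only [rawH, taRow, ownAt]
    congr 1
    cases ho : C.ox with
    | none => simp [hk _ _ hl]
    | some p => simp [hk _ _ hy, hk _ _ (hC.ox_lt p ho), ownLine]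
  | rd c =>
    cases hq : (symAt T M0 n y).derived? with
    | none =>
      refine (knows_dead_row P hF hy (by simp [keepsRow, Sym.not_derived hq]) (by simp)).congr ?_
      simp [rawH, hq]
    | some q =>
      by_cases hc : c = 2
      · subst hc
        refine (knows_der_row P hF hC hl hy hq (hk _ _ hS)).congr ?_
        simp [rawH, hq, hk _ _ hy, hk _ _ hS]
      · refine (knows_dead_row P hF hy (by simp [keepsRow, hc]) (by simp)).congr ?_
        simp [rawH, hq, hc, hk _ _ hS]
  | ma => exact (knows_dead_row P hF hy rfl (by simp)).congr (by simp [rawH, hk _ _ hl])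
  | mr => exact (knows_dead_row P hF hy rfl (by simp)).congr (by simp [rawH, hk _ _ hl])
  | pad i => exact (knows_dead_row P hF hy rfl (by simp)).congr (by simp [rawH])
  | bench b j => exact (knows_dead_row P hF hy rfl (by simp)).congr (by simp [rawH])
  | kt => exact (knows_dead_row P hF hy rfl (by simp)).congr (by simp [rawH])

/-- A lane of the own tile on the column where it is relayed. -/
theorem knows_own_col (b : Bool) {x : ℕ} (hx : x < segLen M0 n)
    (hs : (if b then (symAt T M0 n x).isSrc else (symAt T M0 n x).isDerived) = true)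
    {Y : YSeg} {y : ℕ} (hy : y < segLen M0 n) (h : sinceY (if b then .r 2 else .rd 2) x Y y) :
    SendsV L o z P (if b then .up else .upd) x Y y (laneSig T M0 n C b x) := by
  have hS := segLen_pos (M0 := M0) n
  set A : YSeg := if b then .r 2 else .rd 2 with hA
  set U : XSeg := if b then .up else .upd with hU
  have hkU : kindOn U A (T.loc M0 n x x) = .fanUp := by
    cases b <;> simp_all [kindOn, upKind, turnAt, lane_facts]
  have e6 : SendsH L o z P U x A x (laneSig T M0 n C b x) := by
    cases b
    · obtain ⟨q, hq, -⟩ := Sym.exists_derived (by simpa using hs)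
      simp only [hA, hU, Bool.false_eq_true, if_false]
      refine (knows_der_row P hF hC hx hx hq (by simp [sinceX, XSeg.index])).congr ?_
      simp [derState, laneSig, hq, sinceX, XSeg.index]
    · simp only [hA, hU, if_true]
      exact knows_src_row P hF hC hx hx (by simpa using hs) (by simp [sinceX, XSeg.index])
  have e7 : SendsV L o z P U x A x (laneSig T M0 n C b x) := by
    refine named_step hF P U hx A hx (Forced.univ _ _) (Forced.univ _ _) e6
      fun l d c e _ _ hc => ?_
    rw [hkU] at e
    simp [Kind.outs] at e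
    rw [e.2, ← e.1, hc]
  refine col_on P hF U hx hx hy e7 ((ylin_le_iff hx hy).2 h) ?_
  intro Y' y' hy' h1 _
  rw [ylin_lt_iff hx hy', sinceY_iff] at h1
  cases b <;> simp [hA, YSeg.index] at h1 <;>
    cases Y' <;> simp at h1 <;>
    simp [hU, kindOn, upKind, ktKind, keepsCol, turnAt, lane_facts] at hs ⊢ <;>
    (repeat' split) <;>
    first | exact keepsV_pass | exact keepsV_passV | (exfalso; simp_all)

omit hC

variable {C' : Choices} (hC' : Knows L o z (P.1 - 1, P.2) C')
include hC'

/-- A lane of the left tile on the column where it is relayed. -/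
theorem knows_relay_col (b : Bool) {x : ℕ} (hx : x < segLen M0 n)
    (hs : (if b then (symAt T M0 n x).isSrc else (symAt T M0 n x).isDerived) = true)
    {Y : YSeg} {y : ℕ} (hy : y < segLen M0 n) (h : sinceY (if b then .r 3 else .rd 3) x Y y) :
    SendsV L o z P (if b then .upl else .updl) x Y y (laneSig T M0 n C' b x) := by
  have hS := segLen_pos (M0 := M0) n
  set A : YSeg := if b then .r 2 else .rd 2 with hA
  set B : YSeg := if b then .r 3 else .rd 3 with hB
  set U : XSeg := if b then .upl else .updl with hU
  set v := laneSig T M0 n C' b x with hv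
  have hk0 : kindOn .x0 A (T.loc M0 n 0 x) = .col0 := by
    cases b <;> simp [hA, kindOn, x0Kind, lane_facts]
  have hkA : kindOn .sh A (T.loc M0 n x x) = .turnUp := by
    cases b <;> simp_all [kindOn, shKind, turnAt, lane_facts]
  have hkB : kindOn .sh B (T.loc M0 n x x) = .turnRight := by
    cases b <;> simp_all [kindOn, shKind, turnAt, lane_facts]
  have hkU : kindOn U B (T.loc M0 n x x) = .fanUp := by
    cases b <;> simp_all [kindOn, upKind, turnAt, lane_facts]
  have e1 : GetsH L o z P .x0 0 A x v := by
    refine (wire_left_edge hF P A hx fun s => s = v).2 ((knows_exit_h _ hF hC' hx).congr ?_)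
    rw [hv, hA]
    have hk : ∀ z, z < segLen M0 n → ∀ X, sinceX X z .kr (segLen M0 n - 1) := fun z hz X =>
      sinceX_kr (by omega)
    cases b
    · obtain ⟨q, hq, -⟩ := Sym.exists_derived (by simpa using hs)
      simp [rawBandH, rawH, hq, hk _ hx, hk _ hS, derState, laneSig]
    · simp [rawBandH, rawH, hk _ hx, hk _ hS]
  have e2 : SendsH L o z P .x0 0 A x v := by
    refine out_h_of_h P hF hS hx e1 (Q := fun s => s = _) fun c p hp => ?_
    rw [hk0] at hp
    exact keepsH_col0 _ _ _ hp
  have e0 : GetsH L o z P .sh x A x v := by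
    obtain ⟨X₁, x₁, hx₁, hp⟩ := exists_xPred (X := .sh) hS hx (by simp)
    refine GetsH.of_pred hp (row_on P hF A hx hS hx₁ e2
      ((xlin_le_iff hS hx₁).2 (by rw [sinceX_iff]; simp only [XSeg.index]; omega)) ?_)
    intro X' x' hx' h1 h2
    have h3 := hp.xlin_succ
    have h2' : xlin (segLen M0 n) X' x' < xlin (segLen M0 n) .sh x := by omega
    rw [xlin_lt_iff hS hx', sinceX_iff] at h1
    rw [xlin_lt_iff hx' hx, sinceX_iff] at h2'
    cases X' <;> simp [XSeg.index] at h1 h2' <;> cases b <;>
      simp [hA, kindOn, x0Kind, shKind, lane_facts, turnAt] <;>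
      (repeat' split) <;> first | exact keepsH_pass | exact keepsH_col0 | omega
  have e3 : SendsV L o z P .sh x A x v := by
    refine out_v_of_h P hF hx hx e0 (Q := fun s => s = _) fun c p e => ?_
    rw [hkA] at e
    simp [Kind.outs] at e
    simp [e]
  have e4 : GetsV L o z P .sh x B x v := by
    obtain ⟨Y₁, y₁, hy₁, hp⟩ := exists_yPred (Y := B) hS hx
      (by cases b <;> simp [hB])
    have h3 := hp.ylin_succ
    have h0 : ylin (segLen M0 n) A x < ylin (segLen M0 n) B x :=
      (ylin_lt_iff hx hx).2 (by cases b <;> simp [hA, hB, sinceY, YSeg.index])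
    refine GetsV.of_pred hp (col_on P hF .sh hx hx hy₁ e3 (by omega) ?_)
    intro Y' y' hy' h1 h2
    have h2' : ylin (segLen M0 n) Y' y' < ylin (segLen M0 n) B x := by omega
    rw [ylin_lt_iff hx hy', sinceY_iff] at h1
    rw [ylin_lt_iff hy' hx, sinceY_iff] at h2'
    cases b <;> simp [hA, hB, YSeg.index] at h1 h2' <;>
      cases Y' <;> simp at h1 h2' <;>
      simp [kindOn, shKind, turnAt, lane_facts] <;>
      (repeat' split) <;> first | exact keepsV_pass | omega
  have e5 : SendsH L o z P .sh x B x v := by
    refine out_h_of_v P hF hx hx e4 (Q := fun s => s = _) fun c p e => ?_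
    rw [hkB] at e
    simp [Kind.outs] at e
    simp [e]
  have e6 : GetsH L o z P U x B x v := by
    obtain ⟨X₁, x₁, hx₁, hp⟩ := exists_xPred (X := U) hS hx
      (by cases b <;> simp [hU])
    have h3 := hp.xlin_succ
    have h0 : xlin (segLen M0 n) .sh x < xlin (segLen M0 n) U x :=
      (xlin_lt_iff hx hx).2 (by cases b <;> simp [hU, sinceX, XSeg.index])
    refine GetsH.of_pred hp (row_on P hF B hx hx hx₁ e5 (by omega) ?_)
    intro X' x' hx' h1 h2
    have h2' : xlin (segLen M0 n) X' x' < xlin (segLen M0 n) U x := by omega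
    rw [xlin_lt_iff hx hx', sinceX_iff] at h1
    rw [xlin_lt_iff hx' hx, sinceX_iff] at h2'
    cases b <;> simp [hU, XSeg.index] at h1 h2' <;>
      cases X' <;> simp at h1 h2' <;>
      simp [hB, kindOn, shKind, lyKind, srcKind, mxKind, tbKind, setAbsKind, upKind, turnAt,
        lane_facts] <;>
      (repeat' split) <;> first | exact keepsH_pass | omega
  have e7 : SendsV L o z P U x B x v := by
    refine out_v_of_h P hF hx hx e6 (Q := fun s => s = _) fun c p e => ?_
    rw [hkU] at e
    simp [Kind.outs] at e
    simp [e]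
  refine col_on P hF U hx hx hy e7 ((ylin_le_iff hx hy).2 h) ?_
  intro Y' y' hy' h1 _
  rw [ylin_lt_iff hx hy', sinceY_iff] at h1
  cases b <;> simp [hB, YSeg.index] at h1 <;>
    cases Y' <;> simp at h1 <;>
    simp [hU, kindOn, upKind, ktKind, keepsCol, turnAt, lane_facts] at hs ⊢ <;>
    (repeat' split) <;>
    first | exact keepsV_pass | exact keepsV_passV | (exfalso; simp_all)

include hC

/-- What leaves a tile upwards. -/
theorem knows_exit_v {X : XSeg} {x : ℕ} (hx : x < segLen M0 n) :
    SendsV L o z P X x .kt (segLen M0 n - 1)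
      (rawBandV T M0 n (fun c => if c = 2 then C else C') X x) := by
  have hS := segLen_pos (M0 := M0) n
  have hl : segLen M0 n - 1 < segLen M0 n := by omega
  have hk : ∀ A z, z < segLen M0 n → sinceY A z .kt (segLen M0 n - 1) := fun A z hz =>
    sinceY_kt (by omega)
  simp only [rawBandV]
  cases X with
  | x0 => exact (knows_dead_col P hF hx rfl).congr (by simp [rawV])
  | sh => exact (knows_dead_col P hF hx rfl).congr (by simp [rawV, hk _ _ hx])
  | ly => exact (knows_dead_col P hF hx rfl).congr (by simp [rawV])
  | src => exact (knows_dead_col P hF hx rfl).congr (by simp [rawV])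
  | mx => exact (knows_mx_col P hF hC hx hl (hk _ _ hS)).congr (by simp [rawV, hk _ _ hS])
  | gap => exact (knows_dead_col P hF hx rfl).congr (by simp [rawV])
  | tb =>
    refine (knows_tb_col P hF hC hx hl (hk _ _ hS)).congr ?_
    simp only [rawV, tbCol, ownAt]
    congr 1
    cases ho : C.oy with
    | none => simp [ho, hk _ _ hl]
    | some p => simp [ho, hk _ _ hx, hk _ _ (hC.oy_lt p ho), ownLine]
  | setAbs => exact (knows_dead_col P hF hx rfl).congr (by simp [rawV])
  | up =>
    by_cases hs : (symAt T M0 n x).isSrc = true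
    · refine SendsV.congr (knows_own_col P hF hC true hx hs hl (hk _ _ hx)) ?_
      simp [rawV, hk _ _ hx]
    · refine (knows_dead_col P hF hx (by simpa [keepsCol] using hs)).congr ?_
      simp [rawV, hk _ _ hx, laneSig]
      split <;> simp [hs]
  | upl =>
    by_cases hs : (symAt T M0 n x).isSrc = true
    · refine SendsV.congr (knows_relay_col P hF hC' true hx hs hl (hk _ _ hx)) ?_
      simp [rawV, hk _ _ hx]
    · refine (knows_dead_col P hF hx (by simpa [keepsCol] using hs)).congr ?_
      simp [rawV, hk _ _ hx, laneSig]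
      split <;> simp [hs]
  | upd =>
    cases hq : (symAt T M0 n x).derived? with
    | none =>
      refine (knows_dead_col P hF hx (by simpa [keepsCol] using Sym.not_derived hq)).congr ?_
      simp [rawV, hk _ _ hx, laneSig, hq]
    | some q =>
      refine SendsV.congr (knows_own_col P hF hC false hx (Sym.derived?_some hq).1 hl (hk _ _ hx)) ?_
      simp [rawV, hk _ _ hx]
  | updl =>
    cases hq : (symAt T M0 n x).derived? with
    | none =>
      refine (knows_dead_col P hF hx (by simpa [keepsCol] using Sym.not_derived hq)).congr ?_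
      simp [rawV, hk _ _ hx, laneSig, hq]
    | some q =>
      refine SendsV.congr (knows_relay_col P hF hC' false hx (Sym.derived?_some hq).1 hl (hk _ _ hx)) ?_
      simp [rawV, hk _ _ hx]
  | pa c => exact (knows_dead_col P hF hx rfl).congr (by simp [rawV, hk _ _ hS])
  | pr c => exact (knows_dead_col P hF hx rfl).congr (by simp [rawV, hk _ _ hS])
  | bench b i => exact (knows_dead_col P hF hx rfl).congr (by simp [rawV])
  | kr => exact (knows_dead_col P hF hx rfl).congr (by simp [rawV])

end

end Vale.Agent.P196.W
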