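import Vale.Agent.P196.W.DrawOk
import Vale.Agent.P196.W.Parents
import Vale.Agent.P196.W.Exit4

/-!
# P196: every aligned legal tiling is made of accepted tiles

The choices of a tile and of three of its neighbours are read off the tiling; every cell of the
tile then shows the closed form for these four bundles, and the closed form passes the constraint
cells.
-/

namespace Vale.Agent.P196.W

open Sft

noncomputable section

theorem chosenSig_inj {a b : Option Bool} (h : chosenSig a = chosenSig b) : a = b := by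
  cases a <;> cases b <;> simp [chosenSig] at h ⊢
  exact h

/-- A line is determined by where it is chosen. -/
theorem chosenAt_ext {M : ℕ} {o o' : Option (ℕ × Bool)} (h1 : ∀ p ∈ o, p.1 < M)
    (h2 : ∀ p ∈ o', p.1 < M) (h : ∀ z < M, chosenAt o z = chosenAt o' z) : o = o' := by
  rcases o with _ | ⟨a, u⟩ <;> rcases o' with _ | ⟨b, v⟩
  · rfl
  · simpa [chosenAt] using h b (h2 _ rfl)
  · simpa [chosenAt] using h a (h1 _ rfl)
  · have := h a (h1 _ rfl)
    simp [chosenAt] at this
    obtain ⟨rfl, rfl⟩ := this
    rfl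

variable {T : Tables} {M0 n : ℕ} [NeZero M0] {t : Cell → Tint M0 n}

theorem exists_xlin {a : ℕ} (h : a < segCount * segLen M0 n) :
    ∃ X x, x < segLen M0 n ∧ a = xlin (segLen M0 n) X x :=
  ⟨_, _, Nat.mod_lt a (segLen_pos n), (xlin_xsegAt h).symm⟩

theorem exists_ylin {b : ℕ} (h : b < segCount * segLen M0 n) :
    ∃ Y y, y < segLen M0 n ∧ b = ylin (segLen M0 n) Y y :=
  ⟨_, _, Nat.mod_lt b (segLen_pos n), (ylin_ysegAt h).symm⟩

theorem sig_lin (q : Quad) {X : XSeg} {x : ℕ} {Y : YSeg} {y : ℕ} (hx : x < segLen M0 n)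
    (hy : y < segLen M0 n) :
    sigH T M0 n q (xlin (segLen M0 n) X x) (ylin (segLen M0 n) Y y) = rawH T M0 n q X x Y y ∧
      sigV T M0 n q (xlin (segLen M0 n) X x) (ylin (segLen M0 n) Y y) =
        rawV T M0 n q X x Y y :=
  sig_named T M0 n q X ⟨x, hx⟩ Y ⟨y, hy⟩

/-- The last column before the band of columns sends its row signal into it. -/
theorem sigH_last (q : Quad) {b : ℕ} (hb : b < segCount * segLen M0 n) :
    sigH T M0 n q (segCount * segLen M0 n - 1) b =
      rawBandH T M0 n q (ysegAt M0 n b) (b % segLen M0 n) := by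
  have hS := segLen_pos (M0 := M0) n
  have h1 : segCount * segLen M0 n - 1 < segCount * segLen M0 n :=
    Nat.sub_lt (Nat.mul_pos (NeZero.pos segCount) hS) one_pos
  have e : xsegAt M0 n (segCount * segLen M0 n - 1) = .kr ∧
      (segCount * segLen M0 n - 1) % segLen M0 n = segLen M0 n - 1 := by
    refine xlin_inj (Nat.mod_lt _ hS) (by omega) ?_
    rw [xlin_xsegAt h1, kr_last]
  rw [sigH_named q h1 hb, e.1, e.2]; rfl

/-- The top row below the band of rows sends its column signal into it. -/
theorem sigV_last (q : Quad) {a : ℕ} (ha : a < segCount * segLen M0 n) :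
    sigV T M0 n q a (segCount * segLen M0 n - 1) =
      rawBandV T M0 n q (xsegAt M0 n a) (a % segLen M0 n) := by
  have hS := segLen_pos (M0 := M0) n
  have h1 : segCount * segLen M0 n - 1 < segCount * segLen M0 n :=
    Nat.sub_lt (Nat.mul_pos (NeZero.pos segCount) hS) one_pos
  have e : ysegAt M0 n (segCount * segLen M0 n - 1) = .kt ∧
      (segCount * segLen M0 n - 1) % segLen M0 n = segLen M0 n - 1 := by
    refine ylin_inj (Nat.mod_lt _ hS) (by omega) ?_
    rw [ylin_ysegAt h1, kt_last]
  rw [sigV_named q ha h1, e.1, e.2]; rfl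

omit [NeZero M0] in
theorem tileQuad_inRange (P : Cell) :
    (quadAt (tileChoices T t) P).InRange (segLen M0 n) := by
  intro c
  fin_cases c <;> exact ⟨fun p hp => ox_lt hp, fun p hp => oy_lt hp⟩

variable (H : TabOK T M0) (ht : Legal (rules T M0 n) t) (ha : Aligned M0 n t) (P : Cell)
include H ht ha

omit H in
/-- The inputs of a cell, when the cells before it show the closed form. -/
theorem inputs_eq {X : XSeg} {x : ℕ} {Y : YSeg} {y : ℕ} (hx : x < segLen M0 n)
    (hy : y < segLen M0 n)
    (ih : ∀ X' x' Y' y', x' < segLen M0 n → y' < segLen M0 n →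
      xlin (segLen M0 n) X' x' + ylin (segLen M0 n) Y' y' <
        xlin (segLen M0 n) X x + ylin (segLen M0 n) Y y →
      gH t P X' x' Y' y' = rawH T M0 n (quadAt (tileChoices T t) P) X' x' Y' y' ∧
        gV t P X' x' Y' y' = rawV T M0 n (quadAt (tileChoices T t) P) X' x' Y' y') :
    gInH t P X x Y y = inH T M0 n (quadAt (tileChoices T t) P) X x Y y ∧
      gInV t P X x Y y = inV T M0 n (quadAt (tileChoices T t) P) X x Y y := by
  have hS := segLen_pos (M0 := M0) n
  constructor
  · by_cases h0 : X = .x0 ∧ x = 0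
    · obtain ⟨rfl, rfl⟩ := h0
      rw [gInH_first ht ha P Y hy, inH_first, exit_h ht ha _ hy]
      rfl
    · obtain ⟨X', x', hx', hp⟩ := exists_xPred hS hx h0
      have := hp.xlin_succ
      rw [gInH_pred hp, inH_eq _ Y y hx' hp]
      exact (ih X' x' Y y hx' hy (by omega)).1
  · by_cases h0 : Y = .y0 ∧ y = 0
    · obtain ⟨rfl, rfl⟩ := h0
      rw [gInV_first ht ha P X hx, inV_first, exit_v ht ha _ hx]
      rfl
    · obtain ⟨Y', y', hy', hp⟩ := exists_yPred hS hy h0
      have := hp.ylin_succ
      rw [gInV_pred _ _ hp, inV_eq _ X x hy' hp]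
      exact (ih X x Y' y' hx hy' (by omega)).2

/-- Every cell of a tile shows the closed form of the choices around it. -/
theorem cells_raw {X : XSeg} {x : ℕ} {Y : YSeg} {y : ℕ} (hx : x < segLen M0 n)
    (hy : y < segLen M0 n) :
    gH t P X x Y y = rawH T M0 n (quadAt (tileChoices T t) P) X x Y y ∧
      gV t P X x Y y = rawV T M0 n (quadAt (tileChoices T t) P) X x Y y := by
  induction hm : xlin (segLen M0 n) X x + ylin (segLen M0 n) Y y using Nat.strong_induction_on
    generalizing X x Y y with
  | _ m ih =>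
    subst hm
    have hS := segLen_pos (M0 := M0) n
    have hq := tileQuad_inRange (T := T) (t := t) P
    obtain ⟨eh, ev⟩ := inputs_eq ht ha P hx hy
      fun X' x' Y' y' h1 h2 h3 => ih _ h3 h1 h2 rfl
    have e := event_named ht ha P X hx Y hy
    rw [eh, ev] at e
    refine Prod.mk_inj.1 ?_
    by_cases hs : Special T M0 n X x Y y
    · rcases hs with ⟨rfl, rfl, rfl⟩ | ⟨rfl, rfl, rfl⟩ | ⟨rfl, rfl, rfl, hb⟩ | ⟨rfl, rfl⟩ |
        ⟨rfl, rfl⟩ | ⟨rfl, hx1, rfl, hm⟩ | ⟨rfl, hx1, rfl, hm⟩ | ⟨b, i, j, rfl, rfl⟩
      · obtain ⟨new, h1, -, h3⟩ := pickX_forced H hx e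
        refine h3 (chosenSig_inj ?_)
        rw [← h1]
        simp only
        rw [ox_at ht ha P hx, colLine_below_my _ _ 0 (show YSeg.lx.index < 6 by decide),
          ofLine_map_chosen]
        rfl
      · obtain ⟨new, h1, -, h3⟩ := pickY_forced H hy e
        refine h3 (chosenSig_inj ?_)
        rw [← h1]
        simp only
        rw [oy_at ht ha P hy, rowLine_eq, ofLine_map_chosen]
        rfl
      · rw [srcBit_outs H hy hb] at e
        have hbit : (quadAt (tileChoices T t) P 2).bit y = decide (gH t P .src 0 (.r 2) y = .bit true) := by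
          show (tileChoices T t P).bit y = _
          simp [tileChoices, hb]
        rw [srcBit_raw hb, hbit]
        simp at e
        rcases e with ⟨e1, e2⟩ | ⟨e1, e2⟩ <;> simp [e1, e2]
      · by_cases hc : CmpOk (segLen M0 n) (quadAt (tileChoices T t) P 2).ox (quadAt (tileChoices T t) P 3).ox x y
        · rw [(cmpA_outs H hq hx hy).1 hc] at e; simpa using e
        · rw [(cmpA_outs H hq hx hy).2 hc] at e; simp at e
      · by_cases hc : CmpOk (segLen M0 n) (quadAt (tileChoices T t) P 2).oy (quadAt (tileChoices T t) P 0).oy y x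
        · rw [(cmpB_outs H hq hx hy).1 hc] at e; simpa using e
        · rw [(cmpB_outs H hq hx hy).2 hc] at e; simp at e
      · rw [maEnd_outs H hq hx1 hy hm] at e
        split_ifs at e <;> simp at e
        simp [e]
      · rw [mrEnd_outs H hq hx1 hy hm] at e
        split_ifs at e <;> simp at e
        simp [e]
      · by_cases hc : BenchCentre b i j x y
        · obtain ⟨hl, rfl, rfl, rfl, rfl⟩ := hc
          obtain ⟨ev0, hev⟩ := Sum.isLeft_iff.1 hl
          have h2 := H.eight_le n
          have hS1 : 1 < segLen M0 n := by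
            have := Nat.two_pow_pos n; omega
          refine Prod.ext ?_ ?_
          · have e1 := event_named ht ha P (.bench b 1) hS1 (.bench b 1) hS
            rw [gInH_pred (X' := .bench b 1) (x' := 0) (Or.inl ⟨rfl, rfl⟩)] at e1
            exact bench_expH (T := T) (n := n) (M0 := M0) (w := quadAt (tileChoices T t) P) hev (List.ne_nil_of_mem e1)
          · have e1 := event_named ht ha P (.bench b 1) hS (.bench b 1) hS1
            rw [gInV_pred (Y' := .bench b 1) (y' := 0) _ _ (Or.inl ⟨rfl, rfl⟩)] at e1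
            exact bench_expV (T := T) (n := n) (M0 := M0) (w := quadAt (tileChoices T t) P) hev (List.ne_nil_of_mem e1)
        · exact bench_unique H hx hy hc e
    · have h := step_plain (y := y) H hq hx hy hs
      simp only [locAt] at h
      rw [h] at e
      simpa using e

/-- The closed form obeys the relation in every cell. -/
theorem raw_event {X : XSeg} {x : ℕ} {Y : YSeg} {y : ℕ} (hx : x < segLen M0 n)
    (hy : y < segLen M0 n) :
    (rawH T M0 n (quadAt (tileChoices T t) P) X x Y y, rawV T M0 n (quadAt (tileChoices T t) P) X x Y y) ∈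
      (kindOn X Y (T.loc M0 n x y)).outs (inH T M0 n (quadAt (tileChoices T t) P) X x Y y)
        (inV T M0 n (quadAt (tileChoices T t) P) X x Y y) := by
  obtain ⟨eh, ev⟩ := inputs_eq ht ha P hx hy
    fun X' x' Y' y' h1 h2 _ => cells_raw H ht ha P h1 h2
  obtain ⟨e1, e2⟩ := cells_raw H ht ha P (X := X) (Y := Y) hx hy
  rw [← e1, ← e2, ← eh, ← ev]
  exact event_named ht ha P X hx Y hy

/-- The bundles read off a legal tiling are accepted. -/
theorem tileQuad_ok :
    LinesOk (segLen M0 n) (quadAt (tileChoices T t) P) ∧ RowsEnd T M0 n (quadAt (tileChoices T t) P) := by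
  have hS := segLen_pos (M0 := M0) n
  have hq := tileQuad_inRange (T := T) (t := t) P
  have hl : segLen M0 n - 1 + 1 = segLen M0 n := by omega
  refine ⟨⟨fun x hx => (pickX_mem_iff H hx).1 (raw_event H ht ha P hx hS),
    fun y hy => (pickY_mem_iff H hy).1 (raw_event H ht ha P hS hy), ?_, ?_⟩, ?_⟩
  · intro a ha' b hb
    by_contra hc
    have e := raw_event H ht ha P (X := .mx) (Y := .ta) ha' hb
    rw [(cmpA_outs H hq ha' hb).2 hc] at e
    simp at e
  · intro a ha' b hb
    by_contra hc
    have e := raw_event H ht ha P (X := .tb) (Y := .my) hb ha'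
    rw [(cmpB_outs H hq hb ha').2 hc] at e
    simp at e
  · intro y hy hm
    have e1 := raw_event H ht ha P (X := .pa 3) (Y := .ma)
      (show segLen M0 n - 1 < segLen M0 n by omega) hy
    have e2 := raw_event H ht ha P (X := .pr 2) (Y := .mr)
      (show segLen M0 n - 1 < segLen M0 n by omega) hy
    rw [maEnd_outs H hq hl hy hm] at e1
    rw [mrEnd_outs H hq hl hy hm] at e2
    constructor
    · by_contra h; rw [Bool.not_eq_false] at h; simp [h] at e1
    · by_contra h; rw [Bool.not_eq_false] at h; simp [h] at e2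

/-- Every cell of the tile, bands included. -/
theorem cell_sig {a b : ℕ} (h1 : a < tsize M0 n) (h2 : b < tsize M0 n) :
    t (cellOfLin M0 n P a b) =
      ⟨addrAt a b, sigH T M0 n (quadAt (tileChoices T t) P) a b, sigV T M0 n (quadAt (tileChoices T t) P) a b⟩ := by
  set q := quadAt (tileChoices T t) P with hq
  have hS := segLen_pos (M0 := M0) n
  have hg : 0 < segCount * segLen M0 n := Nat.mul_pos (NeZero.pos segCount) hS
  have hts : tsize M0 n = segCount * segLen M0 n + segLen M0 n := side_eq _ _
  have named : ∀ {a b : ℕ}, a < segCount * segLen M0 n → b < segCount * segLen M0 n →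
      (t (cellOfLin M0 n P a b)).h = sigH T M0 n q a b ∧
        (t (cellOfLin M0 n P a b)).v = sigV T M0 n q a b := by
    intro a b ha' hb'
    obtain ⟨X, x, hx, rfl⟩ := exists_xlin ha'
    obtain ⟨Y, y, hy, rfl⟩ := exists_ylin hb'
    obtain ⟨e1, e2⟩ := cells_raw H ht ha P (X := X) (Y := Y) hx hy
    rw [(sig_lin q hx hy).1, (sig_lin q hx hy).2, ← e1, ← e2]
    exact ⟨rfl, rfl⟩
  have rows : ∀ {a b : ℕ}, a < segCount * segLen M0 n → segCount * segLen M0 n ≤ b →
      b < tsize M0 n → (t (cellOfLin M0 n P a b)).h = .none := by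
    intro a b ha' hb' hb
    have e := event_lin ht ha P (ord_lt_tsize ha') hb
    rw [addrAt, if_neg (not_le.2 ha'), if_pos hb'] at e
    simp only [kindAt] at e
    simp [Kind.outs] at e
    simp [e]
  obtain ⟨eh, ev⟩ : (t (cellOfLin M0 n P a b)).h = sigH T M0 n q a b ∧
      (t (cellOfLin M0 n P a b)).v = sigV T M0 n q a b := by
    by_cases ha' : segCount * segLen M0 n ≤ a
    · have e := event_lin ht ha P h1 h2
      rw [addrAt, if_pos ha'] at e
      simp only [kindAt] at e
      simp [Kind.outs] at e
      obtain ⟨k, rfl⟩ := Nat.exists_eq_add_of_le ha'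
      refine ⟨?_, e.2.trans (show sigV T M0 n q (segCount * segLen M0 n + k) b = .none from
        if_pos ha').symm⟩
      have hk := band_row ht ha P h2 (k := k + 1) (by omega)
      rw [show segCount * segLen M0 n + (k + 1) - 1 = segCount * segLen M0 n + k by omega] at hk
      rw [hk]
      by_cases hb' : segCount * segLen M0 n ≤ b
      · rw [rows (by omega) hb' h2, sigH, if_pos hb']
      · rw [(named (by omega) (not_le.1 hb')).1, sigH_last q (not_le.1 hb'), sigH, if_neg hb',
          if_pos ha']
    · by_cases hb' : segCount * segLen M0 n ≤ b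
      · refine ⟨(rows (not_le.1 ha') hb' h2).trans ?_, ?_⟩
        · rw [sigH, if_pos hb']
        obtain ⟨k, rfl⟩ := Nat.exists_eq_add_of_le hb'
        have hk := bandP_col ht ha P (not_le.1 ha') (k := k + 1) (by omega)
        rw [show segCount * segLen M0 n + (k + 1) - 1 = segCount * segLen M0 n + k by omega] at hk
        rw [hk, (named (not_le.1 ha') (by omega)).2, sigV_last q (not_le.1 ha'), sigV, if_neg ha',
          if_pos hb']
      · exact named (not_le.1 ha') (not_le.1 hb')
  have eA := addr_lin ha P h1 h2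
  generalize t (cellOfLin M0 n P a b) = c at eA eh ev ⊢
  obtain ⟨A, h, v⟩ := c
  simp_all

omit H ht ha

/-- A tile that shows the closed form of `q` has the choices of `q` as its own. -/
theorem own_of_raw (ht : Legal (rules T M0 n) t) (ha : Aligned M0 n t) {q : Quad}
    (hq : q.InRange (segLen M0 n))
    (h : ∀ X x Y y, x < segLen M0 n → y < segLen M0 n →
      gH t P X x Y y = rawH T M0 n q X x Y y ∧ gV t P X x Y y = rawV T M0 n q X x Y y) :
    (tileChoices T t P).ox = (q 2).ox ∧ (tileChoices T t P).oy = (q 2).oy ∧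
      ∀ z < segLen M0 n, (symAt T M0 n z).isSrc = true →
        (tileChoices T t P).bit z = (q 2).bit z := by
  have hS := segLen_pos (M0 := M0) n
  refine ⟨?_, ?_, ?_⟩
  · refine chosenAt_ext (fun p hp => ox_lt hp) (hq 2).1 fun x hx => chosenSig_inj ?_
    have e := (h .mx x .lx 0 hx hS).2
    rw [ox_at ht ha P hx, colLine_below_my _ _ 0 (show YSeg.lx.index < 6 by decide),
      ofLine_map_chosen] at e
    rw [e]
    simp [rawV, sinceY, colLine_below_my _ _ 0 (show YSeg.lx.index < 6 by decide),
      ofLine_map_chosen]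
  · refine chosenAt_ext (fun p hp => oy_lt hp) (hq 2).2 fun y hy => chosenSig_inj ?_
    have e := (h .ly 0 .my y hS hy).1
    rw [oy_at ht ha P hy, rowLine_eq, ofLine_map_chosen] at e
    rw [e]
    simp [rawH, sinceX, rowLine_eq, ofLine_map_chosen]
  · intro z hz hs
    have e := (h .src 0 (.r 2) z hS hz).1
    rw [srcBit_raw hs] at e
    simp [tileChoices, hs, e]

end

end Vale.Agent.P196.W
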