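import Vale.Agent.P196.W.RigidExit
import Vale.Agent.P196.W.Tile

/-!
# P196: an event that knows the choices of four tiles forces the drawn tile

If it forces the choices of the bundles of a tile, every cell of the tile is the drawn one, and the
event is zero unless the bundles pass all constraint cells.
-/

namespace Vale.Agent.P196.W

open Vale.Agent.P196.Fp Vale.Agent.P196.Sft EventAlgebra

noncomputable section

variable {T : Tables} {M0 n : ℕ} [NeZero M0] {E : EventAlgebra.{0}}

/-- Below `z` the four bundles of the tile `P` are those of `q`. -/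
structure KnowsQuad (L : LocalEvents E (rules T M0 n)) (o : Cell) (z : E.B) (P : Cell)
    (q : Quad) : Prop where
  below : Knows L o z (P.1, P.2 - 1) (q 0)
  belowLeft : Knows L o z (P.1 - 1, P.2 - 1) (q 1)
  self : Knows L o z P (q 2)
  left : Knows L o z (P.1 - 1, P.2) (q 3)

variable {L : LocalEvents E (rules T M0 n)} {o : Cell} {z : E.B}

omit [NeZero M0] in
theorem KnowsQuad.inRange {P : Cell} {q : Quad} (hK : KnowsQuad L o z P q) :
    q.InRange (segLen M0 n) := by
  intro c
  fin_cases c
  exacts [⟨hK.below.ox_lt, hK.below.oy_lt⟩, ⟨hK.belowLeft.ox_lt, hK.belowLeft.oy_lt⟩,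
    ⟨hK.self.ox_lt, hK.self.oy_lt⟩, ⟨hK.left.ox_lt, hK.left.oy_lt⟩]

variable (P : Cell) (hF : Flat L o)
include hF

/-- What is known at a named cell and around it tells about the cell on the left. -/
theorem named_back_left (X : XSeg) {x : ℕ} (hx : x < segLen M0 n) (Y : YSeg) {y : ℕ}
    (hy : y < segLen M0 n) {A Q : Tint M0 n → Prop}
    (hA : Forced L z (lCell (namedCell M0 n o P X x Y y)) A)
    (h : ∀ l d c : Tint M0 n, (c.h, c.v) ∈ (kindOn X Y (T.loc M0 n x y)).outs l.h d.v →
      A l → Q l) :
    Forced L z (lCell (namedCell M0 n o P X x Y y)) Q := by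
  refine flat_back_left hF P (ord_lt_tsize (xlin_lt X hx)) (ord_lt_tsize (ylin_lt Y hy)) hA
    (Forced.univ _ _) (Forced.univ _ _) fun l d c ho hl _ _ => h l d c ?_ hl
  rwa [kindAt_lin T X hx Y hy] at ho

/-- What is known at a named cell and around it tells about the cell below. -/
theorem named_back_below (X : XSeg) {x : ℕ} (hx : x < segLen M0 n) (Y : YSeg) {y : ℕ}
    (hy : y < segLen M0 n) {B Q : Tint M0 n → Prop}
    (hB : Forced L z (bCell (namedCell M0 n o P X x Y y)) B)
    (h : ∀ l d c : Tint M0 n, (c.h, c.v) ∈ (kindOn X Y (T.loc M0 n x y)).outs l.h d.v →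
      B d → Q d) :
    Forced L z (bCell (namedCell M0 n o P X x Y y)) Q := by
  refine flat_back_below hF P (ord_lt_tsize (xlin_lt X hx)) (ord_lt_tsize (ylin_lt Y hy))
    (Forced.univ _ _) hB (Forced.univ _ _) fun l d c ho _ hd _ => h l d c ?_ hd
  rwa [kindAt_lin T X hx Y hy] at ho

variable {q : Quad} (hK : KnowsQuad L o z P q)
include hK

/-- The inputs of a cell, when the cells before it show the closed form. -/
theorem knows_inputs {X : XSeg} {x : ℕ} {Y : YSeg} {y : ℕ} (hx : x < segLen M0 n)
    (hy : y < segLen M0 n)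
    (ih : ∀ X' x' Y' y', x' < segLen M0 n → y' < segLen M0 n →
      xlin (segLen M0 n) X' x' + ylin (segLen M0 n) Y' y' <
        xlin (segLen M0 n) X x + ylin (segLen M0 n) Y y →
      SendsH L o z P X' x' Y' y' (rawH T M0 n q X' x' Y' y') ∧
        SendsV L o z P X' x' Y' y' (rawV T M0 n q X' x' Y' y')) :
    GetsH L o z P X x Y y (inH T M0 n q X x Y y) ∧
      GetsV L o z P X x Y y (inV T M0 n q X x Y y) := by
  have hS := segLen_pos (M0 := M0) n
  constructor
  · by_cases h0 : X = .x0 ∧ x = 0
    · obtain ⟨rfl, rfl⟩ := h0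
      rw [inH_first]
      exact (wire_left_edge hF P Y hy fun s => s = _).2 (knows_exit_h _ hF hK.left hy)
    · obtain ⟨X', x', hx', hp⟩ := exists_xPred hS hx h0
      have := hp.xlin_succ
      rw [inH_eq _ Y y hx' hp]
      exact GetsH.of_pred hp (ih X' x' Y y hx' hy (by omega)).1
  · by_cases h0 : Y = .y0 ∧ y = 0
    · obtain ⟨rfl, rfl⟩ := h0
      rw [inV_first]
      exact (wire_lower_edge hF P X hx fun s => s = _).2
        (knows_exit_v (P.1, P.2 - 1) hF hK.below hK.belowLeft hx)
    · obtain ⟨Y', y', hy', hp⟩ := exists_yPred hS hy h0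
      have := hp.ylin_succ
      rw [inV_eq _ X x hy' hp]
      exact GetsV.of_pred hp (ih X x Y' y' hx hy' (by omega)).2

/-- Every cell of the tile shows the closed form of the bundles. -/
theorem knows_raw (H : TabOK T M0) {X : XSeg} {x : ℕ} {Y : YSeg} {y : ℕ} (hx : x < segLen M0 n)
    (hy : y < segLen M0 n) :
    SendsH L o z P X x Y y (rawH T M0 n q X x Y y) ∧
      SendsV L o z P X x Y y (rawV T M0 n q X x Y y) := by
  induction hm : xlin (segLen M0 n) X x + ylin (segLen M0 n) Y y using Nat.strong_induction_on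
    generalizing X x Y y with
  | _ m ih =>
    subst hm
    have hS := segLen_pos (M0 := M0) n
    have hq := hK.inRange
    obtain ⟨hA, hB⟩ := knows_inputs P hF hK hx hy
      fun X' x' Y' y' h1 h2 h3 => ih _ h3 h1 h2 rfl
    suffices h : Forced L z (namedCell M0 n o P X x Y y)
        (fun c => (c.h, c.v) = (rawH T M0 n q X x Y y, rawV T M0 n q X x Y y)) from
      ⟨h.mono fun c hc => congrArg Prod.fst hc, h.mono fun c hc => congrArg Prod.snd hc⟩
    have step : ∀ {C : Tint M0 n → Prop}, Forced L z (namedCell M0 n o P X x Y y) C →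
        (∀ p ∈ (kindOn X Y (T.loc M0 n x y)).outs (inH T M0 n q X x Y y) (inV T M0 n q X x Y y),
          ∀ c : Tint M0 n, (c.h, c.v) = p → C c →
            p = (rawH T M0 n q X x Y y, rawV T M0 n q X x Y y)) →
        Forced L z (namedCell M0 n o P X x Y y)
          (fun c => (c.h, c.v) = (rawH T M0 n q X x Y y, rawV T M0 n q X x Y y)) :=
      fun hC h => named_step hF P X hx Y hy hA hB hC fun _ _ c e hl hd hc =>
        h _ (hl ▸ hd ▸ e) c rfl hc
    by_cases hs : Special T M0 n X x Y y
    · rcases hs with ⟨rfl, rfl, rfl⟩ | ⟨rfl, rfl, rfl⟩ | ⟨rfl, rfl, rfl, hb⟩ | ⟨rfl, rfl⟩ |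
        ⟨rfl, rfl⟩ | ⟨rfl, hx1, rfl, hm⟩ | ⟨rfl, hx1, rfl, hm⟩ | ⟨b, i, j, rfl, rfl⟩
      · refine step (hK.self.ox x hx) fun p e c hp hc => ?_
        obtain ⟨new, h1, -, h3⟩ := pickX_forced H hx e
        refine h3 (chosenSig_inj ?_)
        rw [← h1, ← hp, hc, colLine_below_my _ _ 0 (show YSeg.lx.index < 6 by decide),
          ofLine_map_chosen]
      · refine step (hK.self.oy y hy) fun p e c hp hc => ?_
        obtain ⟨new, h1, -, h3⟩ := pickY_forced H hy e
        refine h3 (chosenSig_inj ?_)
        rw [← h1, ← hp, hc, rowLine_eq, ofLine_map_chosen]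
      · refine step (hK.self.bit y hy hb) fun p e c hp hc => ?_
        rw [srcBit_outs H hy hb] at e
        rw [srcBit_raw hb]
        simp at e
        rcases e with rfl | rfl <;> simp [hc] at hp <;> simp [← hp]
      · refine step (Forced.univ _ _) fun p e _ _ _ => ?_
        by_cases hc : CmpOk (segLen M0 n) (q 2).ox (q 3).ox x y
        · rw [(cmpA_outs H hq hx hy).1 hc] at e; simpa using e
        · rw [(cmpA_outs H hq hx hy).2 hc] at e; simp at e
      · refine step (Forced.univ _ _) fun p e _ _ _ => ?_
        by_cases hc : CmpOk (segLen M0 n) (q 2).oy (q 0).oy y x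
        · rw [(cmpB_outs H hq hx hy).1 hc] at e; simpa using e
        · rw [(cmpB_outs H hq hx hy).2 hc] at e; simp at e
      · refine step (Forced.univ _ _) fun p e _ _ _ => ?_
        rw [maEnd_outs H hq hx1 hy hm] at e
        split_ifs at e <;> simp at e
        simp [e]
      · refine step (Forced.univ _ _) fun p e _ _ _ => ?_
        rw [mrEnd_outs H hq hx1 hy hm] at e
        split_ifs at e <;> simp at e
        simp [e]
      · by_cases hc : BenchCentre b i j x y
        · obtain ⟨hl, rfl, rfl, rfl, rfl⟩ := hc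
          obtain ⟨ev0, hev⟩ := Sum.isLeft_iff.1 hl
          have h2 := H.eight_le n
          have hS1 : 1 < segLen M0 n := by
            have := Nat.two_pow_pos n; omega
          have e1 := named_back_left P hF (.bench b 1) hS1 (.bench b 1) hS (z := z)
            (Forced.univ z _)
            (Q := fun l => l.h = rawH T M0 n q (.bench b 1) 0 (.bench b 1) 0)
            fun l d c e _ => bench_expH (T := T) (n := n) (M0 := M0) (w := q) hev
              (List.ne_nil_of_mem e)
          have e2 := named_back_below P hF (.bench b 1) hS (.bench b 1) hS1 (z := z)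
            (Forced.univ z _)
            (Q := fun d => d.v = rawV T M0 n q (.bench b 1) 0 (.bench b 1) 0)
            fun l d c e _ => bench_expV (T := T) (n := n) (M0 := M0) (w := q) hev
              (List.ne_nil_of_mem e)
          rw [lCell_pred (X' := .bench b 1) (x' := 0) (Or.inl ⟨rfl, rfl⟩)] at e1
          rw [bCell_pred _ _ (Y' := .bench b 1) (y' := 0) (Or.inl ⟨rfl, rfl⟩)] at e2
          exact (e1.and e2).mono fun c hc => Prod.ext hc.1 hc.2
        · exact step (Forced.univ _ _) fun p e _ _ _ => bench_unique H hx hy hc e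
    · refine step (Forced.univ _ _) fun p e _ _ _ => ?_
      have h := step_plain (y := y) H hq hx hy hs
      simp only [locAt] at h
      rw [h] at e
      simpa using e

/-- The event is zero unless the closed form obeys the relation at every cell. -/
theorem knows_raw_event (H : TabOK T M0) (hz : z ≠ E.bot) {X : XSeg} {x : ℕ} {Y : YSeg} {y : ℕ}
    (hx : x < segLen M0 n) (hy : y < segLen M0 n) :
    (rawH T M0 n q X x Y y, rawV T M0 n q X x Y y) ∈
      (kindOn X Y (T.loc M0 n x y)).outs (inH T M0 n q X x Y y) (inV T M0 n q X x Y y) := by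
  by_contra hc
  obtain ⟨hA, hB⟩ := knows_inputs P hF hK hx hy
    fun X' x' Y' y' h1 h2 _ => knows_raw P hF hK H h1 h2
  obtain ⟨hh, hv⟩ := knows_raw P hF hK H (X := X) (Y := Y) hx hy
  exact hz (Forced.eq_bot (L := L) (named_step hF P X hx Y hy hA hB (hh.and hv)
    fun _ _ _ e hl hd hc' => hc (hl ▸ hd ▸ hc'.1 ▸ hc'.2 ▸ e)))

/-- The event is zero unless the bundles pass all constraint cells. -/
theorem knows_quad_ok (H : TabOK T M0) (hz : z ≠ E.bot) :
    LinesOk (segLen M0 n) q ∧ RowsEnd T M0 n q := by
  have hS := segLen_pos (M0 := M0) n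
  have hq := hK.inRange
  have hl : segLen M0 n - 1 + 1 = segLen M0 n := by omega
  refine ⟨⟨fun x hx => (pickX_mem_iff H hx).1 (knows_raw_event P hF hK H hz hx hS),
    fun y hy => (pickY_mem_iff H hy).1 (knows_raw_event P hF hK H hz hS hy), ?_, ?_⟩, ?_⟩
  · intro a ha' b hb
    by_contra hc
    have e := knows_raw_event P hF hK H hz (X := .mx) (Y := .ta) ha' hb
    rw [(cmpA_outs H hq ha' hb).2 hc] at e
    simp at e
  · intro a ha' b hb
    by_contra hc
    have e := knows_raw_event P hF hK H hz (X := .tb) (Y := .my) hb ha'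
    rw [(cmpB_outs H hq hb ha').2 hc] at e
    simp at e
  · intro y hy hm
    have e1 := knows_raw_event P hF hK H hz (X := .pa 3) (Y := .ma)
      (show segLen M0 n - 1 < segLen M0 n by omega) hy
    have e2 := knows_raw_event P hF hK H hz (X := .pr 2) (Y := .mr)
      (show segLen M0 n - 1 < segLen M0 n by omega) hy
    rw [maEnd_outs H hq hl hy hm] at e1
    rw [mrEnd_outs H hq hl hy hm] at e2
    constructor
    · by_contra h; rw [Bool.not_eq_false] at h; simp [h] at e1
    · by_contra h; rw [Bool.not_eq_false] at h; simp [h] at e2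

/-- Every cell of the tile, bands included, is the drawn one. -/
theorem knows_cell (H : TabOK T M0) {a b : ℕ} (h1 : a < tsize M0 n) (h2 : b < tsize M0 n) :
    Forced L z (cellAt M0 n o P a b)
      (fun c => c = ⟨addrAt a b, sigH T M0 n q a b, sigV T M0 n q a b⟩) := by
  have hS := segLen_pos (M0 := M0) n
  have hg : 0 < segCount * segLen M0 n := Nat.mul_pos (NeZero.pos segCount) hS
  have hts : tsize M0 n = segCount * segLen M0 n + segLen M0 n := side_eq _ _
  have named : ∀ {a b : ℕ}, a < segCount * segLen M0 n → b < segCount * segLen M0 n →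
      Forced L z (cellAt M0 n o P a b) (fun c => c.h = sigH T M0 n q a b) ∧
        Forced L z (cellAt M0 n o P a b) (fun c => c.v = sigV T M0 n q a b) := by
    intro a b ha' hb'
    obtain ⟨X, x, hx, rfl⟩ := exists_xlin ha'
    obtain ⟨Y, y, hy, rfl⟩ := exists_ylin hb'
    rw [(sig_lin q hx hy).1, (sig_lin q hx hy).2]
    exact knows_raw P hF hK H hx hy
  have rows : ∀ {a b : ℕ}, a < segCount * segLen M0 n → segCount * segLen M0 n ≤ b →
      b < tsize M0 n → Forced L z (cellAt M0 n o P a b) (fun c => c.h = .none) := by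
    intro a b ha' hb' hb
    refine flat_step hF P (ord_lt_tsize ha') hb (Forced.univ _ _) (Forced.univ _ _)
      (Forced.univ _ _) fun l d c _ e _ _ _ => ?_
    rw [addrAt_bandP_kind ha' hb'] at e
    simp [Kind.outs] at e
    simp [e]
  obtain ⟨eh, ev⟩ : Forced L z (cellAt M0 n o P a b) (fun c => c.h = sigH T M0 n q a b) ∧
      Forced L z (cellAt M0 n o P a b) (fun c => c.v = sigV T M0 n q a b) := by
    by_cases ha' : segCount * segLen M0 n ≤ a
    · refine ⟨?_, flat_step hF P h1 h2 (Forced.univ _ _) (Forced.univ _ _) (Forced.univ _ _)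
        fun l d c _ e _ _ _ => ?_⟩
      swap
      · rw [addrAt_band_kind ha'] at e
        simp [Kind.outs] at e
        exact e.2.trans (show sigV T M0 n q a b = .none from if_pos ha').symm
      obtain ⟨k, rfl⟩ := Nat.exists_eq_add_of_le ha'
      have hk := wire_band (z := z) hF P h2 (k := k + 1) (by omega)
        (fun s => s = sigH T M0 n q (segCount * segLen M0 n + k) b)
      rw [show segCount * segLen M0 n + (k + 1) - 1 = segCount * segLen M0 n + k by omega] at hk
      refine hk.2 ?_
      by_cases hb' : segCount * segLen M0 n ≤ b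
      · rw [show sigH T M0 n q (segCount * segLen M0 n + k) b = .none from if_pos hb']
        exact rows (by omega) hb' h2
      · refine (named (by omega) (not_le.1 hb')).1.mono fun c hc => ?_
        rw [hc, sigH_last q (not_le.1 hb'), sigH, if_neg hb', if_pos ha']
    · by_cases hb' : segCount * segLen M0 n ≤ b
      · refine ⟨?_, ?_⟩
        · rw [show sigH T M0 n q a b = .none from if_pos hb']
          exact rows (not_le.1 ha') hb' h2
        obtain ⟨k, rfl⟩ := Nat.exists_eq_add_of_le hb'
        have hk := wire_bandP (z := z) hF P (not_le.1 ha') (k := k + 1) (by omega)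
          (fun s => s = sigV T M0 n q a (segCount * segLen M0 n + k))
        rw [show segCount * segLen M0 n + (k + 1) - 1 = segCount * segLen M0 n + k by omega] at hk
        refine hk.2 ((named (not_le.1 ha') (by omega)).2.mono fun c hc => ?_)
        rw [hc, sigV_last q (not_le.1 ha'), sigV, if_neg ha', if_pos hb']
      · exact named (not_le.1 ha') (not_le.1 hb')
  refine flat_step hF P h1 h2 (Forced.univ _ _) (Forced.univ _ _) (eh.and ev)
    fun _ _ c hA _ _ _ hc => ?_
  obtain ⟨A, h, v⟩ := c
  simp_all

end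

end Vale.Agent.P196.W
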