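import Vale.Agent.P196.W.Grid
import Vale.Agent.P196.W.Infer

/-!
# P196: the grid events of local events of one level

`cornerEv u` says that `u` is the last column of a band and the cell right of it the first row of a
band of rows. It forces the address of every cell to its right, so two of them are disjoint or
comparable; every colour at a cell lies below finitely many of them. Hence they depend on the
residue only, form a partition and commute with everything.
-/

namespace Vale.Agent.P196.W

open Vale.Agent.P196.Fp Vale.Agent.P196.Sft EventAlgebra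

variable {g M : ℕ} [NeZero g] [NeZero M]

/-! ## Unique steps of addresses -/

theorem le_side (g M : ℕ) : g * M ≤ side g M := by rw [side_eq]; omega

omit [NeZero g] in
theorem side_pos_of : 0 < side g M := by rw [side_eq]; have := NeZero.pos M; omega

theorem addrAt_band {x : ℕ} (h : g * M ≤ x) (hx : x < side g M) (y : ℕ) :
    (addrAt x y : Addr g M) = .band ⟨x - g * M, by rw [side_eq] at hx; omega⟩ := by
  rw [side_eq] at hx
  simp [addrAt, h, Nat.mod_eq_of_lt (show x - g * M < M by omega)]

theorem addrAt_bandP {x y : ℕ} (h : x < g * M) (hy : g * M ≤ y) (hy' : y < side g M) :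
    (addrAt x y : Addr g M) = .bandP ⟨y - g * M, by rw [side_eq] at hy'; omega⟩ := by
  rw [side_eq] at hy'
  simp [addrAt, not_le.2 h, hy, Nat.mod_eq_of_lt (show y - g * M < M by omega)]

theorem addrAt_full {x y : ℕ} (h : x < g * M) (hy : y < g * M) :
    ∃ sA oA sB oB, (addrAt x y : Addr g M) = .full sA oA sB oB ∧ pos sA oA = x ∧ pos sB oB = y :=
  ⟨_, _, _, _, by simp [addrAt, not_le.2 h, not_le.2 hy],
    pos_ofNat h, pos_ofNat hy⟩

theorem full_eq_addrAt (sA : Fin g) (oA : Fin M) (sB : Fin g) (oB : Fin M) :
    (Addr.full sA oA sB oB : Addr g M) = addrAt (pos sA oA) (pos sB oB) := by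
  obtain ⟨a, b, c, d, e, h1, h2⟩ := addrAt_full (pos_lt sA oA) (pos_lt sB oB)
  obtain ⟨rfl, rfl⟩ := pos_inj h1
  obtain ⟨rfl, rfl⟩ := pos_inj h2
  exact e.symm

theorem band_eq_addrAt (a : Fin M) (y : ℕ) :
    (Addr.band a : Addr g M) = addrAt (g * M + a.val) y := by
  rw [addrAt_band (by omega) (by rw [side_eq]; omega)]
  congr 1
  exact Fin.ext (by simp)

theorem bandP_eq_addrAt {x : ℕ} (hx : x < g * M) (b : Fin M) :
    (Addr.bandP b : Addr g M) = addrAt x (g * M + b.val) := by
  rw [addrAt_bandP hx (by omega) (by rw [side_eq]; omega)]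
  congr 1
  exact Fin.ext (by simp)

/-- The successor to the right of a cell whose horizontal coordinate is visible is unique. -/
theorem hStep_next {x y : ℕ} (hx : x + 1 < side g M) (hv : g * M ≤ x ∨ y < g * M) {B : Addr g M}
    (h : HStep (addrAt x y) B) : B = addrAt (x + 1) y := by
  have hx' : x + 1 < g * M + M := by rw [← side_eq]; exact hx
  rcases Nat.lt_or_ge x (g * M) with hb | hb
  · have hy := hv.resolve_left (not_le.2 hb)
    obtain ⟨sA, oA, sB, oB, e, rfl, rfl⟩ := addrAt_full hb hy
    rw [e] at h
    cases B with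
    | band a =>
      obtain ⟨h1, h2⟩ := h
      rw [band_eq_addrAt a (pos sB oB), h2, h1, add_zero]
    | bandP b => exact h.elim
    | full sA' oA' sB' oB' =>
      obtain ⟨h1, rfl, rfl⟩ := h
      rw [full_eq_addrAt, h1]
  · rw [addrAt_band hb (by omega)] at h
    cases B with
    | band a =>
      simp only [HStep] at h
      rw [band_eq_addrAt a y]
      congr 1
      omega
    | bandP b => simp only [HStep] at h; omega
    | full sA oA sB oB => simp only [HStep] at h; omega

/-- The predecessor on the left of an ordinary cell is unique. -/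
theorem hStep_prev {x y : ℕ} (hx : x + 1 < g * M) (hy : y < g * M) {B : Addr g M}
    (h : HStep B (addrAt (x + 1) y)) : B = addrAt x y := by
  obtain ⟨sA, oA, sB, oB, e, h1, rfl⟩ := addrAt_full hx hy
  rw [e] at h
  cases B with
  | band a => simp only [HStep] at h; omega
  | bandP b => exact h.elim
  | full sA' oA' sB' oB' =>
    obtain ⟨h2, rfl, rfl⟩ := h
    rw [full_eq_addrAt]
    congr 1
    omega

/-- Left of the first column is the last column of a band. -/
theorem hStep_prev_zero {y : ℕ} (hy : y < g * M) {B : Addr g M} (h : HStep B (addrAt 0 y)) :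
    B = addrAt (g * M + (M - 1)) y := by
  have hp : 0 < g * M := Nat.mul_pos (NeZero.pos g) (NeZero.pos M)
  obtain ⟨sA, oA, sB, oB, e, h1, rfl⟩ := addrAt_full hp hy
  rw [e] at h
  cases B with
  | band a =>
    simp only [HStep] at h
    rw [band_eq_addrAt a (pos sB oB)]
    congr 1
    omega
  | bandP b => exact h.elim
  | full sA' oA' sB' oB' => simp only [HStep] at h; omega

/-- The successor above a cell is unique inside a parent. -/
theorem vStep_next {x y : ℕ} (hx : x < side g M) (hy : y + 1 < side g M) {B : Addr g M}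
    (h : VStep (addrAt x y) B) : B = addrAt x (y + 1) := by
  have hy' : y + 1 < g * M + M := by rw [← side_eq]; exact hy
  rcases Nat.lt_or_ge x (g * M) with hb | hb
  · rcases Nat.lt_or_ge y (g * M) with hy0 | hy0
    · obtain ⟨sA, oA, sB, oB, e, rfl, rfl⟩ := addrAt_full hb hy0
      rw [e] at h
      cases B with
      | band a => exact h.elim
      | bandP b =>
        obtain ⟨h1, h2⟩ := h
        rw [bandP_eq_addrAt hb b, h2, h1, add_zero]
      | full sA' oA' sB' oB' =>
        obtain ⟨h1, rfl, rfl⟩ := h
        rw [full_eq_addrAt, h1]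
    · rw [addrAt_bandP hb hy0 (by omega)] at h
      cases B with
      | band a => exact h.elim
      | bandP b =>
        simp only [VStep] at h
        rw [bandP_eq_addrAt hb b]
        congr 1
        omega
      | full sA oA sB oB => simp only [VStep] at h; omega
  · rw [addrAt_band hb hx] at h ⊢
    cases B with
    | band a => simp only [VStep] at h; rw [h]
    | bandP b => exact h.elim
    | full sA oA sB oB => exact h.elim

omit [NeZero g] [NeZero M] in
/-- A band column is constant in both directions. -/
theorem vStep_band {A B : Addr g M} (h : VStep A B) {a : Fin M} :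
    (A = .band a ↔ B = .band a) := by
  cases A <;> cases B <;> simp only [VStep] at h <;> simp
  subst h; exact Iff.rfl

theorem succ_mod_inj {N r s : ℕ} (hr : r < N) (hs : s < N) (h : (r + 1) % N = (s + 1) % N) :
    r = s := by
  rcases Nat.lt_or_ge (r + 1) N with h1 | h1 <;> rcases Nat.lt_or_ge (s + 1) N with h2 | h2
  · rw [Nat.mod_eq_of_lt h1, Nat.mod_eq_of_lt h2] at h; omega
  · rw [Nat.mod_eq_of_lt h1, show s + 1 = N by omega, Nat.mod_self] at h; omega
  · rw [Nat.mod_eq_of_lt h2, show r + 1 = N by omega, Nat.mod_self] at h; omega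
  · omega

/-- The address in the column right of a band, seen from its vertical coordinate. -/
theorem eq_of_col0 {B : Addr g M}
    (hB : (∃ b, B = .bandP b) ∨ ∃ sA oA sB oB, B = .full sA oA sB oB ∧ pos sA oA = 0) {r : ℕ}
    (hr : B.yres = some r) : B = addrAt 0 r := by
  have hp : 0 < g * M := Nat.mul_pos (NeZero.pos g) (NeZero.pos M)
  rcases hB with ⟨b, rfl⟩ | ⟨sA, oA, sB, oB, rfl, h0⟩ <;>
    simp only [Addr.yres, Option.some.injEq] at hr <;> subst hr
  · exact bandP_eq_addrAt hp b
  · rw [full_eq_addrAt, h0]

/-! ## Steps of forced sets -/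

variable {K : Fin g → Fin g → Loc → Kind} {loc : Fin M → Fin M → Loc} {E : EventAlgebra.{0}}
  {L : LocalEvents E (windows K loc)} {z : E.B} {P Q : Colour g M → Prop}

omit [NeZero g] [NeZero M] in
theorem Forced.right {x y : ℤ} (hz : Forced L z (x, y) P)
    (h : ∀ c c' : Colour g M, HStep c.addr c'.addr → P c → Q c') : Forced L z (x + 1, y) Q :=
  Forced.step₁ (x, y) (0, 0) (1, 0) (by simp [corner]) (by simp [corner]) hz
    fun w hw hP => h _ _ (hw.1 0) hP

omit [NeZero g] [NeZero M] in
theorem Forced.left {x y : ℤ} (hz : Forced L z (x + 1, y) P)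
    (h : ∀ c c' : Colour g M, HStep c.addr c'.addr → P c' → Q c) : Forced L z (x, y) Q :=
  Forced.step₁ (x, y) (1, 0) (0, 0) (by simp [corner]) (by simp [corner]) hz
    fun w hw hP => h _ _ (hw.1 0) hP

omit [NeZero g] [NeZero M] in
theorem Forced.up {x y : ℤ} (hz : Forced L z (x, y) P)
    (h : ∀ c c' : Colour g M, VStep c.addr c'.addr → P c → Q c') : Forced L z (x, y + 1) Q :=
  Forced.step₁ (x, y) (0, 0) (0, 1) (by simp [corner]) (by simp [corner]) hz
    fun w hw hP => h _ _ (hw.2.1 0) hP

omit [NeZero g] [NeZero M] in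
theorem Forced.down {x y : ℤ} (hz : Forced L z (x, y + 1) P)
    (h : ∀ c c' : Colour g M, VStep c.addr c'.addr → P c' → Q c) : Forced L z (x, y) Q :=
  Forced.step₁ (x, y) (0, 1) (0, 0) (by simp [corner]) (by simp [corner]) hz
    fun w hw hP => h _ _ (hw.2.1 0) hP

omit [NeZero g] [NeZero M] in
/-- The signal from the left and the relation at a cell. -/
theorem Forced.rightOut {x y : ℤ} (hz : Forced L z (x, y) P) {P' : Colour g M → Prop}
    (hz' : Forced L z (x + 1, y) P')
    (h : ∀ (c c' : Colour g M) (v : Sig), HStep c.addr c'.addr →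
      (c'.h, c'.v) ∈ (kindAt K loc c'.addr).outs c.h v → P c → P' c' → Q c') :
    Forced L z (x + 1, y) Q :=
  Forced.step₂ (x, y - 1) (0, 1) (1, 1) (1, 1) (by simp [corner]) (by simp [corner])
    (by simp [corner]) hz hz' fun w hw hP hP' => h _ _ _ (hw.1 1) hw.2.2 hP hP'

/-- The address given by a grid. -/
def OnGrid (o : Cell) (v : Cell) (c : Colour g M) : Prop :=
  c.addr = addrAt (res g M o.1 v.1) (res g M o.2 v.2)

/-- The column `x` is on the grid `o`. -/
def AlignCol (L : LocalEvents E (windows K loc)) (z : E.B) (o : Cell) (x : ℤ) : Prop :=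
  ∀ y, Forced L z (x, y) (OnGrid o (x, y))

omit [NeZero g] [NeZero M] in
/-- One band column is forced by any of its cells. -/
theorem forced_band_col {x y : ℤ} {a : Fin M}
    (h : Forced L z (x, y) fun c => c.addr = .band a) (y' : ℤ) :
    Forced L z (x, y') fun c => c.addr = .band a := by
  have key : ∀ d : ℤ, Forced L z (x, y + d) fun c => c.addr = .band a := by
    intro d
    induction d using Int.induction_on with
    | zero => simpa using h
    | succ i ih =>
      rw [← add_assoc]
      exact ih.up fun c c' hs hc => (vStep_band hs).1 hc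
    | pred i ih =>
      refine Forced.down (Q := fun c => c.addr = .band a) (y := y + (-(i : ℤ) - 1)) ?_
        fun c c' hs hc => (vStep_band hs).2 hc
      rwa [show y + (-(i : ℤ) - 1) + 1 = y + -(i : ℤ) by ring]
  simpa using key (y' - y)

/-- The column right of a band is on the grid as soon as one of its cells is. -/
theorem alignCol_zero {o : Cell} {x : ℤ} (hx : res g M o.1 x = 0)
    (hband : ∀ y, Forced L z (x - 1, y) fun c => c.addr = addrAt (g * M + (M - 1)) 0) {y₀ : ℤ}
    (h₀ : Forced L z (x, y₀) (OnGrid o (x, y₀))) : AlignCol L z o x := by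
  have hM := NeZero.pos M
  let C0 : Colour g M → Prop := fun c =>
    (∃ b, c.addr = .bandP b) ∨ ∃ sA oA sB oB, c.addr = .full sA oA sB oB ∧ pos sA oA = 0
  have hC0 : ∀ y, Forced L z (x, y) C0 := by
    intro y
    rw [show x = x - 1 + 1 by ring]
    refine (hband y).right fun c c' hs hc => ?_
    rw [hc, addrAt_band (by omega) (by rw [side_eq]; omega)] at hs
    rcases e : c'.addr with a | b | ⟨sA, oA, sB, oB⟩ <;> rw [e] at hs <;> simp only [HStep] at hs
    · omega
    · exact Or.inl ⟨b, e⟩
    · exact Or.inr ⟨sA, oA, sB, oB, e, hs.2⟩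
  have hp : 0 < g * M := Nat.mul_pos (NeZero.pos g) hM
  have yres_al : ∀ (y : ℤ) (c : Colour g M), OnGrid o (x, y) c →
      c.addr.yres = some (res g M o.2 y) := by
    intro y c hc
    rw [OnGrid] at hc
    rw [hc, hx, yres_addrAt _ (res_lt _ _), if_neg (by omega)]
  have al_of : ∀ (y : ℤ) (c : Colour g M), C0 c → c.addr.yres = some (res g M o.2 y) →
      OnGrid o (x, y) c := by
    intro y c h1 h2
    rw [OnGrid, hx]
    exact eq_of_col0 h1 h2
  have step : ∀ (c : Colour g M), C0 c → ∃ r, c.addr.yres = some r := by
    rintro c (⟨b, hb⟩ | ⟨sA, oA, sB, oB, hb, -⟩) <;> rw [hb] <;> exact ⟨_, rfl⟩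
  have key : ∀ d : ℤ, Forced L z (x, y₀ + d) (OnGrid o (x, y₀ + d)) := by
    intro d
    induction d using Int.induction_on with
    | zero => simpa using h₀
    | succ i ih =>
      rw [← add_assoc]
      refine ((ih.up (Q := fun c' => C0 c' → OnGrid o (x, y₀ + i + 1) c') fun c c' hs hc => ?_).and
        (hC0 _)).mono
        (Q := OnGrid o (x, y₀ + i + 1)) (fun c' hc' => hc'.1 hc'.2)
      intro hc'
      obtain ⟨r, hr⟩ := step c' hc'
      refine al_of _ _ hc' ?_
      rw [hr, VStep.yres_succ hs (yres_al _ _ hc) hr, res_succ]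
    | pred i ih =>
      have e : y₀ + (-(i : ℤ) - 1) + 1 = y₀ + -(i : ℤ) := by ring
      refine ((Forced.down (y := y₀ + (-(i : ℤ) - 1))
        (Q := fun c => C0 c → OnGrid o (x, y₀ + (-(i : ℤ) - 1)) c) (by rw [e]; exact ih)
        fun c c' hs hc => ?_).and (hC0 _)).mono
        (Q := OnGrid o (x, y₀ + (-(i : ℤ) - 1))) (fun c hc => hc.1 hc.2)
      intro hc'
      obtain ⟨r, hr⟩ := step c hc'
      refine al_of _ _ hc' ?_
      rw [hr]
      congr 1
      refine succ_mod_inj (Addr.yres_lt hr) (res_lt _ _) ?_
      rw [← VStep.yres_succ hs hr (yres_al _ _ hc), ← res_succ, e]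
  intro y
  simpa using key (y - y₀)

/-- A column that is not the last of its parent passes the grid on. -/
theorem alignCol_next {o : Cell} {x : ℤ} (hx : res g M o.1 x + 1 < side g M)
    (h : AlignCol L z o x) : AlignCol L z o (x + 1) := by
  have hres : res g M o.1 (x + 1) = res g M o.1 x + 1 := by rw [res_succ, Nat.mod_eq_of_lt hx]
  have low : ∀ y, (g * M ≤ res g M o.1 x ∨ res g M o.2 y < g * M) →
      Forced L z (x + 1, y) (OnGrid o (x + 1, y)) := fun y hy =>
    (h y).right fun c c' hs hc => by
      rw [OnGrid] at hc ⊢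
      rw [hc] at hs
      rw [hres]
      exact hStep_next hx hy hs
  have key : ∀ (k : ℕ) (y : ℤ), res g M o.2 y < g * M + k →
      Forced L z (x + 1, y) (OnGrid o (x + 1, y)) := by
    intro k
    induction k with
    | zero => exact fun y hy => low y (Or.inr hy)
    | succ k ih =>
      intro y hy
      rcases Nat.lt_or_ge (res g M o.2 y) (g * M + k) with hlt | hge
      · exact ih y hlt
      have hp : 0 < g * M := Nat.mul_pos (NeZero.pos g) (NeZero.pos M)
      have hs1 := res_succ (g := g) (M := M) o.2 (y - 1)
      rw [sub_add_cancel] at hs1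
      have hlt := res_lt (g := g) (M := M) o.2 y
      have hlt' := res_lt (g := g) (M := M) o.2 (y - 1)
      have hne : res g M o.2 (y - 1) + 1 < side g M := by
        by_contra hc
        rw [show res g M o.2 (y - 1) + 1 = side g M by omega, Nat.mod_self] at hs1
        omega
      rw [Nat.mod_eq_of_lt hne] at hs1
      have base := ih (y - 1) (by omega)
      have := base.up (Q := OnGrid o (x + 1, y)) fun c c' hs hc => by
        rw [OnGrid] at hc ⊢
        rw [hc] at hs
        rw [hs1]
        exact vStep_next (res_lt _ _) hne hs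
      rwa [sub_add_cancel] at this
  intro y
  refine key M y ?_
  have := res_lt (g := g) (M := M) o.2 y
  rw [side_eq] at this
  exact this

/-- The marked row carries `lm` through the band of the column `x`. -/
def MarkCol (L : LocalEvents E (windows K loc)) (z : E.B) (o : Cell) (x : ℤ) : Prop :=
  g * M ≤ res g M o.1 x + 1 → ∀ y, res g M o.2 y = 0 → Forced L z (x, y) fun c => c.h = Sig.lm

theorem markCol_last (hK : GridRule K loc) {o : Cell} {x : ℤ}
    (hx : res g M o.1 x + 1 = g * M) (h : AlignCol L z o x) : MarkCol L z o x := by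
  intro _ y hy
  rw [show y = y - 1 + 1 by ring]
  refine Forced.step₁ (x - 1, y - 1) (1, 1) (1, 1) (by simp [corner]) (by simp [corner]) (h y)
    fun w hw hc => ?_
  rw [OnGrid] at hc
  simp only at hc
  have hp : 0 < g * M := Nat.mul_pos (NeZero.pos g) (NeZero.pos M)
  obtain ⟨sA, oA, sB, oB, e, h1, h2⟩ := addrAt_full (g := g) (M := M)
    (x := res g M o.1 x) (y := 0) (by omega) hp
  rw [hy, e] at hc
  have ev := hw.2.2
  simp only [Event.Ok, winEvent, hc] at ev
  exact hK.lm_out sA oA sB oB _ _ (by omega) h2 _ ev

theorem align_succ (hK : GridRule K loc) {o : Cell} {x : ℤ} (h : AlignCol L z o x)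
    (hm : MarkCol L z o x) : AlignCol L z o (x + 1) ∧ MarkCol L z o (x + 1) := by
  have hM := NeZero.pos M
  have hp : 0 < g * M := Nat.mul_pos (NeZero.pos g) hM
  have hside := side_eq g M
  have hlt := res_lt (g := g) (M := M) o.1 x
  rcases Nat.lt_or_ge (res g M o.1 x + 1) (side g M) with hx | hx
  · have ha := alignCol_next hx h
    refine ⟨ha, ?_⟩
    have hres : res g M o.1 (x + 1) = res g M o.1 x + 1 := by rw [res_succ, Nat.mod_eq_of_lt hx]
    rcases lt_trichotomy (res g M o.1 (x + 1) + 1) (g * M) with hc | hc | hc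
    · intro h'; omega
    · exact markCol_last hK hc ha
    · intro _ y hy
      refine (hm (by omega) y hy).rightOut (ha y) fun c c' v _ ho hc0 hc1 => ?_
      simp only [OnGrid] at hc1
      rw [hc1, addrAt_band (by omega) (res_lt _ _)] at ho
      simp only [kindAt, Kind.outs, List.mem_singleton, Prod.mk.injEq] at ho
      rw [ho.1, hc0]
  · have hx1 : res g M o.1 x + 1 = side g M := by omega
    have hres : res g M o.1 (x + 1) = 0 := by rw [res_succ, hx1, Nat.mod_self]
    have hband : ∀ y, Forced L z (x + 1 - 1, y)
        fun c => c.addr = addrAt (g * M + (M - 1)) 0 := by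
      intro y
      rw [add_sub_cancel_right]
      refine (h y).mono fun c hc => ?_
      simp only [OnGrid] at hc
      rw [hc, addrAt_band (by omega) (res_lt _ _), addrAt_band (by omega) (by omega)]
      congr 1
      exact Fin.ext (by simp; omega)
    have h₀ : Forced L z (x + 1, o.2) (OnGrid o (x + 1, o.2)) := by
      have r0 : res g M o.2 o.2 = 0 := by simp [res]
      refine ((hm (by omega) o.2 r0).and (h o.2)).rightOut (Forced.univ z _)
        fun c c' v hs ho hc _ => ?_
      obtain ⟨hc0, hc1⟩ := hc
      simp only [OnGrid] at hc1 ⊢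
      rw [hres, r0]
      rw [hc1, addrAt_band (by omega) (res_lt _ _)] at hs
      rw [hc0] at ho
      rcases e : c'.addr with a | b | ⟨sA, oA, sB, oB⟩ <;> rw [e] at ho hs
      · simp only [HStep] at hs; omega
      · simp [kindAt, Kind.outs] at ho
      · obtain ⟨-, h0⟩ := hs
        by_cases hy : pos sB oB = 0
        · rw [full_eq_addrAt, h0, hy]
        · rw [hK.lm_in sA oA sB oB v h0 hy] at ho
          simp at ho
    refine ⟨alignCol_zero hres hband h₀, ?_⟩
    rcases Nat.lt_or_ge 1 (g * M) with hc | hc
    · intro h'; omega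
    · exact markCol_last hK (by omega) (alignCol_zero hres hband h₀)

/-! ## The corner events -/

/-- The last column of a band at `u`, and the first row of a band of rows right of it. -/
noncomputable def cornerEv (L : LocalEvents E (windows K loc)) (u : Cell) : E.B :=
  E.inf (evP L u fun c => c.addr = addrAt (g * M + (M - 1)) 0)
    (evP L (u.1 + 1, u.2) fun c => c.addr = addrAt 0 (g * M))

/-- The grid of a corner event. -/
def cornerOrigin (g M : ℕ) (u : Cell) : Cell := (u.1 + 1, u.2 - (g * M : ℕ))

theorem com_cornerParts (u : Cell) :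
    E.com (evP L u fun c => c.addr = addrAt (g * M + (M - 1)) 0)
      (evP L (u.1 + 1, u.2) fun c => c.addr = addrAt 0 (g * M)) :=
  evP_near (by simp) (by simp) _ _

theorem forced_cornerEv_left (u : Cell) :
    Forced L (cornerEv L u) u fun c => c.addr = addrAt (g * M + (M - 1)) 0 :=
  inf_imp_left (com_cornerParts u)

theorem forced_cornerEv_right (u : Cell) :
    Forced L (cornerEv L u) (u.1 + 1, u.2) fun c => c.addr = addrAt 0 (g * M) :=
  inf_imp_right (com_cornerParts u)

theorem imp_cornerEv {u : Cell} (h1 : Forced L z u fun c => c.addr = addrAt (g * M + (M - 1)) 0)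
    (h2 : Forced L z (u.1 + 1, u.2) fun c => c.addr = addrAt 0 (g * M)) :
    Imp E z (cornerEv L u) :=
  Imp.inf h1 h2 (com_cornerParts u)

omit [NeZero g] in
theorem res_cornerOrigin (u : Cell) :
    res g M (cornerOrigin g M u).2 u.2 = g * M := by
  have hlt : g * M < side g M := by rw [side_eq]; have := NeZero.pos M; omega
  have := res_add (g := g) (M := M) (cornerOrigin g M u).2 0 hlt
  simpa [cornerOrigin] using this

/-- A corner event puts everything to its right on the grid. -/
theorem forced_aligned (hK : GridRule K loc) (u : Cell) {v : Cell} (hv : u.1 < v.1) :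
    Forced L (cornerEv L u) v (OnGrid (cornerOrigin g M u) v) := by
  have hM := NeZero.pos M
  have hp : 0 < g * M := Nat.mul_pos (NeZero.pos g) hM
  have hx0 : res g M (cornerOrigin g M u).1 (u.1 + 1) = 0 := by simp [cornerOrigin, res]
  have hband : ∀ y, Forced L (cornerEv L u) (u.1 + 1 - 1, y)
      fun c => c.addr = addrAt (g * M + (M - 1)) 0 := by
    intro y
    rw [add_sub_cancel_right]
    have h0 := forced_cornerEv_left (L := L) u
    rw [addrAt_band (by omega) (by rw [side_eq]; omega)] at h0 ⊢
    exact forced_band_col h0 y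
  have h₀ : Forced L (cornerEv L u) (u.1 + 1, u.2)
      (OnGrid (cornerOrigin g M u) (u.1 + 1, u.2)) := by
    refine (forced_cornerEv_right u).mono fun c hc => ?_
    rw [OnGrid, hx0, res_cornerOrigin]
    exact hc
  have base : AlignCol L (cornerEv L u) (cornerOrigin g M u) (u.1 + 1) :=
    alignCol_zero hx0 hband h₀
  have all : ∀ k : ℕ, AlignCol L (cornerEv L u) (cornerOrigin g M u) (u.1 + 1 + k) ∧
      MarkCol L (cornerEv L u) (cornerOrigin g M u) (u.1 + 1 + k) := by
    intro k
    induction k with
    | zero =>
      simp only [Nat.cast_zero, add_zero]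
      refine ⟨base, ?_⟩
      rcases Nat.lt_or_ge 1 (g * M) with hc | hc
      · intro h'; omega
      · exact markCol_last hK (by omega) base
    | succ k ih =>
      push_cast
      rw [← add_assoc]
      exact align_succ hK ih.1 ih.2
  obtain ⟨x, y⟩ := v
  have := (all (x - (u.1 + 1)).toNat).1 y
  rw [Int.toNat_of_nonneg (by simp at hv; omega), add_sub_cancel] at this
  exact this

/-- Two origins with the same grid. -/
def SameGrid (g M : ℕ) (o o' : Cell) : Prop := res g M o.1 o'.1 = 0 ∧ res g M o.2 o'.2 = 0

omit [NeZero g] in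
theorem SameGrid.res_eq {o o' : Cell} (h : SameGrid g M o o') (v : Cell) :
    res g M o.1 v.1 = res g M o'.1 v.1 ∧ res g M o.2 v.2 = res g M o'.2 v.2 :=
  ⟨res_congr (z := o'.1) (by rw [h.1]; simp [res]) v.1,
    res_congr (z := o'.2) (by rw [h.2]; simp [res]) v.2⟩

omit [NeZero g] in
theorem sameGrid_symm {o o' : Cell} (h : SameGrid g M o o') : SameGrid g M o' o := by
  obtain ⟨e1, e2⟩ := h.res_eq o
  exact ⟨e1 ▸ (by simp [res]), e2 ▸ (by simp [res])⟩

theorem cornerEv_imp (hK : GridRule K loc) {u u' : Cell}
    (hs : SameGrid g M (cornerOrigin g M u) (cornerOrigin g M u')) (hle : u.1 ≤ u'.1) :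
    Imp E (cornerEv L u) (cornerEv L u') := by
  have hM := NeZero.pos M
  have hp : 0 < g * M := Nat.mul_pos (NeZero.pos g) hM
  have r1 : res g M (cornerOrigin g M u).1 (u'.1 + 1) = 0 := by
    rw [(hs.res_eq (u'.1 + 1, 0)).1]; simp [cornerOrigin, res]
  refine imp_cornerEv ?_ ?_
  · rcases eq_or_lt_of_le hle with he | hlt
    · have h0 := forced_cornerEv_left (L := L) u
      rw [addrAt_band (by omega) (by rw [side_eq]; omega)] at h0 ⊢
      have := forced_band_col h0 u'.2
      rwa [he] at this
    · refine (forced_aligned hK u hlt).mono fun c hc => ?_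
      rw [OnGrid] at hc
      rw [res_succ] at r1
      have hlt' := res_lt (g := g) (M := M) (cornerOrigin g M u).1 u'.1
      have e : res g M (cornerOrigin g M u).1 u'.1 = g * M + (M - 1) := by
        have hside := side_eq g M
        rcases Nat.lt_or_ge (res g M (cornerOrigin g M u).1 u'.1 + 1) (side g M) with h | h
        · rw [Nat.mod_eq_of_lt h] at r1; omega
        · omega
      rw [hc, e, addrAt_band (by omega) (by rw [side_eq]; omega),
        addrAt_band (by omega) (by rw [side_eq]; omega)]
  · refine (forced_aligned hK u (v := (u'.1 + 1, u'.2)) (by simp; omega)).mono fun c hc => ?_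
    rw [OnGrid] at hc
    rw [hc, r1, (hs.res_eq (0, u'.2)).2, res_cornerOrigin]

theorem cornerEv_disjoint (hK : GridRule K loc) {u u' : Cell}
    (hs : ¬SameGrid g M (cornerOrigin g M u) (cornerOrigin g M u')) :
    E.com (cornerEv L u) (cornerEv L u') ∧ E.inf (cornerEv L u) (cornerEv L u') = E.bot := by
  set o := cornerOrigin g M u with ho
  set o' := cornerOrigin g M u' with ho'
  have hN : (0 : ℤ) < side g M := by exact_mod_cast side_pos_of (g := g) (M := M)
  let v : Cell := (o'.1 + ((u.1 - o'.1).natAbs + (u'.1 - o'.1).natAbs + 1 : ℕ) * (side g M : ℤ),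
    o'.2)
  have h1 : u.1 < v.1 ∧ u'.1 < v.1 := by
    simp only [v]
    push_cast
    constructor <;> nlinarith [abs_nonneg (u.1 - o'.1), abs_nonneg (u'.1 - o'.1),
      le_abs_self (u.1 - o'.1), le_abs_self (u'.1 - o'.1)]
  refine (forced_aligned hK u h1.1).disjoint (forced_aligned hK u' h1.2) fun c hc hc' => hs ?_
  rw [OnGrid] at hc hc'
  have z1 : res g M o'.1 v.1 = 0 := by
    have := res_add (g := g) (M := M) o'.1
      (((u.1 - o'.1).natAbs + (u'.1 - o'.1).natAbs + 1 : ℕ) : ℤ) (r := 0) side_pos_of
    simpa [v] using this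
  have z2 : res g M o'.2 v.2 = 0 := by simp [v, res]
  rw [z1, z2, hc] at hc'
  obtain ⟨e1, e2⟩ := addrAt_eq_zero_zero (res_lt _ _) (res_lt _ _) hc'
  refine ⟨(res_congr (z := v.1) (o := o.1) (o' := o'.1) (e1.trans z1.symm) o'.1).trans
    (by simp [res]), ?_⟩
  exact e2

theorem cornerEv_com (hK : GridRule K loc) (u u' : Cell) :
    E.com (cornerEv L u) (cornerEv L u') := by
  by_cases hs : SameGrid g M (cornerOrigin g M u) (cornerOrigin g M u')
  · rcases le_total u.1 u'.1 with h | h
    · exact (cornerEv_imp hK hs h).1
    · exact E.com_symm _ _ (cornerEv_imp hK (sameGrid_symm hs) h).1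
  · exact (cornerEv_disjoint hK hs).1

/-! ## Coverage -/

/-- The corner left of `p` when `p` has the coordinates `r`. -/
def cornerAt (p : Cell) (r : Fin (side g M) × Fin (side g M)) : Cell :=
  (p.1 - r.1.val - 1 + (if g * M ≤ r.1.val then (side g M : ℤ) else 0),
    p.2 + (g * M : ℕ) - r.2.val)

/-- An ordinary colour lies below the corner of its own parent. -/
theorem full_imp_cornerEv {p : Cell} {x y : ℕ} (hx : x < g * M) (hy : y < g * M) :
    Imp E (evP L p fun c => c.addr = addrAt x y)
      (cornerEv L (p.1 - x - 1, p.2 + (g * M : ℕ) - y)) := by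
  have hM := NeZero.pos M
  have hside := side_eq g M
  set z := evP L p fun c => c.addr = addrAt x y
  have row : ∀ k : ℕ, k ≤ x →
      Forced L z (p.1 - k, p.2) fun c => c.addr = addrAt (x - k) y := by
    intro k
    induction k with
    | zero => intro; simpa [z] using Forced.self (L := L) p fun c => c.addr = addrAt x y
    | succ k ih =>
      intro hk
      refine Forced.left (P := fun c => c.addr = addrAt (x - (k + 1) + 1) y) ?_
        fun c c' hs hc => ?_
      · rw [show p.1 - ((k + 1 : ℕ) : ℤ) + 1 = p.1 - k by push_cast; ring,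
          show x - (k + 1) + 1 = x - k by omega]
        exact ih (by omega)
      · rw [hc] at hs
        exact hStep_prev (by omega) hy hs
  have h0 : Forced L z (p.1 - x, p.2) fun c => c.addr = addrAt 0 y := by
    simpa using row x le_rfl
  have hband : Forced L z (p.1 - x - 1, p.2) fun c => c.addr = addrAt (g * M + (M - 1)) y := by
    refine Forced.left (P := fun c => c.addr = addrAt 0 y) ?_ fun c c' hs hc => ?_
    · rwa [sub_add_cancel]
    · rw [hc] at hs
      exact hStep_prev_zero hy hs
  have colm : ∀ k : ℕ, y + k ≤ g * M →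
      Forced L z (p.1 - x, p.2 + k) fun c => c.addr = addrAt 0 (y + k) := by
    intro k
    induction k with
    | zero => intro; simpa using h0
    | succ k ih =>
      intro hk
      push_cast
      rw [← add_assoc (p.2 : ℤ)]
      refine (ih (by omega)).up fun c c' hs hc => ?_
      rw [hc] at hs
      rw [← add_assoc]
      exact vStep_next side_pos_of (by omega) hs
  refine imp_cornerEv ?_ ?_
  · rw [addrAt_band (by omega) (by omega)] at hband ⊢
    exact forced_band_col hband _
  · have := colm (g * M - y) (by omega)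
    rw [Nat.cast_sub hy.le, ← add_sub_assoc, show y + (g * M - y) = g * M by omega] at this
    simpa using this

variable (L) in
/-- All corner events. -/
noncomputable def cornerBlock (hK : GridRule K loc) : E.Block :=
  ⟨Set.range (cornerEv L), by rintro _ ⟨u, rfl⟩ _ ⟨u', rfl⟩; exact cornerEv_com hK u u'⟩

variable (L) in
/-- A corner event among all of them. -/
noncomputable def cornerEl (hK : GridRule K loc) (u : Cell) : (cornerBlock L hK).Elem :=
  Block.mem _ (x := cornerEv L u) ⟨u, rfl⟩

variable (L) in
/-- The join of the finitely many corners of a cell. -/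
noncomputable def cornerSup (hK : GridRule K loc) (p : Cell) : E.B :=
  (Finset.univ.sup fun r : Fin (side g M) × Fin (side g M) => cornerEl L hK (cornerAt p r)).1

theorem cornerEv_le_sup (hK : GridRule K loc) (p : Cell) (r : Fin (side g M) × Fin (side g M)) :
    Imp E (cornerEv L (cornerAt p r)) (cornerSup L hK p) :=
  ⟨(cornerEl L hK (cornerAt p r)).com _, (Block.Elem.le_iff _ _).1 (Finset.le_sup
    (f := fun r => cornerEl L hK (cornerAt p r)) (Finset.mem_univ r))⟩

omit [NeZero g] [NeZero M] in
/-- The relation at a cell, seen from the cell itself. -/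
theorem Forced.own {p : Cell} (hz : Forced L z p P)
    (h : ∀ (c : Colour g M) (a b : Sig), (c.h, c.v) ∈ (kindAt K loc c.addr).outs a b → P c → Q c) :
    Forced L z p Q :=
  Forced.step₁ (p.1 - 1, p.2 - 1) (1, 1) (1, 1) (by simp [corner]) (by simp [corner]) hz
    fun _ hw hP => h _ _ _ hw.2.2 hP

omit [NeZero g] [NeZero M] in
/-- A colour refused by the relation has the zero event. -/
theorem ev_eq_bot {p : Cell} {c : Colour g M}
    (h : ∀ a b, (c.h, c.v) ∉ (kindAt K loc c.addr).outs a b) : L.ev p c = E.bot :=
  Forced.eq_bot (L := L) (p := p) ((Forced.ev p c).own fun _ a b ho hc => h a b (hc ▸ ho))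

omit [NeZero g] [NeZero M] in
/-- A colour of a band of columns equals the one at the band's last column. -/
theorem band_colour_eq (x y : ℤ) (a : Fin M) (σ : Sig) :
    L.ev (x, y) ⟨.band a, σ, .none⟩ =
      L.ev (x + ((M : ℤ) - 1 - a.val), y) ⟨.band ⟨M - 1, by have := a.2; omega⟩, σ, .none⟩ := by
  have fwd : ∀ (k : ℕ) (x : ℤ) (a : Fin M) (h : a.val + k < M),
      L.ev (x, y) ⟨.band a, σ, .none⟩ = L.ev (x + k, y) ⟨.band ⟨a.val + k, h⟩, σ, .none⟩ := by
    intro k
    induction k with
    | zero => intro x a h; simp
    | succ k ih =>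
      intro x a h
      rw [ih x a (by omega)]
      push_cast
      rw [← add_assoc x]
      set z := L.ev (x + k, y) (⟨.band ⟨a.val + k, by omega⟩, σ, .none⟩ : Colour g M)
      set z' := L.ev (x + k + 1, y) (⟨.band ⟨a.val + (k + 1), h⟩, σ, .none⟩ : Colour g M)
      refine Imp.eq ?_ ?_
      · have h1 : Forced L z (x + k + 1, y) fun c =>
            c.addr = .band ⟨a.val + (k + 1), h⟩ := by
          refine (Forced.ev _ _).right fun c c' hs hc => ?_
          rw [hc] at hs
          rcases e : c'.addr with b | b | ⟨sA, oA, sB, oB⟩ <;> rw [e] at hs <;>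
            simp only [HStep] at hs <;> first | (congr 1; exact Fin.ext (by simp; omega)) | omega
        have h2 : Forced L z (x + k + 1, y)
            (· = (⟨.band ⟨a.val + (k + 1), h⟩, σ, .none⟩ : Colour g M)) := by
          refine (Forced.ev _ _).rightOut h1 fun c c' v _ ho hc hc' => ?_
          rw [hc, hc'] at ho
          simp only [kindAt, Kind.outs, List.mem_singleton, Prod.mk.injEq] at ho
          obtain ⟨ad, hh, vv⟩ := c'
          simp only [Colour.mk.injEq] at hc' ⊢
          exact ⟨hc', ho.1, ho.2⟩
        have h3 : Imp E z (evP L (x + k + 1, y) _) := h2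
        rwa [evP_single] at h3
      · have h1 : Forced L z' (x + k, y) fun c => c.addr = .band ⟨a.val + k, by omega⟩ := by
          refine Forced.left (Forced.ev _ _) fun c c' hs hc => ?_
          rw [hc] at hs
          rcases e : c.addr with b | b | ⟨sA, oA, sB, oB⟩ <;> rw [e] at hs <;>
            simp only [HStep] at hs <;> first | (congr 1; exact Fin.ext (by simp; omega)) | omega
        have h1v : Forced L z' (x + k, y) fun c =>
            c.addr = .band ⟨a.val + k, by omega⟩ ∧ c.v = .none := by
          refine h1.own fun c a' b' ho hc => ⟨hc, ?_⟩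
          rw [hc] at ho
          simp only [kindAt, Kind.outs, List.mem_singleton, Prod.mk.injEq] at ho
          exact ho.2
        have h2 : Forced L z' (x + k, y)
            (· = (⟨.band ⟨a.val + k, by omega⟩, σ, .none⟩ : Colour g M)) := by
          refine Forced.step₂ (x + k, y - 1) (0, 1) (1, 1) (0, 1) (by simp [corner])
            (by simp [corner]) (by simp [corner]) h1v (Forced.ev _ _) fun w hw hc hc' => ?_
          have ho := hw.2.2
          simp only [Event.Ok, winEvent, hc', kindAt, Kind.outs, List.mem_singleton,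
            Prod.mk.injEq] at ho
          rcases hq : w (0, 1) with ⟨ad, hh, vv⟩
          rw [hq] at hc ho
          simp only [Colour.mk.injEq] at hc ⊢
          exact ⟨hc.1, ho.1.symm, hc.2⟩
        have h3 : Imp E z' (evP L (x + k, y) _) := h2
        rwa [evP_single] at h3
  have := fwd (M - 1 - a.val) x a (by have := a.2; omega)
  rw [show ((M - 1 - a.val : ℕ) : ℤ) = (M : ℤ) - 1 - a.val by have := a.2; omega] at this
  rw [this]
  congr 3
  exact Fin.ext (by simp; have := a.2; omega)

omit [NeZero g] in
/-- A colour of a band of rows equals the one at the band's first row. -/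
theorem bandP_colour_eq (x y : ℤ) (b : Fin M) (σ : Sig) :
    L.ev (x, y) ⟨.bandP b, .none, σ⟩ = L.ev (x, y - b.val) ⟨.bandP 0, .none, σ⟩ := by
  have fwd : ∀ (k : ℕ) (hk : k < M) (y : ℤ),
      L.ev (x, y + k) ⟨.bandP ⟨k, hk⟩, .none, σ⟩ = L.ev (x, y) ⟨.bandP 0, .none, σ⟩ := by
    intro k
    induction k with
    | zero => intro hk y; simp
    | succ k ih =>
      intro hk y
      rw [← ih (by omega) y]
      push_cast
      rw [← add_assoc y]
      set z := L.ev (x, y + k + 1) (⟨.bandP ⟨k + 1, hk⟩, .none, σ⟩ : Colour g M)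
      set z' := L.ev (x, y + k) (⟨.bandP ⟨k, by omega⟩, .none, σ⟩ : Colour g M)
      refine Imp.eq ?_ ?_
      · have h1 : Forced L z (x, y + k) fun c => c.addr = .bandP ⟨k, by omega⟩ := by
          refine Forced.down (Forced.ev _ _) fun c c' hs hc => ?_
          rw [hc] at hs
          rcases e : c.addr with a' | b' | ⟨sA, oA, sB, oB⟩ <;> rw [e] at hs <;>
            simp only [VStep] at hs <;> first | (congr 1; exact Fin.ext (by simp; omega)) | omega
        have h1v : Forced L z (x, y + k) fun c =>
            c.addr = .bandP ⟨k, by omega⟩ ∧ c.h = .none := by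
          refine h1.own fun c a' b' ho hc => ⟨hc, ?_⟩
          rw [hc] at ho
          simp only [kindAt, Kind.outs] at ho
          split at ho
          · simp only [List.mem_singleton, Prod.mk.injEq] at ho; exact ho.1
          · simp at ho
        have h2 : Forced L z (x, y + k)
            (· = (⟨.bandP ⟨k, by omega⟩, .none, σ⟩ : Colour g M)) := by
          refine Forced.step₂ (x - 1, y + k) (1, 0) (1, 1) (1, 0) (by simp [corner])
            (by simp [corner, add_assoc]) (by simp [corner]) h1v (Forced.ev _ _)
            fun w hw hc hc' => ?_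
          have ho := hw.2.2
          simp only [Event.Ok, winEvent, hc', kindAt, Kind.outs] at ho
          rcases hq : w (1, 0) with ⟨ad, hh, vv⟩
          rw [hq] at hc ho
          split at ho
          · simp only [List.mem_singleton, Prod.mk.injEq] at ho
            simp only [Colour.mk.injEq] at hc ⊢
            exact ⟨hc.1, hc.2, ho.2.symm⟩
          · simp at ho
        have h3 : Imp E z (evP L (x, y + k) _) := h2
        rwa [evP_single] at h3
      · have h1 : Forced L z' (x, y + k + 1) fun c => c.addr = .bandP ⟨k + 1, hk⟩ := by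
          refine (Forced.ev _ _).up fun c c' hs hc => ?_
          rw [hc] at hs
          rcases e : c'.addr with a' | b' | ⟨sA, oA, sB, oB⟩ <;> rw [e] at hs <;>
            simp only [VStep] at hs <;> first | (congr 1; exact Fin.ext (by simp; omega)) | omega
        have h2 : Forced L z' (x, y + k + 1)
            (· = (⟨.bandP ⟨k + 1, hk⟩, .none, σ⟩ : Colour g M)) := by
          refine Forced.step₂ (x - 1, y + k) (1, 0) (1, 1) (1, 1) (by simp [corner])
            (by simp [corner, add_assoc]) (by simp [corner, add_assoc]) (Forced.ev _ _) h1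
            fun w hw hc hc' => ?_
          have ho := hw.2.2
          simp only [Event.Ok, winEvent, hc', hc, kindAt, Kind.outs] at ho
          rcases hq : w (1, 1) with ⟨ad, hh, vv⟩
          rw [hq] at hc' ho
          split at ho
          · simp only [List.mem_singleton, Prod.mk.injEq] at ho
            simp only [Colour.mk.injEq] at hc' ⊢
            exact ⟨hc', ho.1, ho.2⟩
          · simp at ho
        have h3 : Imp E z' (evP L (x, y + k + 1) _) := h2
        rwa [evP_single] at h3
  have := fwd b.val b.2 (y - b.val)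
  rwa [sub_add_cancel] at this

/-- What holds below every corner of `p` and passes to joins of pieces holds for every colour. -/
theorem colour_cases (Φ : E.B → Prop) (p : Cell) (hbot : Φ E.bot)
    (hcorner : ∀ x (r : Fin (side g M) × Fin (side g M)),
      Imp E x (cornerEv L (cornerAt p r)) → Φ x)
    (hpiece : ∀ x q, (∀ c, E.com x (L.ev q c)) → (∀ c, Φ (E.inf x (L.ev q c))) → Φ x)
    (c : Colour g M) : Φ (L.ev p c) := by
  have hM := NeZero.pos M
  have hp : 0 < g * M := Nat.mul_pos (NeZero.pos g) hM
  have hside := side_eq g M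
  obtain ⟨x, y⟩ := p
  have corner_of : ∀ (e : E.B) (r1 r2 : ℕ) (h1 : r1 < side g M) (h2 : r2 < side g M) (u : Cell),
      cornerAt (x, y) (⟨r1, h1⟩, ⟨r2, h2⟩) = u → Imp E e (cornerEv L u) → Φ e :=
    fun e r1 r2 h1 h2 u hu he => hcorner e _ (hu ▸ he)
  rcases hc : c with ⟨ad, σ, τ⟩
  rcases ad with a | b | ⟨sA, oA, sB, oB⟩
  · -- the band of columns
    by_cases hτ : τ = .none
    swap
    · rw [ev_eq_bot fun _ _ ho => hτ ?_]
      · exact hbot
      · simp only [kindAt, Kind.outs, List.mem_singleton, Prod.mk.injEq] at ho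
        exact ho.2
    subst hτ
    rw [band_colour_eq]
    refine hpiece _ (x + ((M : ℤ) - 1 - a.val) + 1, y)
      (fun c' => L.near _ _ _ _ (by simp) (by simp)) fun c' => ?_
    set q : Cell := (x + ((M : ℤ) - 1 - a.val), y) with hq
    set z := E.inf (L.ev q (⟨.band ⟨M - 1, by omega⟩, σ, .none⟩ : Colour g M))
      (L.ev (x + ((M : ℤ) - 1 - a.val) + 1, y) c')
    have hcom : E.com (L.ev q (⟨.band ⟨M - 1, by omega⟩, σ, .none⟩ : Colour g M))
        (L.ev (x + ((M : ℤ) - 1 - a.val) + 1, y) c') := L.near _ _ _ _ (by simp [hq]) (by simp [hq])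
    have hl : Forced L z q fun d => d.addr = .band ⟨M - 1, by omega⟩ :=
      ((Forced.ev _ _).of_imp (inf_imp_left hcom)).mono fun d hd => by rw [hd]
    have hr : Forced L z (q.1 + 1, q.2) (· = c') := (Forced.ev _ _).of_imp (inf_imp_right hcom)
    rcases e : c'.addr with a' | b' | ⟨sA, oA, sB, oB⟩
    · suffices z = E.bot by rw [this]; exact hbot
      refine Forced.eq_bot (L := L) (p := (q.1 + 1, q.2)) ((hl.right
        (Q := fun d => d ≠ c') fun d d' hs hd hd' => ?_).and hr |>.mono fun d hd => hd.1 hd.2)
      rw [hd, hd', e] at hs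
      simp only [HStep] at hs
      omega
    · refine corner_of z (g * M + a.val) (g * M + b'.val) (by omega) (by omega)
        (q.1, y - b'.val) ?_ ?_
      · simp only [cornerAt, Nat.le_add_right, if_true, hq, Prod.mk.injEq]
        constructor
        · rw [hside]; push_cast; ring
        · push_cast; ring
      · have hb : Forced L z (q.1 + 1, y - b'.val) fun d => d.addr = .bandP 0 := by
          have down : ∀ (k : ℕ) (hk : k ≤ b'.val), Forced L z (q.1 + 1, y - k)
              fun d => d.addr = .bandP ⟨b'.val - k, by omega⟩ := by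
            intro k
            induction k with
            | zero => intro; simpa [hq] using hr.mono fun d hd => by rw [hd, e]
            | succ k ih =>
              intro hk
              refine Forced.down (P := fun d => d.addr = .bandP ⟨b'.val - k, by omega⟩) ?_
                fun d d' hs hd => ?_
              · rw [show y - ((k + 1 : ℕ) : ℤ) + 1 = y - k by push_cast; ring]
                exact ih (by omega)
              · rw [hd] at hs
                rcases e' : d.addr with a'' | b'' | ⟨sA, oA, sB, oB⟩ <;> rw [e'] at hs <;>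
                  simp only [VStep] at hs <;>
                  first | (congr 1; exact Fin.ext (by simp; omega)) | omega
          refine (down b'.val le_rfl).mono fun d hd => ?_
          rw [hd]; congr 1; exact Fin.ext (by simp)
        refine imp_cornerEv ?_ ?_
        · rw [addrAt_band (by omega) (by omega)]
          refine forced_band_col (y := y) ?_ _
          convert hl using 2 with d
          simp
        · rw [addrAt_bandP hp le_rfl (by omega)]
          convert hb using 2 with d
          simp
    · have h0 : Forced L z (q.1 + 1, q.2) fun d => d.addr = addrAt 0 (pos sB oB) := by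
        refine ((hl.right (Q := fun d => d = c' → pos sA oA = 0) fun d d' hs hd hd' => ?_).and
          hr).mono fun d hd => ?_
        · rw [hd, hd', e] at hs
          exact hs.2
        · rw [hd.2, e, full_eq_addrAt, hd.1 hd.2]
      have hB := pos_lt sB oB
      refine corner_of z (g * M + a.val) (pos sB oB) (by omega) (by omega)
        (q.1 + 1 - (0 : ℕ) - 1, y + (g * M : ℕ) - pos sB oB) ?_ ?_
      · simp only [cornerAt, Nat.le_add_right, if_true, hq, Prod.mk.injEq, and_true]
        rw [hside]; push_cast; ring
      · have := full_imp_cornerEv (L := L) (p := (q.1 + 1, q.2)) hp hB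
        exact Imp.trans h0 this
  · -- the band of rows
    by_cases hσ : σ = .none
    swap
    · rw [ev_eq_bot fun _ _ ho => hσ ?_]
      · exact hbot
      · simp only [kindAt, Kind.outs] at ho
        split at ho
        · simp only [List.mem_singleton, Prod.mk.injEq] at ho; exact ho.1
        · simp at ho
    subst hσ
    rw [bandP_colour_eq]
    refine hpiece _ (x, y - b.val - 1) (fun c' => L.near _ _ _ _ (by simp) (by simp)) fun c' => ?_
    set q : Cell := (x, y - b.val) with hq
    set z := E.inf (L.ev q (⟨.bandP 0, .none, τ⟩ : Colour g M)) (L.ev (x, y - b.val - 1) c')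
    have hcom : E.com (L.ev q (⟨.bandP 0, .none, τ⟩ : Colour g M)) (L.ev (x, y - b.val - 1) c') :=
      L.near _ _ _ _ (by simp [hq]) (by simp [hq])
    have hu : Forced L z (x, y - b.val - 1 + 1) fun d => d.addr = .bandP 0 := by
      rw [sub_add_cancel]
      exact ((Forced.ev _ _).of_imp (inf_imp_left hcom)).mono fun d hd => by rw [hd]
    have hd' : Forced L z (x, y - b.val - 1) (· = c') :=
      (Forced.ev _ _).of_imp (inf_imp_right hcom)
    rcases e : c'.addr with a' | b' | ⟨sA, oA, sB, oB⟩
    · suffices z = E.bot by rw [this]; exact hbot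
      refine Forced.eq_bot (L := L) (p := (x, y - b.val - 1)) ((Forced.down
        (Q := fun d => d ≠ c') hu fun d d' hs hd hd'' => ?_).and hd' |>.mono fun d hd => hd.1 hd.2)
      rw [hd, hd'', e] at hs
      exact hs
    · suffices z = E.bot by rw [this]; exact hbot
      refine Forced.eq_bot (L := L) (p := (x, y - b.val - 1)) ((Forced.down
        (Q := fun d => d ≠ c') hu fun d d' hs hd hd'' => ?_).and hd' |>.mono fun d hd => hd.1 hd.2)
      rw [hd, hd'', e] at hs
      simp [VStep] at hs
    · have h0 : Forced L z (x, y - b.val - 1) fun d =>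
          d.addr = addrAt (pos sA oA) (g * M - 1) := by
        refine ((Forced.down (Q := fun d => d = c' → pos sB oB = g * M - 1) hu
          fun d d' hs hd hd'' => ?_).and hd').mono fun d hd => ?_
        · rw [hd, hd'', e] at hs
          have := hs.1
          omega
        · rw [hd.2, e, full_eq_addrAt, hd.1 hd.2]
      have hA := pos_lt sA oA
      refine corner_of z (pos sA oA) (g * M + b.val) (by omega) (by omega)
        (x - (pos sA oA : ℕ) - 1, y - b.val - 1 + (g * M : ℕ) - ((g * M - 1 : ℕ) : ℤ)) ?_ ?_
      · simp only [cornerAt, not_le.2 hA, if_false, Prod.mk.injEq, add_zero, true_and]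
        push_cast [Nat.cast_sub (show 1 ≤ g * M from hp)]
        ring
      · exact Imp.trans h0 (full_imp_cornerEv (L := L) (p := (x, y - b.val - 1)) hA (by omega))
  · -- an ordinary cell
    have hA := pos_lt sA oA
    have hB := pos_lt sB oB
    refine corner_of _ (pos sA oA) (pos sB oB) (by omega) (by omega)
      (x - (pos sA oA : ℕ) - 1, y + (g * M : ℕ) - (pos sB oB : ℕ)) ?_ ?_
    · simp only [cornerAt, not_le.2 hA, if_false, add_zero]
    · refine Imp.trans ?_ (full_imp_cornerEv (L := L) (p := (x, y)) hA hB)
      exact (Forced.ev (L := L) (x, y) _).mono fun d hd => by rw [hd]; exact full_eq_addrAt ..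

/-- The cell with residue `i`, seen as the origin of a grid of parents. -/
def gridOrigin (i : Fin (side g M) × Fin (side g M)) : Cell := (-(i.1.val : ℤ), -(i.2.val : ℤ))

/-- The corner of the grid in which the cell `0` has the residue `i`. -/
def cornerOf (i : Fin (side g M) × Fin (side g M)) : Cell :=
  ((gridOrigin i).1 - 1, (gridOrigin i).2 + (g * M : ℕ))

omit [NeZero g] [NeZero M] in
theorem cornerOrigin_cornerOf (i : Fin (side g M) × Fin (side g M)) :
    cornerOrigin g M (cornerOf i) = gridOrigin i := by
  simp [cornerOrigin, cornerOf]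

omit [NeZero g] in
/-- The corners of one cell have different grids. -/
theorem cornerAt_inj {p : Cell} {r r' : Fin (side g M) × Fin (side g M)}
    (h : SameGrid g M (cornerOrigin g M (cornerAt p r)) (cornerOrigin g M (cornerAt p r'))) :
    r = r' := by
  have hN : (side g M : ℤ) ≠ 0 := by have := side_pos_of (g := g) (M := M); omega
  have back : ∀ r : Fin (side g M) × Fin (side g M),
      res g M (cornerOrigin g M (cornerAt p r)).1 p.1 = r.1.val ∧
      res g M (cornerOrigin g M (cornerAt p r)).2 p.2 = r.2.val := by
    intro r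
    constructor
    · have := res_add (g := g) (M := M) (cornerOrigin g M (cornerAt p r)).1
        (if g * M ≤ r.1.val then -1 else 0) r.1.2
      convert this using 2
      simp only [cornerOrigin, cornerAt]
      split_ifs <;> ring
    · have := res_add (g := g) (M := M) (cornerOrigin g M (cornerAt p r)).2 0 r.2.2
      convert this using 2
      simp only [cornerOrigin, cornerAt]
      ring
  obtain ⟨e1, e2⟩ := h.res_eq p
  rw [(back r).1, (back r').1] at e1
  rw [(back r).2, (back r').2] at e2
  exact Prod.ext (Fin.ext e1) (Fin.ext e2)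

section

variable (hK : GridRule K loc)
include hK

/-- The corners of every cell exhaust everything. -/
theorem cornerSup_eq_top (p : Cell) : cornerSup L hK p = E.top := by
  have hle : ∀ c : Colour g M, Imp E (L.ev p c) (cornerSup L hK p) := by
    refine colour_cases (L := L) (fun x => Imp E x (cornerSup L hK p)) p (bot_imp _)
      (fun x r h => h.trans (cornerEv_le_sup hK p r)) fun x q hx h => ?_
    let S : E.Block := ⟨insert x (Set.range (L.ev q)), by
      rintro _ (rfl | ⟨c, rfl⟩) _ (rfl | ⟨d, rfl⟩)
      exacts [E.com_refl _, hx _, E.com_symm _ _ (hx _), L.near q q c d (by simp) (by simp)]⟩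
    let X : S.Elem := S.mem (x := x) (Or.inl rfl)
    let C : Colour g M → S.Elem := fun c => S.mem (Or.inr ⟨c, rfl⟩)
    let T : E.Block := ⟨insert (cornerSup L hK p)
        (Set.range fun c => E.inf x (L.ev q c)), by
      rintro _ (rfl | ⟨c, rfl⟩) _ (rfl | ⟨d, rfl⟩)
      exacts [E.com_refl _, E.com_symm _ _ (h _).1, (h _).1, (X ⊓ C _).com (X ⊓ C _)]⟩
    let Y : T.Elem := T.mem (x := cornerSup L hK p) (Or.inl rfl)
    let P : Colour g M → T.Elem := fun c => T.mem (Or.inr ⟨c, rfl⟩)
    have e : (Finset.univ.sup P).1 = x := by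
      show _ = X.1
      rw [← inf_top_eq X, ← sup_eq_top C (L.ev q) (fun _ => rfl) (L.total q),
        Finset.sup_inf_distrib_left]
      exact sup_val_congr _ _ _ fun _ _ => rfl
    have hPY : Finset.univ.sup P ≤ Y :=
      Finset.sup_le fun c _ => (Block.Elem.le_iff _ _).2 (h c).2
    rw [← e]
    exact ⟨(Finset.univ.sup P).com Y, (Block.Elem.le_iff _ _).1 hPY⟩
  let S : E.Block := ⟨insert (cornerSup L hK p) (Set.range (L.ev p)), by
    rintro _ (rfl | ⟨c, rfl⟩) _ (rfl | ⟨d, rfl⟩)
    exacts [E.com_refl _, E.com_symm _ _ (hle _).1, (hle _).1,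
      L.near p p c d (by simp) (by simp)]⟩
  let Y : S.Elem := S.mem (x := cornerSup L hK p) (Or.inl rfl)
  let C : Colour g M → S.Elem := fun c => S.mem (Or.inr ⟨c, rfl⟩)
  show Y.1 = (⊤ : S.Elem).1
  refine congrArg Subtype.val (_root_.le_antisymm _root_.le_top ?_ : Y = ⊤)
  rw [← sup_eq_top C (L.ev p) (fun _ => rfl) (L.total p)]
  exact Finset.sup_le fun c _ => (Block.Elem.le_iff _ _).2 (hle c).2

/-- Corners with the same grid are equal. -/
theorem cornerEv_eq {u u' : Cell}
    (hs : SameGrid g M (cornerOrigin g M u) (cornerOrigin g M u')) :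
    cornerEv L u = cornerEv L u' := by
  have key : ∀ u u', SameGrid g M (cornerOrigin g M u) (cornerOrigin g M u') →
      Imp E (cornerEv L u) (cornerEv L u') := by
    intro u u' hs
    have hlt : g * M < side g M := by rw [side_eq]; have := NeZero.pos M; omega
    let r0 : Fin (side g M) × Fin (side g M) := (⟨0, side_pos_of⟩, ⟨g * M, hlt⟩)
    have hr0 : cornerAt (u'.1 + 1, u'.2) r0 = u' := by
      have hp : ¬g * M ≤ 0 := by
        have := Nat.mul_pos (NeZero.pos g) (NeZero.pos M); omega
      simp [cornerAt, r0, hp]
    let U := cornerEl L hK u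
    let U' := cornerEl L hK u'
    have hU : U ≤ U' := by
      have htop : (Finset.univ.sup fun r : Fin (side g M) × Fin (side g M) =>
          cornerEl L hK (cornerAt (u'.1 + 1, u'.2) r)) = ⊤ :=
        Subtype.ext (cornerSup_eq_top hK _)
      rw [← inf_top_eq U, ← htop, Finset.sup_inf_distrib_left]
      refine Finset.sup_le fun r _ => ?_
      by_cases h : SameGrid g M (cornerOrigin g M u)
          (cornerOrigin g M (cornerAt (u'.1 + 1, u'.2) r))
      · have : r = r0 := cornerAt_inj (p := (u'.1 + 1, u'.2)) (by
          rw [hr0]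
          exact ⟨((h.res_eq (cornerOrigin g M u')).1).symm.trans hs.1,
            ((h.res_eq (cornerOrigin g M u')).2).symm.trans hs.2⟩)
        rw [this, hr0]
        exact inf_le_right
      · rw [show U ⊓ cornerEl L hK (cornerAt (u'.1 + 1, u'.2) r) = ⊥ from
          Subtype.ext (cornerEv_disjoint (L := L) hK h).2]
        exact _root_.bot_le
    exact ⟨U.com U', (Block.Elem.le_iff _ _).1 hU⟩
  exact (key u u' hs).eq (key u' u (sameGrid_symm hs))

/-- The event that the grid of parents gives the cell `0` the residue `i`. -/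
noncomputable def offsetEv (L : LocalEvents E (windows K loc))
    (i : Fin (side g M) × Fin (side g M)) : E.B :=
  cornerEv L (cornerOf i)

theorem offsetEv_com (i j : Fin (side g M) × Fin (side g M)) :
    E.com (offsetEv L i) (offsetEv L j) :=
  cornerEv_com hK _ _

theorem offsetEv_disjoint {i j : Fin (side g M) × Fin (side g M)} (h : i ≠ j) :
    E.inf (offsetEv L i) (offsetEv L j) = E.bot := by
  refine (cornerEv_disjoint hK fun hs => h ?_).2
  rw [cornerOrigin_cornerOf, cornerOrigin_cornerOf] at hs
  have back : ∀ i : Fin (side g M) × Fin (side g M),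
      res g M (gridOrigin i).1 0 = i.1.val ∧ res g M (gridOrigin i).2 0 = i.2.val := by
    intro i
    constructor
    · simpa [gridOrigin] using res_add (g := g) (M := M) (gridOrigin i).1 0 i.1.2
    · simpa [gridOrigin] using res_add (g := g) (M := M) (gridOrigin i).2 0 i.2.2
  obtain ⟨e1, e2⟩ := hs.res_eq 0
  simp only [Prod.fst_zero, Prod.snd_zero] at e1 e2
  rw [(back i).1, (back j).1] at e1
  rw [(back i).2, (back j).2] at e2
  exact Prod.ext (Fin.ext e1) (Fin.ext e2)

theorem offsetEv_total :
    (Finset.univ.toList.map fun i => E.compl (offsetEv L i)).foldr E.inf E.top = E.bot := by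
  let B := cornerBlock L hK
  let O : Fin (side g M) × Fin (side g M) → B.Elem := fun i => cornerEl L hK (cornerOf i)
  have hO : Finset.univ.sup O = ⊤ := by
    refine _root_.eq_top_iff.2 ?_
    rw [show (⊤ : B.Elem) = Finset.univ.sup fun r : Fin (side g M) × Fin (side g M) =>
      cornerEl L hK (cornerAt 0 r) from (Subtype.ext (cornerSup_eq_top (L := L) hK 0)).symm]
    refine Finset.sup_le fun r _ => ?_
    obtain ⟨i, hi⟩ : ∃ i, SameGrid g M (cornerOrigin g M (cornerAt (0 : Cell) r))
        (cornerOrigin g M (cornerOf i)) := by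
      have norm : ∀ o : ℤ, ∃ i : Fin (side g M), res g M o (-(i.val : ℤ)) = 0 := by
        intro o
        have hN := side_pos_of (g := g) (M := M)
        have h1 := Int.emod_nonneg (-o) (b := (side g M : ℤ)) (by omega)
        have h2 := Int.emod_lt_of_pos (-o) (b := (side g M : ℤ)) (by omega)
        refine ⟨⟨((-o) % (side g M : ℤ)).toNat, by omega⟩, ?_⟩
        simp only [res, Int.toNat_of_nonneg h1]
        rw [show -((-o) % (side g M : ℤ)) - o = (side g M : ℤ) * ((-o) / (side g M : ℤ)) by
          rw [Int.emod_def]; ring, Int.mul_emod_right]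
        rfl
      obtain ⟨a, ha⟩ := norm (cornerOrigin g M (cornerAt (0 : Cell) r)).1
      obtain ⟨b, hb⟩ := norm (cornerOrigin g M (cornerAt (0 : Cell) r)).2
      exact ⟨(a, b), by rw [cornerOrigin_cornerOf]; exact ⟨ha, hb⟩⟩
    refine _root_.le_trans (le_of_eq ?_) (Finset.le_sup (f := O) (Finset.mem_univ i))
    exact Subtype.ext (cornerEv_eq hK hi)
  have key : ∀ l : List (Fin (side g M) × Fin (side g M)), ∃ z : B.Elem,
      z.1 = (l.map fun i => E.compl (offsetEv L i)).foldr E.inf E.top ∧
        ∀ i ∈ l, z ≤ (O i)ᶜ := by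
    intro l
    induction l with
    | nil => exact ⟨⊤, rfl, fun _ h => absurd h List.not_mem_nil⟩
    | cons i l ih =>
      obtain ⟨z, hz, hle⟩ := ih
      refine ⟨(O i)ᶜ ⊓ z, by rw [List.map_cons, List.foldr_cons, ← hz]; rfl, fun j hj => ?_⟩
      rcases List.mem_cons.1 hj with rfl | hj
      · exact inf_le_left
      · exact inf_le_right.trans (hle j hj)
  obtain ⟨z, hz, hle⟩ := key Finset.univ.toList
  rw [← hz]
  have h0 : z ≤ (Finset.univ.sup O)ᶜ := by
    refine le_compl_comm.1 (Finset.sup_le fun i _ => le_compl_comm.1 (hle i ?_))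
    simp
  rw [hO, _root_.compl_top] at h0
  rw [show z = ⊥ from le_bot_iff.1 h0]
  rfl

/-- Every colour commutes with every offset event. -/
theorem offsetEv_com_ev (i : Fin (side g M) × Fin (side g M)) (p : Cell) (c : Colour g M) :
    E.com (offsetEv L i) (L.ev p c) := by
  refine colour_cases (L := L) (fun x => ∀ u, E.com (cornerEv L u) x) p (fun u => E.com_bot _)
    (fun x r h u => ?_) (fun x q hx h u => com_of_pieces q hx fun c => h c u) c (cornerOf i)
  by_cases hs : SameGrid g M (cornerOrigin g M (cornerAt p r)) (cornerOrigin g M u)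
  · rw [← cornerEv_eq hK hs]
    exact E.com_symm _ _ h.1
  · obtain ⟨hc, h0⟩ := cornerEv_disjoint (L := L) hK hs
    exact E.com_symm _ _ (com_of_imp_disjoint h (Imp.refl _) hc h0).1

/-- Below an offset event every cell has the address of its residue. -/
theorem offsetEv_aligned (i : Fin (side g M) × Fin (side g M)) (p : Cell) :
    Forced L (offsetEv L i) p (OnGrid (gridOrigin i) p) := by
  have hN : (0 : ℤ) < side g M := by exact_mod_cast side_pos_of (g := g) (M := M)
  let k : ℕ := ((cornerOf i).1 - p.1).natAbs + 1
  let u : Cell := ((cornerOf i).1 - (k : ℤ) * (side g M : ℤ), (cornerOf i).2)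
  have hs : SameGrid g M (cornerOrigin g M (cornerOf i)) (cornerOrigin g M u) := by
    constructor
    · have := res_add (g := g) (M := M) (cornerOrigin g M (cornerOf i)).1 (-(k : ℤ)) (r := 0)
        side_pos_of
      convert this using 2
      simp only [cornerOrigin, u]
      push_cast
      ring
    · simp [cornerOrigin, u, res]
  have hu : u.1 < p.1 := by
    simp only [u, k]
    push_cast
    nlinarith [le_abs_self ((cornerOf i).1 - p.1), abs_nonneg ((cornerOf i).1 - p.1),
      mul_le_mul_of_nonneg_left (show (1 : ℤ) ≤ side g M by omega)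
        (show (0 : ℤ) ≤ |(cornerOf i).1 - p.1| + 1 by positivity)]
  rw [offsetEv, cornerEv_eq hK hs]
  refine (forced_aligned hK u hu).mono fun c hc => ?_
  rw [OnGrid] at hc ⊢
  rw [hc, ← cornerOrigin_cornerOf i, (hs.res_eq p).1, (hs.res_eq p).2]

end

end Vale.Agent.P196.W
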