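import Vale.Agent.P196.W.RigidCtx
import Vale.Agent.P196.W.Exit

/-!
# P196: the lanes of the four bundles cross each other

A lane is read where its row enters the segments of the match rows (`laneCell`). The column that
it sends up there crosses the row of every higher lane at a cell that passes both, so any two lane
events are events of one cell and commute.
-/

namespace Vale.Agent.P196.W

open Vale.Agent.P196.Fp Vale.Agent.P196.Sft EventAlgebra

section general

variable {α : Type} [Fintype α] {W : Set (Win α)} {E : EventAlgebra.{0}} {L : LocalEvents E W}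
  {z : E.B} {p q : Cell}

theorem com_evP_not {P : α → Prop} (h : E.com z (evP L p P)) :
    E.com z (evP L p fun c => ¬P c) := by
  have e : cellSup L p (fun c => ¬P c) = (cellSup L p P)ᶜ := by
    refine eq_compl_iff_isCompl.2 (IsCompl.symm ⟨?_, ?_⟩)
    · rw [disjoint_iff, cellSup_and]
      exact le_bot_iff.1 (cellSup_le fun c hc => absurd hc.1 hc.2)
    · rw [codisjoint_iff, eq_top_iff, ← sup_cellEl p]
      refine Finset.sup_le fun c _ => ?_
      by_cases hc : P c
      · exact (cellEl_le_cellSup hc).trans le_sup_left
      · exact (cellEl_le_cellSup (P := fun c => ¬P c) hc).trans le_sup_right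
  show E.com z (cellSup L p fun c => ¬P c).1
  rw [e]
  exact E.com_compl _ _ h

/-- What misses every colour outside a set is inside it. -/
theorem Forced.of_excluded {P : α → Prop}
    (h : ∀ c, ¬P c → E.com z (L.ev p c) ∧ E.inf z (L.ev p c) = E.bot) : Forced L z p P := by
  let S : E.Block := ⟨insert z {x | ∃ c, ¬P c ∧ L.ev p c = x}, by
    rintro _ (rfl | ⟨c, hc, rfl⟩) _ (rfl | ⟨d, hd, rfl⟩)
    exacts [E.com_refl _, (h d hd).1, E.com_symm _ _ (h c hc).1,
      L.near p p c d (by simp) (by simp)]⟩
  classical
  let Z : S.Elem := S.mem (x := z) (Or.inl rfl)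
  let f : {c // ¬P c} → S.Elem := fun c => S.mem (Or.inr ⟨c.1, c.2, rfl⟩)
  have e : (Finset.univ.sup f).1 = evP L p fun c => ¬P c := by
    have h1 : (Finset.univ.filter fun c => ¬P c).sup (cellEl L p) =
        Finset.univ.sup fun c : {c // ¬P c} => cellEl L p c.1 := by
      refine _root_.le_antisymm (Finset.sup_le fun c hc => ?_) (Finset.sup_le fun c _ => ?_)
      · exact Finset.le_sup (f := fun c : {c // ¬P c} => cellEl L p c.1)
          (Finset.mem_univ ⟨c, (Finset.mem_filter.1 hc).2⟩)
      · exact Finset.le_sup (f := cellEl L p) (Finset.mem_filter.2 ⟨Finset.mem_univ _, c.2⟩)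
    have h2 : evP L p (fun c => ¬P c) = (Finset.univ.sup fun c : {c // ¬P c} => cellEl L p c.1).1 :=
      by rw [← h1]; exact congrArg Subtype.val (by unfold cellSup; congr 1; ext; simp)
    rw [h2]
    exact sup_val_congr _ _ _ fun _ _ => rfl
  have hzc : E.com z (evP L p fun c => ¬P c) := e ▸ Z.com _
  have h0 : E.inf z (evP L p fun c => ¬P c) = E.bot := by
    rw [← e]
    show (Z ⊓ Finset.univ.sup f).1 = (⊥ : S.Elem).1
    congr 1
    rw [Finset.sup_inf_distrib_left]
    exact le_bot_iff.1 (Finset.sup_le fun c _ => (Block.Elem.le_iff _ _).2 (by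
      show E.inf (E.inf z (L.ev p c.1)) E.bot = E.inf z (L.ev p c.1)
      rw [(h c.1 c.2).2, E.inf_idem]))
  have hi := imp_compl_of_inf hzc h0
  have e' : cellSup L p P = (cellSup L p fun c => ¬P c)ᶜ := by
    refine eq_compl_iff_isCompl.2 ⟨?_, ?_⟩
    · rw [disjoint_iff, cellSup_and]
      exact le_bot_iff.1 (cellSup_le fun c hc => absurd hc.1 hc.2)
    · rw [codisjoint_iff, eq_top_iff, ← sup_cellEl p]
      refine Finset.sup_le fun c _ => ?_
      by_cases hc : P c
      · exact (cellEl_le_cellSup hc).trans le_sup_left
      · exact (cellEl_le_cellSup (P := fun c => ¬P c) hc).trans le_sup_right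
  show Imp E z (cellSup L p P).1
  rw [e']
  exact hi

/-- Two cell functions each value of which forces the same value of the other agree as events. -/
theorem evP_eq_of_forced {γ : Type*} {f g : α → γ}
    (h : ∀ a, Forced L (evP L p fun c => f c = a) q fun c => g c = a) (a : γ) :
    evP L p (fun c => f c = a) = evP L q fun c => g c = a := by
  refine Imp.eq (h a) (Forced.of_excluded fun c hc => ?_)
  have h1 : Forced L (L.ev p c) q fun d => g d = f c :=
    (h (f c)).of_imp ((Forced.ev p c).mono fun d hd => by rw [hd])
  exact (Forced.self q fun d => g d = a).disjoint h1 fun d hd hd' => hc (hd'.symm.trans hd)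

/-- Equal knowledge of two sets gives equal events. -/
theorem evP_eq_of_iff {P Q : α → Prop} (h : ∀ z, Forced L z p P ↔ Forced L z q Q) :
    evP L p P = evP L q Q :=
  Imp.eq ((h _).1 (Forced.self _ _)) ((h _).2 (Forced.self _ _))

end general

noncomputable section

variable {T : Tables} {M0 n : ℕ} [NeZero M0] {E : EventAlgebra.{0}}
  {L : LocalEvents E (rules T M0 n)} {o : Cell} {z : E.B}

/-- The kind passes on what `f` reads in the signal from below. -/
def KeepsVia {γ : Type} (f : Sig → γ) (k : Kind) : Prop :=
  ∀ h v, ∀ p ∈ k.outs h v, f p.2 = f v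

theorem KeepsV.via {γ : Type} {k : Kind} (h : KeepsV k) (f : Sig → γ) : KeepsVia f k :=
  fun a b p hp => congrArg f (h a b p hp)

/-- The parity of a line. -/
def lineU (s : Sig) : Option Bool := s.line?.map Line.u

theorem keepsVia_cross (c : Cross) : KeepsVia lineU (.cross c) := fun h v p hp => by
  simp only [Kind.outs] at hp
  split at hp <;> simp at hp
  · rename_i a b ha hb
    simp only [lineU, hp, hb]
    rfl
  · simp [hp]

/-- Along kinds that pass it on, a part of a column signal is known at both ends or at neither. -/
theorem wireVia {γ : Type} {f : Sig → γ} (hF : Flat L o) (P : Cell) (X : XSeg) {x : ℕ}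
    (hx : x < segLen M0 n) {Y₀ Y : YSeg} {y₀ y : ℕ} (hy₀ : y₀ < segLen M0 n)
    (hy : y < segLen M0 n) (hle : ylin (segLen M0 n) Y₀ y₀ ≤ ylin (segLen M0 n) Y y)
    (hk : ∀ Y' y', y' < segLen M0 n →
      ylin (segLen M0 n) Y₀ y₀ < ylin (segLen M0 n) Y' y' →
      ylin (segLen M0 n) Y' y' ≤ ylin (segLen M0 n) Y y →
      KeepsVia f (kindOn X Y' (T.loc M0 n x y')))
    (S : γ → Prop) :
    Forced L z (namedCell M0 n o P X x Y y) (fun c => S (f c.v)) ↔
      Forced L z (namedCell M0 n o P X x Y₀ y₀) fun c => S (f c.v) := by
  induction hm : ylin (segLen M0 n) Y y using Nat.strong_induction_on generalizing Y y with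
  | _ m ih =>
    subst hm
    rcases hle.eq_or_lt with h | h
    · obtain ⟨rfl, rfl⟩ := ylin_inj hy₀ hy h; rfl
    · have hne : ¬(Y = .y0 ∧ y = 0) := by
        rintro ⟨rfl, rfl⟩; simp [ylin, YSeg.index] at h
      obtain ⟨Y', y', hy', hp⟩ := exists_yPred (segLen_pos n) hy hne
      have hs := hp.ylin_succ
      have hkk := kindAt_lin T X hx Y hy ▸ hk Y y hy h le_rfl
      have e : Forced L z (namedCell M0 n o P X x Y y) (fun c => S (f c.v)) ↔
          Forced L z (bCell (namedCell M0 n o P X x Y y)) fun c => S (f c.v) := by
        constructor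
        · intro hC
          exact flat_back_below hF P (ord_lt_tsize (xlin_lt X hx)) (ord_lt_tsize (ylin_lt Y hy))
            (Forced.univ _ _) (Forced.univ _ _) hC fun l d c ho _ _ hc => by
              have := hkk _ _ _ ho; simp only at this; rwa [← this]
        · intro hB
          exact flat_step hF P (ord_lt_tsize (xlin_lt X hx)) (ord_lt_tsize (ylin_lt Y hy))
            (Forced.univ _ _) hB (Forced.univ _ _) fun l d c _ ho _ hd _ => by
              have := hkk _ _ _ ho; simp only at this; rwa [this]
      rw [bCell_pred _ _ hp] at e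
      exact e.trans (ih _ (by omega) hy' (by omega)
        (fun A a ha' h1 h2 => hk A a ha' h1 (by omega)) rfl)

/-- At a fan the two signals leaving are the signal from the left. -/
theorem fan_iff (hF : Flat L o) (P : Cell) (X : XSeg) {x : ℕ} (hx : x < segLen M0 n) (Y : YSeg)
    {y : ℕ} (hy : y < segLen M0 n) (hk : kindOn X Y (T.loc M0 n x y) = .fanUp) (S : Sig → Prop) :
    Forced L z (namedCell M0 n o P X x Y y) (fun c => S c.v) ↔
      Forced L z (namedCell M0 n o P X x Y y) fun c => S c.h := by
  constructor <;> intro hC <;>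
    refine named_step hF P X hx Y hy (Forced.univ _ _) (Forced.univ _ _) hC
      fun l d c ho _ _ hc => ?_ <;>
    rw [hk] at ho <;> simp only [Kind.outs, List.mem_singleton, Prod.mk.injEq] at ho
  · rwa [ho.1, ← ho.2]
  · rwa [ho.2, ← ho.1]

/-- A turn to the right. -/
theorem turnRight_iff (hF : Flat L o) (P : Cell) (X : XSeg) {x : ℕ} (hx : x < segLen M0 n)
    (Y : YSeg) {y : ℕ} (hy : y < segLen M0 n)
    (hk : kindOn X Y (T.loc M0 n x y) = .turnRight) (S : Sig → Prop) :
    Forced L z (namedCell M0 n o P X x Y y) (fun c => S c.h) ↔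
      Forced L z (bCell (namedCell M0 n o P X x Y y)) fun c => S c.v := by
  constructor
  · intro hC
    refine flat_back_below hF P (ord_lt_tsize (xlin_lt X hx)) (ord_lt_tsize (ylin_lt Y hy))
      (Forced.univ _ _) (Forced.univ _ _) hC fun l d c ho _ _ hc => ?_
    rw [kindAt_lin T X hx Y hy, hk] at ho
    simp only [Kind.outs, List.mem_singleton, Prod.mk.injEq] at ho
    rwa [← ho.1]
  · intro hB
    refine named_step hF P X hx Y hy (Forced.univ _ _) hB (Forced.univ _ _)
      fun l d c ho _ hd _ => ?_
    rw [hk] at ho
    simp only [Kind.outs, List.mem_singleton, Prod.mk.injEq] at ho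
    rwa [ho.1]

/-! ## The lanes -/

/-- The row segment of the lanes of bundle `c`. -/
def laneSeg (c : Fin 4) (src : Bool) : YSeg := if src then .r c else .rd c

/-- The roles of the lanes of a row segment. -/
def laneOk (src : Bool) (s : Sym) : Bool := if src then s.isSrc else s.isDerived

/-- Where a lane of a bundle is read. -/
def laneCell (M0 n : ℕ) (o P : Cell) (c : Fin 4) (src : Bool) (y : ℕ) : Cell :=
  namedCell M0 n o P (.pa 0) 0 (laneSeg c src) y

/-- The event that a lane of a bundle carries a signal of `S`. -/
def laneEv (L : LocalEvents E (rules T M0 n)) (o P : Cell) (c : Fin 4) (src : Bool) (y : ℕ)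
    (S : Sig → Prop) : E.B :=
  evP L (laneCell M0 n o P c src y) fun d => S d.h

omit [NeZero M0] in
theorem paClass_surjective : Function.Surjective paClass := by decide

theorem pa_row_keep (cc : Fin 4) (c : Fin 4) (src : Bool) (l : Loc) :
    KeepsH (kindOn (.pa cc) (laneSeg c src) l) := by
  cases src <;> simp only [laneSeg, kindOn, paKind, if_true, Bool.false_eq_true, if_false] <;>
    split_ifs <;>
    first
      | exact keepsH_pass
      | (rcases turnAt_cases Sym.isSrc .fanUp l with h | h <;> rw [h] <;>
          first | exact keepsH_fanUp | exact keepsH_pass)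
      | (rcases turnAt_cases Sym.isDerived .fanUp l with h | h <;> rw [h] <;>
          first | exact keepsH_fanUp | exact keepsH_pass)

/-- A lane reads the same all along the segments of the address rows. -/
theorem lane_wire (hF : Flat L o) (P : Cell) (c : Fin 4) (src : Bool) {y : ℕ}
    (hy : y < segLen M0 n) (cc : Fin 4) {x : ℕ} (hx : x < segLen M0 n) (S : Sig → Prop) :
    evP L (namedCell M0 n o P (.pa cc) x (laneSeg c src) y) (fun d => S d.h) =
      laneEv L o P c src y S := by
  refine evP_eq_of_iff fun z => wireH hF P _ hy (segLen_pos n) hx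
    ((xlin_le_iff (segLen_pos n) hx).2 ?_) ?_ S
  · rw [sinceX_iff]; simp [XSeg.index]; omega
  · intro X' x' hx' h1 h2
    rw [xlin_lt_iff (segLen_pos n) hx', sinceX_iff] at h1
    rw [xlin_le_iff hx' hx, sinceX_iff] at h2
    cases X' <;> simp [XSeg.index] at h1 h2 <;>
      first | exact pa_row_keep _ c src _ | omega

/-- The column of a lane in its segment of the address rows. -/
theorem lane_col (hF : Flat L o) (P : Cell) (c : Fin 4) (src : Bool) {x : ℕ}
    (hx : x < segLen M0 n) (hok : laneOk src (symAt T M0 n x) = true) {cc : Fin 4}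
    (hcc : paClass cc = c) {Y : YSeg} {y : ℕ} (hy : y < segLen M0 n)
    (hY : Y.index ≤ 12) (hle : sinceY (laneSeg c src) x Y y) (S : Sig → Prop) :
    evP L (namedCell M0 n o P (.pa cc) x Y y) (fun d => S d.v) = laneEv L o P c src x S := by
  rw [← lane_wire hF P c src hx cc hx S]
  have hfan : kindOn (.pa cc) (laneSeg c src) (T.loc M0 n x x) = .fanUp := by
    have e : (T.loc M0 n x x).cross.eq = true := by simp [Tables.loc, Tables.crossAt]
    cases src <;>
      simp only [laneOk, if_true, Bool.false_eq_true, if_false] at hok <;>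
      simp [laneSeg, kindOn, paKind, hcc, turnAt, e, show (T.loc M0 n x x).y.sym =
        symAt T M0 n x from rfl, hok]
  refine (evP_eq_of_iff fun z => ?_).trans (evP_eq_of_iff fun z =>
    fan_iff hF P (.pa cc) hx (laneSeg c src) hx hfan S)
  refine wireV hF P _ hx hx hy ((ylin_le_iff hx hy).2 hle) ?_ S
  intro Y' y' hy' h1 h2
  rw [ylin_lt_iff hx hy', sinceY_iff] at h1
  rw [ylin_le_iff hy' hy, sinceY_iff] at h2
  have hxy : ∀ d, Y' = laneSeg d src → d = c → (T.loc M0 n x y').cross.eq = false := by
    intro d hd hdc
    subst hdc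
    subst hd
    simp only [Tables.loc, Tables.crossAt, decide_eq_false_iff_not]
    intro e
    exact h1 (Or.inr ⟨rfl, e.ge⟩)
  have hsym : ∀ src', src' ≠ src → laneOk src' (symAt T M0 n x) = false := by
    intro src' hne
    cases src <;> cases src' <;> simp [laneOk] at hne hok ⊢ <;>
      revert hok <;> cases symAt T M0 n x <;> simp [Sym.isSrc, Sym.isDerived]
  have hY' : Y'.index ≤ 12 := by omega
  cases Y' <;> simp [YSeg.index] at hY' <;> try omega
  all_goals simp only [kindOn, paKind]
  all_goals try exact keepsV_pass
  · rename_i d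
    by_cases hd : d = paClass cc
    · rw [if_pos hd]
      cases src
      · by_cases he : (T.loc M0 n x y').cross.eq = true
        · have hxy' : x = y' := by simpa [Tables.loc, Tables.crossAt] using he
          simp only [turnAt]
          rw [if_neg]
          · exact keepsV_pass
          · rintro ⟨-, h⟩
            have := hsym true (by simp)
            simp only [laneOk, if_true] at this
            rw [show (T.loc M0 n x y').y.sym = symAt T M0 n x from by rw [← hxy']; rfl, this] at h
            exact Bool.false_ne_true h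
        · rw [turnAt_off (by simpa using he)]; exact keepsV_pass
      · rw [turnAt_off (hxy d rfl (hd.trans hcc))]; exact keepsV_pass
    · rw [if_neg hd]; exact keepsV_pass
  · rename_i d
    by_cases hd : d = paClass cc
    · rw [if_pos hd]
      cases src
      · rw [turnAt_off (hxy d rfl (hd.trans hcc))]; exact keepsV_pass
      · by_cases he : (T.loc M0 n x y').cross.eq = true
        · have hxy' : x = y' := by simpa [Tables.loc, Tables.crossAt] using he
          simp only [turnAt]
          rw [if_neg]
          · exact keepsV_pass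
          · rintro ⟨-, h⟩
            have := hsym false (by simp)
            simp only [laneOk, Bool.false_eq_true, if_false] at this
            rw [show (T.loc M0 n x y').y.sym = symAt T M0 n x from by rw [← hxy']; rfl, this] at h
            exact Bool.false_ne_true h
        · rw [turnAt_off (by simpa using he)]; exact keepsV_pass
    · rw [if_neg hd]; exact keepsV_pass

theorem laneSeg_index_le (c : Fin 4) (src : Bool) : (laneSeg c src).index ≤ 12 := by
  cases src <;> simp [laneSeg, YSeg.index] <;> omega

theorem laneSeg_injective {c c' : Fin 4} {src src' : Bool} (h : laneSeg c src = laneSeg c' src') :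
    c = c' ∧ src = src' := by
  cases src <;> cases src' <;> simp [laneSeg] at h <;> simp [h]

/-- Any two lanes of the four bundles commute. -/
theorem laneEv_com (hF : Flat L o) (P : Cell) {c c' : Fin 4} {src src' : Bool} {y y' : ℕ}
    (hy : y < segLen M0 n) (hy' : y' < segLen M0 n)
    (hok : laneOk src (symAt T M0 n y) = true) (hok' : laneOk src' (symAt T M0 n y') = true)
    (S S' : Sig → Prop) : E.com (laneEv L o P c src y S) (laneEv L o P c' src' y' S') := by
  have key : ∀ {c c' : Fin 4} {src src' : Bool} {y y' : ℕ}, y < segLen M0 n → y' < segLen M0 n →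
      laneOk src' (symAt T M0 n y') = true →
      sinceY (laneSeg c' src') y' (laneSeg c src) y → ∀ S S',
        E.com (laneEv L o P c src y S) (laneEv L o P c' src' y' S') := by
    intro c c' src src' y y' hy hy' hok' hle S S'
    obtain ⟨cc, hcc⟩ := paClass_surjective c'
    rw [← lane_wire hF P c src hy cc hy' S,
      ← lane_col hF P c' src' hy' hok' hcc hy (laneSeg_index_le c src) hle S']
    exact evP_com _ _ _
  by_cases h : sinceY (laneSeg c' src') y' (laneSeg c src) y
  · exact key hy hy' hok' h S S'
  · refine E.com_symm _ _ (key hy' hy hok ?_ S' S)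
    rw [sinceY_iff] at h ⊢
    omega

end

end Vale.Agent.P196.W
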