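import Vale.Agent.P196.W.RigidWalk

/-!
# P196: the compared lines below an event that knows the choices
-/

namespace Vale.Agent.P196.W

open Vale.Agent.P196.Fp Vale.Agent.P196.Sft EventAlgebra

noncomputable section

variable {T : Tables} {M0 n : ℕ} [NeZero M0] {E : EventAlgebra.{0}}
  {L : LocalEvents E (rules T M0 n)} {o : Cell} {z : E.B}

variable (P : Cell) (hF : Flat L o) {C : Choices} (hC : Knows L o z P C)
include hF

/-- A row of the first offset enters the comparisons with a foreign line or none. -/
theorem knows_ta_left {y : ℕ} (hy : y < segLen M0 n) :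
    Forced L z (lCell (namedCell M0 n o P .mx 0 .ta y)) fun c =>
      ∃ f : Option Bool, c.h = Sig.ofLine (f.map foreignLine) := by
  have hS := segLen_pos (M0 := M0) n
  have h0 : Forced L z (namedCell M0 n o P .sh 0 .ta y) fun c =>
      ∃ f : Option Bool, c.h = Sig.ofLine (f.map foreignLine) := by
    refine out_h_free P hF hS hy (Q := fun s => ∃ f : Option Bool, s = Sig.ofLine (f.map foreignLine))
      fun a b q ev => ?_
    simp only [kindOn, shKind, Tables.loc, Tables.side, decide_true, if_true] at ev
    exact resetH_out ev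
  rw [lCell_pred (X' := .src) (x' := segLen M0 n - 1) (Or.inr ⟨rfl, rfl, by omega⟩)]
  refine (wireH hF P .ta hy hS (show segLen M0 n - 1 < segLen M0 n by omega)
    ((xlin_le_iff hS (by omega)).2 (by rw [sinceX_iff]; simp [XSeg.index])) ?_
    fun s => ∃ f : Option Bool, s = Sig.ofLine (f.map foreignLine)).2 h0
  intro X' x' hx' h1 h2
  rw [xlin_lt_iff hS hx', sinceX_iff] at h1
  rw [xlin_le_iff hx' (by omega), sinceX_iff] at h2
  cases X' <;> simp [XSeg.index] at h1 h2 <;>
    first
      | omega
      | (simp [kindOn, shKind, lyKind, srcKind, Tables.loc, Tables.side, h1]; exact keepsH_pass)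

/-- A column of the second offset enters the comparisons with a foreign line or none. -/
theorem knows_tb_below {x : ℕ} (hx : x < segLen M0 n) :
    Forced L z (bCell (namedCell M0 n o P .tb x .my 0)) fun c =>
      ∃ f : Option Bool, c.v = Sig.ofLine (f.map foreignLine) := by
  have hS := segLen_pos (M0 := M0) n
  have h0 : Forced L z (namedCell M0 n o P .tb x .lx 0) fun c =>
      ∃ f : Option Bool, c.v = Sig.ofLine (f.map foreignLine) := by
    refine out_v_free P hF hx hS (Q := fun s => ∃ f : Option Bool, s = Sig.ofLine (f.map foreignLine))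
      fun a b q ev => ?_
    simp only [kindOn, tbKind, Tables.loc, Tables.side, decide_true, if_true] at ev
    exact resetV_out ev
  rw [bCell_pred _ _ (Y' := .r 3) (y' := segLen M0 n - 1) (Or.inr ⟨rfl, rfl, by omega⟩)]
  refine (wireV hF P .tb hx hS (show segLen M0 n - 1 < segLen M0 n by omega)
    ((ylin_le_iff hS (by omega)).2 (by rw [sinceY_iff]; simp [YSeg.index])) ?_
    fun s => ∃ f : Option Bool, s = Sig.ofLine (f.map foreignLine)).2 h0
  intro Y' y' hy' h1 h2
  rw [ylin_lt_iff hS hy', sinceY_iff] at h1
  rw [ylin_le_iff hy' (by omega), sinceY_iff] at h2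
  cases Y' <;> simp [YSeg.index] at h1 h2 <;>
    first
      | omega
      | (simp [kindOn, tbKind, Tables.loc, Tables.side, h1]; exact keepsV_pass)

include hC

/-- A row of the first offset leaves the comparisons as the own line. -/
theorem knows_ta_exit {y : ℕ} (hy : y < segLen M0 n) :
    SendsH L o z P .kr (segLen M0 n - 1) .ta y (Sig.ofLine (ownAt C.ox y)) := by
  have hS := segLen_pos (M0 := M0) n
  let St : ℕ → Sig → Prop := fun k s =>
    ∃ f : Option Bool, s = Sig.ofLine (cmpState (segLen M0 n) C.ox f y k)
  have main : ∀ k, k < segLen M0 n →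
      Forced L z (namedCell M0 n o P .mx k .ta y) fun c => St (k + 1) c.h := by
    intro k
    induction k using Nat.strong_induction_on with
    | _ k ih =>
      intro hk
      have hin : Forced L z (lCell (namedCell M0 n o P .mx k .ta y)) fun c => St k c.h := by
        rcases k with _ | k
        · exact (knows_ta_left P hF hy).mono fun c ⟨f, hf⟩ => ⟨f, by rw [hf, cmpState_zero hS]⟩
        · rw [lCell_pred (Or.inl ⟨rfl, rfl⟩)]; exact ih k (by omega) (by omega)
      obtain ⟨Y', y', hy', hp⟩ := exists_yPred (Y := .ta) (segLen_pos n) hy (by simp)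
      have hB : GetsV L o z P .mx k .ta y (Sig.ofLine (colLine T n C k Y' y')) :=
        GetsV.of_pred hp (knows_mx_col P hF hC hk hy'
          ((hp.since .lx hS).2 ⟨by rw [sinceY_iff]; simp [YSeg.index], by simp⟩))
      refine named_step hF P .mx hk .ta hy hin hB (Forced.univ _ _) fun l d c ev hl hd _ => ?_
      obtain ⟨f, hf⟩ := hl
      rw [hf, hd] at ev
      simp only [kindOn, mxKind] at ev
      obtain ⟨out, h1, -, h3⟩ := cmpA_out ev
      refine ⟨f, h1.trans ?_⟩
      congr 1
      refine cmpState_step hk ?_ (cmpARel_loc T M0 n k y) h3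
      simp only [colLine]
      cases C.ox with
      | none => rfl
      | some p => by_cases hp : p.1 = k <;> simp [hp]
  have hlast : SendsH L o z P .mx (segLen M0 n - 1) .ta y (Sig.ofLine (ownAt C.ox y)) :=
    (main (segLen M0 n - 1) (by omega)).mono fun c ⟨f, hf⟩ => by
      rwa [Nat.sub_add_cancel hS, cmpState_end _ _ hC.ox_lt] at hf
  refine row_on P hF .ta hy (by omega) (by omega) hlast
    ((xlin_le_iff (by omega) (by omega)).2 (by rw [sinceX_iff]; simp [XSeg.index]; omega)) ?_
  intro X' x' hx' h1 _
  rw [xlin_lt_iff (by omega) hx', sinceX_iff] at h1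
  cases X' <;> simp [XSeg.index] at h1 <;>
    first
      | omega
      | (simp [kindOn, tbKind, setAbsKind, upKind, paKind, prKind, krKind, keepsRow, Tables.loc,
          Tables.side]
         first | exact keepsH_pass | exact keepsH_passH)

/-- A column of the second offset continues as the own line above the comparisons. -/
theorem knows_tb_col {x : ℕ} {Y : YSeg} {y : ℕ} (hx : x < segLen M0 n)
    (hy : y < segLen M0 n) (h : sinceY .gap 0 Y y) :
    SendsV L o z P .tb x Y y (Sig.ofLine (ownAt C.oy x)) := by
  have hS := segLen_pos (M0 := M0) n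
  let St : ℕ → Sig → Prop := fun k s =>
    ∃ f : Option Bool, s = Sig.ofLine (cmpState (segLen M0 n) C.oy f x k)
  have main : ∀ k, k < segLen M0 n →
      Forced L z (namedCell M0 n o P .tb x .my k) fun c => St (k + 1) c.v := by
    intro k
    induction k using Nat.strong_induction_on with
    | _ k ih =>
      intro hk
      have hin : Forced L z (bCell (namedCell M0 n o P .tb x .my k)) fun c => St k c.v := by
        rcases k with _ | k
        · exact (knows_tb_below P hF hx).mono fun c ⟨f, hf⟩ => ⟨f, by rw [hf, cmpState_zero hS]⟩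
        · rw [bCell_pred _ _ (Or.inl ⟨rfl, rfl⟩)]; exact ih k (by omega) (by omega)
      obtain ⟨X', x', hx', hp⟩ := exists_xPred (X := .tb) (segLen_pos n) hx (by simp)
      have hA : GetsH L o z P .tb x .my k (Sig.ofLine (rowLine C k)) :=
        GetsH.of_pred hp (knows_my_row P hF hC hx' hk
          ((hp.since .ly hS).2 ⟨by rw [sinceX_iff]; simp [XSeg.index], by simp⟩))
      refine named_step hF P .tb hx .my hk hA hin (Forced.univ _ _) fun l d c ev hl hd _ => ?_
      obtain ⟨f, hf⟩ := hd
      rw [hf, hl] at ev
      simp only [kindOn, tbKind] at ev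
      obtain ⟨out, h1, -, h3⟩ := cmpB_out ev
      refine ⟨f, h1.trans ?_⟩
      congr 1
      refine cmpState_step hk ?_ (cmpBRel_loc T M0 n x k) h3
      simp only [rowLine]
      cases C.oy with
      | none => rfl
      | some p => by_cases hp : p.1 = k <;> simp [hp]
  have hlast : SendsV L o z P .tb x .my (segLen M0 n - 1) (Sig.ofLine (ownAt C.oy x)) :=
    (main (segLen M0 n - 1) (by omega)).mono fun c ⟨f, hf⟩ => by
      rwa [Nat.sub_add_cancel hS, cmpState_end _ _ hC.oy_lt] at hf
  have h' := sinceY_iff.1 h
  refine col_on P hF .tb hx (by omega) hy hlast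
    ((ylin_le_iff (by omega) hy).2 (by
      rw [sinceY_iff]; simp [YSeg.index] at h' ⊢; omega)) ?_
  intro Y' y' hy' h1 _
  rw [ylin_lt_iff (by omega) hy', sinceY_iff] at h1
  cases Y' <;> simp [YSeg.index] at h1 <;>
    first
      | omega
      | (simp [kindOn, tbKind, ktKind, keepsCol]
         first | exact keepsV_pass | exact keepsV_passV)
      | (simp only [kindOn, tbKind]
         repeat' split
         all_goals first | exact keepsV_exY _ _ | exact keepsV_pass)

end

end Vale.Agent.P196.W
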