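import Vale.Agent.P196.W.RigidLanes
import Vale.Agent.P196.W.Conditions

/-!
# P196: the match rows below an event that knows the bits of the lanes

A row starts true, it stays true as long as the lanes that it reads do not falsify it, and it must
not end true. So an event below which the bits of the four bundles are not allowed is zero.
-/

namespace Vale.Agent.P196.W

open Vale.Agent.P196.Fp Vale.Agent.P196.Sft EventAlgebra

noncomputable section

theorem keepsV_matchStart : KeepsV .matchStart := fun h v p hp => by
  simp [Kind.outs] at hp; simp [hp]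

theorem keepsV_matchEnd : KeepsV .matchEnd := fun h v p hp => by
  simp only [Kind.outs] at hp; split_ifs at hp <;> simp at hp; simp [hp]

section Row

variable {T : Tables} {M0 n : ℕ} [NeZero M0] {E : EventAlgebra.{0}}
  {L : LocalEvents E (rules T M0 n)} {o : Cell} {z : E.B}

/-- A row all of whose tests are passed reaches its end true, where nothing is legal. -/
theorem row_bot (hF : Flat L o) (P : Cell) {Y : YSeg} {y : ℕ} (hy : y < segLen M0 n)
    (hs : symAt T M0 n y = .mrow) (hM : 2 ≤ segLen M0 n) {K : ℕ} (seg : Fin (K + 1) → XSeg)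
    (B : ℕ) (hidx : ∀ c, (seg c).index = B + c.val) (gate : Fin (K + 1) → Fin 7)
    (hkind : ∀ c l, l.y.sym = .mrow → kindOn (seg c) Y l =
      if c = 0 ∧ l.x.first then .matchStart
      else if c = Fin.last K ∧ l.x.last then .matchEnd
      else if Sym.vis (gate c) l.x.sym then .test (l.cross.gate (gate c))
      else .pass)
    (hlit : ∀ c, ∀ x < segLen M0 n, Sym.vis (gate c) (symAt T M0 n x) = true →
      ∃ v, Forced L z (bCell (namedCell M0 n o P (seg c) x Y y)) (fun d => d.v = v) ∧
        litOk ((T.crossAt n x y).gate (gate c)) v = true) :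
    z = E.bot := by
  set M := segLen M0 n with hMdef
  have kind : ∀ c x, kindOn (seg c) Y (T.loc M0 n x y) =
      if c = 0 ∧ x = 0 then .matchStart
      else if c = Fin.last K ∧ x + 1 = M then .matchEnd
      else if Sym.vis (gate c) (symAt T M0 n x) then .test ((T.crossAt n x y).gate (gate c))
      else .pass := fun c x => by
    rw [hkind c (T.loc M0 n x y) hs]
    simp [Tables.loc, Tables.side, symAt, hMdef]
    all_goals (split_ifs <;> rfl)
  have main : ∀ (c : Fin (K + 1)) (x : ℕ), x < M → ¬(c = Fin.last K ∧ x + 1 = M) →
      Forced L z (namedCell M0 n o P (seg c) x Y y) fun d => d.h.truth = true := by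
    intro c x hx hne
    induction hm : c.val * M + x using Nat.strong_induction_on generalizing c x with
    | _ m ih =>
      subst hm
      by_cases h0 : c = 0 ∧ x = 0
      · refine named_step hF P _ hx Y hy (Forced.univ _ _) (Forced.univ _ _) (Forced.univ _ _)
          fun l d e ho _ _ _ => ?_
        rw [kind, if_pos h0] at ho
        simp [Kind.outs] at ho
        simp [ho.1, Sig.truth]
      obtain ⟨c', x', hx', hp, hlt, hne'⟩ : ∃ (c' : Fin (K + 1)) (x' : ℕ), x' < M ∧
          XPred M (seg c') x' (seg c) x ∧ c'.val * M + x' < c.val * M + x ∧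
          ¬(c' = Fin.last K ∧ x' + 1 = M) := by
        rcases Nat.eq_zero_or_pos x with rfl | hx0
        · have hc : 0 < c.val := by
            refine Nat.pos_of_ne_zero fun e => h0 ⟨Fin.ext e, rfl⟩
          refine ⟨⟨c.val - 1, by omega⟩, M - 1, by omega, Or.inr ⟨?_, rfl, by omega⟩, ?_, ?_⟩
          · rw [hidx, hidx]; simp only; omega
          · have h1 : c.val * M = (c.val - 1) * M + M := by
              conv_lhs => rw [show c.val = (c.val - 1) + 1 by omega]
              rw [add_mul, one_mul]
            simp only; omega
          · rintro ⟨e, -⟩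
            have := congrArg Fin.val e
            have := c.isLt
            simp at *
            omega
        · exact ⟨c, x - 1, by omega, Or.inl ⟨rfl, by omega⟩, by omega, fun e => by omega⟩
      have hA : Forced L z (lCell (namedCell M0 n o P (seg c) x Y y))
          fun d => d.h.truth = true := by
        rw [lCell_pred hp]; exact ih _ hlt c' x' hx' hne' rfl
      by_cases hv : Sym.vis (gate c) (symAt T M0 n x) = true
      · obtain ⟨v, hB, hl⟩ := hlit c x hx hv
        refine named_step hF P _ hx Y hy hA hB (Forced.univ _ _) fun l d e ho ha hb _ => ?_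
        rw [kind, if_neg h0, if_neg hne, if_pos hv] at ho
        simp only [Kind.outs, List.mem_singleton, Prod.mk.injEq] at ho
        rw [ho.1, hb, ha]
        show (true && _ && _) = true
        rw [Bool.true_and]; exact hl
      · refine named_step hF P _ hx Y hy hA (Forced.univ _ _) (Forced.univ _ _)
          fun l d e ho ha _ _ => ?_
        rw [kind, if_neg h0, if_neg hne, if_neg hv] at ho
        simp only [Kind.outs, List.mem_singleton, Prod.mk.injEq] at ho
        rw [ho.1]; exact ha
  have hA : Forced L z (lCell (namedCell M0 n o P (seg (Fin.last K)) (M - 1) Y y))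
      fun d => d.h.truth = true := by
    rw [lCell_pred (X' := seg (Fin.last K)) (x' := M - 2) (Or.inl ⟨rfl, by omega⟩)]
    exact main _ _ (by omega) fun e => by omega
  refine Forced.eq_bot (L := L) (named_step hF P (seg (Fin.last K))
    (show M - 1 < segLen M0 n by omega) Y hy hA (Forced.univ _ _) (Forced.univ _ _)
    (Q := fun _ => False) fun l d e ho ha _ _ => ?_)
  rw [kind, if_neg (fun e => by omega), if_pos ⟨rfl, by omega⟩] at ho
  simp [Kind.outs, ha] at ho

end Row

section Lanes

variable {n : ℕ} {E : EventAlgebra.{0}}
  {L : LocalEvents E (rules (tables layoutKind) (m0 segCount) n)} {o : Cell}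

/-- The column of a lane below its address row. -/
theorem pa_col_below (hF : Flat L o) (P : Cell) (c : Fin 4) (l : Lane segCount) {y : ℕ}
    (hy : y < segLen (m0 segCount) n) (hy0 : 0 < y) {z : E.B} {s : Sig}
    (h : Forced L z (laneCell (m0 segCount) n o P (paClass c) l.sym.isSrc (laneAt n l))
      fun d => d.h = s) :
    Forced L z (bCell (namedCell (m0 segCount) n o P (.pa c) (laneAt n l) .ma y))
      fun d => d.v = s := by
  have hx : laneAt n l < segLen (m0 segCount) n := by
    have := laneAt_add_gap_lt n l; omega
  have hok : laneOk l.sym.isSrc (symAt (tables layoutKind) (m0 segCount) n (laneAt n l)) = true := by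
    rw [show symAt (tables layoutKind) (m0 segCount) n (laneAt n l) = l.sym from
      side_sym_laneAt _ n l]
    cases l <;> rfl
  have base : Forced L z (namedCell (m0 segCount) n o P (.pa c) (laneAt n l) (.rd 3)
      (segLen (m0 segCount) n - 1)) fun d => d.v = s := by
    have hle : sinceY (laneSeg (paClass c) l.sym.isSrc) (laneAt n l) (.rd 3)
        (segLen (m0 segCount) n - 1) := by
      have := laneSeg_index_le (paClass c) l.sym.isSrc
      rw [sinceY_iff, show (YSeg.rd 3).index = 12 from rfl]
      omega
    show Imp E z _
    rw [lane_col hF P (paClass c) l.sym.isSrc hx hok rfl (by omega) (le_refl 12) hle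
      (fun t => t = s)]
    exact h
  rw [bCell_pred _ _ (Y' := .ma) (y' := y - 1) (Or.inl ⟨rfl, by omega⟩)]
  refine (wireV hF P _ hx (by omega) (by omega) ((ylin_le_iff (by omega) (by omega)).2 ?_) ?_
    fun t => t = s).2 base
  · rw [sinceY_iff, show (YSeg.rd 3).index = 12 from rfl, show YSeg.ma.index = 13 from rfl]
    omega
  · intro Y' y' hy' h1 h2
    rw [ylin_lt_iff (by omega) hy', sinceY_iff, show (YSeg.rd 3).index = 12 from rfl] at h1
    rw [ylin_le_iff hy' (by omega), sinceY_iff, show YSeg.ma.index = 13 from rfl] at h2
    obtain rfl : Y' = .ma := YSeg.eq_of_index (by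
      rw [show YSeg.ma.index = 13 from rfl]; omega)
    simp only [kindOn, paKind]
    split_ifs
    exacts [keepsV_matchStart, keepsV_matchEnd, keepsV_test _, keepsV_pass, keepsV_pass]

/-- The column of a lane below its event row. -/
theorem pr_col_below (hF : Flat L o) (P : Cell) (c : Fin 3) (l : Lane segCount)
    (hv : l.vis (prGate c) = true) {y : ℕ} (hy : y < segLen (m0 segCount) n) (hy0 : 0 < y)
    {z : E.B} {s : Sig}
    (h : Forced L z (laneCell (m0 segCount) n o P (prClass c) true (laneAt n l))
      fun d => d.h = s) :
    Forced L z (bCell (namedCell (m0 segCount) n o P (.pr c) (laneAt n l) .mr y))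
      fun d => d.v = s := by
  set x := laneAt n l with hxdef
  have hx : x < segLen (m0 segCount) n := by
    have := laneAt_add_gap_lt n l; omega
  have hsym : symAt (tables layoutKind) (m0 segCount) n x = l.sym := side_sym_laneAt _ n l
  have row : Forced L z (namedCell (m0 segCount) n o P (.pr c) x (.r (prClass c)) x)
      fun d => d.h = s := by
    refine (wireH hF P _ hx (segLen_pos n) hx
      ((xlin_le_iff (segLen_pos n) hx).2 ?_) ?_ fun t => t = s).2 h
    · rw [sinceX_iff]; simp [XSeg.index]; omega
    · intro X' x' hx' h1 h2
      rw [xlin_lt_iff (segLen_pos n) hx', sinceX_iff] at h1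
      rw [xlin_le_iff hx' hx, sinceX_iff] at h2
      cases X' <;> simp [XSeg.index] at h1 h2 <;> try omega
      · exact pa_row_keep _ (prClass c) true _
      · simp only [kindOn, prKind]
        split_ifs
        · rcases turnAt_cases _ Kind.fanUp _ with e | e <;> rw [e]
          exacts [keepsH_fanUp, keepsH_pass]
        · exact keepsH_pass
  have hfan : kindOn (.pr c) (.r (prClass c)) ((tables layoutKind).loc (m0 segCount) n x x) =
      .fanUp := by
    simp only [Lane.vis, ← hsym] at hv
    simp [symAt] at hv
    simp [kindOn, prKind, turnAt, Tables.loc, Tables.crossAt, hv]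
  have base := (fan_iff hF P (.pr c) hx (.r (prClass c)) hx hfan fun t => t = s).2 row
  rw [bCell_pred _ _ (Y' := .mr) (y' := y - 1) (Or.inl ⟨rfl, by omega⟩)]
  refine (wireV hF P _ hx hx (by omega) ((ylin_le_iff hx (by omega)).2 ?_) ?_
    fun t => t = s).2 base
  · rw [sinceY_iff]; simp [YSeg.index]; omega
  · intro Y' y' hy' h1 h2
    rw [ylin_lt_iff hx hy', sinceY_iff] at h1
    rw [ylin_le_iff hy' (by omega), sinceY_iff] at h2
    cases Y' <;> simp [YSeg.index] at h1 h2 <;> try omega
    all_goals simp only [kindOn, prKind]
    all_goals try exact keepsV_pass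
    · rename_i d
      by_cases hd : d = prClass c
      · subst hd
        rw [if_pos rfl, turnAt_off]
        · exact keepsV_pass
        · simp [Tables.loc, Tables.crossAt]; omega
      · rw [if_neg hd]; exact keepsV_pass
    · split_ifs
      exacts [keepsV_matchStart, keepsV_matchEnd, keepsV_test _, keepsV_pass, keepsV_pass]

/-- **The match rows.** An event below which the lanes of the four bundles show bits that are not
allowed is zero. -/
theorem rows_bot (hF : Flat L o) (P : Cell) (phi : Fin 4 → Lane segCount → Bool) (z : E.B)
    (hz : ∀ c l, Forced L z (laneCell (m0 segCount) n o P c l.sym.isSrc (laneAt n l))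
      fun d => d.h = .bit (phi c l))
    (h : ¬ ∀ A, allowOf layoutKind A (Assign.mask (fun c => phi (classOf c)) A)) :
    z = E.bot := by
  obtain ⟨A, hA⟩ := not_forall.1 h
  set b : Assign segCount := fun c => phi (classOf c) with hb
  have hfire : Fires (allowOf layoutKind) b b A :=
    (fires_iff _ b b A).2 ⟨hA, fun _ _ _ _ => rfl⟩
  have hy := rowAt_lt (n := n) b
  have hy0 : 0 < rowAt n b := lt_of_lt_of_le (gap_pos n) (gap_le_rowAt n b)
  have hs : symAt (tables layoutKind) (m0 segCount) n (rowAt n b) = .mrow :=
    side_sym_rowAt _ n b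
  have hM : 2 ≤ segLen (m0 segCount) n :=
    le_trans (by have := Nat.two_pow_pos n; omega)
      ((tabOK_tablesOf (g := segCount) (allowOf layoutKind)).eight_le n)
  have lane : ∀ (g : Fin 7) (x : ℕ),
      Sym.vis g (symAt (tables layoutKind) (m0 segCount) n x) = true →
      ∃ l : Lane segCount, x = laneAt n l ∧ l.vis g = true := by
    intro g x hv
    obtain ⟨l, rfl⟩ := exists_lane_of_side_sym (allowOf layoutKind) n x
      (fun e => by simp [symAt, tables, e, Sym.vis] at hv)
      (fun e => by simp [symAt, tables, e, Sym.vis] at hv)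
    rw [show symAt (tables layoutKind) (m0 segCount) n (laneAt n l) = l.sym from
      side_sym_laneAt _ n l] at hv
    exact ⟨l, rfl, hv⟩
  have lit : ∀ (g : Fin 7) (l : Lane segCount), inA g = A →
      litOk (((tables layoutKind).crossAt n (laneAt n l) (rowAt n b)).gate g)
        (.bit (b g l)) = true := by
    intro g l hg
    rw [tables, gate_laneAt_rowAt, litOk_bit]
    exact hfire g l hg
  cases A
  · refine row_bot hF P (Y := .mr) hy hs hM (fun c : Fin 3 => XSeg.pr c) 16 (fun c => rfl) prGate
      (fun c l hl => by simp [kindOn, prKind, hl]) fun c x hx hv => ?_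
    obtain ⟨l, rfl, hl⟩ := lane _ _ hv
    have hcl : classOf (prGate c) = prClass c := by fin_cases c <;> rfl
    refine ⟨.bit (b (prGate c) l), pr_col_below hF P c l hl hy hy0 ?_,
      lit _ l (by simp [inA, prGate])⟩
    have := hz (prClass c) l
    rw [show l.sym.isSrc = true from Sym.isSrc_of_vis_event hl] at this
    simpa [hb, hcl] using this
  · refine row_bot hF P (Y := .ma) hy hs hM (fun c : Fin 4 => XSeg.pa c) 12 (fun c => rfl) paGate
      (fun c l hl => by simp [kindOn, paKind, hl]) fun c x hx hv => ?_
    obtain ⟨l, rfl, hl⟩ := lane _ _ hv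
    have hcl : classOf (paGate c) = paClass c := by fin_cases c <;> rfl
    refine ⟨.bit (b (paGate c) l), pa_col_below hF P c l hy hy0 ?_,
      lit _ l (by simp [inA, paGate])⟩
    simpa [hb, hcl] using hz (paClass c) l

end Lanes

end

end Vale.Agent.P196.W
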