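import Vale.Agent.P196.W.RigidLines

/-!
# P196: the rows of the lanes below an event that knows the choices
-/

namespace Vale.Agent.P196.W

open Vale.Agent.P196.Fp Vale.Agent.P196.Sft EventAlgebra

noncomputable section

variable {T : Tables} {M0 n : ℕ} [NeZero M0] {E : EventAlgebra.{0}}
  {L : LocalEvents E (rules T M0 n)} {o : Cell} {z : E.B}

variable (P : Cell) (hF : Flat L o) {C : Choices} (hC : Knows L o z P C)
include hF hC

omit [NeZero M0] hF hC in
theorem xfirst_loc (x y : ℕ) : (T.loc M0 n x y).x.first = decide (x = 0) := rfl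

theorem knows_src_row {X : XSeg} {x y : ℕ} (hx : x < segLen M0 n) (hy : y < segLen M0 n)
    (hs : (symAt T M0 n y).isSrc = true) (h : sinceX .src 0 X x) :
    SendsH L o z P X x (.r 2) y (laneSig T M0 n C true y) := by
  have hS := segLen_pos (M0 := M0) n
  have hbase : SendsH L o z P .src 0 (.r 2) y (laneSig T M0 n C true y) := by
    have := hC.bit y hy hs
    simp only [laneSig, Sym.derived?_none hs, hs, Bool.and_self, if_true]
    exact this
  refine row_on P hF (.r 2) hy hS hx hbase ((xlin_le_iff hS hx).2 h) ?_
  intro X' x' hx' h1 _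
  have hs' : (T.loc M0 n x' y).y.sym.isSrc = true := hs
  rw [xlin_lt_iff hS hx', sinceX_iff] at h1
  cases X' <;> simp [XSeg.index] at h1 <;>
    simp [kindOn, srcKind, mxKind, tbKind, setAbsKind, upKind, paKind, prKind, krKind, keepsRow,
      hs', xfirst_loc, Ne.symm] <;>
    (repeat' split) <;>
    first
      | exact keepsH_pass | exact keepsH_passH
      | (rcases turnAt_cases _ Kind.fanUp _ with e | e <;> rw [e] <;>
          first | exact keepsH_fanUp | exact keepsH_pass)
      | (exfalso; simp_all)

/-- A row of a derived lane of the own tile. -/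
theorem knows_der_row {X : XSeg} {x y : ℕ} {q : Fin 40} (hx : x < segLen M0 n) (hy : y < segLen M0 n)
    (hq : (symAt T M0 n y).derived? = some q) (h : sinceX .src 0 X x) :
    SendsH L o z P X x (.rd 2) y (derState T M0 n C q X x) := by
  have hS := segLen_pos (M0 := M0) n
  have hdq : ∀ a, (T.loc M0 n a y).y.sym.derived? = some q := fun _ => hq
  have hd : ∀ a, (T.loc M0 n a y).y.sym.isDerived = true := fun _ => (Sym.derived?_some hq).1
  induction hm : xlin (segLen M0 n) X x using Nat.strong_induction_on generalizing X x with
  | _ m ih =>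
    subst hm
    by_cases h0 : X = .src ∧ x = 0
    · obtain ⟨rfl, rfl⟩ := h0
      refine out_h_free P hF hS hy (Q := fun s => s = _) fun a b p e => ?_
      simp [kindOn, srcKind, hd, xfirst_loc, Kind.outs] at e
      rw [e]
      cases hox : C.ox <;> cases hoy : C.oy <;>
        simp [derState, hox, hoy, sinceX_iff, XSeg.index]
    have hne : ¬(X = .x0 ∧ x = 0) := by
      rintro ⟨rfl, rfl⟩; rw [sinceX_iff] at h; simp [XSeg.index] at h
    obtain ⟨X', x', hx', hp⟩ := exists_xPred hS hx hne
    have hs := hp.xlin_succ
    have hA : GetsH L o z P X x (.rd 2) y (derState T M0 n C q X' x') :=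
      GetsH.of_pred hp (ih _ (by omega) hx' ((hp.since .src hS).2 ⟨h, h0⟩) rfl)
    have same : X ≠ .mx → X ≠ .tb → ¬(X = .setAbs ∧ x = 0) →
        derState T M0 n C q X' x' = derState T M0 n C q X x := by
      intro n1 n2 n3
      have e3 : sinceX .setAbs 0 X' x' ↔ sinceX .setAbs 0 X x := by
        rw [hp.since .setAbs hS]; simp only [and_iff_left_iff_imp]; exact fun _ => n3
      have e1 : ∀ p ∈ C.ox, (sinceX .mx p.1 X' x' ↔ sinceX .mx p.1 X x) := fun p hp' => by
        rw [hp.since .mx (hC.ox_lt p hp')]; simp [n1]
      have e2 : ∀ p ∈ C.oy, (sinceX .tb p.1 X' x' ↔ sinceX .tb p.1 X x) := fun p hp' => by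
        rw [hp.since .tb (hC.oy_lt p hp')]; simp [n2]
      cases hox : C.ox with
      | none =>
        cases hoy : C.oy with
        | none => simp [derState, hox, hoy, e3]
        | some r => simp [derState, hox, hoy, e3, e2 r hoy]
      | some p =>
        cases hoy : C.oy with
        | none => simp [derState, hox, hoy, e3, e1 p hox]
        | some r => simp [derState, hox, hoy, e3, e1 p hox, e2 r hoy]
    by_cases hmx : X = .mx
    · subst hmx
      obtain ⟨Y', y', hy', hpy⟩ := exists_yPred (Y := .rd 2) hS hy (by simp)
      have hY' : sinceY .lx 0 Y' y' :=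
        (hpy.since .lx hS).2 ⟨by rw [sinceY_iff]; simp [YSeg.index], by simp⟩
      refine out_h P hF hx hy hA (GetsV.of_pred hpy (knows_mx_col P hF hC hx hy' hY'))
        (Q := fun s => s = _) fun out ev => ?_
      have hcol : colLine T n C x Y' y' = colLine T n C x .kt 0 := by
        simp only [colLine]
        congr 1; funext p
        split_ifs with hpx
        · congr 2
          cases hoy : C.oy with
          | none => rfl
          | some r =>
            have h1 : sinceY .my r.1 Y' y' :=
              (hpy.since .my (hC.oy_lt r hoy)).2 ⟨by rw [sinceY_iff]; simp [YSeg.index], by simp⟩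
            have h2 : sinceY .my r.1 .kt 0 := by rw [sinceY_iff]; simp [YSeg.index]; omega
            simp [h1, h2]
        · rfl
      have nset : ¬sinceX .setAbs 0 .mx x := by rw [sinceX_iff]; simp [XSeg.index]
      have nset' : ¬sinceX .setAbs 0 X' x' := fun hh => nset ((hp.since .setAbs hS).1 hh).1
      have ntb : ∀ z, ¬sinceX .tb z .mx x := by intro z; rw [sinceX_iff]; simp [XSeg.index]
      have ntb' : ∀ p ∈ C.oy, ¬sinceX .tb p.1 X' x' :=
        fun p hp' hh => ntb p.1 ((hp.since .tb (hC.oy_lt p hp')).1 hh).1
      simp only [kindOn, mxKind, hdq, if_true, Kind.outs, hcol, Sig.line?_ofLine] at ev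
      have hb : ∀ X₁ x₁, (∀ p ∈ C.oy, ¬sinceX .tb p.1 X₁ x₁) → ¬sinceX .setAbs 0 X₁ x₁ →
          derState T M0 n C q X₁ x₁ = match (C.ox.bind fun p =>
            if sinceX .mx p.1 X₁ x₁ then derX T M0 n C q else Option.none) with
          | some v => Sig.bit v
          | Option.none => Sig.unset := by
        intro X₁ x₁ h1 h2
        cases hox : C.ox with
        | none =>
          cases hoy : C.oy with
          | none => simp [derState, hox, hoy, h2]
          | some r => simp [derState, hox, hoy, h2, h1 r hoy]
        | some p =>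
          cases hoy : C.oy with
          | none => simp [derState, hox, hoy, h2]; rfl
          | some r => simp [derState, hox, hoy, h2, h1 r hoy]; rfl
      rw [hb _ _ (fun p _ => ntb p.1) nset]
      rw [hb _ _ ntb' nset'] at ev
      cases hox : C.ox with
      | none =>
        simp [hox, colLine] at ev ⊢
        simp [ev]
      | some p =>
        have hlx : p.1 < segLen M0 n := hC.ox_lt p hox
        by_cases hpx : p.1 = x
        · subst hpx
          have n1 : ¬sinceX .mx p.1 X' x' := fun hh => ((hp.since .mx hlx).1 hh).2 ⟨rfl, rfl⟩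
          have n2 : sinceX .mx p.1 .mx p.1 := Or.inr ⟨rfl, le_rfl⟩
          have hx : ∀ s, (colLine T n C p.1 .kt 0).bind (predX q s) = none ∨ True := fun _ =>
            Or.inr trivial
          simp only [hox, Option.bind_some, n1, n2, if_true, if_false] at ev ⊢
          have hder : derX T M0 n C q =
              (colLine T n C p.1 .kt 0).bind (predX q (T.side M0 n p.1)) := by
            simp [derX, hox]
          simp only [Tables.loc, ← hder] at ev
          cases hv : derX T M0 n C q <;> simp [hv] at ev ⊢ <;> simp [ev]
        · have hc : colLine T n C x .kt 0 = Option.none := by simp [colLine, hox, hpx]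
          have e1 : sinceX .mx p.1 X' x' ↔ sinceX .mx p.1 .mx x := by
            rw [hp.since .mx hlx]; simp [Ne.symm hpx]
          simp only [hc, hox, Option.bind_none, Option.bind_some, e1] at ev ⊢
          simp at ev; simp [ev]
    by_cases htb : X = .tb
    · subst htb
      obtain ⟨Y', y', hy', hpy⟩ := exists_yPred (Y := .rd 2) hS hy (by simp)
      have hY' : sinceY .gap 0 Y' y' :=
        (hpy.since .gap hS).2 ⟨by rw [sinceY_iff]; simp [YSeg.index], by simp⟩
      refine out_h P hF hx hy hA (GetsV.of_pred hpy (knows_tb_col P hF hC hx hy' hY'))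
        (Q := fun s => s = _) fun out ev => ?_
      have nset : ¬sinceX .setAbs 0 .tb x := by rw [sinceX_iff]; simp [XSeg.index]
      have nset' : ¬sinceX .setAbs 0 X' x' := fun hh => nset ((hp.since .setAbs hS).1 hh).1
      have ymx : ∀ z, sinceX .mx z .tb x := by intro z; rw [sinceX_iff]; simp [XSeg.index]
      have ymx' : ∀ p ∈ C.ox, sinceX .mx p.1 X' x' := fun p hp' =>
        (hp.since .mx (hC.ox_lt p hp')).2 ⟨ymx _, by simp⟩
      simp only [kindOn, tbKind, hdq, if_true, Kind.outs, Sig.line?_ofLine] at ev
      have hb : ∀ X₁ x₁, (∀ p ∈ C.ox, sinceX .mx p.1 X₁ x₁) → ¬sinceX .setAbs 0 X₁ x₁ →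
          derState T M0 n C q X₁ x₁ = match (derX T M0 n C q).or (C.oy.bind fun p =>
            if sinceX .tb p.1 X₁ x₁ then derY T M0 n C q else Option.none) with
          | some v => Sig.bit v
          | Option.none => Sig.unset := by
        intro X₁ x₁ h1 h2
        cases hox : C.ox with
        | none =>
          cases hoy : C.oy with
          | none => simp [derState, derX, hox, hoy, h2]
          | some r => simp [derState, derX, hox, hoy, h2]; rfl
        | some p =>
          cases hoy : C.oy with
          | none => simp [derState, hox, hoy, h2, h1 p hox]; rfl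
          | some r => simp [derState, hox, hoy, h2, h1 p hox]; rfl
      rw [hb _ _ (fun p _ => ymx p.1) nset]
      rw [hb _ _ ymx' nset'] at ev
      cases hoy : C.oy with
      | none =>
        simp [hoy, ownAt] at ev ⊢
        simp [ev]
      | some p =>
        have hly : p.1 < segLen M0 n := hC.oy_lt p hoy
        by_cases hpx : p.1 = x
        · subst hpx
          have n1 : ¬sinceX .tb p.1 X' x' := fun hh => ((hp.since .tb hly).1 hh).2 ⟨rfl, rfl⟩
          have n2 : sinceX .tb p.1 .tb p.1 := Or.inr ⟨rfl, le_rfl⟩
          have hder : derY T M0 n C q = predY q (T.side M0 n p.1) (ownLine p.2) := by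
            simp [derY, hoy, ownLine]
          simp only [hoy, ownAt, Option.bind_some, if_true, n1, n2, if_false, Tables.loc,
            ← hder] at ev ⊢
          cases hu : derX T M0 n C q <;> cases hv : derY T M0 n C q <;>
            simp [hu, hv] at ev ⊢ <;> simp [ev]
        · have e1 : sinceX .tb p.1 X' x' ↔ sinceX .tb p.1 .tb x := by
            rw [hp.since .tb hly]; simp [Ne.symm hpx]
          simp only [hoy, ownAt, hpx, if_false, Option.bind_some, Option.bind_none, e1] at ev ⊢
          simp at ev; simp [ev]
    by_cases hset : X = .setAbs ∧ x = 0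
    · obtain ⟨rfl, rfl⟩ := hset
      have n1 : sinceX .setAbs 0 .setAbs 0 := Or.inr ⟨rfl, le_rfl⟩
      have n0 : ¬sinceX .setAbs 0 X' x' := fun hh => ((hp.since .setAbs hS).1 hh).2 ⟨rfl, rfl⟩
      have y1 : ∀ p ∈ C.ox, sinceX .mx p.1 X' x' := fun p hp' =>
        (hp.since .mx (hC.ox_lt p hp')).2 ⟨by rw [sinceX_iff]; simp [XSeg.index], by simp⟩
      have y2 : ∀ p ∈ C.oy, sinceX .tb p.1 X' x' := fun p hp' =>
        (hp.since .tb (hC.oy_lt p hp')).2 ⟨by rw [sinceX_iff]; simp [XSeg.index], by simp⟩
      have hb : derState T M0 n C q X' x' =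
          match (derX T M0 n C q).or (derY T M0 n C q) with
          | some v => Sig.bit v
          | Option.none => Sig.unset := by
        cases hox : C.ox with
        | none =>
          cases hoy : C.oy with
          | none => simp [derState, derX, derY, hox, hoy, n0]
          | some r => simp [derState, derX, hox, hoy, n0, y2 r hoy]; rfl
        | some p =>
          cases hoy : C.oy with
          | none => simp [derState, derY, hox, hoy, n0, y1 p hox]; rfl
          | some r => simp [derState, hox, hoy, n0, y1 p hox, y2 r hoy]; rfl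
      refine out_h_of_h P hF hx hy hA (Q := fun s => s = _) fun b p ev => ?_
      simp [kindOn, setAbsKind, hd, xfirst_loc, Kind.outs, hb] at ev
      rw [ev]
      simp only [derState, n1, if_true, dval]
      cases (derX T M0 n C q).or (derY T M0 n C q) <;> simp
    rw [← same hmx htb hset]
    have hk : KeepsH (kindOn X (.rd 2) (T.loc M0 n x y)) := by
      rw [sinceX_iff] at h
      cases X <;> simp [XSeg.index] at h h0 hmx htb hset ⊢ <;>
        simp [kindOn, srcKind, setAbsKind, upKind, paKind, prKind, krKind, keepsRow, hd,
          xfirst_loc, h0, hset] <;>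
        (repeat' split) <;>
        first
          | exact keepsH_pass | exact keepsH_passH
          | (rcases turnAt_cases _ Kind.fanUp _ with e | e <;> rw [e] <;>
              first | exact keepsH_fanUp | exact keepsH_pass)
    exact named_step hF P X hx (.rd 2) hy hA (Forced.univ _ _) (Forced.univ _ _)
      fun _ _ _ ho hl _ _ => (hk _ _ _ ho).trans hl

end

end Vale.Agent.P196.W
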