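import Vale.Agent.P196.W.RigidLanes
import Vale.Agent.P196.W.RigidRows

/-!
# P196: the events of the two lines and what they cross

`oxEv` and `oyEv` read the choices of a tile at its choosing cells. They are read again where the
lines leave the comparisons, so they cross every lane, each other and the old lines of the
neighbours.
-/

namespace Vale.Agent.P196.W

open Vale.Agent.P196.Fp Vale.Agent.P196.Sft EventAlgebra

noncomputable section

variable {T : Tables} {M0 n : ℕ} [NeZero M0] {E : EventAlgebra.{0}}
  {L : LocalEvents E (rules T M0 n)} {o : Cell} {z : E.B}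

/-- The event that the choice at offset `x` of the first offset is `a`. -/
def oxEv (L : LocalEvents E (rules T M0 n)) (o P : Cell) (x : ℕ) (a : Option Bool) : E.B :=
  evP L (namedCell M0 n o P .mx x .lx 0) fun c => lineU c.v = a

/-- The event that the choice at offset `y` of the second offset is `a`. -/
def oyEv (L : LocalEvents E (rules T M0 n)) (o P : Cell) (y : ℕ) (a : Option Bool) : E.B :=
  evP L (namedCell M0 n o P .ly 0 .my y) fun c => lineU c.h = a

/-- Nothing or an own line. -/
def ownish (s : Sig) : Prop := s = .none ∨ ∃ l : Line, s = .line l ∧ l.own = true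

/-- Nothing or a line of a neighbour. -/
def foreignish (s : Sig) : Prop := s = .none ∨ ∃ u, s = .line { u := u, own := false }

theorem keepsVia_ownish (c : Cross) : KeepsVia ownish (.cross c) := fun h v p hp => by
  simp only [Kind.outs] at hp
  split at hp <;> simp at hp
  · rename_i a b ha hb
    cases v <;> simp [Sig.line?] at hb
    subst hb
    simp [hp, ownish]
  · simp [hp]

theorem lineU_none : lineU .none = Option.none := rfl

theorem lineU_line (l : Line) : lineU (.line l) = some l.u := rfl

omit [NeZero M0] in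
theorem loc_x_first' (x y : ℕ) : (T.loc M0 n x y).x.first = decide (x = 0) := rfl

theorem pick_new {last : Bool} {st : Bool × Bool} {old : Option Line} {new : Option Bool}
    {p : Sig × Sig} (h : pick last st old new = some p) :
    p.2 = .none ∨ ∃ u, p.2 = .line (ownLine u) := by
  simp only [pick] at h
  rw [Option.ite_none_right_eq_some, Option.some.injEq] at h
  obtain ⟨-, rfl⟩ := h
  cases new <;> simp [ownLine]

/-- The column of the first offset, from its choice upwards. -/
theorem ox_col (hF : Flat L o) (P : Cell) {x : ℕ} (hx : x < segLen M0 n) {γ : Type}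
    {f : Sig → γ} (hf : ∀ c, KeepsVia f (.cross c)) {Y : YSeg} {y : ℕ} (hy : y < segLen M0 n)
    (hY : sinceY .lx 0 Y y) (S : γ → Prop) :
    Forced L z (namedCell M0 n o P .mx x Y y) (fun c => S (f c.v)) ↔
      Forced L z (namedCell M0 n o P .mx x .lx 0) fun c => S (f c.v) := by
  refine wireVia hF P .mx hx (segLen_pos n) hy ((ylin_le_iff (segLen_pos n) hy).2 hY) ?_ S
  intro Y' y' hy' h1 _
  rw [ylin_lt_iff (segLen_pos n) hy', sinceY_iff] at h1
  cases Y' <;> simp [YSeg.index] at h1 <;>
    simp only [kindOn, mxKind, ktKind, keepsCol, and_false, if_false,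
      Bool.true_eq_false] <;>
    first
      | exact keepsV_pass.via f
      | exact keepsV_passV.via f
      | exact (keepsV_cmpA _ _).via f
      | exact hf _
      | (rw [if_neg (by simp [Tables.loc, Tables.side]; omega)]; exact keepsV_pass.via f)
      | (repeat' split
         all_goals first | exact (keepsV_exX _ _).via f | exact keepsV_pass.via f)

/-- The column of the second offset above the comparisons. -/
theorem oy_row (hF : Flat L o) (P : Cell) {y : ℕ} (hy : y < segLen M0 n) {X : XSeg} {x : ℕ}
    (hx : x < segLen M0 n) (hX : sinceX .ly 0 X x) (S : Sig → Prop) :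
    Forced L z (namedCell M0 n o P X x .my y) (fun c => S c.h) ↔
      Forced L z (namedCell M0 n o P .ly 0 .my y) fun c => S c.h := by
  refine wireH hF P .my hy (segLen_pos n) hx ((xlin_le_iff (segLen_pos n) hx).2 hX) ?_ S
  intro X' x' hx' h1 _
  rw [xlin_lt_iff (segLen_pos n) hx', sinceX_iff] at h1
  cases X' <;> simp [XSeg.index] at h1 <;>
    simp only [kindOn, lyKind, srcKind, mxKind, tbKind, setAbsKind, upKind, paKind, prKind, krKind,
      keepsRow, reduceCtorEq, false_and, and_false, if_false, Tables.loc, Tables.side,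
      Bool.true_eq_false, true_and] <;>
    first
      | exact keepsH_pass | exact keepsH_passH | exact keepsH_cross _ | exact keepsH_cmpB _ _
      | (rw [if_neg (by simp; omega)]; exact keepsH_pass)

/-- The column of the first offset holds nothing or an own line. -/
theorem ox_ownish (hF : Flat L o) (P : Cell) {x : ℕ} (hx : x < segLen M0 n) {Y : YSeg} {y : ℕ}
    (hy : y < segLen M0 n) (hY : sinceY .lx 0 Y y) :
    Forced L z (namedCell M0 n o P .mx x Y y) fun c => ownish c.v := by
  refine (ox_col hF P hx keepsVia_ownish hy hY id).2 ?_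
  refine named_step hF P .mx hx .lx (segLen_pos n) (Forced.univ _ _) (Forced.univ _ _)
    (Forced.univ _ _) fun l d c ho _ _ _ => ?_
  have hk : kindOn .mx .lx (T.loc M0 n x 0) = .pickX (decide (x + 1 = segLen M0 n)) := by
    simp [kindOn, mxKind, Tables.loc, Tables.side]
  rw [hk] at ho
  obtain ⟨h, -⟩ := pickX_spec ho
  rcases h with h | ⟨u, h⟩ <;> simp only at h <;> show ownish c.v <;> rw [h]
  · exact Or.inl rfl
  · exact Or.inr ⟨_, rfl, rfl⟩

/-- The row of the second offset holds nothing or an own line. -/
theorem oy_ownish (hF : Flat L o) (P : Cell) {y : ℕ} (hy : y < segLen M0 n) {X : XSeg} {x : ℕ}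
    (hx : x < segLen M0 n) (hX : sinceX .ly 0 X x) :
    Forced L z (namedCell M0 n o P X x .my y) fun c => ownish c.h := by
  refine (oy_row hF P hy hx hX ownish).2 ?_
  refine named_step hF P .ly (segLen_pos n) .my hy (Forced.univ _ _) (Forced.univ _ _)
    (Forced.univ _ _) fun l d c ho _ _ _ => ?_
  have hk : kindOn .ly .my (T.loc M0 n 0 y) = .pickY (decide (y + 1 = segLen M0 n)) := by
    simp [kindOn, lyKind, Tables.loc, Tables.side]
  rw [hk] at ho
  obtain ⟨h, -⟩ := pickY_spec ho
  rcases h with h | ⟨u, h⟩ <;> simp only at h <;> rw [h]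
  · exact Or.inl rfl
  · exact Or.inr ⟨_, rfl, rfl⟩

theorem cmpARel_ne {l : Loc} (h : l.cross.eq = false) : cmpARel l ≠ .same := by
  unfold cmpARel
  rw [h]
  simp only [Bool.false_eq_true, if_false]
  split <;> exact fun e => by cases e

theorem cmpBRel_ne {l : Loc} (h : l.cross.eq = false) : cmpBRel l ≠ .same := by
  unfold cmpBRel
  rw [h]
  simp only [Bool.false_eq_true, if_false]
  split <;> exact fun e => by cases e

theorem cmpA_off {r : Cmp} (hr : r ≠ .same) {last : Bool} {h v : Sig} {p : Sig × Sig}
    (hp : p ∈ (Kind.cmpA r last).outs h v) :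
    (foreignish h → foreignish p.1 ∧ (last = true → p.1 = .none)) ∧
      ∀ u, h = .line (ownLine u) → p.1 = h := by
  constructor
  · rintro (rfl | ⟨u, rfl⟩) <;> cases hv : v.line? <;> cases r <;> cases last <;>
      simp_all [Kind.outs, Sig.line?, foreignish]
  · rintro u rfl
    cases hv : v.line? <;> cases r <;> cases last <;>
      simp_all [Kind.outs, Sig.line?, ownLine]

theorem cmpA_on {last : Bool} {h v : Sig} {p : Sig × Sig} {a : Option Bool}
    (hp : p ∈ (Kind.cmpA .same last).outs h v) (hh : foreignish h) (hv : lineU v = a) :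
    (∀ u, a = some u → p.1 = .line (ownLine u)) ∧
      (a = Option.none → foreignish p.1 ∧ (last = true → p.1 = .none)) := by
  subst hv
  rcases hh with rfl | ⟨u, rfl⟩ <;> cases hv' : v.line? <;> cases last <;>
    simp_all [Kind.outs, Sig.line?, foreignish, lineU, ownLine]

/-- The row of the first offset leaves the comparisons with the choice of its column. -/
theorem ta_exit_eq (hF : Flat L o) (P : Cell) {y : ℕ} (hy : y < segLen M0 n) {X : XSeg} {x : ℕ}
    (hx : x < segLen M0 n) (hX : sinceX .tb 0 X x) (a : Option Bool) :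
    evP L (namedCell M0 n o P X x .ta y) (fun c => lineU c.h = a) = oxEv L o P y a := by
  have hS := segLen_pos (M0 := M0) n
  refine (evP_eq_of_forced (f := fun c : Tint M0 n => lineU c.v)
    (g := fun c : Tint M0 n => lineU c.h) (fun a => ?_) a).symm
  set e := evP L (namedCell M0 n o P .mx y .lx 0) fun c => lineU c.v = a
  have hcol : ∀ {Y : YSeg} {y' : ℕ}, y' < segLen M0 n → sinceY .lx 0 Y y' →
      Forced L e (namedCell M0 n o P .mx y Y y') fun c => lineU c.v = a :=
    fun hy' hY => (ox_col hF P hy keepsVia_cross hy' hY (· = a)).2 (Forced.self _ _)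
  have hleft : Forced L e (lCell (namedCell M0 n o P .mx 0 .ta y)) fun c => foreignish c.h := by
    rw [lCell_pred (X' := .src) (x' := segLen M0 n - 1) (Or.inr ⟨rfl, rfl, by omega⟩)]
    refine (wireH (X₀ := .sh) hF P .ta hy hS (show segLen M0 n - 1 < segLen M0 n by omega)
      ((xlin_le_iff hS (by omega)).2 (by rw [sinceX_iff]; simp [XSeg.index])) ?_ foreignish).2 ?_
    · intro X' x' hx' h1 h2
      rw [xlin_lt_iff hS hx', sinceX_iff] at h1
      rw [xlin_le_iff hx' (by omega), sinceX_iff] at h2
      cases X' <;> simp [XSeg.index] at h1 h2 <;>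
        first
          | omega
          | (simp [kindOn, shKind, lyKind, srcKind, Tables.loc, Tables.side, h1]; exact keepsH_pass)
    · refine named_step hF P .sh hS .ta hy (Forced.univ _ _) (Forced.univ _ _) (Forced.univ _ _)
        fun l d c ho _ _ _ => ?_
      simp only [kindOn, shKind, Tables.loc, Tables.side, decide_true, if_true, Kind.outs] at ho
      split at ho <;> simp at ho
      · exact Or.inr ⟨_, ho.1⟩
      · exact Or.inl ho.1
  have main : ∀ k, k < segLen M0 n →
      Forced L e (namedCell M0 n o P .mx k .ta y) fun c =>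
        (k < y → foreignish c.h) ∧
        (y ≤ k → (∀ u, a = some u → c.h = .line (ownLine u)) ∧
          (a = Option.none → foreignish c.h ∧ (k + 1 = segLen M0 n → c.h = .none))) := by
    intro k
    induction k using Nat.strong_induction_on with
    | _ k ih =>
      intro hk
      have hA : Forced L e (lCell (namedCell M0 n o P .mx k .ta y)) fun c =>
          (k ≤ y → foreignish c.h) ∧ (y < k → (∀ u, a = some u → c.h = .line (ownLine u)) ∧
            (a = Option.none → foreignish c.h)) := by
        rcases k with _ | k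
        · exact hleft.mono fun c hc => ⟨fun _ => hc, fun h => absurd h (by omega)⟩
        · rw [lCell_pred (X' := .mx) (x' := k) (Or.inl ⟨rfl, rfl⟩)]
          exact (ih k (by omega) (by omega)).mono fun c hc =>
            ⟨fun h => hc.1 (by omega), fun h => ⟨(hc.2 (by omega)).1,
              fun ha => ((hc.2 (by omega)).2 ha).1⟩⟩
      obtain ⟨Y', y', hy', hp⟩ := exists_yPred (Y := .ta) hS hy (by simp)
      have hY' : sinceY .lx 0 Y' y' :=
        (hp.since .lx hS).2 ⟨by rw [sinceY_iff]; simp [YSeg.index], by simp⟩
      have hB : Forced L e (bCell (namedCell M0 n o P .mx k .ta y)) fun c =>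
          k = y → lineU c.v = a := by
        rw [bCell_pred _ _ hp]
        by_cases hky : k = y
        · subst hky; exact (hcol hy' hY').mono fun c hc _ => hc
        · exact (Forced.univ _ _).mono fun c _ h => absurd h hky
      refine named_step hF P .mx hk .ta hy hA hB (Forced.univ _ _) fun l d c ho hl hd _ => ?_
      simp only [kindOn, mxKind] at ho
      by_cases hky : k = y
      · subst hky
        have hr : cmpARel (T.loc M0 n k k) = .same := by
          simp [cmpARel, Tables.loc, Tables.crossAt]
        rw [hr] at ho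
        obtain ⟨h1, h2⟩ := cmpA_on ho (hl.1 le_rfl) (hd rfl)
        exact ⟨fun h => absurd h (lt_irrefl _), fun _ => ⟨h1, fun ha => ⟨(h2 ha).1, fun hlast =>
          (h2 ha).2 (by simp [Tables.loc, Tables.side, hlast])⟩⟩⟩
      · have hr : cmpARel (T.loc M0 n k y) ≠ .same := by
          exact cmpARel_ne (by simp [Tables.loc, Tables.crossAt, hky])
        obtain ⟨h1, h2⟩ := cmpA_off hr ho
        refine ⟨fun h => (h1 (hl.1 h.le)).1, fun h => ?_⟩
        obtain ⟨g1, g2⟩ := hl.2 (by omega)
        exact ⟨fun u hu => (h2 u (g1 u hu)).trans (g1 u hu), fun ha => ⟨(h1 (g2 ha)).1,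
          fun hlast => (h1 (g2 ha)).2 (by simp [Tables.loc, Tables.side, hlast])⟩⟩
  have hend : Forced L e (namedCell M0 n o P .mx (segLen M0 n - 1) .ta y) fun c =>
      lineU c.h = a := by
    refine (main _ (by omega)).mono fun c hc => ?_
    obtain ⟨h1, h2⟩ := hc.2 (by omega)
    cases a with
    | none => rw [(h2 rfl).2 (by omega)]; rfl
    | some u => rw [h1 u rfl]; rfl
  refine (wireH hF P .ta hy (by omega) hx
    ((xlin_le_iff (by omega) hx).2 (by
      rw [sinceX_iff] at hX ⊢; simp [XSeg.index] at hX ⊢; omega)) ?_ (fun s => lineU s = a)).2 hend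
  intro X' x' hx' h1 _
  rw [xlin_lt_iff (by omega) hx', sinceX_iff] at h1
  cases X' <;> simp [XSeg.index] at h1 <;>
    first
      | omega
      | (simp [kindOn, tbKind, setAbsKind, upKind, paKind, prKind, krKind, keepsRow, Tables.loc,
          Tables.side]
         first | exact keepsH_pass | exact keepsH_passH)

theorem cmpB_off {r : Cmp} (hr : r ≠ .same) {last : Bool} {h v : Sig} {p : Sig × Sig}
    (hp : p ∈ (Kind.cmpB r last).outs h v) :
    (foreignish v → foreignish p.2 ∧ (last = true → p.2 = .none)) ∧
      ∀ u, v = .line (ownLine u) → p.2 = v := by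
  constructor
  · rintro (rfl | ⟨u, rfl⟩) <;> cases hh : h.line? <;> cases r <;> cases last <;>
      simp_all [Kind.outs, Sig.line?, foreignish]
  · rintro u rfl
    cases hh : h.line? <;> cases r <;> cases last <;>
      simp_all [Kind.outs, Sig.line?, ownLine]

theorem cmpB_on {last : Bool} {h v : Sig} {p : Sig × Sig} {a : Option Bool}
    (hp : p ∈ (Kind.cmpB .same last).outs h v) (hv : foreignish v) (hh : lineU h = a) :
    (∀ u, a = some u → p.2 = .line (ownLine u)) ∧
      (a = Option.none → foreignish p.2 ∧ (last = true → p.2 = .none)) := by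
  subst hh
  rcases hv with rfl | ⟨u, rfl⟩ <;> cases hh' : h.line? <;> cases last <;>
    simp_all [Kind.outs, Sig.line?, foreignish, lineU, ownLine]

/-- The column of the second offset leaves the comparisons with the choice of its row. -/
theorem tb_exit_eq (hF : Flat L o) (P : Cell) {x : ℕ} (hx : x < segLen M0 n) {Y : YSeg} {y : ℕ}
    (hy : y < segLen M0 n) (hY : sinceY .gap 0 Y y) (a : Option Bool) :
    evP L (namedCell M0 n o P .tb x Y y) (fun c => lineU c.v = a) = oyEv L o P x a := by
  have hS := segLen_pos (M0 := M0) n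
  refine (evP_eq_of_forced (f := fun c : Tint M0 n => lineU c.h)
    (g := fun c : Tint M0 n => lineU c.v) (fun a => ?_) a).symm
  set e := evP L (namedCell M0 n o P .ly 0 .my x) fun c => lineU c.h = a
  have hrow : ∀ {X : XSeg} {x' : ℕ}, x' < segLen M0 n → sinceX .ly 0 X x' →
      Forced L e (namedCell M0 n o P X x' .my x) fun c => lineU c.h = a :=
    fun hx' hX => (oy_row hF P hx hx' hX (fun s => lineU s = a)).2 (Forced.self _ _)
  have hbot : Forced L e (bCell (namedCell M0 n o P .tb x .my 0)) fun c => foreignish c.v := by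
    rw [bCell_pred (Y' := .r 3) (y' := segLen M0 n - 1) _ _ (Or.inr ⟨rfl, rfl, by omega⟩)]
    refine (wireV (Y₀ := .lx) hF P .tb hx hS (show segLen M0 n - 1 < segLen M0 n by omega)
      ((ylin_le_iff hS (by omega)).2 (by rw [sinceY_iff]; simp [YSeg.index])) ?_ foreignish).2 ?_
    · intro Y' y' hy' h1 h2
      rw [ylin_lt_iff hS hy', sinceY_iff] at h1
      rw [ylin_le_iff hy' (by omega), sinceY_iff] at h2
      cases Y' <;> simp [YSeg.index] at h1 h2 <;>
        first
          | omega
          | (simp [kindOn, tbKind, Tables.loc, Tables.side, h1]; exact keepsV_pass)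
    · refine named_step hF P .tb hx .lx hS (Forced.univ _ _) (Forced.univ _ _) (Forced.univ _ _)
        fun l d c ho _ _ _ => ?_
      simp only [kindOn, tbKind, Tables.loc, Tables.side, decide_true, if_true, Kind.outs] at ho
      split at ho <;> simp at ho
      · exact Or.inr ⟨_, ho.2⟩
      · exact Or.inl ho.2
  have main : ∀ k, k < segLen M0 n →
      Forced L e (namedCell M0 n o P .tb x .my k) fun c =>
        (k < x → foreignish c.v) ∧
        (x ≤ k → (∀ u, a = some u → c.v = .line (ownLine u)) ∧
          (a = Option.none → foreignish c.v ∧ (k + 1 = segLen M0 n → c.v = .none))) := by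
    intro k
    induction k using Nat.strong_induction_on with
    | _ k ih =>
      intro hk
      have hB : Forced L e (bCell (namedCell M0 n o P .tb x .my k)) fun c =>
          (k ≤ x → foreignish c.v) ∧ (x < k → (∀ u, a = some u → c.v = .line (ownLine u)) ∧
            (a = Option.none → foreignish c.v)) := by
        rcases k with _ | k
        · exact hbot.mono fun c hc => ⟨fun _ => hc, fun h => absurd h (by omega)⟩
        · rw [bCell_pred (Y' := .my) (y' := k) _ _ (Or.inl ⟨rfl, rfl⟩)]
          exact (ih k (by omega) (by omega)).mono fun c hc =>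
            ⟨fun h => hc.1 (by omega), fun h => ⟨(hc.2 (by omega)).1,
              fun ha => ((hc.2 (by omega)).2 ha).1⟩⟩
      obtain ⟨X', x', hx', hp⟩ := exists_xPred (X := .tb) hS hx (by simp)
      have hA : Forced L e (lCell (namedCell M0 n o P .tb x .my k)) fun c =>
          k = x → lineU c.h = a := by
        rw [lCell_pred hp]
        by_cases hkx : k = x
        · subst hkx
          exact (hrow hx' ((hp.since .ly hS).2
            ⟨by rw [sinceX_iff]; simp [XSeg.index], by simp⟩)).mono fun c hc _ => hc
        · exact (Forced.univ _ _).mono fun c _ h => absurd h hkx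
      refine named_step hF P .tb hx .my hk hA hB (Forced.univ _ _) fun l d c ho hl hd _ => ?_
      simp only [kindOn, tbKind] at ho
      by_cases hkx : k = x
      · subst hkx
        have hr : cmpBRel (T.loc M0 n k k) = .same := by
          simp [cmpBRel, Tables.loc, Tables.crossAt]
        rw [hr] at ho
        obtain ⟨h1, h2⟩ := cmpB_on ho (hd.1 le_rfl) (hl rfl)
        exact ⟨fun h => absurd h (lt_irrefl _), fun _ => ⟨h1, fun ha => ⟨(h2 ha).1, fun hlast =>
          (h2 ha).2 (by simp [Tables.loc, Tables.side, hlast])⟩⟩⟩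
      · have hr : cmpBRel (T.loc M0 n x k) ≠ .same := by
          exact cmpBRel_ne (by simp [Tables.loc, Tables.crossAt, Ne.symm hkx])
        obtain ⟨h1, h2⟩ := cmpB_off hr ho
        refine ⟨fun h => (h1 (hd.1 h.le)).1, fun h => ?_⟩
        obtain ⟨g1, g2⟩ := hd.2 (by omega)
        exact ⟨fun u hu => (h2 u (g1 u hu)).trans (g1 u hu), fun ha => ⟨(h1 (g2 ha)).1,
          fun hlast => (h1 (g2 ha)).2 (by simp [Tables.loc, Tables.side, hlast])⟩⟩
  have hend : Forced L e (namedCell M0 n o P .tb x .my (segLen M0 n - 1)) fun c =>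
      lineU c.v = a := by
    refine (main _ (by omega)).mono fun c hc => ?_
    obtain ⟨h1, h2⟩ := hc.2 (by omega)
    cases a with
    | none => rw [(h2 rfl).2 (by omega)]; rfl
    | some u => rw [h1 u rfl]; rfl
  have hY' := sinceY_iff.1 hY
  refine (wireV hF P .tb hx (by omega) hy
    ((ylin_le_iff (by omega) hy).2 (by
      rw [sinceY_iff]; simp [YSeg.index] at hY' ⊢; omega)) ?_ (fun s => lineU s = a)).2 hend
  intro Y' y' hy' h1 _
  rw [ylin_lt_iff (by omega) hy', sinceY_iff] at h1
  cases Y' <;> simp [YSeg.index] at h1 <;>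
    first
      | omega
      | (simp [kindOn, tbKind, ktKind, keepsCol]
         first | exact keepsV_pass | exact keepsV_passV)
      | (simp only [kindOn, tbKind]
         repeat' split
         all_goals first | exact keepsV_exY _ _ | exact keepsV_pass)

/-! ## Crossings -/

/-- The first offset commutes with every free lane of the four bundles. -/
theorem oxEv_com_src (hF : Flat L o) (P : Cell) {x : ℕ} (hx : x < segLen M0 n) (a : Option Bool)
    (c : Fin 4) {y : ℕ} (hy : y < segLen M0 n) (hok : (symAt T M0 n y).isSrc = true)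
    (S : Sig → Prop) : E.com (oxEv L o P x a) (laneEv L o P c true y S) := by
  obtain ⟨cc, hcc⟩ := paClass_surjective c
  rw [← ta_exit_eq hF P hx hy (X := .pa cc) (by rw [sinceX_iff]; simp [XSeg.index]; omega) a,
    ← lane_col hF P c true hy hok hcc hx (Y := .ta) (by simp [YSeg.index])
      (by rw [sinceY_iff]; simp [laneSeg, YSeg.index]; omega) S]
  exact evP_com _ _ _

/-- The second offset commutes with every free lane of the four bundles. -/
theorem oyEv_com_src (hF : Flat L o) (P : Cell) {x : ℕ} (hx : x < segLen M0 n) (a : Option Bool)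
    (c : Fin 4) {y : ℕ} (hy : y < segLen M0 n) (hok : (symAt T M0 n y).isSrc = true)
    (S : Sig → Prop) : E.com (oyEv L o P x a) (laneEv L o P c true y S) := by
  obtain ⟨cc, hcc⟩ := paClass_surjective c
  rw [show oyEv L o P x a = evP L (namedCell M0 n o P (.pa cc) y .my x) (fun d => lineU d.h = a) from
      (evP_eq_of_iff fun z => oy_row hF P hx hy (X := .pa cc)
        (by rw [sinceX_iff]; simp [XSeg.index]; omega) (fun s => lineU s = a)).symm,
    ← lane_col hF P c true hy hok hcc hx (Y := .my) (by simp [YSeg.index])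
      (by rw [sinceY_iff]; simp [laneSeg, YSeg.index]; omega) S]
  exact evP_com _ _ _

/-- The two offsets of a tile commute. -/
theorem oxEv_com_oyEv (hF : Flat L o) (P : Cell) {x y : ℕ} (hx : x < segLen M0 n)
    (hy : y < segLen M0 n) (a b : Option Bool) : E.com (oxEv L o P x a) (oyEv L o P y b) := by
  rw [show oxEv L o P x a = evP L (namedCell M0 n o P .mx x .my y) (fun c => lineU c.v = a) from
      (evP_eq_of_iff fun z => ox_col hF P hx keepsVia_cross hy
        (by rw [sinceY_iff]; simp [YSeg.index]) (· = a)).symm,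
    show oyEv L o P y b = evP L (namedCell M0 n o P .mx x .my y) (fun c => lineU c.h = b) from
      (evP_eq_of_iff fun z => oy_row hF P hy hx
        (by rw [sinceX_iff]; simp [XSeg.index]) (fun s => lineU s = b)).symm]
  exact evP_com _ _ _

theorem rd3_row (hF : Flat L o) (P : Cell) {y : ℕ} (hy : y < segLen M0 n) {X : XSeg} {x : ℕ}
    (hx : x < segLen M0 n) (hX : X = .mx ∨ X = .tb) (S : Sig → Prop) :
    evP L (namedCell M0 n o P X x (.rd 3) y) (fun d => S d.h) = laneEv L o P 3 false y S := by
  refine (evP_eq_of_iff fun z => wireH hF P (.rd 3) hy hx (segLen_pos n)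
    ((xlin_le_iff hx (segLen_pos n)).2
      (by rcases hX with rfl | rfl <;> rw [sinceX_iff] <;> simp [XSeg.index])) ?_ S).symm
  intro X' x' hx' h1 h2
  rw [xlin_lt_iff hx hx', sinceX_iff] at h1
  rw [xlin_le_iff hx' (segLen_pos n), sinceX_iff] at h2
  rcases hX with rfl | rfl <;>
  cases X' <;> simp [XSeg.index] at h1 h2 <;>
    first
      | omega
      | exact pa_row_keep _ 3 false _
      | (simp [kindOn, mxKind, tbKind, setAbsKind, upKind]
         repeat' split
         all_goals first
           | exact keepsH_pass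
           | (rcases turnAt_cases Sym.isDerived .fanUp (T.loc M0 n x' y) with h | h <;> rw [h] <;>
               first | exact keepsH_fanUp | exact keepsH_pass))

/-- The column that brings a derived lane of the tile below. -/
theorem upd_col (hF : Flat L o) (P : Cell) {c : Fin 4} {X : XSeg}
    (hc : (c = 0 ∧ X = .upd) ∨ (c = 1 ∧ X = .updl)) {z' : ℕ} (hz : z' < segLen M0 n)
    (hok : (symAt T M0 n z').isDerived = true) {Y : YSeg} {y : ℕ} (hy : y < segLen M0 n)
    (hY : 6 ≤ Y.index ∧ Y.index ≤ 8) (S : Sig → Prop) :
    evP L (namedCell M0 n o P X z' Y y) (fun d => S d.v) = laneEv L o P c false z' S := by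
  have hS := segLen_pos (M0 := M0) n
  have hk : kindOn X (.rd c) (T.loc M0 n z' z') = .turnRight := by
    have e : (T.loc M0 n z' z').cross.eq = true := by simp [Tables.loc, Tables.crossAt]
    rcases hc with ⟨rfl, rfl⟩ | ⟨rfl, rfl⟩ <;>
      simp [kindOn, upKind, turnAt, e,
        show (T.loc M0 n z' z').y.sym = symAt T M0 n z' from rfl, hok]
  refine evP_eq_of_iff fun w => ?_
  refine Iff.trans (Iff.symm ?_) (((turnRight_iff hF P X hz (.rd c) hz hk S).symm).trans
    (wireH hF P (.rd c) hz hz (segLen_pos n)
      ((xlin_le_iff hz hS).2 (by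
        rcases hc with ⟨rfl, rfl⟩ | ⟨rfl, rfl⟩ <;> rw [sinceX_iff] <;> simp [XSeg.index])) ?_ S).symm)
  · obtain ⟨Y', y', hy', hp⟩ := exists_yPred (Y := .rd c) hS hz (by simp)
    rw [bCell_pred _ _ hp]
    have hp' : ylin (segLen M0 n) Y y ≤ ylin (segLen M0 n) Y' y' := by
      rw [ylin_le_iff hy hy']
      have h0 : sinceY Y y (.rd c) z' := by
        rw [sinceY_iff, show (YSeg.rd c).index = 9 + c.val from rfl]; omega
      refine (hp.since Y hy).2 ⟨h0, ?_⟩
      rintro ⟨rfl, -⟩
      rw [show (YSeg.rd c).index = 9 + c.val from rfl] at hY; omega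
    refine wireV hF P X hz hy hy' hp' ?_ S
    intro A b hb h1 h2
    rw [ylin_lt_iff hy hb, sinceY_iff] at h1
    have h2' : sinceY A b (.rd c) z' ∧ ¬(.rd c = A ∧ z' = b) :=
      (hp.since A hb).1 ((ylin_le_iff hb hy').1 h2)
    rw [sinceY_iff] at h2'
    obtain ⟨h2a, h2b⟩ := h2'
    rcases hc with ⟨rfl, rfl⟩ | ⟨rfl, rfl⟩ <;>
    cases A <;> simp [YSeg.index] at h1 h2a h2b <;>
      first
        | omega
        | (simp only [kindOn, upKind]; exact keepsV_pass)
        | (simp only [kindOn, upKind]; exact keepsV_pass)
        | (simp only [kindOn, upKind]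
           repeat' split
           all_goals first
             | exact keepsV_pass
             | (rw [turnAt_off]
                · exact keepsV_pass
                · simp [Tables.loc, Tables.crossAt]; grind [YSeg.index]))
  · intro X' x' hx' h1 h2
    rw [xlin_lt_iff hz hx', sinceX_iff] at h1
    rw [xlin_le_iff hx' hS, sinceX_iff] at h2
    rcases hc with ⟨rfl, rfl⟩ | ⟨rfl, rfl⟩ <;>
    cases X' <;> simp [XSeg.index] at h1 h2 <;>
      first
        | omega
        | exact pa_row_keep _ _ false _
        | (simp [kindOn, upKind]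
           repeat' split
           all_goals first
             | exact keepsH_pass
             | (rw [turnAt_off]
                · exact keepsH_pass
                · simp [Tables.loc, Tables.crossAt]; omega))

/-- The offsets commute with the derived lanes of the three neighbouring bundles. -/
theorem oxEv_com_derived (hF : Flat L o) (P : Cell) {x : ℕ} (hx : x < segLen M0 n)
    (a : Option Bool) {c : Fin 4} (hc : c ≠ 2) {y : ℕ} (hy : y < segLen M0 n)
    (hok : (symAt T M0 n y).isDerived = true) (S : Sig → Prop) :
    E.com (oxEv L o P x a) (laneEv L o P c false y S) := by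
  by_cases h3 : c = 3
  · subst h3
    rw [← rd3_row hF P hy hx (Or.inl rfl) S,
      show oxEv L o P x a = evP L (namedCell M0 n o P .mx x (.rd 3) y) (fun d => lineU d.v = a) from
        (evP_eq_of_iff fun z => ox_col hF P hx keepsVia_cross hy
          (by rw [sinceY_iff]; simp [YSeg.index]) (· = a)).symm]
    exact evP_com _ _ _
  · obtain ⟨X, hX, hX'⟩ : ∃ X, ((c = 0 ∧ X = XSeg.upd) ∨ (c = 1 ∧ X = XSeg.updl)) ∧
        6 < X.index := by
      fin_cases c
      · exact ⟨.upd, Or.inl ⟨rfl, rfl⟩, by simp [XSeg.index]⟩
      · exact ⟨.updl, Or.inr ⟨rfl, rfl⟩, by simp [XSeg.index]⟩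
      · exact absurd rfl hc
      · exact absurd rfl h3
    rw [← upd_col hF P hX hy hok hx (Y := .ta) (by simp [YSeg.index]) S,
      ← ta_exit_eq hF P hx hy (X := X) (by rw [sinceX_iff]; left; simpa [XSeg.index] using hX') a]
    exact evP_com _ _ _

/-- The same for the second offset. -/
theorem oyEv_com_derived (hF : Flat L o) (P : Cell) {x : ℕ} (hx : x < segLen M0 n)
    (a : Option Bool) {c : Fin 4} (hc : c ≠ 2) {y : ℕ} (hy : y < segLen M0 n)
    (hok : (symAt T M0 n y).isDerived = true) (S : Sig → Prop) :
    E.com (oyEv L o P x a) (laneEv L o P c false y S) := by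
  by_cases h3 : c = 3
  · subst h3
    rw [← rd3_row hF P hy hx (Or.inr rfl) S,
      ← tb_exit_eq hF P hx hy (Y := .rd 3) (by rw [sinceY_iff]; simp [YSeg.index]) a]
    exact evP_com _ _ _
  · obtain ⟨X, hX, hX'⟩ : ∃ X, ((c = 0 ∧ X = XSeg.upd) ∨ (c = 1 ∧ X = XSeg.updl)) ∧
        2 < X.index := by
      fin_cases c
      · exact ⟨.upd, Or.inl ⟨rfl, rfl⟩, by simp [XSeg.index]⟩
      · exact ⟨.updl, Or.inr ⟨rfl, rfl⟩, by simp [XSeg.index]⟩
      · exact absurd rfl hc
      · exact absurd rfl h3
    rw [← upd_col hF P hX hy hok hx (Y := .my) (by simp [YSeg.index]) S,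
      show oyEv L o P x a = evP L (namedCell M0 n o P X y .my x) (fun d => lineU d.h = a) from
        (evP_eq_of_iff fun z => oy_row hF P hx hy (X := X)
          (by rw [sinceX_iff]; left; simpa [XSeg.index] using hX') (fun s => lineU s = a)).symm]
    exact evP_com _ _ _

end

end Vale.Agent.P196.W
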