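import Vale.Agent.P196.W.RigidCompare
import Vale.Agent.P196.W.RigidDerived
import Vale.Agent.P196.W.RigidMatch
import Vale.Agent.P196.W.RigidAssembly

/-!
# P196: the parts of the parents of a flat level, and rigidity of the layout

`xEv`, `yEv` and `bitEv` are parts of the parents. So the layout is rigid.
-/

namespace Vale.Agent.P196.W

open Vale.Agent.P196.Fp Vale.Agent.P196.Sft EventAlgebra

noncomputable section

variable {n : ℕ} {E : EventAlgebra.{0}}
  {L : LocalEvents E (rules (tables layoutKind) (m0 segCount) n)} {o : Cell}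

/-- The parent of a window that a bundle of its tile shows. -/
def bundlePar (c : Fin 4) : Fin 2 × Fin 2 := ![(1, 0), (0, 0), (1, 1), (0, 1)] c

theorem bundlePar_surjective : Function.Surjective bundlePar := by decide

theorem cellOf_eq (c : Fin 7) : cellOf c = bundlePar (classOf c) := by fin_cases c <;> rfl

theorem srcTile_corner (a : Cell) (c : Fin 4) :
    srcTile (corner a (1, 1)) c = corner a (bundlePar c) := by
  fin_cases c <;> simp [srcTile, bundlePar, corner]

/-- A bit of a window is read on a lane of its tile. -/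
theorem bit_lane (hF : Flat L o) (a : Cell) (d : Fin 2 × Fin 2) (l : Lane segCount) (b : Bool) :
    ∃ c, bundlePar c = d ∧ bitEv L o (corner a d) l b =
      laneEv L o (corner a (1, 1)) c l.sym.isSrc (laneAt n l)
        (fun s => if b then s = .bit true else ¬s = .bit true) := by
  obtain ⟨c, rfl⟩ := bundlePar_surjective d
  exact ⟨c, rfl, by
    rw [bitEv_eq, laneEv_source hF _ c _ (laneAt_lt n l) (laneOk_lane n l), srcTile_corner]⟩

/-- The offsets commute with every lane of their tile. -/
theorem lane_com_xy (hF : Flat L o) (P : Cell) (c : Fin 4) (l : Lane segCount) (S : Sig → Prop)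
    (x : Off n) :
    E.com (laneEv L o P c l.sym.isSrc (laneAt n l) S) (xEv L o P x) ∧
      E.com (laneEv L o P c l.sym.isSrc (laneAt n l) S) (yEv L o P x) := by
  by_cases h : l.sym.isSrc = true ∨ c ≠ 2
  · exact ⟨xEv_com_lane hF (xEv_excl hF) P x c l h S, yEv_com_lane hF (yEv_excl hF) P x c l h S⟩
  · rw [not_or, not_not] at h
    obtain ⟨h1, rfl⟩ := h
    cases l with
    | derived q => exact derLane_com_xy hF (xEv_excl hF) (yEv_excl hF) P q S x
    | _ => simp [Lane.sym, Sym.isSrc] at h1

theorem tile_com (hF : Flat L o) (a : Cell) :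
    ∀ u ∈ tileSet (xEv L o) (yEv L o) (bitEv L o) a,
      ∀ v ∈ tileSet (xEv L o) (yEv L o) (bitEv L o) a, E.com u v := by
  rintro _ (⟨d, l, b, rfl⟩ | ⟨x, rfl⟩ | ⟨x, rfl⟩) _ (⟨d', l', b', rfl⟩ | ⟨x', rfl⟩ | ⟨x', rfl⟩)
  · obtain ⟨c, -, e⟩ := bit_lane hF a d l b
    obtain ⟨c', -, e'⟩ := bit_lane hF a d' l' b'
    rw [e, e']
    exact laneEv_com hF _ (laneAt_lt n l) (laneAt_lt n l') (laneOk_lane n l) (laneOk_lane n l') _ _
  · obtain ⟨c, -, e⟩ := bit_lane hF a d l b
    rw [e]; exact (lane_com_xy hF _ c l _ x').1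
  · obtain ⟨c, -, e⟩ := bit_lane hF a d l b
    rw [e]; exact (lane_com_xy hF _ c l _ x').2
  · obtain ⟨c, -, e⟩ := bit_lane hF a d' l' b'
    rw [e]; exact E.com_symm _ _ (lane_com_xy hF _ c l' _ x).1
  · exact excl_com _ (xEv_excl hF) _ x x'
  · exact xEv_com_yEv hF (xEv_excl hF) (yEv_excl hF) _ x x'
  · obtain ⟨c, -, e⟩ := bit_lane hF a d' l' b'
    rw [e]; exact E.com_symm _ _ (lane_com_xy hF _ c l' _ x).2
  · exact E.com_symm _ _ (xEv_com_yEv hF (xEv_excl hF) (yEv_excl hF) _ x' x)
  · exact excl_com _ (yEv_excl hF) _ x x'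

/-- An event below the bits of a window that the rows forbid is zero. -/
theorem rows_zero (hF : Flat L o) (a : Cell) (φ : WinBits) {z : E.B}
    (hz : ∀ d l, Imp E z (bitEv L o (corner a d) l (φ d l))) (h : ¬AllowedBits φ) : z = E.bot := by
  refine rows_bot hF (corner a (1, 1)) (fun c l => φ (bundlePar c) l) z (fun c l => ?_) ?_
  · refine bitEv_read hF _ c l _ ?_
    rw [srcTile_corner]
    exact hz _ l
  · simpa only [AllowedBits, cellOf_eq] using h

/-- The parts of the parents. -/
def rigidParts (hF : Flat L o) : Parts E n where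
  xo := xEv L o
  yo := yEv L o
  bit := bitEv L o
  xo_excl P x x' h := (xEv_excl hF P x x' h).2
  yo_excl P y y' h := (yEv_excl hF P y y' h).2
  bit_compl _ _ := rfl
  xo_total P := total_option _ (fun i j => excl_com _ (xEv_excl hF) P (some i) (some j)) _
    (fun _ => rfl) rfl
  yo_total P := total_option _ (fun i j => excl_com _ (yEv_excl hF) P (some i) (some j)) _
    (fun _ => rfl) rfl
  tile_com := tile_com hF
  derived p x y q := derived_bot hF (xEv_excl hF) (yEv_excl hF) p x y q
  rows a φ h hno := by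
    let B : E.Block := ⟨tileSet (xEv L o) (yEv L o) (bitEv L o) a, h⟩
    let f : (Fin 2 × Fin 2) × Lane segCount → B.Elem := fun dl =>
      Block.mem B (x := bitEv L o (corner a dl.1) dl.2 (φ dl.1 dl.2))
        (Or.inl ⟨dl.1, dl.2, _, rfl⟩)
    show (Finset.univ.inf f).1 = E.bot
    exact rows_zero hF a φ (fun d l => ⟨(Finset.univ.inf f).com (f (d, l)),
      (Block.Elem.le_iff _ _).1 (Finset.inf_le (f := f) (Finset.mem_univ (d, l)))⟩) hno
  right_xo := right_xo hF
  right_yo := right_yo hF
  right_yo_com := right_yo_com hF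
  up_xo := up_xo hF
  up_yo := up_yo hF
  up_xo_com := up_xo_com hF

/-- **The macro-tile system of the layout is rigid.** -/
theorem macroSystem_rigid : macroSystem.Rigid :=
  rigid_of_parts fun _ _ _ _ hF => ⟨rigidParts hF, rfl, rfl, rfl⟩

end

end Vale.Agent.P196.W
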