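import Vale.Agent.P196.W.RigidOwn
import Vale.Agent.P196.W.Parts

/-!
# P196: at most one line is chosen, and it agrees with the one passed on

A choosing cell that shows a line, or gets one across its row, leaves a mark that no later cell of
the row accepts a line with. So two different choices, or a choice and a different line from the
neighbour, exclude each other.
-/

namespace Vale.Agent.P196.W

open Vale.Agent.P196.Fp Vale.Agent.P196.Sft EventAlgebra

section general

variable {α : Type} [Fintype α] {W : Set (Win α)} {E : EventAlgebra.{0}} {L : LocalEvents E W}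

/-- If `A` at `q` always forces `B` at `q'`, an event forcing not `B` at `q'` forces not `A` at
`q`. -/
theorem forced_contra {q q' : Cell} {A B : α → Prop}
    (h : ∀ z, Forced L z q A → Forced L z q' B) {z : E.B}
    (hz : Forced L z q' fun c => ¬ B c) : Forced L z q fun c => ¬ A c :=
  Forced.of_excluded fun c hc => hz.disjoint
    (h _ ((Forced.ev q c).mono fun _ e => e ▸ not_not.1 hc)) fun _ h1 h2 => h1 h2

/-- Events forcing a set and its complement exclude each other. -/
theorem excl_of_forced {z z' : E.B} {q : Cell} {A B : α → Prop} (hz : Forced L z q A)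
    (hz' : Forced L z' q B) (h : ∀ c, A c → B c → False) : Excl E z z' :=
  hz.disjoint hz' h

end general

theorem Excl.symm {E : EventAlgebra.{0}} {z u : E.B} (h : Excl E z u) : Excl E u z :=
  ⟨E.com_symm _ _ h.1, by rw [E.inf_comm _ _ (E.com_symm _ _ h.1), h.2]⟩

/-- The state of a choosing row in which no line is accepted any more. -/
def Marked (s : Sig) : Prop := ∀ st ∈ s.seen?, st ≠ (false, false)

theorem lineU_chosenSig (o : Option Bool) : lineU (chosenSig o) = o := by cases o <;> rfl

/-- What a choosing cell does to the mark. -/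
theorem pick_marks {last : Bool} {st : Bool × Bool} {old : Option Line} {new : Option Bool}
    {p : Sig × Sig} (h : pick last st old new = some p) :
    lineU p.2 = new ∧ ((old.map Line.u).isSome ∨ new.isSome → st = (false, false)) ∧
      (∀ a b, new = some a → old.map Line.u = some b → b = a) ∧
      (last = false → ((old.map Line.u).isSome ∨ new.isSome ∨ st ≠ (false, false)) → Marked p.1) := by
  obtain ⟨h1, h2, rfl⟩ := pick_eq_some_iff.1 h
  refine ⟨lineU_chosenSig new, fun hh => ?_, fun a b ha hb => ?_, ?_⟩
  · obtain ⟨s1, s2⟩ := h1 (by simpa using hh)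
    exact Prod.ext s1 s2
  · obtain ⟨l, hl, rfl⟩ := Option.map_eq_some_iff.1 hb
    exact h2 l hl a ha
  · rintro rfl hh st' hst'
    obtain ⟨s, s'⟩ := st
    simp [Sig.seen?] at hst'
    subst hst'
    cases old <;> cases new <;> cases s <;> cases s' <;> simp_all

theorem pickX_marks {last : Bool} {h v : Sig} {p : Sig × Sig}
    (hp : p ∈ (Kind.pickX last).outs h v) :
    ((lineU p.2).isSome ∨ (lineU v).isSome → ¬ Marked h) ∧
      (∀ a b, lineU p.2 = some a → lineU v = some b → b = a) ∧
      (last = false → ((lineU p.2).isSome ∨ (lineU v).isSome ∨ Marked h) → Marked p.1) := by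
  cases hs : h.seen? with
  | none => simp [Kind.outs, hs] at hp
  | some st =>
    obtain ⟨new, e⟩ := (mem_pickX_iff hs).1 hp
    obtain ⟨h1, h2, h3, h4⟩ := pick_marks e
    subst h1
    refine ⟨fun hh hm => hm st hs (h2 (hh.elim Or.inr Or.inl)), h3, fun hl hh => h4 hl ?_⟩
    rcases hh with hh | hh | hh
    · exact Or.inr (Or.inl hh)
    · exact Or.inl hh
    · exact Or.inr (Or.inr (hh st hs))

theorem pickY_marks {last : Bool} {h v : Sig} {p : Sig × Sig}
    (hp : p ∈ (Kind.pickY last).outs h v) :
    ((lineU p.1).isSome ∨ (lineU h).isSome → ¬ Marked v) ∧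
      (∀ a b, lineU p.1 = some a → lineU h = some b → b = a) ∧
      (last = false → ((lineU p.1).isSome ∨ (lineU h).isSome ∨ Marked v) → Marked p.2) := by
  cases hs : v.seen? with
  | none => simp [Kind.outs, hs] at hp
  | some st =>
    obtain ⟨new, e⟩ := (mem_pickY_iff hs).1 hp
    obtain ⟨h1, h2, h3, h4⟩ := pick_marks e
    simp only [Prod.snd_swap] at h1
    subst h1
    simp only [Prod.fst_swap] at h4
    refine ⟨fun hh hm => hm st hs (h2 (hh.elim Or.inr Or.inl)), h3, fun hl hh => h4 hl ?_⟩
    rcases hh with hh | hh | hh
    · exact Or.inr (Or.inl hh)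
    · exact Or.inl hh
    · exact Or.inr (Or.inr (hh st hs))

noncomputable section

variable {T : Tables} {M0 n : ℕ} [NeZero M0] {E : EventAlgebra.{0}}
  {L : LocalEvents E (rules T M0 n)} {o : Cell} {z : E.B}

omit [NeZero M0] in
theorem kind_pickX' (x : ℕ) :
    kindOn .mx .lx (T.loc M0 n x 0) = .pickX (decide (x + 1 = segLen M0 n)) := by
  simp [kindOn, mxKind, Tables.loc, Tables.side]

omit [NeZero M0] in
theorem kind_pickY' (y : ℕ) :
    kindOn .ly .my (T.loc M0 n 0 y) = .pickY (decide (y + 1 = segLen M0 n)) := by
  simp [kindOn, lyKind, Tables.loc, Tables.side]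

/-- What is known around a named cell tells about the cell on its left. -/
theorem named_from_left (hF : Flat L o) (P : Cell) (X : XSeg) {x : ℕ} (hx : x < segLen M0 n)
    (Y : YSeg) {y : ℕ} (hy : y < segLen M0 n) {A B C Q : Tint M0 n → Prop}
    (hA : Forced L z (lCell (namedCell M0 n o P X x Y y)) A)
    (hB : Forced L z (bCell (namedCell M0 n o P X x Y y)) B)
    (hC : Forced L z (namedCell M0 n o P X x Y y) C)
    (h : ∀ l d c : Tint M0 n, (c.h, c.v) ∈ (kindOn X Y (T.loc M0 n x y)).outs l.h d.v →
      A l → B d → C c → Q l) :
    Forced L z (lCell (namedCell M0 n o P X x Y y)) Q := by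
  refine flat_back_left hF P (ord_lt_tsize (xlin_lt X hx)) (ord_lt_tsize (ylin_lt Y hy)) hA hB hC
    fun l d c ho => h l d c ?_
  rwa [kindAt_lin T X hx Y hy] at ho

/-- What is known around a named cell tells about the cell below it. -/
theorem named_from_below (hF : Flat L o) (P : Cell) (X : XSeg) {x : ℕ} (hx : x < segLen M0 n)
    (Y : YSeg) {y : ℕ} (hy : y < segLen M0 n) {A B C Q : Tint M0 n → Prop}
    (hA : Forced L z (lCell (namedCell M0 n o P X x Y y)) A)
    (hB : Forced L z (bCell (namedCell M0 n o P X x Y y)) B)
    (hC : Forced L z (namedCell M0 n o P X x Y y) C)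
    (h : ∀ l d c : Tint M0 n, (c.h, c.v) ∈ (kindOn X Y (T.loc M0 n x y)).outs l.h d.v →
      A l → B d → C c → Q d) :
    Forced L z (bCell (namedCell M0 n o P X x Y y)) Q := by
  refine flat_back_below hF P (ord_lt_tsize (xlin_lt X hx)) (ord_lt_tsize (ylin_lt Y hy)) hA hB hC
    fun l d c ho => h l d c ?_
  rwa [kindAt_lin T X hx Y hy] at ho

variable (hF : Flat L o) (P : Cell)
include hF

/-! ## The first offset -/

/-- After a choice or an incoming line the choosing row takes no line. -/
theorem pickX_after {x : ℕ} (hx : x < segLen M0 n)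
    (hz : (Forced L z (namedCell M0 n o P .mx x .lx 0) fun c => (lineU c.v).isSome) ∨
      Forced L z (bCell (namedCell M0 n o P .mx x .lx 0)) fun c => (lineU c.v).isSome)
    {x' : ℕ} (h : x < x') (hx' : x' < segLen M0 n) :
    (Forced L z (namedCell M0 n o P .mx x' .lx 0) fun c => lineU c.v = Option.none) ∧
      Forced L z (bCell (namedCell M0 n o P .mx x' .lx 0)) fun c => lineU c.v = Option.none := by
  have hS := segLen_pos (M0 := M0) n
  have mark : ∀ k, x ≤ k → k + 1 < segLen M0 n →
      Forced L z (namedCell M0 n o P .mx k .lx 0) fun c => Marked c.h := by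
    intro k hk
    induction k, hk using Nat.le_induction with
    | base =>
      intro hlt
      rcases hz with hz | hz
      · refine named_step hF P .mx hx .lx hS (Forced.univ _ _) (Forced.univ _ _) hz
          fun l d c ho _ _ hc => ?_
        rw [kind_pickX'] at ho
        exact (pickX_marks ho).2.2 (decide_eq_false (by omega)) (Or.inl hc)
      · refine named_step hF P .mx hx .lx hS (Forced.univ _ _) hz (Forced.univ _ _)
          fun l d c ho _ hd _ => ?_
        rw [kind_pickX'] at ho
        exact (pickX_marks ho).2.2 (decide_eq_false (by omega)) (Or.inr (Or.inl hd))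
    | succ k hk ih =>
      intro hlt
      refine named_step hF P .mx (show k + 1 < segLen M0 n by omega) .lx hS
        (A := fun l => Marked l.h) ?_ (Forced.univ _ _) (Forced.univ _ _) fun l d c ho hl _ _ => ?_
      · rw [lCell_pred (X' := .mx) (x' := k) (Or.inl ⟨rfl, rfl⟩)]
        exact ih (by omega)
      · rw [kind_pickX'] at ho
        exact (pickX_marks ho).2.2 (decide_eq_false (by omega)) (Or.inr (Or.inr hl))
  obtain ⟨k, rfl⟩ : ∃ k, x' = k + 1 := ⟨x' - 1, by omega⟩
  have hA : Forced L z (lCell (namedCell M0 n o P .mx (k + 1) .lx 0)) fun c => Marked c.h := by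
    rw [lCell_pred (X' := .mx) (x' := k) (Or.inl ⟨rfl, rfl⟩)]
    exact mark k (by omega) hx'
  constructor
  · refine named_step hF P .mx hx' .lx hS hA (Forced.univ _ _) (Forced.univ _ _)
      fun l d c ho hl _ _ => ?_
    rw [kind_pickX'] at ho
    by_contra hc
    exact (pickX_marks ho).1 (Or.inl (Option.isSome_iff_ne_none.2 hc)) hl
  · refine named_from_below hF P .mx hx' .lx hS hA (Forced.univ _ _) (Forced.univ _ _)
      fun l d c ho hl _ _ => ?_
    rw [kind_pickX'] at ho
    by_contra hc
    exact (pickX_marks ho).1 (Or.inr (Option.isSome_iff_ne_none.2 hc)) hl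

/-- The event that a line with parity `u` reaches the choosing row at `x` from below. -/
def oldXEv (L : LocalEvents E (rules T M0 n)) (o P : Cell) (x : ℕ) (u : Option Bool) : E.B :=
  evP L (bCell (namedCell M0 n o P .mx x .lx 0)) fun c => lineU c.v = u

/-- Two different choices exclude each other. -/
theorem oxEv_excl {x x' : ℕ} (hx : x < segLen M0 n) (hx' : x' < segLen M0 n) {u u' : Bool}
    (hne : (x, u) ≠ (x', u')) :
    Excl E (oxEv L o P x (some u)) (oxEv L o P x' (some u')) := by
  have after : ∀ {a b : ℕ} (u v : Bool), a < segLen M0 n → b < segLen M0 n → a < b →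
      Excl E (oxEv L o P a (some u)) (oxEv L o P b (some v)) := fun u v ha hb hab =>
    excl_of_forced (pickX_after hF P ha (Or.inl ((Forced.self _ _).mono fun c hc => by simp [hc]))
      hab hb).1 (Forced.self _ _) fun c h1 h2 => by simp [h1] at h2
  rcases lt_trichotomy x x' with h | h | h
  · exact after u u' hx hx' h
  · subst h
    exact excl_of_forced (Forced.self _ _) (Forced.self _ _) fun c h1 h2 => hne (by
      rw [h1] at h2; simp_all)
  · exact (after u' u hx' hx h).symm

/-- A choice excludes every other line from below. -/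
theorem oxEv_excl_old {x x' : ℕ} (hx : x < segLen M0 n) (hx' : x' < segLen M0 n) {u u' : Bool}
    (hne : (x, u) ≠ (x', u')) :
    Excl E (oxEv L o P x (some u)) (oldXEv L o P x' (some u')) := by
  have hS := segLen_pos (M0 := M0) n
  rcases lt_trichotomy x x' with h | h | h
  · exact excl_of_forced
      (pickX_after hF P hx (Or.inl ((Forced.self _ _).mono fun c hc => by simp [hc])) h hx').2
      (Forced.self _ _) fun c h1 h2 => by simp [h1] at h2
  · subst h
    refine excl_of_forced (named_from_below hF P .mx hx .lx hS (Forced.univ _ _) (Forced.univ _ _)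
      (C := fun c => lineU c.v = some u) (Forced.self _ _)
      (Q := fun d => lineU d.v ≠ some u') fun l d c ho _ _ hc hd => ?_) (Forced.self _ _)
      fun c h1 h2 => h1 h2
    rw [kind_pickX'] at ho
    exact hne (by rw [(pickX_marks ho).2.1 u u' hc hd])
  · exact (excl_of_forced
      (pickX_after hF P hx' (Or.inr ((Forced.self _ _).mono fun c hc => by simp [hc])) h hx).1
      (Forced.self _ _) fun c h1 h2 => by simp [h1] at h2).symm

/-- A choice forces every other cell of the row to choose nothing. -/
theorem oxEv_others {x k : ℕ} (hx : x < segLen M0 n) (hk : k < segLen M0 n) (hne : k ≠ x)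
    {u : Bool} (hz : Forced L z (namedCell M0 n o P .mx x .lx 0) fun c => lineU c.v = some u) :
    Forced L z (namedCell M0 n o P .mx k .lx 0) fun c => lineU c.v = Option.none := by
  rcases Nat.lt_or_gt_of_ne hne with h | h
  · have := forced_contra (L := L) (z := z) (q := namedCell M0 n o P .mx k .lx 0)
      (q' := namedCell M0 n o P .mx x .lx 0) (A := fun c : Tint M0 n => (lineU c.v).isSome = true)
      (B := fun c : Tint M0 n => lineU c.v = Option.none)
      (fun w hw => (pickX_after hF P hk (Or.inl hw) h hx).1)
      (Forced.mono hz fun (c : Tint M0 n) (hc : lineU c.v = some u) => by rw [hc]; exact Option.some_ne_none u)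
    exact Forced.mono this fun (c : Tint M0 n) (hc : ¬ (lineU c.v).isSome = true) => by
      simpa using hc
  · exact (pickX_after hF P hx (Or.inl (hz.mono fun c hc => by simp [hc])) h hk).1

/-! ## The second offset -/

/-- After a choice or an incoming line the choosing column takes no line. -/
theorem pickY_after {y : ℕ} (hy : y < segLen M0 n)
    (hz : (Forced L z (namedCell M0 n o P .ly 0 .my y) fun c => (lineU c.h).isSome) ∨
      Forced L z (lCell (namedCell M0 n o P .ly 0 .my y)) fun c => (lineU c.h).isSome)
    {y' : ℕ} (h : y < y') (hy' : y' < segLen M0 n) :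
    (Forced L z (namedCell M0 n o P .ly 0 .my y') fun c => lineU c.h = Option.none) ∧
      Forced L z (lCell (namedCell M0 n o P .ly 0 .my y')) fun c => lineU c.h = Option.none := by
  have hS := segLen_pos (M0 := M0) n
  have mark : ∀ k, y ≤ k → k + 1 < segLen M0 n →
      Forced L z (namedCell M0 n o P .ly 0 .my k) fun c => Marked c.v := by
    intro k hk
    induction k, hk using Nat.le_induction with
    | base =>
      intro hlt
      rcases hz with hz | hz
      · refine named_step hF P .ly hS .my hy (Forced.univ _ _) (Forced.univ _ _) hz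
          fun l d c ho _ _ hc => ?_
        rw [kind_pickY'] at ho
        exact (pickY_marks ho).2.2 (decide_eq_false (by omega)) (Or.inl hc)
      · refine named_step hF P .ly hS .my hy hz (Forced.univ _ _) (Forced.univ _ _)
          fun l d c ho hl _ _ => ?_
        rw [kind_pickY'] at ho
        exact (pickY_marks ho).2.2 (decide_eq_false (by omega)) (Or.inr (Or.inl hl))
    | succ k hk ih =>
      intro hlt
      refine named_step hF P .ly hS .my (show k + 1 < segLen M0 n by omega)
        (B := fun d => Marked d.v) (Forced.univ _ _) ?_ (Forced.univ _ _) fun l d c ho _ hd _ => ?_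
      · rw [bCell_pred _ _ (Y' := .my) (y' := k) (Or.inl ⟨rfl, rfl⟩)]
        exact ih (by omega)
      · rw [kind_pickY'] at ho
        exact (pickY_marks ho).2.2 (decide_eq_false (by omega)) (Or.inr (Or.inr hd))
  obtain ⟨k, rfl⟩ : ∃ k, y' = k + 1 := ⟨y' - 1, by omega⟩
  have hB : Forced L z (bCell (namedCell M0 n o P .ly 0 .my (k + 1))) fun c => Marked c.v := by
    rw [bCell_pred _ _ (Y' := .my) (y' := k) (Or.inl ⟨rfl, rfl⟩)]
    exact mark k (by omega) hy'
  constructor
  · refine named_step hF P .ly hS .my hy' (Forced.univ _ _) hB (Forced.univ _ _)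
      fun l d c ho _ hd _ => ?_
    rw [kind_pickY'] at ho
    by_contra hc
    exact (pickY_marks ho).1 (Or.inl (Option.isSome_iff_ne_none.2 hc)) hd
  · refine named_from_left hF P .ly hS .my hy' (Forced.univ _ _) hB (Forced.univ _ _)
      fun l d c ho _ hd _ => ?_
    rw [kind_pickY'] at ho
    by_contra hc
    exact (pickY_marks ho).1 (Or.inr (Option.isSome_iff_ne_none.2 hc)) hd

/-- The event that a line with parity `u` reaches the choosing column at `y` from the left. -/
def oldYEv (L : LocalEvents E (rules T M0 n)) (o P : Cell) (y : ℕ) (u : Option Bool) : E.B :=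
  evP L (lCell (namedCell M0 n o P .ly 0 .my y)) fun c => lineU c.h = u

/-- Two different choices of the second offset exclude each other. -/
theorem oyEv_excl {y y' : ℕ} (hy : y < segLen M0 n) (hy' : y' < segLen M0 n) {u u' : Bool}
    (hne : (y, u) ≠ (y', u')) :
    Excl E (oyEv L o P y (some u)) (oyEv L o P y' (some u')) := by
  have after : ∀ {a b : ℕ} (u v : Bool), a < segLen M0 n → b < segLen M0 n → a < b →
      Excl E (oyEv L o P a (some u)) (oyEv L o P b (some v)) := fun u v ha hb hab =>
    excl_of_forced (pickY_after hF P ha (Or.inl ((Forced.self _ _).mono fun c hc => by simp [hc]))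
      hab hb).1 (Forced.self _ _) fun c h1 h2 => by simp [h1] at h2
  rcases lt_trichotomy y y' with h | h | h
  · exact after u u' hy hy' h
  · subst h
    exact excl_of_forced (Forced.self _ _) (Forced.self _ _) fun c h1 h2 => hne (by
      rw [h1] at h2; simp_all)
  · exact (after u' u hy' hy h).symm

/-- A choice of the second offset excludes every other line from the left. -/
theorem oyEv_excl_old {y y' : ℕ} (hy : y < segLen M0 n) (hy' : y' < segLen M0 n) {u u' : Bool}
    (hne : (y, u) ≠ (y', u')) :
    Excl E (oyEv L o P y (some u)) (oldYEv L o P y' (some u')) := by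
  have hS := segLen_pos (M0 := M0) n
  rcases lt_trichotomy y y' with h | h | h
  · exact excl_of_forced
      (pickY_after hF P hy (Or.inl ((Forced.self _ _).mono fun c hc => by simp [hc])) h hy').2
      (Forced.self _ _) fun c h1 h2 => by simp [h1] at h2
  · subst h
    refine excl_of_forced (named_from_left hF P .ly hS .my hy (Forced.univ _ _) (Forced.univ _ _)
      (C := fun c => lineU c.h = some u) (Forced.self _ _)
      (Q := fun l => lineU l.h ≠ some u') fun l d c ho _ _ hc hl => ?_) (Forced.self _ _)
      fun c h1 h2 => h1 h2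
    rw [kind_pickY'] at ho
    exact hne (by rw [(pickY_marks ho).2.1 u u' hc hl])
  · exact (excl_of_forced
      (pickY_after hF P hy' (Or.inr ((Forced.self _ _).mono fun c hc => by simp [hc])) h hy).1
      (Forced.self _ _) fun c h1 h2 => by simp [h1] at h2).symm

/-- A choice forces every other cell of the column to choose nothing. -/
theorem oyEv_others {y k : ℕ} (hy : y < segLen M0 n) (hk : k < segLen M0 n) (hne : k ≠ y)
    {u : Bool} (hz : Forced L z (namedCell M0 n o P .ly 0 .my y) fun c => lineU c.h = some u) :
    Forced L z (namedCell M0 n o P .ly 0 .my k) fun c => lineU c.h = Option.none := by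
  rcases Nat.lt_or_gt_of_ne hne with h | h
  · have := forced_contra (L := L) (z := z) (q := namedCell M0 n o P .ly 0 .my k)
      (q' := namedCell M0 n o P .ly 0 .my y) (A := fun c : Tint M0 n => (lineU c.h).isSome = true)
      (B := fun c : Tint M0 n => lineU c.h = Option.none)
      (fun w hw => (pickY_after hF P hk (Or.inl hw) h hy).1)
      (Forced.mono hz fun (c : Tint M0 n) (hc : lineU c.h = some u) => by
        rw [hc]; exact Option.some_ne_none u)
    exact Forced.mono this fun (c : Tint M0 n) (hc : ¬ (lineU c.h).isSome = true) => by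
      simpa using hc
  · exact (pickY_after hF P hy (Or.inl (hz.mono fun c hc => by simp [hc])) h hk).1

end

end Vale.Agent.P196.W
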