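import Vale.Agent.P196.W.RigidFill
import Vale.Agent.P196.W.SmallBox
import Vale.Agent.P196.W.System

/-!
# P196: rigidity of the layout from the parents' events

Below an offset event, events of the parents each of which knows the choices of its own tile give one
step of rigidity. A cell in the last two
columns or rows of a tile is fixed already by the parents after it: in a band column by its own
parent, in a band row also by the parent on the left.
-/

namespace Vale.Agent.P196.W

open Vale.Agent.P196.Fp Vale.Agent.P196.Sft EventAlgebra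

noncomputable section

/-! ## Windows of events -/

/-- The event of a window lies below each of its four events. -/
theorem winEvent_imp {α : Type} [Fintype α] {E : EventAlgebra.{0}} {W : Set (Win α)}
    (L : LocalEvents E W) (a : Cell) (w : Win α) (d : Fin 2 × Fin 2) :
    Imp E (Sft.winEvent E L.ev a w) (L.ev (corner a d) (w d)) := by
  let C : Fin 2 × Fin 2 → (winBlock L a).Elem := fun d => winEl L a d (w d)
  let D : (winBlock L a).Elem := C (0, 0) ⊓ C (1, 0) ⊓ (C (0, 1) ⊓ C (1, 1))
  have e : D.1 = Sft.winEvent E L.ev a w := by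
    show E.inf (E.inf (L.ev (corner a (0, 0)) _) (L.ev (corner a (1, 0)) _))
      (E.inf (L.ev (corner a (0, 1)) _) (L.ev (corner a (1, 1)) _)) = _
    simp [Sft.winEvent, corner]
  have h : D ≤ C d := by
    rcases d with ⟨i, j⟩
    fin_cases i <;> fin_cases j
    exacts [inf_le_left.trans inf_le_left, inf_le_right.trans inf_le_left,
      inf_le_left.trans inf_le_right, inf_le_right.trans inf_le_right]
  rw [← e]
  exact ⟨D.com (C d), (Block.Elem.le_iff _ _).1 h⟩

/-! ## The bands -/

section Bands

variable {T : Tables} {M0 n : ℕ} [NeZero M0] {E : EventAlgebra.{0}}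
  {L : LocalEvents E (rules T M0 n)} {o : Cell} {z z' : E.B} {P : Cell}

omit [NeZero M0] in
theorem Knows.of_imp {C : Choices} (h : Knows L o z P C) (hz : Imp E z' z) :
    Knows L o z' P C :=
  ⟨h.ox_lt, h.oy_lt, fun x hx => (h.ox x hx).of_imp hz, fun y hy => (h.oy y hy).of_imp hz,
    fun y hy hs => (h.bit y hy hs).of_imp hz⟩

variable (hF : Flat L o)
include hF

theorem flat_addr (P : Cell) {a b : ℕ} (ha : a < tsize M0 n) (hb : b < tsize M0 n) :
    Forced L z (cellAt M0 n o P a b) fun c => c.addr = addrAt a b := by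
  refine ((hF _).of_imp (imp_top z)).mono fun c hc => ?_
  have e1 : res segCount (segLen M0 n) o.1 (cellAt M0 n o P a b).1 = a := by
    have := res_add (g := segCount) (M := segLen M0 n) o.1 P.1 ha
    simpa [cellAt, cellOfLin, tsize, add_assoc] using this
  have e2 : res segCount (segLen M0 n) o.2 (cellAt M0 n o P a b).2 = b := by
    have := res_add (g := segCount) (M := segLen M0 n) o.2 P.2 hb
    simpa [cellAt, cellOfLin, tsize, add_assoc] using this
  rw [hc, e1, e2]

theorem forced_bandP_h (P : Cell) {a b : ℕ} (ha : a < segCount * segLen M0 n)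
    (hb : segCount * segLen M0 n ≤ b) (hb' : b < tsize M0 n) :
    Forced L z (cellAt M0 n o P a b) fun c => c.h = Sig.none := by
  refine flat_step hF P (ord_lt_tsize ha) hb' (Forced.univ _ _) (Forced.univ _ _) (Forced.univ _ _)
    fun l d c _ ho _ _ _ => ?_
  rw [addrAt_bandP_kind ha hb] at ho
  simp only [Kind.outs] at ho
  split at ho <;> simp at ho
  exact ho.1

/-- A band column is known from the choices of its own tile. -/
theorem knows_band {C : Choices} (hC : Knows L o z P C) {a b : ℕ}
    (ha : segCount * segLen M0 n ≤ a) (ha' : a < tsize M0 n) (hb : b < tsize M0 n) :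
    ∃ c, Forced L z (cellAt M0 n o P a b) (· = c) := by
  have hS := segLen_pos (M0 := M0) n
  have hp : 0 < segCount * segLen M0 n := Nat.mul_pos (NeZero.pos segCount) hS
  have hk : a - segCount * segLen M0 n + 1 ≤ segLen M0 n := by
    rw [tsize, side_eq] at ha'; omega
  have ea : segCount * segLen M0 n + (a - segCount * segLen M0 n + 1) - 1 = a := by omega
  obtain ⟨s, hs⟩ : ∃ s : Sig, Forced L z (cellAt M0 n o P a b) fun c => c.h = s := by
    obtain ⟨s, hs⟩ : ∃ s : Sig,
        Forced L z (cellAt M0 n o P (segCount * segLen M0 n - 1) b) fun c => c.h = s := by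
      rcases Nat.lt_or_ge b (segCount * segLen M0 n) with h | h
      · obtain ⟨Y, y, hy, rfl⟩ := exists_ylin h
        refine ⟨rawBandH T M0 n (fun _ => C) Y y, ?_⟩
        have := knows_exit_h P hF hC (Y := Y) hy
        unfold SendsH namedCell at this
        rwa [kr_last] at this
      · exact ⟨.none, forced_bandP_h hF P (by omega) h hb⟩
    refine ⟨s, ?_⟩
    have e := wire_band (z := z) hF P hb hk fun s' => s' = s
    rw [ea] at e
    exact e.2 hs
  refine ⟨⟨addrAt a b, s, .none⟩, ?_⟩
  have hv : Forced L z (cellAt M0 n o P a b) fun c => c.v = Sig.none := by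
    refine flat_step hF P ha' hb (Forced.univ _ _) (Forced.univ _ _) (Forced.univ _ _)
      fun l d c _ ho _ _ _ => ?_
    rw [addrAt_band_kind ha] at ho
    simp [Kind.outs] at ho
    exact ho.2
  exact (((flat_addr hF P ha' hb).and hs).and hv).mono fun c ⟨⟨h1, h2⟩, h3⟩ => by
    cases c; cases h1; cases h2; cases h3; rfl

/-- A band row is known from the choices of its own tile and the left one. -/
theorem knows_bandP {C C' : Choices} (hC : Knows L o z P C)
    (hC' : Knows L o z (P.1 - 1, P.2) C') {a b : ℕ} (ha : a < segCount * segLen M0 n)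
    (hb : segCount * segLen M0 n ≤ b) (hb' : b < tsize M0 n) :
    ∃ c, Forced L z (cellAt M0 n o P a b) (· = c) := by
  have hS := segLen_pos (M0 := M0) n
  have hp : 0 < segCount * segLen M0 n := Nat.mul_pos (NeZero.pos segCount) hS
  have hk : b - segCount * segLen M0 n + 1 ≤ segLen M0 n := by
    rw [tsize, side_eq] at hb'; omega
  have eb : segCount * segLen M0 n + (b - segCount * segLen M0 n + 1) - 1 = b := by omega
  obtain ⟨s, hs⟩ : ∃ s : Sig, Forced L z (cellAt M0 n o P a b) fun c => c.v = s := by
    obtain ⟨X, x, hx, rfl⟩ := exists_xlin ha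
    have h := knows_exit_v P hF hC hC' (X := X) hx
    unfold SendsV namedCell at h
    rw [kt_last] at h
    refine ⟨rawBandV T M0 n (fun c => if c = 2 then C else C') X x, ?_⟩
    have e := wire_bandP (z := z) hF P (xlin_lt (n := n) X hx) hk fun s' =>
      s' = rawBandV T M0 n (fun c => if c = 2 then C else C') X x
    rw [eb] at e
    exact e.2 h
  exact ⟨⟨addrAt a b, .none, s⟩, (((flat_addr hF P (ord_lt_tsize ha) hb').and
    (forced_bandP_h hF P ha hb hb')).and hs).mono fun c ⟨⟨h1, h2⟩, h3⟩ => by
      cases c; cases h1; cases h2; cases h3; rfl⟩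

end Bands

/-! ## The step -/

theorem div_case (Z a d : ℕ) (P : ℤ) (ha : a < Z) (hd : d < Z) :
    (P * (Z : ℤ) + a + d) / (Z : ℤ) = if a + d < Z then P else P + 1 := by
  split_ifs with h
  · rw [show P * (Z : ℤ) + a + d = ((a + d : ℕ) : ℤ) + P * Z by push_cast; ring,
      Int.add_mul_ediv_right _ _ (by omega), Int.ediv_eq_zero_of_lt (by omega) (by omega), zero_add]
  · rw [show P * (Z : ℤ) + a + d = ((a + d - Z : ℕ) : ℤ) + (P + 1) * Z by
        push_cast [Nat.cast_sub (not_lt.1 h)]; ring,
      Int.add_mul_ediv_right _ _ (by omega), Int.ediv_eq_zero_of_lt (by omega) (by omega), zero_add]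

/-- The parents' events give rigidity. -/
theorem rigid_of_parents
    (H : ∀ (n : ℕ) (E : EventAlgebra.{0})
      (L : LocalEvents E (rules (tables layoutKind) (m0 segCount) n)) (o : Cell), Flat L o →
      ∃ L' : LocalEvents E (rules (tables layoutKind) (m0 segCount) (n + 1)), ∀ P c,
        Knows L o (L'.ev P c) P (choices (tables layoutKind) (m0 segCount) n c)) :
    macroSystem.Rigid := by
  intro n E L
  have hK := gridRule_level (tables layoutKind) (m0 segCount) n
  refine ⟨offsetEv L, offsetEv_com hK, fun i j h => offsetEv_disjoint hK h, offsetEv_total hK,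
    offsetEv_com_ev hK, fun i => ?_⟩
  have hb : ∀ p c, E.com (offsetEv L i) (L.ev p c) := fun p c => offsetEv_com_ev hK i p c
  set L0 := restrict L (offsetEv L i) hb with hL0
  have hF : Flat L0 (gridOrigin i) := flat_restrict i
  obtain ⟨L', hL'⟩ := H n _ L0 _ hF
  refine ⟨L', fun q d w _ => ?_⟩
  set M := segLen (m0 segCount) n with hM
  have hM8 : 8 ≤ M := le_trans (eight_le_m0 _) (Nat.le_mul_of_pos_left _ (Nat.two_pow_pos n))
  have hside : tsize (m0 segCount) n = segCount * M + M := side_eq _ _
  have hZ : (0 : ℤ) < tsize (m0 segCount) n := by omega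
  set x : Cell := MacroSystem.Res.cell macroSystem i + q with hx
  set Q : Cell := (x.1 / (tsize (m0 segCount) n : ℤ), x.2 / (tsize (m0 segCount) n : ℤ)) with hQ
  obtain ⟨a, ha, hxa⟩ : ∃ a < tsize (m0 segCount) n, x.1 = Q.1 * (tsize (m0 segCount) n : ℤ) + a :=
    ⟨(x.1 % (tsize (m0 segCount) n : ℤ)).toNat,
      by have := Int.emod_lt_of_pos x.1 hZ; have := Int.emod_nonneg x.1 hZ.ne'; omega,
      by rw [Int.toNat_of_nonneg (Int.emod_nonneg _ hZ.ne'), hQ, Int.ediv_mul_add_emod]⟩
  obtain ⟨b, hb', hxb⟩ : ∃ b < tsize (m0 segCount) n, x.2 = Q.2 * (tsize (m0 segCount) n : ℤ) + b :=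
    ⟨(x.2 % (tsize (m0 segCount) n : ℤ)).toNat,
      by have := Int.emod_lt_of_pos x.2 hZ; have := Int.emod_nonneg x.2 hZ.ne'; omega,
      by rw [Int.toNat_of_nonneg (Int.emod_nonneg _ hZ.ne'), hQ, Int.ediv_mul_add_emod]⟩
  have hq : cellAt (m0 segCount) n (gridOrigin i) Q a b = q := by
    have e1 : x.1 = (i.1.val : ℤ) + q.1 := rfl
    have e2 : x.2 = (i.2.val : ℤ) + q.2 := rfl
    refine Prod.ext ?_ ?_ <;>
      simp only [cellAt, cellOfLin, gridOrigin, tsize, Prod.fst_add, Prod.snd_add] at * <;>
      linarith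
  set A : Cell := macroSystem.anchor n
    (MacroSystem.Res.cell macroSystem i + q + ((d.1.val : ℤ), (d.2.val : ℤ))) with hA
  have hA1 : A.1 = (if a + d.1.val < tsize (m0 segCount) n then Q.1 else Q.1 + 1) - 1 := by
    rw [← div_case _ _ _ Q.1 ha (by omega), ← hxa, hA, hx]
    rfl
  have hA2 : A.2 = (if b + d.2.val < tsize (m0 segCount) n then Q.2 else Q.2 + 1) - 1 := by
    rw [← div_case _ _ _ Q.2 hb' (by omega), ← hxb, hA, hx]
    rfl
  set z := Sft.winEvent (E.below (offsetEv L i)) L'.ev A w with hz
  have kn : ∀ e : Fin 2 × Fin 2, Knows L0 (gridOrigin i) z (corner A e)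
      (choices (tables layoutKind) (m0 segCount) n (w e)) :=
    fun e => (hL' _ _).of_imp (winEvent_imp L' A w e)
  obtain ⟨c, hc⟩ : ∃ c, Forced L0 z (cellAt (m0 segCount) n (gridOrigin i) Q a b) (· = c) := by
    have hd1 := d.1.isLt
    have hd2 := d.2.isLt
    rcases Nat.lt_or_ge a (segCount * M) with h1 | h1
    swap
    · -- a band column
      have : ∃ e : Fin 2 × Fin 2, corner A e = Q := by
        refine ⟨(if a + d.1.val < tsize (m0 segCount) n then 1 else 0,
          if b + d.2.val < tsize (m0 segCount) n then 1 else 0), Prod.ext ?_ ?_⟩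
        · simp only [corner, hA1]; split_ifs <;> simp
        · simp only [corner, hA2]; split_ifs <;> simp
      obtain ⟨e, he⟩ := this
      have := kn e
      rw [he] at this
      exact knows_band hF this h1 ha hb'
    have e1 : A.1 = Q.1 - 1 := by rw [hA1, if_pos (by omega)]
    rcases Nat.lt_or_ge (b + d.2.val) (tsize (m0 segCount) n) with h2 | h2
    · -- the tile of the window
      rw [if_pos h2] at hA2
      refine ⟨_, knows_cell Q hF (q := quadOf (tables layoutKind) (m0 segCount) n w)
        ⟨?_, ?_, ?_, ?_⟩ (tabOK_tablesOf (allowOf layoutKind)) ha hb'⟩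
      · rw [show (Q.1, Q.2 - 1) = corner A (1, 0) from
          Prod.ext (by simp [corner, e1]) (by simp [corner, hA2])]
        exact kn (1, 0)
      · rw [show (Q.1 - 1, Q.2 - 1) = corner A (0, 0) from
          Prod.ext (by simp [corner, e1]) (by simp [corner, hA2])]
        exact kn (0, 0)
      · rw [show Q = corner A (1, 1) from
          Prod.ext (by simp [corner, e1]) (by simp [corner, hA2])]
        exact kn (1, 1)
      · rw [show (Q.1 - 1, Q.2) = corner A (0, 1) from
          Prod.ext (by simp [corner, e1]) (by simp [corner, hA2])]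
        exact kn (0, 1)
    · -- a band row
      rw [if_neg (not_lt.2 h2)] at hA2
      have k1 := kn (1, 0)
      have k0 := kn (0, 0)
      rw [show corner A (1, 0) = Q from Prod.ext (by simp [corner, e1]) (by simp [corner, hA2])]
        at k1
      rw [show corner A (0, 0) = (Q.1 - 1, Q.2) from
        Prod.ext (by simp [corner, e1]) (by simp [corner, hA2])] at k0
      exact knows_bandP hF k1 k0 h1 (show segCount * M ≤ b by omega) hb'
  rw [hq] at hc
  refine ⟨c, ?_⟩
  have h0 : Imp (E.below (offsetEv L i)) z (L0.ev q c) := by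
    rw [← evP_single (L := L0) q c]
    exact hc
  have h0' : Imp E z.1 (L0.ev q c).1 := ⟨h0.1, by
    rw [← below_inf_val h0.1]; exact congrArg Subtype.val h0.2⟩
  exact h0'.trans (inf_imp_left (E.com_symm _ _ (hb q c)))

end

end Vale.Agent.P196.W
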