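import Vale.Agent.P196.W.RigidCtx
import Vale.Agent.P196.W.Exit4

/-!
# P196: walking through a tile below an event that knows the choices

`Knows` says that an event forces the choosing cells of a tile to given choices. The walks of
`Exit` and `Exit2` are repeated for such an event in place of a tiling.
-/

namespace Vale.Agent.P196.W

open Vale.Agent.P196.Fp Vale.Agent.P196.Sft EventAlgebra

noncomputable section

variable {T : Tables} {M0 n : ℕ} [NeZero M0] {E : EventAlgebra.{0}}

variable (L : LocalEvents E (rules T M0 n)) (o : Cell) (z : E.B)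

/-- Below `z` the named cell sends `v` to the right. -/
def SendsH (P : Cell) (X : XSeg) (x : ℕ) (Y : YSeg) (y : ℕ) (v : Sig) : Prop :=
  Forced L z (namedCell M0 n o P X x Y y) fun c => c.h = v

/-- Below `z` the named cell sends `v` upwards. -/
def SendsV (P : Cell) (X : XSeg) (x : ℕ) (Y : YSeg) (y : ℕ) (v : Sig) : Prop :=
  Forced L z (namedCell M0 n o P X x Y y) fun c => c.v = v

/-- Below `z` the named cell gets `v` from the left. -/
def GetsH (P : Cell) (X : XSeg) (x : ℕ) (Y : YSeg) (y : ℕ) (v : Sig) : Prop :=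
  Forced L z (lCell (namedCell M0 n o P X x Y y)) fun c => c.h = v

/-- Below `z` the named cell gets `v` from below. -/
def GetsV (P : Cell) (X : XSeg) (x : ℕ) (Y : YSeg) (y : ℕ) (v : Sig) : Prop :=
  Forced L z (bCell (namedCell M0 n o P X x Y y)) fun c => c.v = v

/-- Below `z` the choosing cells of the tile `P` show the choices `C`. -/
structure Knows (P : Cell) (C : Choices) : Prop where
  ox_lt : ∀ p ∈ C.ox, p.1 < segLen M0 n
  oy_lt : ∀ p ∈ C.oy, p.1 < segLen M0 n
  ox : ∀ x < segLen M0 n,
    Forced L z (namedCell M0 n o P .mx x .lx 0) fun c =>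
      c.v = Sig.ofLine (colLine T n C x .lx 0)
  oy : ∀ y < segLen M0 n,
    Forced L z (namedCell M0 n o P .ly 0 .my y) fun c => c.h = Sig.ofLine (rowLine C y)
  bit : ∀ y < segLen M0 n, (symAt T M0 n y).isSrc = true →
    Forced L z (namedCell M0 n o P .src 0 (.r 2) y) fun c => c.h = .bit (C.bit y)

variable {L o z} {P : Cell}

omit [NeZero M0] in
theorem GetsH.of_pred {X X' : XSeg} {x x' : ℕ} {Y : YSeg} {y : ℕ} {v : Sig}
    (hp : XPred (segLen M0 n) X' x' X x) (h : SendsH L o z P X' x' Y y v) :
    GetsH L o z P X x Y y v := by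
  unfold GetsH; rw [lCell_pred hp]; exact h

omit [NeZero M0] in
theorem GetsV.of_pred {X : XSeg} {x : ℕ} {Y Y' : YSeg} {y y' : ℕ} {v : Sig}
    (hp : YPred (segLen M0 n) Y' y' Y y) (h : SendsV L o z P X x Y' y' v) :
    GetsV L o z P X x Y y v := by
  unfold GetsV; rw [bCell_pred X x hp]; exact h

variable (hF : Flat L o) (P)
include hF

/-- The signal to the right from what is known about both inputs. -/
theorem out_h {X : XSeg} {x : ℕ} {Y : YSeg} {y : ℕ} (hx : x < segLen M0 n) (hy : y < segLen M0 n)
    {a b : Sig} (hA : GetsH L o z P X x Y y a) (hB : GetsV L o z P X x Y y b) {Q : Sig → Prop}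
    (h : ∀ p ∈ (kindOn X Y (T.loc M0 n x y)).outs a b, Q p.1) :
    Forced L z (namedCell M0 n o P X x Y y) fun c => Q c.h :=
  named_step hF P X hx Y hy hA hB (Forced.univ _ _) fun _ _ _ ho hl hd _ =>
    h _ (hl ▸ hd ▸ ho)

/-- The upward signal from what is known about both inputs. -/
theorem out_v {X : XSeg} {x : ℕ} {Y : YSeg} {y : ℕ} (hx : x < segLen M0 n) (hy : y < segLen M0 n)
    {a b : Sig} (hA : GetsH L o z P X x Y y a) (hB : GetsV L o z P X x Y y b) {Q : Sig → Prop}
    (h : ∀ p ∈ (kindOn X Y (T.loc M0 n x y)).outs a b, Q p.2) :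
    Forced L z (namedCell M0 n o P X x Y y) fun c => Q c.v :=
  named_step hF P X hx Y hy hA hB (Forced.univ _ _) fun _ _ _ ho hl hd _ =>
    h _ (hl ▸ hd ▸ ho)

/-- The signal to the right from the one from the left. -/
theorem out_h_of_h {X : XSeg} {x : ℕ} {Y : YSeg} {y : ℕ} (hx : x < segLen M0 n)
    (hy : y < segLen M0 n) {a : Sig} (hA : GetsH L o z P X x Y y a) {Q : Sig → Prop}
    (h : ∀ b, ∀ p ∈ (kindOn X Y (T.loc M0 n x y)).outs a b, Q p.1) :
    Forced L z (namedCell M0 n o P X x Y y) fun c => Q c.h :=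
  named_step hF P X hx Y hy hA (Forced.univ _ _) (Forced.univ _ _) fun _ _ _ ho hl _ _ =>
    h _ _ (hl ▸ ho)

/-- The upward signal from the one from the left. -/
theorem out_v_of_h {X : XSeg} {x : ℕ} {Y : YSeg} {y : ℕ} (hx : x < segLen M0 n)
    (hy : y < segLen M0 n) {a : Sig} (hA : GetsH L o z P X x Y y a) {Q : Sig → Prop}
    (h : ∀ b, ∀ p ∈ (kindOn X Y (T.loc M0 n x y)).outs a b, Q p.2) :
    Forced L z (namedCell M0 n o P X x Y y) fun c => Q c.v :=
  named_step hF P X hx Y hy hA (Forced.univ _ _) (Forced.univ _ _) fun _ _ _ ho hl _ _ =>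
    h _ _ (hl ▸ ho)

/-- The signal to the right from the one from below. -/
theorem out_h_of_v {X : XSeg} {x : ℕ} {Y : YSeg} {y : ℕ} (hx : x < segLen M0 n)
    (hy : y < segLen M0 n) {b : Sig} (hB : GetsV L o z P X x Y y b) {Q : Sig → Prop}
    (h : ∀ a, ∀ p ∈ (kindOn X Y (T.loc M0 n x y)).outs a b, Q p.1) :
    Forced L z (namedCell M0 n o P X x Y y) fun c => Q c.h :=
  named_step hF P X hx Y hy (Forced.univ _ _) hB (Forced.univ _ _) fun _ _ _ ho _ hd _ =>
    h _ _ (hd ▸ ho)

/-- The signal to the right from the kind alone. -/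
theorem out_h_free {X : XSeg} {x : ℕ} {Y : YSeg} {y : ℕ} (hx : x < segLen M0 n)
    (hy : y < segLen M0 n) {Q : Sig → Prop}
    (h : ∀ a b, ∀ p ∈ (kindOn X Y (T.loc M0 n x y)).outs a b, Q p.1) :
    Forced L z (namedCell M0 n o P X x Y y) fun c => Q c.h :=
  named_step hF P X hx Y hy (Forced.univ _ _) (Forced.univ _ _) (Forced.univ _ _)
    fun _ _ _ ho _ _ _ => h _ _ _ ho

/-- The upward signal from the kind alone. -/
theorem out_v_free {X : XSeg} {x : ℕ} {Y : YSeg} {y : ℕ} (hx : x < segLen M0 n)
    (hy : y < segLen M0 n) {Q : Sig → Prop}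
    (h : ∀ a b, ∀ p ∈ (kindOn X Y (T.loc M0 n x y)).outs a b, Q p.2) :
    Forced L z (namedCell M0 n o P X x Y y) fun c => Q c.v :=
  named_step hF P X hx Y hy (Forced.univ _ _) (Forced.univ _ _) (Forced.univ _ _)
    fun _ _ _ ho _ _ _ => h _ _ _ ho

/-- What a row knows at one cell it knows along kinds that pass it on. -/
theorem row_on (Y : YSeg) {y : ℕ} (hy : y < segLen M0 n) {X₀ X : XSeg} {x₀ x : ℕ}
    (hx₀ : x₀ < segLen M0 n) (hx : x < segLen M0 n) {v : Sig}
    (hv : SendsH L o z P X₀ x₀ Y y v)
    (hle : xlin (segLen M0 n) X₀ x₀ ≤ xlin (segLen M0 n) X x)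
    (hk : ∀ X' x', x' < segLen M0 n →
      xlin (segLen M0 n) X₀ x₀ < xlin (segLen M0 n) X' x' →
      xlin (segLen M0 n) X' x' ≤ xlin (segLen M0 n) X x →
      KeepsH (kindOn X' Y (T.loc M0 n x' y))) :
    SendsH L o z P X x Y y v :=
  (wireH hF P Y hy hx₀ hx hle hk fun s => s = v).2 hv

/-- What a column knows at one cell it knows along kinds that pass it on. -/
theorem col_on (X : XSeg) {x : ℕ} (hx : x < segLen M0 n) {Y₀ Y : YSeg} {y₀ y : ℕ}
    (hy₀ : y₀ < segLen M0 n) (hy : y < segLen M0 n) {v : Sig}
    (hv : SendsV L o z P X x Y₀ y₀ v)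
    (hle : ylin (segLen M0 n) Y₀ y₀ ≤ ylin (segLen M0 n) Y y)
    (hk : ∀ Y' y', y' < segLen M0 n →
      ylin (segLen M0 n) Y₀ y₀ < ylin (segLen M0 n) Y' y' →
      ylin (segLen M0 n) Y' y' ≤ ylin (segLen M0 n) Y y →
      KeepsV (kindOn X Y' (T.loc M0 n x y'))) :
    SendsV L o z P X x Y y v :=
  (wireV hF P X hx hy₀ hy hle hk fun s => s = v).2 hv

variable {C : Choices} (hC : Knows L o z P C)
include hC

/-- The row of the own second offset. -/
theorem knows_my_row {X : XSeg} {x y : ℕ} (hx : x < segLen M0 n) (hy : y < segLen M0 n)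
    (h : sinceX .ly 0 X x) :
    SendsH L o z P X x .my y (Sig.ofLine (rowLine C y)) := by
  refine row_on P hF .my hy (segLen_pos n) hx (hC.oy y hy)
    ((xlin_le_iff (segLen_pos n) hx).2 h) ?_
  intro X' x' hx' h1 _
  rw [xlin_lt_iff (segLen_pos n) hx', sinceX_iff] at h1
  cases X' <;> simp [XSeg.index] at h1 <;>
    simp only [kindOn, lyKind, srcKind, mxKind, tbKind, setAbsKind, upKind, paKind, prKind, krKind,
      keepsRow, reduceCtorEq, false_and, and_false, if_false, Tables.loc, Tables.side,
      Bool.true_eq_false, true_and] <;>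
    first
      | exact keepsH_pass | exact keepsH_passH | exact keepsH_cross _ | exact keepsH_cmpB _ _
      | (rw [if_neg (by simp; omega)]; exact keepsH_pass)

/-- The column of the own first offset. -/
theorem knows_mx_col {x : ℕ} {Y : YSeg} {y : ℕ} (hx : x < segLen M0 n) (hy : y < segLen M0 n)
    (h : sinceY .lx 0 Y y) :
    SendsV L o z P .mx x Y y (Sig.ofLine (colLine T n C x Y y)) := by
  induction hm : ylin (segLen M0 n) Y y using Nat.strong_induction_on generalizing Y y with
  | _ m ih =>
    subst hm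
    by_cases h0 : Y = .lx ∧ y = 0
    · obtain ⟨rfl, rfl⟩ := h0; exact hC.ox x hx
    have hne : ¬(Y = .y0 ∧ y = 0) := by
      rintro ⟨rfl, rfl⟩; rw [sinceY_iff] at h; simp [YSeg.index] at h
    obtain ⟨Y', y', hy', hp⟩ := exists_yPred (segLen_pos n) hy hne
    have hs := hp.ylin_succ
    have h' : sinceY .lx 0 Y' y' := (hp.since .lx (segLen_pos n)).2 ⟨h, h0⟩
    have hB : GetsV L o z P .mx x Y y (Sig.ofLine (colLine T n C x Y' y')) :=
      GetsV.of_pred hp (ih _ (by omega) hy' h' rfl)
    by_cases hY : Y = .my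
    · subst hY
      have hA : GetsH L o z P .mx x .my y (Sig.ofLine (rowLine C y)) := by
        obtain ⟨X', x', hx', hpx⟩ := exists_xPred (X := .mx) (segLen_pos n) hx (by simp)
        exact GetsH.of_pred hpx (knows_my_row P hF hC hx' hy
          ((hpx.since .ly (segLen_pos n)).2 ⟨by rw [sinceX_iff]; simp [XSeg.index], by simp⟩))
      refine out_v P hF hx hy hA hB (Q := fun s => s = _) fun q ev => ?_
      simp only [kindOn, mxKind, Tables.loc, Kind.outs] at ev
      simp only [colLine, rowLine] at ev ⊢
      cases hox : C.ox with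
      | none =>
        simp only [hox, Option.bind_none, Sig.ofLine] at ev ⊢
        split at ev
        · rename_i a b e₁ e₂; simp [Sig.line?] at e₂
        · simp at ev; simp [ev]
      | some p =>
        simp only [hox, Option.bind_some] at ev ⊢
        by_cases hpx : p.1 = x
        · simp only [hpx, if_true] at ev ⊢
          cases hoy : C.oy with
          | none =>
            simp [hoy, Sig.ofLine, Sig.line?] at ev ⊢
            simp [ev]
          | some r =>
            have hsince := hp.since .my (hC.oy_lt r hoy)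
            simp only [hoy, Option.bind_some] at ev ⊢
            by_cases hr : r.1 = y
            · subst hr
              have hn : ¬sinceY .my r.1 Y' y' := fun hh => (hsince.1 hh).2 ⟨rfl, rfl⟩
              simp [hn, Sig.ofLine, Sig.line?] at ev
              rw [if_pos (show sinceY .my r.1 .my r.1 from Or.inr ⟨rfl, le_rfl⟩)]
              simp [Sig.ofLine, ev]
            · have : sinceY .my r.1 Y' y' ↔ sinceY .my r.1 .my y := by
                rw [hsince]; simp [Ne.symm hr]
              simp only [this, hr, if_false] at ev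
              simp [Sig.ofLine, Sig.line?] at ev ⊢
              simp [ev]
        · simp only [hpx, if_false, Sig.ofLine] at ev ⊢
          split at ev
          · rename_i a b e₁ e₂; simp [Sig.line?] at e₂
          · simp at ev; simp [ev]
    · have hkeep : KeepsV (kindOn .mx Y (T.loc M0 n x y)) := by
        cases Y <;> simp [YSeg.index, sinceY_iff] at h h0 hY ⊢ <;>
          simp only [kindOn, mxKind, ktKind, keepsCol, Tables.loc, Tables.side] <;>
          first
            | exact keepsV_pass | exact keepsV_passV | exact keepsV_cmpA _ _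
            | (simp [h0]; exact keepsV_pass)
            | (simp; exact keepsV_pass)
            | (repeat' split
               all_goals first | exact keepsV_exX _ _ | exact keepsV_pass)
      have he : colLine T n C x Y' y' = colLine T n C x Y y := by
        simp only [colLine]
        congr 1
        funext p
        split_ifs with hpx
        · congr 2
          cases hoy : C.oy with
          | none => rfl
          | some r =>
            simp only [Option.bind_some]
            rw [if_congr (show sinceY .my r.1 Y' y' ↔ sinceY .my r.1 Y y by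
              rw [hp.since .my (hC.oy_lt r hoy)]; simp [hY]) rfl rfl]
        · rfl
      rw [← he]
      exact named_step hF P .mx hx Y hy (Forced.univ _ _) hB (Forced.univ _ _)
        fun _ _ _ ho _ hd _ => (hkeep _ _ _ ho).trans hd

end

end Vale.Agent.P196.W
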